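import Claimed.Agent.R285.Free.P1

/-!
# ROW 285, unit FREE, file 6: Laplace transform, moments, cumulants, characteristic functions: [C]T2.4 = [E]L5.2 (architect helper60).   Paper-free.

Exports for `Read/C2.lean`: s0 `ref_mgf`, `ref_var`, `ref_moment`; s3 `free_laplace`, `free_moment`, `free_kap`, `free_char`, `affine_small` (names `fr_*`).

## Chain
 s0 abstract systems (in `Free/Sys.lean` s6): `sum_cosh_le` → `fr_ref_mgf`, `fr_ref_var`, `fr_ref_moment`; `E0_exp_series`, `phi_series` (exchange of `E0` with the power series), `E0_cs` (Cauchy-Schwarz).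
 s1 partition of a rectangle into `N × N` rectangles of side `≤ ℓ`: `subRc_*`.
 s2 upper bound: `fr_lap_fin` (FINITE: Hölder against the seams, cutting, fourth order bound in the cells) → `fr_lap_ub_c2` (limit; the variances of the `N²` cell sequences by `fr_free_var`) → `fr_lap_ub` (closure) → `fr_free_laplace`.
 s3 `coeff_tendsto`, `alt_tendsto` (Mathlib only: power series with NONNEGATIVE coefficients; no compactness, no subsequences although `dir (g k)` need not converge) → `fr_free_mgf` → `fr_free_moment`, `fr_free_kap`, `fr_free_char`.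
 s4 `fr_affine_small`.

LEAVES `L-FR-L*`: every `sorry`.
-/

set_option autoImplicit false

namespace Claimed.Agent.R285.Free

open Filter Topology C2
open scoped Classical Nat

noncomputable section

/-! ## 1. Partition of a rectangle -/

/-- the piece `i` of the partition of `R` by the grid `(R.o, ℓ)` (possibly smaller than `ℓ × ℓ`, possibly empty) -/
def subRc (R : Rc) (ℓ : ℕ) (i : ℕ × ℕ) : Rc := ⟨(R.o.1 + ℓ * i.1, R.o.2 + ℓ * i.2), min ℓ (R.p - ℓ * i.1), min ℓ (R.q - ℓ * i.2)⟩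

theorem fr_l5_mem_set {R : Rc} {v : ℤ × ℤ} :
    v ∈ R.set ↔ (R.o.1 ≤ v.1 ∧ v.1 < R.o.1 + R.p) ∧ (R.o.2 ≤ v.2 ∧ v.2 < R.o.2 + R.q) := by
  simp [Rc.set, Finset.mem_product, Finset.mem_Ico]

theorem fr_l5_mem_sub {R : Rc} {ℓ : ℕ} {i : ℕ × ℕ} {v : ℤ × ℤ} :
    v ∈ (subRc R ℓ i).set ↔ (R.o.1 + (ℓ : ℤ) * i.1 ≤ v.1 ∧ v.1 < R.o.1 + (ℓ : ℤ) * i.1 + ℓ ∧ v.1 < R.o.1 + R.p) ∧
      (R.o.2 + (ℓ : ℤ) * i.2 ≤ v.2 ∧ v.2 < R.o.2 + (ℓ : ℤ) * i.2 + ℓ ∧ v.2 < R.o.2 + R.q) := by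
  rw [fr_l5_mem_set]
  unfold subRc
  dsimp only
  obtain ⟨t₁, ht₁⟩ : ∃ t : ℕ, t = ℓ * i.1 := ⟨_, rfl⟩
  obtain ⟨t₂, ht₂⟩ : ∃ t : ℕ, t = ℓ * i.2 := ⟨_, rfl⟩
  have e₁ : (ℓ : ℤ) * (i.1 : ℤ) = (t₁ : ℤ) := by rw [ht₁]; push_cast; ring
  have e₂ : (ℓ : ℤ) * (i.2 : ℤ) = (t₂ : ℤ) := by rw [ht₂]; push_cast; ring
  rw [e₁, e₂, ← ht₁, ← ht₂]
  omega

/-- L-FR-L5. -/
theorem subRc_sub (R : Rc) (ℓ : ℕ) (i : ℕ × ℕ) : (subRc R ℓ i).set ⊆ R.set := by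
  intro v hv
  rw [fr_l5_mem_sub] at hv
  rw [fr_l5_mem_set]
  have h1 : (0 : ℤ) ≤ (ℓ : ℤ) * i.1 := by positivity
  have h2 : (0 : ℤ) ≤ (ℓ : ℤ) * i.2 := by positivity
  omega

/-- the index of the column is determined. -/
theorem fr_l5_idx {ℓ : ℕ} {a c : ℕ} {x : ℤ} (h1 : (ℓ : ℤ) * a ≤ x) (h2 : x < (ℓ : ℤ) * a + ℓ) (h3 : (ℓ : ℤ) * c ≤ x)
    (h4 : x < (ℓ : ℤ) * c + ℓ) : a = c := by
  have hℓ : (0 : ℤ) ≤ (ℓ : ℤ) := Int.natCast_nonneg ℓ
  have g1 : (ℓ : ℤ) * a < (ℓ : ℤ) * (c + 1) := by rw [mul_add, mul_one]; linarith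
  have g2 : (ℓ : ℤ) * c < (ℓ : ℤ) * (a + 1) := by rw [mul_add, mul_one]; linarith
  have g3 := lt_of_mul_lt_mul_left g1 hℓ
  have g4 := lt_of_mul_lt_mul_left g2 hℓ
  omega

/-- L-FR-L5. -/
theorem subRc_disj (R : Rc) (ℓ : ℕ) (i j : ℕ × ℕ) (h : i ≠ j) : Disjoint (subRc R ℓ i).set (subRc R ℓ j).set := by
  rw [Finset.disjoint_left]
  intro v hi hj
  rw [fr_l5_mem_sub] at hi hj
  apply h
  refine Prod.ext ?_ ?_
  · exact fr_l5_idx (ℓ := ℓ) (x := v.1 - R.o.1) (by linarith [hi.1.1]) (by linarith [hi.1.2.1]) (by linarith [hj.1.1])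
      (by linarith [hj.1.2.1])
  · exact fr_l5_idx (ℓ := ℓ) (x := v.2 - R.o.2) (by linarith [hi.2.1]) (by linarith [hi.2.2.1]) (by linarith [hj.2.1])
      (by linarith [hj.2.2.1])

/-- one coordinate of the covering. -/
theorem fr_l5_col {ℓ N p : ℕ} (hℓ : 0 < ℓ) (hp : p ≤ ℓ * N) {x : ℤ} (h0 : 0 ≤ x) (h1 : x < p) :
    ∃ a : Fin N, (ℓ : ℤ) * (a : ℕ) ≤ x ∧ x < (ℓ : ℤ) * (a : ℕ) + ℓ := by
  have hℓ' : (0 : ℤ) < (ℓ : ℤ) := by exact_mod_cast hℓ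
  have g1 : 0 ≤ x / (ℓ : ℤ) := Int.ediv_nonneg h0 hℓ'.le
  have g2 : x / (ℓ : ℤ) < N := by
    refine Int.ediv_lt_of_lt_mul hℓ' ?_
    have : (p : ℤ) ≤ (N : ℤ) * ℓ := by
      have : (p : ℤ) ≤ ((ℓ * N : ℕ) : ℤ) := by exact_mod_cast hp
      rw [mul_comm]
      exact_mod_cast this
    linarith
  have g3 := Int.emod_add_mul_ediv x (ℓ : ℤ)
  have g4 := Int.emod_nonneg x hℓ'.ne'
  have g5 := Int.emod_lt_of_pos x hℓ'
  obtain ⟨a, ha⟩ := Int.eq_ofNat_of_zero_le g1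
  have haN : a < N := by
    rw [ha] at g2
    exact_mod_cast g2
  refine ⟨⟨a, haN⟩, ?_, ?_⟩
  · show (ℓ : ℤ) * (a : ℤ) ≤ x
    rw [← ha]
    linarith
  · show x < (ℓ : ℤ) * (a : ℤ) + ℓ
    rw [← ha]
    linarith

theorem fr_l5_cover (R : Rc) (ℓ N : ℕ) (hℓ : 0 < ℓ) (hp : R.p ≤ ℓ * N) (hq : R.q ≤ ℓ * N) (v : ℤ × ℤ) (hv : v ∈ R.set) :
    ∃ i : Fin N × Fin N, v ∈ (subRc R ℓ ((i.1 : ℕ), (i.2 : ℕ))).set := by
  rw [fr_l5_mem_set] at hv
  obtain ⟨a, ha1, ha2⟩ := fr_l5_col hℓ hp (x := v.1 - R.o.1) (by linarith [hv.1.1]) (by linarith [hv.1.2])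
  obtain ⟨c, hc1, hc2⟩ := fr_l5_col hℓ hq (x := v.2 - R.o.2) (by linarith [hv.2.1]) (by linarith [hv.2.2])
  refine ⟨(a, c), ?_⟩
  rw [fr_l5_mem_sub]
  dsimp only
  refine ⟨⟨by linarith, by linarith, hv.1.2⟩, ⟨by linarith, by linarith, hv.2.2⟩⟩

/-- counting one family of seams. -/
theorem fr_l5_count (p q ℓ : ℕ) : ((((p - 1) / ℓ) * q : ℕ) : ℝ) ≤ (p : ℝ) * q / ℓ := by
  push_cast
  have h1 : (((p - 1) / ℓ : ℕ) : ℝ) ≤ ((p - 1 : ℕ) : ℝ) / ℓ := Nat.cast_div_le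
  have h2 : ((p - 1 : ℕ) : ℝ) ≤ p := by exact_mod_cast Nat.sub_le p 1
  have h3 : ((p - 1 : ℕ) : ℝ) / ℓ ≤ (p : ℝ) / ℓ := div_le_div_of_nonneg_right h2 (Nat.cast_nonneg _)
  calc (((p - 1) / ℓ : ℕ) : ℝ) * q ≤ (p : ℝ) / ℓ * q := mul_le_mul_of_nonneg_right (h1.trans h3) (Nat.cast_nonneg _)
    _ = (p : ℝ) * q / ℓ := by ring

/-- L-FR-L5.  The pieces cover `R`; a bond of `R` in no piece joins two pieces: horizontal with `(x - o₁ + 1) ∈ ℓ ℤ ∩ [1, p-1]` (at most `p/ℓ` columns, `q` bonds each), or vertical (same). -/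
theorem subRc_seam (R : Rc) (ℓ N : ℕ) (hℓ : 0 < ℓ) (hp : R.p ≤ ℓ * N) (hq : R.q ≤ ℓ * N) :
    ((R.bd.filter fun e => ∀ i : Fin N × Fin N, e ∉ (subRc R ℓ ((i.1 : ℕ), (i.2 : ℕ))).bd).card : ℝ) ≤ 2 * (R.p : ℝ) * R.q / ℓ := by
  obtain ⟨H, hH⟩ : ∃ H : Finset Bond, H = (Finset.Icc 1 ((R.p - 1) / ℓ) ×ˢ Finset.Ico R.o.2 (R.o.2 + R.q)).image
      (fun x : ℕ × ℤ => ((R.o.1 + (ℓ : ℤ) * x.1 - 1, x.2), true)) := ⟨_, rfl⟩
  obtain ⟨V, hV⟩ : ∃ V : Finset Bond, V = (Finset.Ico R.o.1 (R.o.1 + R.p) ×ˢ Finset.Icc 1 ((R.q - 1) / ℓ)).image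
      (fun x : ℤ × ℕ => ((x.1, R.o.2 + (ℓ : ℤ) * x.2 - 1), false)) := ⟨_, rfl⟩
  have cH : (H.card : ℝ) ≤ (R.p : ℝ) * R.q / ℓ := by
    have h1 : H.card ≤ ((R.p - 1) / ℓ) * R.q := by
      rw [hH]
      refine Finset.card_image_le.trans (le_of_eq ?_)
      rw [Finset.card_product, Nat.card_Icc, Int.card_Ico]
      simp
    exact (by exact_mod_cast h1 : (H.card : ℝ) ≤ ((((R.p - 1) / ℓ) * R.q : ℕ) : ℝ)).trans (fr_l5_count _ _ _)
  have cV : (V.card : ℝ) ≤ (R.p : ℝ) * R.q / ℓ := by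
    have h1 : V.card ≤ ((R.q - 1) / ℓ) * R.p := by
      rw [hV]
      refine Finset.card_image_le.trans (le_of_eq ?_)
      rw [Finset.card_product, Nat.card_Icc, Int.card_Ico, mul_comm]
      simp
    refine (by exact_mod_cast h1 : (V.card : ℝ) ≤ ((((R.q - 1) / ℓ) * R.p : ℕ) : ℝ)).trans ((fr_l5_count _ _ _).trans ?_)
    rw [mul_comm]
  have hsub : (R.bd.filter fun e => ∀ i : Fin N × Fin N, e ∉ (subRc R ℓ ((i.1 : ℕ), (i.2 : ℕ))).bd) ⊆ H ∪ V := by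
    intro e he
    obtain ⟨he1, he2⟩ := Finset.mem_filter.1 he
    obtain ⟨h1, h2⟩ := mem_bd.1 he1
    obtain ⟨i, hi⟩ := fr_l5_cover R ℓ N hℓ hp hq e.1 h1
    have h3 : e.snd ∉ (subRc R ℓ ((i.1 : ℕ), (i.2 : ℕ))).set := fun h => he2 i (mem_bd.2 ⟨hi, h⟩)
    rw [fr_l5_mem_sub] at hi h3
    rw [fr_l5_mem_set] at h1 h2
    obtain ⟨⟨x, y⟩, d⟩ := e
    obtain ⟨t₁, ht₁⟩ : ∃ t : ℕ, t = ℓ * (i.1 : ℕ) := ⟨_, rfl⟩
    obtain ⟨t₂, ht₂⟩ : ∃ t : ℕ, t = ℓ * (i.2 : ℕ) := ⟨_, rfl⟩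
    have e₁ : (ℓ : ℤ) * ((i.1 : ℕ) : ℤ) = (t₁ : ℤ) := by rw [ht₁]; push_cast; ring
    have e₂ : (ℓ : ℤ) * ((i.2 : ℕ) : ℤ) = (t₂ : ℤ) := by rw [ht₂]; push_cast; ring
    dsimp only at hi h3 h1
    rw [e₁, e₂] at hi h3
    cases d with
    | true =>
      have es : Bond.snd ((x, y), true) = (x + 1, y) := by simp [Bond.snd]
      rw [es] at h2 h3
      dsimp only at h2 h3
      have key : x + 1 = R.o.1 + t₁ + ℓ := by omega
      refine Finset.mem_union_left _ ?_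
      rw [hH, Finset.mem_image]
      refine ⟨((i.1 : ℕ) + 1, y), Finset.mem_product.2 ⟨Finset.mem_Icc.2 ⟨by omega, ?_⟩, Finset.mem_Ico.2 h1.2⟩, ?_⟩
      · dsimp only
        rw [Nat.le_div_iff_mul_le hℓ]
        have : ((i.1 : ℕ) + 1) * ℓ = t₁ + ℓ := by rw [ht₁]; ring
        rw [this]
        omega
      · dsimp only
        have : R.o.1 + (ℓ : ℤ) * (((i.1 : ℕ) + 1 : ℕ) : ℤ) - 1 = x := by
          push_cast
          rw [mul_add, e₁]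
          omega
        rw [this]
    | false =>
      have es : Bond.snd ((x, y), false) = (x, y + 1) := by simp [Bond.snd]
      rw [es] at h2 h3
      dsimp only at h2 h3
      have key : y + 1 = R.o.2 + t₂ + ℓ := by omega
      refine Finset.mem_union_right _ ?_
      rw [hV, Finset.mem_image]
      refine ⟨(x, (i.2 : ℕ) + 1), Finset.mem_product.2 ⟨Finset.mem_Ico.2 h1.1, Finset.mem_Icc.2 ⟨by omega, ?_⟩⟩, ?_⟩
      · dsimp only
        rw [Nat.le_div_iff_mul_le hℓ]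
        have : ((i.2 : ℕ) + 1) * ℓ = t₂ + ℓ := by rw [ht₂]; ring
        rw [this]
        omega
      · dsimp only
        have : R.o.2 + (ℓ : ℤ) * (((i.2 : ℕ) + 1 : ℕ) : ℤ) - 1 = y := by
          push_cast
          rw [mul_add, e₂]
          omega
        rw [this]
  have h4 : ((R.bd.filter fun e => ∀ i : Fin N × Fin N, e ∉ (subRc R ℓ ((i.1 : ℕ), (i.2 : ℕ))).bd).card : ℝ)
      ≤ (H.card : ℝ) + V.card := by
    exact_mod_cast (Finset.card_le_card hsub).trans (Finset.card_union_le H V)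
  have e5 : 2 * (R.p : ℝ) * R.q / ℓ = (R.p : ℝ) * R.q / ℓ + (R.p : ℝ) * R.q / ℓ := by ring
  rw [e5]
  linarith

theorem fr_l5_bd_sub (R : Rc) (ℓ : ℕ) (i : ℕ × ℕ) : (subRc R ℓ i).bd ⊆ R.bd := by
  intro e he
  rw [mem_bd] at he ⊢
  exact ⟨subRc_sub R ℓ i he.1, subRc_sub R ℓ i he.2⟩

theorem fr_l5_bd_disj (R : Rc) (ℓ : ℕ) (i j : ℕ × ℕ) (h : i ≠ j) : Disjoint (subRc R ℓ i).bd (subRc R ℓ j).bd := by
  rw [Finset.disjoint_left]
  intro e hi hj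
  exact Finset.disjoint_left.1 (subRc_disj R ℓ i j h) (mem_bd.1 hi).1 (mem_bd.1 hj).1

/-- L-FR-L5.  `fr_bd_card`. -/
theorem subRc_cost (R : Rc) (ℓ : ℕ) (i : ℕ × ℕ) (w : Bond → ℝ) (A : ℝ) (hA : ∀ e ∈ R.bd, |w e| ≤ A) :
    (subRc R ℓ i).cost w ≤ 2 * (ℓ : ℝ) ^ 2 * A ^ 2 := by
  have g1 : (subRc R ℓ i).cost w ≤ ∑ _e ∈ (subRc R ℓ i).bd, A ^ 2 := by
    refine Finset.sum_le_sum fun e he => ?_
    rw [← sq_abs]
    exact pow_le_pow_left₀ (abs_nonneg _) (hA e (fr_l5_bd_sub R ℓ i he)) 2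
  rw [Finset.sum_const, nsmul_eq_mul] at g1
  have g2 := fr_bd_card (subRc R ℓ i)
  have g3 : ((subRc R ℓ i).p : ℝ) ≤ ℓ := by
    have : (subRc R ℓ i).p ≤ ℓ := min_le_left _ _
    exact_mod_cast this
  have g4 : ((subRc R ℓ i).q : ℝ) ≤ ℓ := by
    have : (subRc R ℓ i).q ≤ ℓ := min_le_left _ _
    exact_mod_cast this
  have g5 : ((subRc R ℓ i).p : ℝ) * (subRc R ℓ i).q ≤ (ℓ : ℝ) * ℓ :=
    mul_le_mul g3 g4 (Nat.cast_nonneg _) (Nat.cast_nonneg _)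
  have g6 : ((subRc R ℓ i).bd.card : ℝ) ≤ 2 * (ℓ : ℝ) ^ 2 := by nlinarith
  exact g1.trans (mul_le_mul_of_nonneg_right g6 (sq_nonneg A))

/-- L-FR-L5.  The bond sets of the pieces are disjoint subsets of `R.bd`. -/
theorem subRc_cost_sum (R : Rc) (ℓ N : ℕ) (w : Bond → ℝ) :
    ∑ i : Fin N × Fin N, (subRc R ℓ ((i.1 : ℕ), (i.2 : ℕ))).cost w ≤ R.cost w := by
  unfold Rc.cost
  rw [← Finset.sum_biUnion]
  · refine Finset.sum_le_sum_of_subset_of_nonneg ?_ fun _ _ _ => sq_nonneg _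
    intro e he
    obtain ⟨i, _, hi⟩ := Finset.mem_biUnion.1 he
    exact fr_l5_bd_sub R ℓ _ hi
  · intro i _ j _ hij
    refine fr_l5_bd_disj R ℓ _ _ fun h => hij ?_
    exact Prod.ext (Fin.ext (congrArg Prod.fst h)) (Fin.ext (congrArg Prod.snd h))

/-- L-FR-L5. -/
theorem subRc_adm {n : ℕ → ℕ} {R : ℕ → Rc} (hR : Adm n R) (ℓ : ℕ → ℕ) (K : ℝ) (hℓ : ∀ k, (ℓ k : ℝ) ≤ K * n k) (i : ℕ × ℕ) :
    Adm n fun k => subRc (R k) (ℓ k) i := by
  obtain ⟨K₀, hK₀⟩ := hR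
  refine ⟨K₀ + K * ((i.1 : ℝ) + i.2 + 1), fun k => ?_⟩
  obtain ⟨h1, h2, h3, h4⟩ := hK₀ k
  have hℓ0 : (0 : ℝ) ≤ ℓ k := Nat.cast_nonneg _
  have hK : 0 ≤ K * n k := hℓ0.trans (hℓ k)
  have hK0 : 0 ≤ K₀ * n k := (abs_nonneg _).trans h1
  have hi1 : (0 : ℝ) ≤ i.1 := Nat.cast_nonneg _
  have hi2 : (0 : ℝ) ≤ i.2 := Nat.cast_nonneg _
  have e : (K₀ + K * ((i.1 : ℝ) + i.2 + 1)) * n k = K₀ * n k + K * n k * i.1 + K * n k * i.2 + K * n k := by ring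
  rw [e]
  have m1 : (ℓ k : ℝ) * i.1 ≤ K * n k * i.1 := mul_le_mul_of_nonneg_right (hℓ k) hi1
  have m2 : (ℓ k : ℝ) * i.2 ≤ K * n k * i.2 := mul_le_mul_of_nonneg_right (hℓ k) hi2
  have p1 : 0 ≤ K * n k * i.1 := mul_nonneg hK hi1
  have p2 : 0 ≤ K * n k * i.2 := mul_nonneg hK hi2
  refine ⟨?_, ?_, ?_, ?_⟩
  · show |(((R k).o.1 + (ℓ k : ℤ) * (i.1 : ℤ) : ℤ) : ℝ)| ≤ _
    push_cast
    refine (abs_add_le _ _).trans ?_
    rw [abs_of_nonneg (mul_nonneg hℓ0 hi1)]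
    linarith
  · show |(((R k).o.2 + (ℓ k : ℤ) * (i.2 : ℤ) : ℤ) : ℝ)| ≤ _
    push_cast
    refine (abs_add_le _ _).trans ?_
    rw [abs_of_nonneg (mul_nonneg hℓ0 hi2)]
    linarith
  · have : (subRc (R k) (ℓ k) i).p ≤ ℓ k := min_le_left _ _
    have h5 : ((subRc (R k) (ℓ k) i).p : ℝ) ≤ ℓ k := by exact_mod_cast this
    linarith [hℓ k]
  · have : (subRc (R k) (ℓ k) i).q ≤ ℓ k := min_le_left _ _
    have h5 : ((subRc (R k) (ℓ k) i).q : ℝ) ≤ ℓ k := by exact_mod_cast this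
    linarith [hℓ k]

/-! ## 2. The Laplace transform -/

/-- L-FR-L6.  `fr_lmgf_ref`, `cosh_sub_one_le`, `|w e| ≤ √(cost w)`, `Real.cosh_le_cosh`. -/
theorem fr_lmgf_ref2 (R : Rc) (b : ℝ) (hb : 0 < b) (w : Bond → ℝ) :
    R.lmgf b w ≤ 2 * Real.pi ^ 2 * b * R.cost w * Real.cosh (2 * Real.pi * Real.sqrt (R.cost w)) := by
  refine (fr_lmgf_ref R b hb w).trans ?_
  have hc : R.cost w = ∑ e ∈ R.bd, w e ^ 2 := rfl
  have h1 : ∀ e ∈ R.bd, b * (Real.cosh (2 * Real.pi * w e) - 1)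
      ≤ 2 * Real.pi ^ 2 * b * Real.cosh (2 * Real.pi * Real.sqrt (R.cost w)) * w e ^ 2 := by
    intro e he
    have h2 : |w e| ≤ Real.sqrt (R.cost w) := by
      refine Real.abs_le_sqrt ?_
      rw [hc]
      exact Finset.single_le_sum (f := fun e => w e ^ 2) (fun i _ => sq_nonneg _) he
    have h3 : Real.cosh (2 * Real.pi * w e) ≤ Real.cosh (2 * Real.pi * Real.sqrt (R.cost w)) := by
      rw [Real.cosh_le_cosh, abs_mul (2 * Real.pi) (w e), abs_mul (2 * Real.pi) (Real.sqrt _),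
        abs_of_nonneg (Real.sqrt_nonneg _)]
      exact mul_le_mul_of_nonneg_left h2 (abs_nonneg _)
    have h4 := cosh_sub_one_le (2 * Real.pi * w e)
    have h5 : 0 ≤ (2 * Real.pi * w e) ^ 2 / 2 := by positivity
    calc b * (Real.cosh (2 * Real.pi * w e) - 1)
        ≤ b * ((2 * Real.pi * w e) ^ 2 / 2 * Real.cosh (2 * Real.pi * w e)) := mul_le_mul_of_nonneg_left h4 hb.le
      _ ≤ b * ((2 * Real.pi * w e) ^ 2 / 2 * Real.cosh (2 * Real.pi * Real.sqrt (R.cost w))) :=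
          mul_le_mul_of_nonneg_left (mul_le_mul_of_nonneg_left h3 h5) hb.le
      _ = _ := by ring
  refine (Finset.sum_le_sum h1).trans (le_of_eq ?_)
  rw [← Finset.mul_sum, ← hc]
  ring

/-- L-FR-L6.  `flowX_congr`. -/
theorem fr_lmgf_congr (R : Rc) (b : ℝ) {w w' : Bond → ℝ} (h : ∀ e ∈ R.bd, w e = w' e) : R.lmgf b w = R.lmgf b w' := by
  unfold Rc.lmgf
  rw [flowX_congr R b h]

theorem fr_l9_cost_smul (R : Rc) (c : ℝ) (w : Bond → ℝ) : R.cost (fun e => c * w e) = c ^ 2 * R.cost w := by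
  unfold Rc.cost
  rw [Finset.mul_sum]
  exact Finset.sum_congr rfl fun e _ => by ring

theorem fr_l7_cost_nonneg (R : Rc) (w : Bond → ℝ) : 0 ≤ R.cost w := Finset.sum_nonneg fun _ _ => sq_nonneg _

/-- the reference bound after scaling, monotone in the cost. -/
theorem fr_l7_ref3 (R : Rc) (b : ℝ) (hb : 0 < b) (w : Bond → ℝ) (s' : ℝ) (hs' : 0 < s') (c : ℝ) (hc : R.cost w ≤ c) :
    s'⁻¹ * R.lmgf b (fun e => s' * w e) ≤ 2 * Real.pi ^ 2 * b * s' * c * Real.cosh (2 * Real.pi * s' * Real.sqrt c) := by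
  have hE0 := fr_l7_cost_nonneg R w
  have hc0 : 0 ≤ c := hE0.trans hc
  have h4 := fr_lmgf_ref2 R b hb (fun e => s' * w e)
  have e4 : Real.sqrt (s' ^ 2 * R.cost w) = s' * Real.sqrt (R.cost w) := by
    rw [Real.sqrt_mul (sq_nonneg _), Real.sqrt_sq hs'.le]
  rw [fr_l9_cost_smul, e4] at h4
  have q2 : Real.sqrt (R.cost w) ≤ Real.sqrt c := Real.sqrt_le_sqrt hc
  have h5 : Real.cosh (2 * Real.pi * (s' * Real.sqrt (R.cost w))) ≤ Real.cosh (2 * Real.pi * s' * Real.sqrt c) := by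
    rw [Real.cosh_le_cosh, abs_of_nonneg (by positivity), abs_of_nonneg (by positivity), ← mul_assoc]
    exact mul_le_mul_of_nonneg_left q2 (by positivity)
  have h6 : 2 * Real.pi ^ 2 * b * (s' ^ 2 * R.cost w) * Real.cosh (2 * Real.pi * (s' * Real.sqrt (R.cost w)))
      ≤ 2 * Real.pi ^ 2 * b * (s' ^ 2 * c) * Real.cosh (2 * Real.pi * s' * Real.sqrt c) := by
    gcongr
  have h7 := mul_le_mul_of_nonneg_left (h4.trans h6) (inv_nonneg.2 hs'.le)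
  refine h7.trans (le_of_eq ?_)
  field_simp

/-- L-FR-L7.  **The finite Laplace bound.**  `Q i` = the pieces.  `w = w₁ + w₂` on `R.bd`, `w₁ = w` on the bonds of the pieces, `w₂ = w` on the seams.
`fr_holder`: `lmgf w ≤ s⁻¹ lmgf (s w₁) + s'⁻¹ lmgf (s' w₂)`.   `fr_cut_lmgf` (`subRc_sub`, `subRc_disj`): `lmgf (s w₁) ≤ ∑ lmgf_{Q i} (s w)`.
`fr_lmgf_quartic β (4B)` (constant `C₀ ≥ 0`): `lmgf_{Q i} (s w) ≤ s² var_{Q i} w / 2 + C₀ s⁴ (cost_{Q i} w)²` (`fr_var_smul`).   `∑ cost_i² ≤ 2 ℓ² A² cost_R w` (`subRc_cost`, `subRc_cost_sum`).   `C = 16 C₀`.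
`fr_lmgf_ref2`: `lmgf (s' w₂) ≤ 2π² b s'² c₂ cosh (2π s' √c₂)`, `c₂ = cost w₂ ≤ A² · 2pq/ℓ` (`subRc_seam`), monotone in `c₂`. -/
theorem fr_lap_fin (β B : ℝ) : ∃ C : ℝ, ∀ (R : Rc) (b : ℝ), 0 < b → b ≤ β → ∀ w : Bond → ℝ, R.cost w ≤ B →
    ∀ ℓ N : ℕ, 0 < ℓ → R.p ≤ ℓ * N → R.q ≤ ℓ * N → ∀ A : ℝ, (∀ e ∈ R.bd, |w e| ≤ A) → ∀ s s' : ℝ, s.HolderConjugate s' → s ≤ 2 →
    R.lmgf b w ≤ s / 2 * ∑ i : Fin N × Fin N, (subRc R ℓ ((i.1 : ℕ), (i.2 : ℕ))).var b w + C * (ℓ : ℝ) ^ 2 * A ^ 2 * R.cost w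
      + 2 * Real.pi ^ 2 * b * s' * (A ^ 2 * (2 * (R.p : ℝ) * R.q / ℓ))
          * Real.cosh (2 * Real.pi * s' * Real.sqrt (A ^ 2 * (2 * (R.p : ℝ) * R.q / ℓ))) := by
  obtain ⟨C₀, hC₀⟩ := fr_lmgf_quartic β (4 * B)
  obtain ⟨C₁, hC₁⟩ : ∃ C₁, C₁ = max C₀ 0 := ⟨_, rfl⟩
  have hC₁0 : 0 ≤ C₁ := by rw [hC₁]; exact le_max_right _ _
  have hC₀₁ : C₀ ≤ C₁ := by rw [hC₁]; exact le_max_left _ _
  refine ⟨16 * C₁, ?_⟩
  intro R b hb hbβ w hwB ℓ N hℓ hp hq A hA s s' hss hs2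
  have hs1 : 1 < s := hss.lt
  have hs0 : 0 < s := hss.pos
  have hs'0 : 0 < s' := hss.symm.pos
  have hseam := subRc_seam R ℓ N hℓ hp hq
  have hcsum := subRc_cost_sum R ℓ N w
  obtain ⟨Q, hQ⟩ : ∃ Q : Fin N × Fin N → Rc, Q = fun i => subRc R ℓ ((i.1 : ℕ), (i.2 : ℕ)) := ⟨_, rfl⟩
  have hQi : ∀ i : Fin N × Fin N, subRc R ℓ ((i.1 : ℕ), (i.2 : ℕ)) = Q i := fun i => by rw [hQ]
  simp only [hQi] at hseam hcsum ⊢
  have hsub : ∀ i, (Q i).set ⊆ R.set := fun i => by rw [← hQi]; exact subRc_sub R ℓ _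
  have hdis : ∀ i j, i ≠ j → Disjoint (Q i).set (Q j).set := by
    intro i j hij
    rw [← hQi, ← hQi]
    refine subRc_disj R ℓ _ _ fun h => hij ?_
    exact Prod.ext (Fin.ext (congrArg Prod.fst h)) (Fin.ext (congrArg Prod.snd h))
  have hcost : ∀ i, (Q i).cost w ≤ 2 * (ℓ : ℝ) ^ 2 * A ^ 2 := fun i => by
    rw [← hQi]; exact subRc_cost R ℓ _ w A hA
  have hc0 : ∀ i, 0 ≤ (Q i).cost w := fun i => fr_l7_cost_nonneg _ _
  have hcR : ∀ i, (Q i).cost w ≤ R.cost w := fun i =>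
    (Finset.single_le_sum (f := fun i => (Q i).cost w) (fun j _ => hc0 j) (Finset.mem_univ i)).trans hcsum
  -- decomposition
  obtain ⟨w₁, hw₁⟩ : ∃ w₁ : Bond → ℝ, w₁ = fun e => if ∀ i, e ∉ (Q i).bd then 0 else w e := ⟨_, rfl⟩
  obtain ⟨w₂, hw₂⟩ : ∃ w₂ : Bond → ℝ, w₂ = fun e => if ∀ i, e ∉ (Q i).bd then w e else 0 := ⟨_, rfl⟩
  have hw : w = fun e => w₁ e + w₂ e := by
    funext e
    rw [hw₁, hw₂]
    dsimp only
    split_ifs <;> simp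
  have h1 := fr_holder R b hb w₁ w₂ s s' hss
  rw [← hw] at h1
  -- cutting
  have h2 := fr_cut_lmgf R b hb Q hsub hdis (fun e => s * w₁ e) (by
    intro e _ he
    rw [hw₁]
    dsimp only
    rw [if_pos he, mul_zero])
  have h3 : ∀ i, (Q i).lmgf b (fun e => s * w₁ e) = (Q i).lmgf b (fun e => s * w e) := by
    intro i
    refine fr_lmgf_congr _ _ fun e he => ?_
    rw [hw₁]
    dsimp only
    rw [if_neg (fun h => h i he)]
  simp only [h3] at h2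
  -- the cells
  have hs2' : s ^ 2 ≤ 4 := by nlinarith
  have h4 : ∀ i, (Q i).lmgf b (fun e => s * w e)
      ≤ s ^ 2 / 2 * (Q i).var b w + C₁ * s ^ 4 * (2 * (ℓ : ℝ) ^ 2 * A ^ 2) * (Q i).cost w := by
    intro i
    have g1 : (Q i).cost (fun e => s * w e) ≤ 4 * B := by
      rw [fr_l9_cost_smul]
      calc s ^ 2 * (Q i).cost w ≤ 4 * (Q i).cost w := mul_le_mul_of_nonneg_right hs2' (hc0 i)
        _ ≤ 4 * B := by linarith [hcR i]
    have g2 := hC₀ (Q i) b hb hbβ (fun e => s * w e) g1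
    rw [fr_var_smul, fr_l9_cost_smul] at g2
    have g3 : C₀ * (s ^ 2 * (Q i).cost w) ^ 2 ≤ C₁ * (s ^ 2 * (Q i).cost w) ^ 2 :=
      mul_le_mul_of_nonneg_right hC₀₁ (sq_nonneg _)
    have g4 : (Q i).cost w * (Q i).cost w ≤ (2 * (ℓ : ℝ) ^ 2 * A ^ 2) * (Q i).cost w :=
      mul_le_mul_of_nonneg_right (hcost i) (hc0 i)
    have g5 : C₁ * s ^ 4 * ((Q i).cost w * (Q i).cost w) ≤ C₁ * s ^ 4 * ((2 * (ℓ : ℝ) ^ 2 * A ^ 2) * (Q i).cost w) :=
      mul_le_mul_of_nonneg_left g4 (by positivity)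
    nlinarith [g2, g3, g5]
  have h5 : ∑ i, (Q i).lmgf b (fun e => s * w e)
      ≤ s ^ 2 / 2 * ∑ i, (Q i).var b w + C₁ * s ^ 4 * (2 * (ℓ : ℝ) ^ 2 * A ^ 2) * R.cost w := by
    refine (Finset.sum_le_sum fun i _ => h4 i).trans ?_
    rw [Finset.sum_add_distrib, ← Finset.mul_sum, ← Finset.mul_sum]
    have : C₁ * s ^ 4 * (2 * (ℓ : ℝ) ^ 2 * A ^ 2) * ∑ i, (Q i).cost w ≤ C₁ * s ^ 4 * (2 * (ℓ : ℝ) ^ 2 * A ^ 2) * R.cost w :=
      mul_le_mul_of_nonneg_left hcsum (by positivity)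
    linarith
  have f1 : s⁻¹ * R.lmgf b (fun e => s * w₁ e)
      ≤ s / 2 * ∑ i, (Q i).var b w + 16 * C₁ * (ℓ : ℝ) ^ 2 * A ^ 2 * R.cost w := by
    have g1 := mul_le_mul_of_nonneg_left (h2.trans h5) (inv_nonneg.2 hs0.le)
    have g2 : s⁻¹ * (s ^ 2 / 2 * ∑ i, (Q i).var b w + C₁ * s ^ 4 * (2 * (ℓ : ℝ) ^ 2 * A ^ 2) * R.cost w)
        = s / 2 * ∑ i, (Q i).var b w + s ^ 3 * (C₁ * (2 * (ℓ : ℝ) ^ 2 * A ^ 2) * R.cost w) := by
      field_simp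
    have g3 : s ^ 3 ≤ 8 := by
      have : s ^ 3 ≤ 2 ^ 3 := pow_le_pow_left₀ hs0.le hs2 3
      linarith
    have g4 : s ^ 3 * (C₁ * (2 * (ℓ : ℝ) ^ 2 * A ^ 2) * R.cost w) ≤ 8 * (C₁ * (2 * (ℓ : ℝ) ^ 2 * A ^ 2) * R.cost w) :=
      mul_le_mul_of_nonneg_right g3 (by have := fr_l7_cost_nonneg R w; positivity)
    linarith
  -- the seams
  have hc2 : R.cost w₂ ≤ A ^ 2 * (2 * (R.p : ℝ) * R.q / ℓ) := by
    have e1 : R.cost w₂ = ∑ e ∈ R.bd.filter (fun e => ∀ i, e ∉ (Q i).bd), w e ^ 2 := by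
      unfold Rc.cost
      rw [Finset.sum_filter]
      refine Finset.sum_congr rfl fun e _ => ?_
      rw [hw₂]
      dsimp only
      split_ifs <;> simp
    rw [e1]
    have g1 : ∑ e ∈ R.bd.filter (fun e => ∀ i, e ∉ (Q i).bd), w e ^ 2
        ≤ ∑ _e ∈ R.bd.filter (fun e => ∀ i, e ∉ (Q i).bd), A ^ 2 := by
      refine Finset.sum_le_sum fun e he => ?_
      rw [← sq_abs]
      exact pow_le_pow_left₀ (abs_nonneg _) (hA e (Finset.mem_filter.1 he).1) 2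
    rw [Finset.sum_const, nsmul_eq_mul, mul_comm] at g1
    exact g1.trans (mul_le_mul_of_nonneg_left hseam (sq_nonneg A))
  have f2 := fr_l7_ref3 R b hb w₂ s' hs'0 _ hc2
  linarith

/-- the seam term is monotone. -/
theorem fr_l8_seam {b β s' x y : ℝ} (hb : 0 ≤ b) (hbβ : b ≤ β) (hs' : 0 ≤ s') (hx : 0 ≤ x) (hxy : x ≤ y) :
    2 * Real.pi ^ 2 * b * s' * x * Real.cosh (2 * Real.pi * s' * Real.sqrt x)
      ≤ 2 * Real.pi ^ 2 * β * s' * y * Real.cosh (2 * Real.pi * s' * Real.sqrt y) := by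
  have h1 : Real.cosh (2 * Real.pi * s' * Real.sqrt x) ≤ Real.cosh (2 * Real.pi * s' * Real.sqrt y) := by
    rw [Real.cosh_le_cosh, abs_of_nonneg (by positivity), abs_of_nonneg (by positivity)]
    exact mul_le_mul_of_nonneg_left (Real.sqrt_le_sqrt hxy) (by positivity)
  have h2 : 2 * Real.pi ^ 2 * b * s' * x ≤ 2 * Real.pi ^ 2 * β * s' * y := by
    have : b * x ≤ β * y := mul_le_mul hbβ hxy hx (hb.trans hbβ)
    have h3 : 0 ≤ 2 * Real.pi ^ 2 * s' := by positivity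
    nlinarith
  exact mul_le_mul h2 h1 (Real.cosh_pos _).le ((by positivity : (0:ℝ) ≤ 2 * Real.pi ^ 2 * b * s' * x).trans h2)

/-- the seam term tends to zero. -/
theorem fr_l8_seam_tendsto {n : ℕ → ℕ} (hn : Tendsto n atTop atTop) (c₁ c₂ c : ℝ) :
    Tendsto (fun k => c₁ * (c / (n k : ℝ)) * Real.cosh (c₂ * Real.sqrt (c / (n k : ℝ)))) atTop (𝓝 0) := by
  have h1 : Tendsto (fun k => c / (n k : ℝ)) atTop (𝓝 0) := (tendsto_const_div_atTop_nhds_zero_nat c).comp hn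
  have h2 : Continuous fun y : ℝ => c₁ * y * Real.cosh (c₂ * Real.sqrt y) := by fun_prop
  have h3 := (h2.tendsto 0).comp h1
  have e : c₁ * 0 * Real.cosh (c₂ * Real.sqrt 0) = 0 := by simp
  rw [e] at h3
  exact h3

/-- the arithmetic of the finite bound. -/
theorem fr_l8_arith {a s B ε D V T2 T3 L : ℝ} (ha : 0 ≤ a) (hs1 : 1 ≤ s) (hs2 : s ≤ 2) (hε : 0 ≤ ε) (hDB : D ≤ B)
    (hsB : (s - 1) * a * B / 2 ≤ ε / 4) (hV : V ≤ a * D + ε / 4) (h2 : T2 ≤ ε / 4) (h3 : T3 ≤ ε / 4)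
    (hL : L ≤ s / 2 * V + T2 + T3) : L ≤ a / 2 * D + ε := by
  have h4 : s / 2 * V ≤ s / 2 * (a * D + ε / 4) := mul_le_mul_of_nonneg_left hV (by linarith)
  have h5 : (s - 1) * a * D ≤ (s - 1) * a * B := mul_le_mul_of_nonneg_left hDB (mul_nonneg (by linarith) ha)
  nlinarith

theorem fr_l8_pq {n p q K : ℝ} (hp0 : 0 ≤ p) (hq0 : 0 ≤ q) (hp : p ≤ K * n) (hq : q ≤ K * n) :
    p * q ≤ (K * n) * (K * n) := mul_le_mul hp hq hq0 (hp0.trans hp)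

theorem fr_l8_B {M n p q K : ℝ} (hn : 0 < n) (hp0 : 0 ≤ p) (hq0 : 0 ≤ q) (hp : p ≤ K * n) (hq : q ≤ K * n) :
    2 * p * q * (M / n) ^ 2 ≤ 2 * K ^ 2 * M ^ 2 := by
  have hpq := fr_l8_pq hp0 hq0 hp hq
  have h3 : 2 * p * q * (M / n) ^ 2 ≤ 2 * ((K * n) * (K * n)) * (M / n) ^ 2 := by
    have := mul_le_mul_of_nonneg_right hpq (sq_nonneg (M / n))
    nlinarith
  refine h3.trans (le_of_eq ?_)
  field_simp

theorem fr_l8_t2 {C l M n D B r : ℝ} (hn : 0 < n) (hl0 : 0 ≤ l) (hl2 : l ≤ 2 * (r * n)) (hD0 : 0 ≤ D) (hD : D ≤ B) :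
    C * l ^ 2 * (M / n) ^ 2 * D ≤ 4 * |C| * r ^ 2 * M ^ 2 * B := by
  have h1 : l ^ 2 ≤ (2 * (r * n)) ^ 2 := pow_le_pow_left₀ hl0 hl2 2
  calc C * l ^ 2 * (M / n) ^ 2 * D ≤ |C| * l ^ 2 * (M / n) ^ 2 * D := by
        gcongr
        exact le_abs_self C
    _ ≤ |C| * (2 * (r * n)) ^ 2 * (M / n) ^ 2 * B := by gcongr
    _ = 4 * |C| * r ^ 2 * M ^ 2 * B := by field_simp; ring

theorem fr_l8_xy {M n p q l K r : ℝ} (hn : 0 < n) (hr : 0 < r) (hp0 : 0 ≤ p) (hq0 : 0 ≤ q) (hp : p ≤ K * n) (hq : q ≤ K * n)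
    (hl1 : r * n ≤ l) : (M / n) ^ 2 * (2 * p * q / l) ≤ 2 * M ^ 2 * K ^ 2 / r / n := by
  have hpq := fr_l8_pq hp0 hq0 hp hq
  have h1 : 2 * p * q / l ≤ 2 * ((K * n) * (K * n)) / (r * n) := by
    apply div_le_div₀ (by nlinarith [mul_self_nonneg (K * n)]) (by linarith) (by positivity) hl1
  calc (M / n) ^ 2 * (2 * p * q / l)
      ≤ (M / n) ^ 2 * (2 * ((K * n) * (K * n)) / (r * n)) := mul_le_mul_of_nonneg_left h1 (sq_nonneg _)
    _ = 2 * M ^ 2 * K ^ 2 / r / n := by field_simp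

/-- L-FR-L8.  **Upper bound in the discrete `C²` class.**  `K ≥ 1` (`Adm`), `B = 2 K² M²` bounds the cost, `C` of `fr_lap_fin β₁ B`.   Choose `s ∈ (1,2]` with `(s-1) a B / 2 ≤ ε/4`; `r ∈ (0,1]` with `4 C r² M² B ≤ ε/4`;
`ℓ k = ⌈r n k⌉₊ ≤ 2 r n k`, `N = ⌈K/r⌉₊`; `A = M / n k`.   For each of the `N²` indices `fr_free_var` on the sequence of pieces (`subRc_adm`, `fr_reg_c2`, `C2bd` restricts): eventually `var_i ≤ a cost_i + ε/(4 N²)`
(`Filter.eventually_all` over the finite index type); `∑ cost_i ≤ cost_R`.   The seam term: `A² 2pq/ℓ ≤ 2 M² K²/(r n k) → 0`. -/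
theorem fr_lap_ub_c2 {b : ℕ → ℝ} {n : ℕ → ℕ} {a : ℝ} (hS : ScaleCoef b n a) {R : ℕ → Rc} (hR : Adm n R) (M : ℝ) (γ : ℕ → ℤ × ℤ → ℝ)
    (h : ∀ k, C2bd M (n k) (R k) (γ k)) (ε : ℝ) (hε : 0 < ε) :
    ∀ᶠ k in atTop, (R k).lmgf (b k) (gd (γ k)) ≤ a / 2 * (R k).dir (γ k) + ε := by
  have ha : 0 ≤ a := fr_scaleCoef_nonneg hS
  obtain ⟨⟨β₀, β₁, hβ0, hb⟩, hn, -⟩ := id hS
  obtain ⟨K, hK⟩ := id hR
  obtain ⟨B, hB⟩ : ∃ B : ℝ, B = 2 * K ^ 2 * M ^ 2 := ⟨_, rfl⟩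
  have hB0 : 0 ≤ B := by rw [hB]; positivity
  obtain ⟨C, hC⟩ := fr_lap_fin β₁ B
  -- the exponent
  obtain ⟨s, hs⟩ : ∃ s : ℝ, s = 1 + min 1 (ε / (2 * (a * B + 1))) := ⟨_, rfl⟩
  have haB : 0 < a * B + 1 := by positivity
  have hs1 : 1 < s := by
    rw [hs]
    have : 0 < min 1 (ε / (2 * (a * B + 1))) := lt_min one_pos (by positivity)
    linarith
  have hs2 : s ≤ 2 := by
    rw [hs]
    have := min_le_left 1 (ε / (2 * (a * B + 1)))
    linarith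
  have hsB : (s - 1) * a * B / 2 ≤ ε / 4 := by
    have h1 : s - 1 ≤ ε / (2 * (a * B + 1)) := by
      rw [hs]
      have := min_le_right 1 (ε / (2 * (a * B + 1)))
      linarith
    have h2 : (s - 1) * (a * B) ≤ ε / (2 * (a * B + 1)) * (a * B) := mul_le_mul_of_nonneg_right h1 (by positivity)
    have h3 : ε / (2 * (a * B + 1)) * (a * B) ≤ ε / 2 := by
      rw [div_mul_eq_mul_div, div_le_div_iff₀ (by positivity) (by norm_num)]
      nlinarith [mul_nonneg ha hB0]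
    linarith
  obtain ⟨s', hs'⟩ : ∃ s' : ℝ, s' = Real.conjExponent s := ⟨_, rfl⟩
  have hss : s.HolderConjugate s' := by rw [hs']; exact Real.HolderConjugate.conjExponent hs1
  have hs'0 : 0 < s' := hss.symm.pos
  -- the mesh
  obtain ⟨r, hr⟩ : ∃ r : ℝ, r = min 1 (ε / (16 * (|C| * M ^ 2 * B + 1))) := ⟨_, rfl⟩
  have hCB : 0 < |C| * M ^ 2 * B + 1 := by positivity
  have hr0 : 0 < r := by rw [hr]; exact lt_min one_pos (by positivity)
  have hr1 : r ≤ 1 := by rw [hr]; exact min_le_left _ _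
  have hrC : 4 * |C| * r ^ 2 * M ^ 2 * B ≤ ε / 4 := by
    have h1 : r ≤ ε / (16 * (|C| * M ^ 2 * B + 1)) := by rw [hr]; exact min_le_right _ _
    have h2 : r ^ 2 ≤ ε / (16 * (|C| * M ^ 2 * B + 1)) := by nlinarith
    have h3 : r ^ 2 * (|C| * M ^ 2 * B) ≤ ε / (16 * (|C| * M ^ 2 * B + 1)) * (|C| * M ^ 2 * B) :=
      mul_le_mul_of_nonneg_right h2 (by positivity)
    have h4 : ε / (16 * (|C| * M ^ 2 * B + 1)) * (|C| * M ^ 2 * B) ≤ ε / 16 := by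
      rw [div_mul_eq_mul_div, div_le_div_iff₀ (by positivity) (by norm_num)]
      have : 0 ≤ |C| * M ^ 2 * B := by positivity
      nlinarith
    nlinarith
  obtain ⟨ℓ, hℓ⟩ : ∃ ℓ : ℕ → ℕ, ℓ = fun k => ⌈r * n k⌉₊ := ⟨_, rfl⟩
  obtain ⟨N, hN⟩ : ∃ N : ℕ, N = ⌈K / r⌉₊ := ⟨_, rfl⟩
  have hℓle : ∀ k, (ℓ k : ℝ) ≤ (r + 1) * n k := by
    intro k
    rw [hℓ]
    rcases Nat.eq_zero_or_pos (n k) with h0 | h0
    · simp [h0]
    · have h1 : (1 : ℝ) ≤ n k := by exact_mod_cast h0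
      have h2 := (Nat.ceil_lt_add_one (by positivity : 0 ≤ r * (n k : ℝ))).le
      dsimp only
      linarith
  obtain ⟨η, hη⟩ : ∃ η : ℝ, η = ε / (4 * ((N : ℝ) * N + 1)) := ⟨_, rfl⟩
  have hη0 : 0 < η := by rw [hη]; positivity
  have hηN : (N : ℝ) * N * η ≤ ε / 4 := by
    rw [hη, mul_div_assoc', div_le_div_iff₀ (by positivity) (by norm_num)]
    have : 0 ≤ (N : ℝ) * N := by positivity
    nlinarith
  -- the variances of the pieces
  have hvar : ∀ᶠ k in atTop, ∀ i : Fin N × Fin N,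
      (subRc (R k) (ℓ k) ((i.1 : ℕ), (i.2 : ℕ))).var (b k) (gd (γ k))
        ≤ a * (subRc (R k) (ℓ k) ((i.1 : ℕ), (i.2 : ℕ))).cost (gd (γ k)) + η := by
    rw [Filter.eventually_all]
    intro i
    have h1 := fr_free_var hS (subRc_adm hR ℓ (r + 1) hℓle ((i.1 : ℕ), (i.2 : ℕ)))
      (fr_reg_c2 γ M fun k => frp_c2bd_restrict (subRc_sub (R k) (ℓ k) _) (h k))
    filter_upwards [h1.eventually (gt_mem_nhds hη0)] with k hk
    have : (subRc (R k) (ℓ k) ((i.1 : ℕ), (i.2 : ℕ))).dir (γ k) = (subRc (R k) (ℓ k) ((i.1 : ℕ), (i.2 : ℕ))).cost (gd (γ k)) := rfl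
    rw [this] at hk
    linarith
  -- the seam
  have hseam := fr_l8_seam_tendsto hn (2 * Real.pi ^ 2 * β₁ * s') (2 * Real.pi * s') (2 * M ^ 2 * K ^ 2 / r)
  have hn1 : ∀ᶠ k in atTop, 1 / r ≤ (n k : ℝ) :=
    (tendsto_natCast_atTop_atTop.comp hn).eventually_ge_atTop (1 / r)
  filter_upwards [hvar, hseam.eventually (gt_mem_nhds (by positivity : 0 < ε / 4)), hn1] with k k1 k2 k3
  have hnk : (0 : ℝ) < n k := lt_of_lt_of_le (by positivity) k3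
  have hrn : 1 ≤ r * n k := by
    rw [div_le_iff₀ hr0] at k3
    linarith
  obtain ⟨-, -, hp, hq⟩ := hK k
  have hℓ1 : r * n k ≤ ℓ k := by rw [hℓ]; exact Nat.le_ceil _
  have hℓ2 : (ℓ k : ℝ) ≤ 2 * (r * n k) := by
    have h2 := (Nat.ceil_lt_add_one (by positivity : 0 ≤ r * (n k : ℝ))).le
    rw [hℓ]
    dsimp only
    linarith
  have hℓ0 : 0 < ℓ k := by
    have : (0 : ℝ) < ℓ k := lt_of_lt_of_le (by positivity) hℓ1
    exact_mod_cast this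
  have hℓR : (0 : ℝ) < ℓ k := by exact_mod_cast hℓ0
  have hNK : K * n k ≤ (ℓ k : ℝ) * N := by
    have h1 : K / r ≤ N := by rw [hN]; exact Nat.le_ceil _
    calc K * n k = (r * n k) * (K / r) := by field_simp
      _ ≤ (r * n k) * N := mul_le_mul_of_nonneg_left h1 (by positivity)
      _ ≤ (ℓ k : ℝ) * N := mul_le_mul_of_nonneg_right hℓ1 (Nat.cast_nonneg _)
  have hpN : (R k).p ≤ ℓ k * N := by
    have : ((R k).p : ℝ) ≤ ((ℓ k * N : ℕ) : ℝ) := by push_cast; exact hp.trans hNK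
    exact_mod_cast this
  have hqN : (R k).q ≤ ℓ k * N := by
    have : ((R k).q : ℝ) ≤ ((ℓ k * N : ℕ) : ℝ) := by push_cast; exact hq.trans hNK
    exact_mod_cast this
  have hcost : (R k).cost (gd (γ k)) ≤ B := by
    have h2 : (R k).cost (gd (γ k)) ≤ 2 * ((R k).p : ℝ) * (R k).q * (M / n k) ^ 2 := frp_c2bd_dir (h k)
    rw [hB]
    exact h2.trans (fr_l8_B hnk (Nat.cast_nonneg _) (Nat.cast_nonneg _) hp hq)
  have hcost0 : 0 ≤ (R k).cost (gd (γ k)) := fr_l7_cost_nonneg _ _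
  have hbk : 0 < b k := lt_of_lt_of_le hβ0 (hb k).1
  have hfin := hC (R k) (b k) hbk (hb k).2 (gd (γ k)) hcost (ℓ k) N hℓ0 hpN hqN (M / n k) (h k).1 s s' hss hs2
  -- first term
  have t1 : ∑ i : Fin N × Fin N, (subRc (R k) (ℓ k) ((i.1 : ℕ), (i.2 : ℕ))).var (b k) (gd (γ k))
      ≤ a * (R k).cost (gd (γ k)) + ε / 4 := by
    refine (Finset.sum_le_sum fun i _ => k1 i).trans ?_
    rw [Finset.sum_add_distrib, ← Finset.mul_sum, Finset.sum_const, nsmul_eq_mul, Finset.card_univ,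
      Fintype.card_prod, Fintype.card_fin]
    push_cast
    exact add_le_add (mul_le_mul_of_nonneg_left (subRc_cost_sum _ _ _ _) ha) hηN
  -- second term
  have t2 : C * (ℓ k : ℝ) ^ 2 * (M / n k) ^ 2 * (R k).cost (gd (γ k)) ≤ ε / 4 :=
    (fr_l8_t2 hnk hℓR.le hℓ2 hcost0 hcost).trans hrC
  -- third term
  have hx0 : 0 ≤ (M / n k) ^ 2 * (2 * ((R k).p : ℝ) * (R k).q / ℓ k) := by positivity
  have hxy : (M / n k) ^ 2 * (2 * ((R k).p : ℝ) * (R k).q / ℓ k) ≤ 2 * M ^ 2 * K ^ 2 / r / n k :=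
    fr_l8_xy hnk hr0 (Nat.cast_nonneg _) (Nat.cast_nonneg _) hp hq hℓ1
  have t3 := (fr_l8_seam hbk.le (hb k).2 hs'0.le hx0 hxy).trans k2.le
  exact fr_l8_arith ha hs1.le hs2 hε.le hcost hsB t1 t2 t3 hfin

/-- positivity of the temperatures. -/
theorem fr_l11_bpos {b : ℕ → ℝ} {n : ℕ → ℕ} {a : ℝ} (hS : ScaleCoef b n a) (k : ℕ) : 0 < b k := by
  obtain ⟨⟨β₀, β₁, h0, h1⟩, _⟩ := hS
  exact lt_of_lt_of_le h0 (h1 k).1

/-- homogeneity of the energy. -/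
theorem fr_l11_dir_smul (R : Rc) (g : ℤ × ℤ → ℝ) (t : ℝ) : R.dir (fun v => t * g v) = t ^ 2 * R.dir g := by
  unfold Rc.dir Rc.cost
  rw [Finset.mul_sum]
  refine Finset.sum_congr rfl fun e _ => ?_
  unfold gd
  ring

theorem fr_l11_dir_nonneg (R : Rc) (g : ℤ × ℤ → ℝ) : 0 ≤ R.dir g :=
  Finset.sum_nonneg fun _ _ => sq_nonneg _

theorem fr_l9_c2bd_smul {M : ℝ} {n : ℕ} {R : Rc} {γ : ℤ × ℤ → ℝ} (h : C2bd M n R γ) (s : ℝ) (hs : 0 ≤ s) :
    C2bd (s * M) n R (fun v => s * γ v) := by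
  have e : gd (fun v => s * γ v) = fun e => s * gd γ e := by
    funext e
    unfold gd
    ring
  constructor
  · intro e' he
    rw [e]
    dsimp only
    rw [abs_mul, abs_of_nonneg hs, mul_div_assoc]
    exact mul_le_mul_of_nonneg_left (h.1 e' he) hs
  · intro e' he u hu hm
    rw [e]
    dsimp only
    rw [← mul_sub, abs_mul, abs_of_nonneg hs, mul_div_assoc]
    exact mul_le_mul_of_nonneg_left (h.2 e' he u hu hm) hs

/-- the finite form of the closure argument. -/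
theorem fr_l9_fin (R : Rc) (b β₁ : ℝ) (hb : 0 < b) (hbβ : b ≤ β₁) (a : ℝ) (ha : 0 ≤ a) (g γ : ℤ × ℤ → ℝ) (s s' : ℝ)
    (hss : s.HolderConjugate s') (hs2 : s ≤ 2) (B ε₁ ε₂ : ℝ) (hε₂ : 0 ≤ ε₂) (hD : R.dir g ≤ B)
    (hE : R.dir (fun v => g v - γ v) ≤ ε₁)
    (hub : R.lmgf b (gd fun v => s * γ v) ≤ a / 2 * R.dir (fun v => s * γ v) + ε₂) :
    R.lmgf b (gd g) ≤ a / 2 * R.dir g + (s - 1) * a * B / 2 + a * (2 * (Real.sqrt B * Real.sqrt ε₁) + ε₁) + ε₂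
      + 2 * Real.pi ^ 2 * β₁ * s' * ε₁ * Real.cosh (2 * Real.pi * s' * Real.sqrt ε₁) := by
  have hs1 : 1 < s := hss.lt
  have hs0 : 0 < s := hss.pos
  have hs'0 : 0 < s' := hss.symm.pos
  have hD0 := fr_l11_dir_nonneg R g
  have hE0 := fr_l11_dir_nonneg R (fun v => g v - γ v)
  have hG0 := fr_l11_dir_nonneg R γ
  have hβ0 : 0 ≤ β₁ := hb.le.trans hbβ
  have hε0 : 0 ≤ ε₁ := hE0.trans hE
  obtain ⟨D, hDdef⟩ : ∃ D, D = R.dir g := ⟨_, rfl⟩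
  obtain ⟨E, hEdef⟩ : ∃ E, E = R.dir (fun v => g v - γ v) := ⟨_, rfl⟩
  obtain ⟨Dγ, hGdef⟩ : ∃ Dγ, Dγ = R.dir γ := ⟨_, rfl⟩
  -- Hölder
  have e0 : gd g = fun e => gd γ e + gd (fun v => g v - γ v) e := by
    funext e
    unfold gd
    ring
  have e1 : (fun e => s * gd γ e) = gd (fun v => s * γ v) := by
    funext e
    unfold gd
    ring
  have h1 := fr_holder R b hb (gd γ) (gd fun v => g v - γ v) s s' hss
  rw [← e0, e1] at h1
  -- the energy of `γ`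
  have e2 : gd γ = fun e => gd g e + (-1) * gd (fun v => g v - γ v) e := by
    funext e
    unfold gd
    ring
  have h2 : Real.sqrt Dγ ≤ Real.sqrt D + Real.sqrt E := by
    have h := sqrt_cost_add_le R (gd g) (fun e => (-1) * gd (fun v => g v - γ v) e)
    rw [← e2, fr_l9_cost_smul] at h
    rw [hGdef, hDdef, hEdef]
    have e3 : ((-1 : ℝ)) ^ 2 * R.cost (gd fun v => g v - γ v) = R.dir (fun v => g v - γ v) := by
      rw [neg_one_sq, one_mul]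
      rfl
    rw [e3] at h
    exact h
  rw [← hDdef] at hD hD0 ⊢
  rw [← hEdef] at hE hE0
  rw [← hGdef] at hG0
  have h3 : Dγ ≤ D + (2 * (Real.sqrt B * Real.sqrt ε₁) + ε₁) := by
    have q1 : Real.sqrt D ≤ Real.sqrt B := Real.sqrt_le_sqrt hD
    have q2 : Real.sqrt E ≤ Real.sqrt ε₁ := Real.sqrt_le_sqrt hE
    have q3 : Real.sqrt D * Real.sqrt E ≤ Real.sqrt B * Real.sqrt ε₁ :=
      mul_le_mul q1 q2 (Real.sqrt_nonneg _) (Real.sqrt_nonneg _)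
    calc Dγ = Real.sqrt Dγ ^ 2 := (Real.sq_sqrt hG0).symm
      _ ≤ (Real.sqrt D + Real.sqrt E) ^ 2 := pow_le_pow_left₀ (Real.sqrt_nonneg _) h2 2
      _ = Real.sqrt D ^ 2 + 2 * (Real.sqrt D * Real.sqrt E) + Real.sqrt E ^ 2 := by ring
      _ = D + 2 * (Real.sqrt D * Real.sqrt E) + E := by rw [Real.sq_sqrt hD0, Real.sq_sqrt hE0]
      _ ≤ D + (2 * (Real.sqrt B * Real.sqrt ε₁) + ε₁) := by linarith
  obtain ⟨T, hT⟩ : ∃ T, T = 2 * (Real.sqrt B * Real.sqrt ε₁) + ε₁ := ⟨_, rfl⟩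
  have hT0 : 0 ≤ T := by rw [hT]; positivity
  rw [← hT] at h3 ⊢
  -- first term
  have f1 : s⁻¹ * R.lmgf b (gd fun v => s * γ v) ≤ a / 2 * D + (s - 1) * a * B / 2 + a * T + ε₂ := by
    rw [fr_l11_dir_smul, ← hGdef] at hub
    have g1 : s⁻¹ * R.lmgf b (gd fun v => s * γ v) ≤ s⁻¹ * (a / 2 * (s ^ 2 * Dγ) + ε₂) :=
      mul_le_mul_of_nonneg_left hub (inv_nonneg.2 hs0.le)
    have g2 : s⁻¹ * (a / 2 * (s ^ 2 * Dγ) + ε₂) = s * (a / 2) * Dγ + s⁻¹ * ε₂ := by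
      field_simp
    have g3 : s⁻¹ * ε₂ ≤ ε₂ := mul_le_of_le_one_left hε₂ (inv_le_one_of_one_le₀ hs1.le)
    have g4 : s * (a / 2) * Dγ ≤ s * (a / 2) * (D + T) := mul_le_mul_of_nonneg_left h3 (by positivity)
    have g5 : (s - 1) * (a / 2) * D ≤ (s - 1) * (a / 2) * B :=
      mul_le_mul_of_nonneg_left hD (mul_nonneg (by linarith) (by positivity))
    have g6 : s * (a / 2 * T) ≤ 2 * (a / 2 * T) := mul_le_mul_of_nonneg_right hs2 (by positivity)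
    nlinarith [g1, g2, g3, g4, g5, g6]
  -- second term
  have f2 : s'⁻¹ * R.lmgf b (fun e => s' * gd (fun v => g v - γ v) e)
      ≤ 2 * Real.pi ^ 2 * β₁ * s' * ε₁ * Real.cosh (2 * Real.pi * s' * Real.sqrt ε₁) := by
    have h4 := fr_lmgf_ref2 R b hb (fun e => s' * gd (fun v => g v - γ v) e)
    have e3 : R.cost (fun e => s' * gd (fun v => g v - γ v) e) = s' ^ 2 * E := by
      rw [fr_l9_cost_smul, hEdef]
      rfl
    have e4 : Real.sqrt (s' ^ 2 * E) = s' * Real.sqrt E := by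
      rw [Real.sqrt_mul (sq_nonneg _), Real.sqrt_sq hs'0.le]
    rw [e3, e4] at h4
    have q2 : Real.sqrt E ≤ Real.sqrt ε₁ := Real.sqrt_le_sqrt hE
    have h5 : Real.cosh (2 * Real.pi * (s' * Real.sqrt E)) ≤ Real.cosh (2 * Real.pi * s' * Real.sqrt ε₁) := by
      rw [Real.cosh_le_cosh, abs_of_nonneg (by positivity), abs_of_nonneg (by positivity), ← mul_assoc]
      exact mul_le_mul_of_nonneg_left q2 (by positivity)
    have h6 : 2 * Real.pi ^ 2 * b * (s' ^ 2 * E) * Real.cosh (2 * Real.pi * (s' * Real.sqrt E))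
        ≤ 2 * Real.pi ^ 2 * β₁ * (s' ^ 2 * ε₁) * Real.cosh (2 * Real.pi * s' * Real.sqrt ε₁) := by
      gcongr
    have h7 := mul_le_mul_of_nonneg_left (h4.trans h6) (inv_nonneg.2 hs'0.le)
    refine h7.trans (le_of_eq ?_)
    field_simp
  linarith

/-- L-FR-L9.  **Closure.**  `B` bounds `dir g` (`fr_reg_bdd`).  `s ∈ (1,2]` close to `1`, then `ε₁` small, `γ` from `Reg` with `dir (g - γ) ≤ ε₁`.   `fr_holder`: `lmgf g ≤ s⁻¹ lmgf (s γ) + s'⁻¹ lmgf (s' (g - γ))`;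
`s γ` is `C2bd (s M)`: `fr_lap_ub_c2` gives `s⁻¹ lmgf (s γ) ≤ s a/2 dir γ + ε/4`; `√(dir γ) ≤ √(dir g) + √ε₁` (`sqrt_cost_add_le`); `fr_lmgf_ref2`: `s'⁻¹ lmgf (s' (g-γ)) ≤ 2π² β₁ s' ε₁ cosh (2π s' √ε₁)`. -/
theorem fr_lap_ub {b : ℕ → ℝ} {n : ℕ → ℕ} {a : ℝ} (hS : ScaleCoef b n a) {R : ℕ → Rc} (hR : Adm n R)
    {g : ℕ → ℤ × ℤ → ℝ} (hg : Reg n R g) (ε : ℝ) (hε : 0 < ε) :
    ∀ᶠ k in atTop, (R k).lmgf (b k) (gd (g k)) ≤ a / 2 * (R k).dir (g k) + ε := by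
  have ha : 0 ≤ a := fr_scaleCoef_nonneg hS
  obtain ⟨β₀, β₁, hβ0, hβ⟩ := hS.1
  obtain ⟨C, hC⟩ := fr_reg_bdd hS.2.1 hR hg
  obtain ⟨B, hB⟩ : ∃ B, B = |C| := ⟨_, rfl⟩
  have hB0 : 0 ≤ B := by rw [hB]; exact abs_nonneg _
  have haB : 0 ≤ a * B := mul_nonneg ha hB0
  -- the exponent
  obtain ⟨s, hs⟩ : ∃ s, s = 1 + min 1 (ε / (2 * (a * B + 1))) := ⟨_, rfl⟩
  have hs1 : 1 < s := by
    rw [hs]
    have : 0 < min 1 (ε / (2 * (a * B + 1))) := lt_min one_pos (by positivity)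
    linarith
  have hs2 : s ≤ 2 := by
    rw [hs]
    have := min_le_left 1 (ε / (2 * (a * B + 1)))
    linarith
  have hsB : (s - 1) * a * B / 2 ≤ ε / 4 := by
    have h1 : s - 1 ≤ ε / (2 * (a * B + 1)) := by
      rw [hs]
      have := min_le_right 1 (ε / (2 * (a * B + 1)))
      linarith
    have h2 : (s - 1) * (a * B) ≤ ε / (2 * (a * B + 1)) * (a * B) := mul_le_mul_of_nonneg_right h1 haB
    have h3 : ε / (2 * (a * B + 1)) * (a * B) ≤ ε / 2 := by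
      rw [div_mul_eq_mul_div, div_le_div_iff₀ (by positivity) (by positivity)]
      nlinarith
    linarith
  obtain ⟨s', hs'⟩ : ∃ s', s' = Real.conjExponent s := ⟨_, rfl⟩
  have hss : s.HolderConjugate s' := by
    rw [hs']
    exact Real.HolderConjugate.conjExponent hs1
  -- the distance
  have hcont : Continuous fun x : ℝ => a * (2 * (Real.sqrt B * Real.sqrt x) + x)
      + 2 * Real.pi ^ 2 * β₁ * s' * x * Real.cosh (2 * Real.pi * s' * Real.sqrt x) := by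
    fun_prop
  obtain ⟨ε₁, hε₁pos, hε₁⟩ : ∃ ε₁ : ℝ, 0 < ε₁ ∧ a * (2 * (Real.sqrt B * Real.sqrt ε₁) + ε₁)
      + 2 * Real.pi ^ 2 * β₁ * s' * ε₁ * Real.cosh (2 * Real.pi * s' * Real.sqrt ε₁) < ε / 2 := by
    have h0 := hcont.tendsto 0
    simp only [Real.sqrt_zero, mul_zero, add_zero, zero_mul] at h0
    have h1 := h0.eventually (gt_mem_nhds (show (0 : ℝ) < ε / 2 by positivity))
    have h2 := (h1.filter_mono nhdsWithin_le_nhds).and (self_mem_nhdsWithin : Set.Ioi (0 : ℝ) ∈ 𝓝[>] 0)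
    obtain ⟨x, hx1, hx2⟩ := h2.exists
    exact ⟨x, hx2, hx1⟩
  obtain ⟨M, γ, hγ, hclose⟩ := hg ε₁ hε₁pos
  have hub := fr_lap_ub_c2 hS hR (s * M) (fun k v => s * γ k v)
    (fun k => fr_l9_c2bd_smul (hγ k) s (by linarith)) (ε / 4) (by positivity)
  filter_upwards [hC, hclose, hub] with k hk1 hk2 hk3
  have h := fr_l9_fin (R k) (b k) β₁ (fr_l11_bpos hS k) (hβ k).2 a ha (g k) (γ k) s s' hss hs2 B ε₁ (ε / 4)
    (by positivity) (hk1.trans (by rw [hB]; exact le_abs_self C)) hk2 hk3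
  linarith

/-- L-FR-L9.  **[C](2.4) = [E](5.4).**  Lower: `fr_lmgf_lower`, `fr_free_var`.  Upper: `fr_lap_ub`. -/
theorem fr_free_laplace {b : ℕ → ℝ} {n : ℕ → ℕ} {a : ℝ} (hS : ScaleCoef b n a) {R : ℕ → Rc} (hR : Adm n R)
    {g : ℕ → ℤ × ℤ → ℝ} (hg : Reg n R g) :
    Tendsto (fun k => (R k).lmgf (b k) (gd (g k)) - a / 2 * (R k).dir (g k)) atTop (𝓝 0) := by
  rw [Metric.tendsto_nhds]
  intro ε hε
  have h1 := (Metric.tendsto_nhds.1 (fr_free_var hS hR hg)) ε hε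
  have h2 := fr_lap_ub hS hR hg (ε / 2) (by positivity)
  filter_upwards [h1, h2] with k hk1 hk2
  rw [Real.dist_eq, sub_zero] at hk1 ⊢
  have h3 := fr_lmgf_lower (R k) (b k) (fr_l11_bpos hS k) (gd (g k))
  have h4 := (abs_lt.1 hk1).1
  rw [abs_lt]
  constructor <;> linarith

/-! ## 3. Moments, cumulants, characteristic functions -/

/-- tail of a power series with nonnegative coefficients, `0 ≤ t ≤ 1`. -/
theorem fr_l10_tail (a : ℕ → ℝ) (ha : ∀ j, 0 ≤ a j) {t St S1 : ℝ} (ht0 : 0 ≤ t) (ht1 : t ≤ 1)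
    (hSt : HasSum (fun j => a j * t ^ j) St) (hS1 : HasSum (fun j => a j * (1 : ℝ) ^ j) S1) (n : ℕ) :
    0 ≤ St - ∑ i ∈ Finset.range n, a i * t ^ i ∧ St - ∑ i ∈ Finset.range n, a i * t ^ i ≤ t ^ n * S1 := by
  have h1 := (hasSum_nat_add_iff' n).2 hSt
  have h2 := (hasSum_nat_add_iff' n).2 hS1
  have h3 : 0 ≤ ∑ i ∈ Finset.range n, a i * (1 : ℝ) ^ i :=
    Finset.sum_nonneg fun i _ => mul_nonneg (ha i) (by positivity)
  refine ⟨h1.nonneg fun i => mul_nonneg (ha _) (by positivity), ?_⟩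
  have h4 : St - ∑ i ∈ Finset.range n, a i * t ^ i ≤ t ^ n * (S1 - ∑ i ∈ Finset.range n, a i * (1 : ℝ) ^ i) := by
    refine hasSum_le (fun i => ?_) h1 (h2.mul_left (t ^ n))
    have h5 : t ^ i ≤ 1 := pow_le_one₀ ht0 ht1
    have h6 : 0 ≤ t ^ n := by positivity
    rw [one_pow, mul_one, pow_add]
    calc a (i + n) * (t ^ i * t ^ n) = t ^ n * (a (i + n) * t ^ i) := by ring
      _ ≤ t ^ n * (a (i + n) * 1) := by
        exact mul_le_mul_of_nonneg_left (mul_le_mul_of_nonneg_left h5 (ha _)) h6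
      _ = t ^ n * a (i + n) := by rw [mul_one]
  refine h4.trans (mul_le_mul_of_nonneg_left (by linarith) (by positivity))

/-- the key inequality of `coeff_tendsto`, for two fixed series. -/
theorem fr_l10_key (a b : ℕ → ℝ) (ha : ∀ j, 0 ≤ a j) (hb : ∀ j, 0 ≤ b j) {t Ft F1 Gt G1 : ℝ} (ht0 : 0 ≤ t) (ht1 : t ≤ 1)
    (hFt : HasSum (fun j => a j * t ^ j) Ft) (hF1 : HasSum (fun j => a j * (1 : ℝ) ^ j) F1)
    (hGt : HasSum (fun j => b j * t ^ j) Gt) (hG1 : HasSum (fun j => b j * (1 : ℝ) ^ j) G1) (j : ℕ) :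
    t ^ j * |a j - b j| ≤ |Ft - Gt| + ∑ i ∈ Finset.range j, |a i - b i| + t ^ (j + 1) * (F1 + G1) := by
  obtain ⟨p1, p2⟩ := fr_l10_tail a ha ht0 ht1 hFt hF1 (j + 1)
  obtain ⟨q1, q2⟩ := fr_l10_tail b hb ht0 ht1 hGt hG1 (j + 1)
  rw [Finset.sum_range_succ] at p1 p2 q1 q2
  have hs : |∑ i ∈ Finset.range j, a i * t ^ i - ∑ i ∈ Finset.range j, b i * t ^ i| ≤ ∑ i ∈ Finset.range j, |a i - b i| := by
    rw [← Finset.sum_sub_distrib]
    refine (Finset.abs_sum_le_sum_abs _ _).trans (Finset.sum_le_sum fun i _ => ?_)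
    rw [← sub_mul, abs_mul, abs_of_nonneg (by positivity : 0 ≤ t ^ i)]
    exact mul_le_of_le_one_right (abs_nonneg _) (pow_le_one₀ ht0 ht1)
  have htj : 0 ≤ t ^ j := by positivity
  have e : t ^ j * |a j - b j| = |a j * t ^ j - b j * t ^ j| := by
    rw [← sub_mul, abs_mul, abs_of_nonneg htj, mul_comm]
  rw [e]
  have hF1' : 0 ≤ t ^ (j + 1) * F1 := le_trans p1 p2
  have hG1' : 0 ≤ t ^ (j + 1) * G1 := le_trans q1 q2
  have habs1 := abs_le.1 hs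
  have habs2 := le_abs_self (Ft - Gt)
  have habs3 := neg_abs_le (Ft - Gt)
  rw [mul_add]
  rw [abs_le]
  constructor <;> linarith [habs1.1, habs1.2]

/-- L-FR-L10 (Mathlib only).  **Pointwise convergence of power series with nonnegative coefficients gives convergence of the coefficients.**  Strong induction on `j`.  For `t ∈ (0,1]`:
`0 ≤ F k t - ∑_{i ≤ j} c k i t^i ≤ t^{j+1} F k 1` (termwise `t^i ≤ t^{j+1}` for `i > j`), same for `G`.  So `t^j |c k j - d k j| ≤ |F k t - G k t| + ∑_{i<j} |c k i - d k i| + t^{j+1} (F k 1 + G k 1)`,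
and eventually `F k 1 ≤ B + 1`: `limsup |c k j - d k j| ≤ t (2B + 1)` for every `t`. -/
theorem coeff_tendsto (c d : ℕ → ℕ → ℝ) (hc : ∀ k j, 0 ≤ c k j) (hd : ∀ k j, 0 ≤ d k j) (F G : ℕ → ℝ → ℝ)
    (hF : ∀ k t, 0 ≤ t → HasSum (fun j => c k j * t ^ j) (F k t)) (hG : ∀ k t, 0 ≤ t → HasSum (fun j => d k j * t ^ j) (G k t))
    (hB : ∀ t : ℝ, ∃ B : ℝ, ∀ᶠ k in atTop, G k t ≤ B) (h : ∀ t : ℝ, 0 < t → Tendsto (fun k => F k t - G k t) atTop (𝓝 0)) (j : ℕ) :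
    Tendsto (fun k => c k j - d k j) atTop (𝓝 0) := by
  induction j using Nat.strong_induction_on with
  | _ j ih =>
    rw [Metric.tendsto_nhds]
    intro ε hε
    obtain ⟨B, hB1⟩ := hB 1
    obtain ⟨M, hM⟩ : ∃ M : ℝ, M = 2 * |B| + 2 := ⟨_, rfl⟩
    have hM0 : 0 < M := by rw [hM]; positivity
    have hFG1 : ∀ᶠ k in atTop, F k 1 + G k 1 ≤ M := by
      have h1 := (Metric.tendsto_nhds.1 (h 1 one_pos)) 1 one_pos
      filter_upwards [h1, hB1] with k hk1 hk2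
      rw [Real.dist_eq, sub_zero] at hk1
      have := (abs_lt.1 hk1).2
      have := le_abs_self B
      rw [hM]
      linarith
    obtain ⟨t, ht⟩ : ∃ t : ℝ, t = min 1 (ε / (2 * M)) := ⟨_, rfl⟩
    have ht0 : 0 < t := by rw [ht]; exact lt_min one_pos (by positivity)
    have ht1 : t ≤ 1 := by rw [ht]; exact min_le_left _ _
    have htM : t * M ≤ ε / 2 := by
      have : t ≤ ε / (2 * M) := by rw [ht]; exact min_le_right _ _
      calc t * M ≤ ε / (2 * M) * M := mul_le_mul_of_nonneg_right this hM0.le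
        _ = ε / 2 := by field_simp
    have hE : Tendsto (fun k => |F k t - G k t| + ∑ i ∈ Finset.range j, |c k i - d k i|) atTop (𝓝 0) := by
      have h1 : Tendsto (fun k => |F k t - G k t|) atTop (𝓝 0) := by
        have := (h t ht0).abs
        rwa [abs_zero] at this
      have h2 : Tendsto (fun k => ∑ i ∈ Finset.range j, |c k i - d k i|) atTop (𝓝 0) := by
        have : Tendsto (fun k => ∑ i ∈ Finset.range j, |c k i - d k i|) atTop (𝓝 (∑ i ∈ Finset.range j, (0 : ℝ))) := by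
          refine tendsto_finsetSum _ fun i hi => ?_
          have := (ih i (Finset.mem_range.1 hi)).abs
          rwa [abs_zero] at this
        rwa [Finset.sum_const_zero] at this
      have := h1.add h2
      rwa [add_zero] at this
    have htj : 0 < t ^ j := by positivity
    have hE' := (Metric.tendsto_nhds.1 hE) (t ^ j * (ε / 2)) (by positivity)
    filter_upwards [hE', hFG1] with k hk1 hk2
    rw [Real.dist_eq, sub_zero] at hk1 ⊢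
    have hk1' := (abs_lt.1 hk1).2
    have key := fr_l10_key (c k) (d k) (hc k) (hd k) ht0.le ht1 (hF k t ht0.le) (hF k 1 zero_le_one)
      (hG k t ht0.le) (hG k 1 zero_le_one) j
    have h3 : t ^ (j + 1) * (F k 1 + G k 1) ≤ t ^ j * (ε / 2) := by
      calc t ^ (j + 1) * (F k 1 + G k 1) ≤ t ^ (j + 1) * M := mul_le_mul_of_nonneg_left hk2 (by positivity)
        _ = t ^ j * (t * M) := by ring
        _ ≤ t ^ j * (ε / 2) := mul_le_mul_of_nonneg_left htM htj.le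
    have h4 : t ^ j * |c k j - d k j| < t ^ j * ε := by
      calc t ^ j * |c k j - d k j| ≤ _ := key
        _ < t ^ j * (ε / 2) + t ^ j * (ε / 2) := add_lt_add_of_lt_of_le hk1' h3
        _ = t ^ j * ε := by ring
    exact lt_of_mul_lt_mul_left h4 htj.le

/-- tail of the alternating sum. -/
theorem fr_l10_alt (a : ℕ → ℝ) (ha : ∀ j, 0 ≤ a j) {S2 : ℝ} (hS2 : HasSum (fun j => a j * (2 : ℝ) ^ j) S2) (J : ℕ) :
    |∑' j, (-1 : ℝ) ^ j * a j - ∑ j ∈ Finset.range J, (-1 : ℝ) ^ j * a j| ≤ S2 / 2 ^ J := by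
  have hle : ∀ j, ‖(-1 : ℝ) ^ j * a j‖ ≤ a j * (2 : ℝ) ^ j := by
    intro j
    rw [norm_mul, norm_pow, norm_neg, norm_one, one_pow, one_mul, Real.norm_eq_abs, abs_of_nonneg (ha j)]
    exact le_mul_of_one_le_right (ha j) (one_le_pow₀ (by norm_num))
  have hsum : Summable (fun j => (-1 : ℝ) ^ j * a j) := Summable.of_norm_bounded hS2.summable hle
  have h1 := (hasSum_nat_add_iff' J).2 hsum.hasSum
  have h2 := (hasSum_nat_add_iff' J).2 hS2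
  have h3 : 0 ≤ ∑ i ∈ Finset.range J, a i * (2 : ℝ) ^ i :=
    Finset.sum_nonneg fun i _ => mul_nonneg (ha i) (by positivity)
  have h4 : HasSum (fun i => a (i + J) * (2 : ℝ) ^ (i + J) / 2 ^ J) ((S2 - ∑ i ∈ Finset.range J, a i * (2 : ℝ) ^ i) / 2 ^ J) :=
    h2.div_const _
  have h5 : ∀ i, ‖(-1 : ℝ) ^ (i + J) * a (i + J)‖ ≤ a (i + J) * (2 : ℝ) ^ (i + J) / 2 ^ J := by
    intro i
    rw [norm_mul, norm_pow, norm_neg, norm_one, one_pow, one_mul, Real.norm_eq_abs, abs_of_nonneg (ha _), pow_add,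
      ← mul_assoc, mul_div_assoc, div_self (by positivity), mul_one]
    exact le_mul_of_one_le_right (ha _) (one_le_pow₀ (by norm_num))
  have h6 : ‖∑' i, (-1 : ℝ) ^ (i + J) * a (i + J)‖ ≤ (S2 - ∑ i ∈ Finset.range J, a i * (2 : ℝ) ^ i) / 2 ^ J :=
    tsum_of_norm_bounded h4 h5
  rw [h1.tsum_eq, Real.norm_eq_abs] at h6
  refine h6.trans ?_
  exact div_le_div_of_nonneg_right (by linarith) (by positivity)

/-- L-FR-L10 (Mathlib only).  Alternating sums: `|∑_{j > J} (-1)^j c k j| ≤ 2^{-J} F k 2`, bounded eventually; the first `J` terms by `coeff_tendsto`. -/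
theorem alt_tendsto (c d : ℕ → ℕ → ℝ) (hc : ∀ k j, 0 ≤ c k j) (hd : ∀ k j, 0 ≤ d k j) (F G : ℕ → ℝ → ℝ)
    (hF : ∀ k t, 0 ≤ t → HasSum (fun j => c k j * t ^ j) (F k t)) (hG : ∀ k t, 0 ≤ t → HasSum (fun j => d k j * t ^ j) (G k t))
    (hB : ∀ t : ℝ, ∃ B : ℝ, ∀ᶠ k in atTop, G k t ≤ B) (h : ∀ t : ℝ, 0 < t → Tendsto (fun k => F k t - G k t) atTop (𝓝 0)) :
    Tendsto (fun k => ∑' j, (-1) ^ j * c k j - ∑' j, (-1) ^ j * d k j) atTop (𝓝 0) := by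
  rw [Metric.tendsto_nhds]
  intro ε hε
  obtain ⟨B, hB2⟩ := hB 2
  obtain ⟨M, hM⟩ : ∃ M : ℝ, M = 2 * |B| + 2 := ⟨_, rfl⟩
  have hM0 : 0 < M := by rw [hM]; positivity
  have hFG2 : ∀ᶠ k in atTop, F k 2 + G k 2 ≤ M := by
    have h1 := (Metric.tendsto_nhds.1 (h 2 two_pos)) 1 one_pos
    filter_upwards [h1, hB2] with k hk1 hk2
    rw [Real.dist_eq, sub_zero] at hk1
    have := (abs_lt.1 hk1).2
    have := le_abs_self B
    rw [hM]
    linarith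
  obtain ⟨J, hJ⟩ : ∃ J : ℕ, M / 2 ^ J < ε / 2 := by
    have h1 : Tendsto (fun J : ℕ => M * (1 / 2 : ℝ) ^ J) atTop (𝓝 (M * 0)) :=
      (tendsto_pow_atTop_nhds_zero_of_lt_one (by norm_num) (by norm_num)).const_mul M
    rw [mul_zero] at h1
    obtain ⟨J, hJ⟩ := ((Metric.tendsto_nhds.1 h1) (ε / 2) (by positivity)).exists
    refine ⟨J, ?_⟩
    rw [Real.dist_eq, sub_zero] at hJ
    have := (abs_lt.1 hJ).2
    rwa [one_div, inv_pow, ← div_eq_mul_inv] at this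
  have hE : Tendsto (fun k => ∑ i ∈ Finset.range J, |c k i - d k i|) atTop (𝓝 0) := by
    have : Tendsto (fun k => ∑ i ∈ Finset.range J, |c k i - d k i|) atTop (𝓝 (∑ i ∈ Finset.range J, (0 : ℝ))) := by
      refine tendsto_finsetSum _ fun i _ => ?_
      have := (coeff_tendsto c d hc hd F G hF hG hB h i).abs
      rwa [abs_zero] at this
    rwa [Finset.sum_const_zero] at this
  have hE' := (Metric.tendsto_nhds.1 hE) (ε / 2) (by positivity)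
  filter_upwards [hE', hFG2] with k hk1 hk2
  rw [Real.dist_eq, sub_zero] at hk1 ⊢
  have hk1' := (abs_lt.1 hk1).2
  have a1 := abs_le.1 (fr_l10_alt (c k) (hc k) (hF k 2 zero_le_two) J)
  have a2 := abs_le.1 (fr_l10_alt (d k) (hd k) (hG k 2 zero_le_two) J)
  have a3 : |∑ j ∈ Finset.range J, (-1 : ℝ) ^ j * c k j - ∑ j ∈ Finset.range J, (-1 : ℝ) ^ j * d k j|
      ≤ ∑ i ∈ Finset.range J, |c k i - d k i| := by
    rw [← Finset.sum_sub_distrib]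
    refine (Finset.abs_sum_le_sum_abs _ _).trans (Finset.sum_le_sum fun i _ => le_of_eq ?_)
    rw [← mul_sub, abs_mul, abs_pow, abs_neg, abs_one, one_pow, one_mul]
  have a3' := abs_le.1 a3
  have a4 : F k 2 / 2 ^ J + G k 2 / 2 ^ J ≤ M / 2 ^ J := by
    rw [← add_div]
    exact div_le_div_of_nonneg_right hk2 (by positivity)
  rw [abs_lt]
  constructor <;> linarith [a1.1, a1.2, a2.1, a2.2, a3'.1, a3'.2]

/-- the transform is the exponential of `lmgf`. -/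
theorem fr_l11_exp_lmgf (R : Rc) (b : ℝ) (hb : 0 < b) (g : ℤ × ℤ → ℝ) (t : ℝ) :
    (R.sys b).E0 (fun z => Real.exp (t * R.gradX b g z)) = Real.exp (R.lmgf b (gd fun v => t * g v)) := by
  have e1 : gd (fun v => t * g v) = fun e => t * gd g e := by
    funext e
    unfold gd
    ring
  have hpos : 0 < (R.sys b).E0 (fun z => Real.exp ((t • R.flowX b (gd g)) z)) := by
    rw [rd_E0_exp]
    exact div_pos (lsys_pos (R.sys b) (fr_ok R b hb) 0 _) (rd_w_pos (fr_ok R b hb) 0)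
  unfold Rc.lmgf
  rw [e1, flowX_smul, Real.exp_log hpos]
  rfl

/-- L-FR-L11.  `fr_free_laplace` for `t g` (`fr_reg_smul`; `gd (t g) = t gd g`, `flowX_smul`, `dir (t g) = t² dir g`); `E0 e^{..} = exp (lmgf)` (positivity: `rd_E0_exp`, `lsys_pos`, `rd_w_pos`);
`|e^x - e^y| ≤ e^{max x y} |x - y|` with `y` bounded (`fr_reg_bdd`). -/
theorem fr_free_mgf {b : ℕ → ℝ} {n : ℕ → ℕ} {a : ℝ} (hS : ScaleCoef b n a) {R : ℕ → Rc} (hR : Adm n R)
    {g : ℕ → ℤ × ℤ → ℝ} (hg : Reg n R g) (t : ℝ) :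
    Tendsto (fun k => ((R k).sys (b k)).E0 (fun z => Real.exp (t * (R k).gradX (b k) (g k) z))
      - Real.exp (a * (R k).dir (g k) * t ^ 2 / 2)) atTop (𝓝 0) := by
  have ha : 0 ≤ a := fr_scaleCoef_nonneg hS
  have hg' : Reg n R fun k v => t * g k v := fr_reg_smul hg (fun _ => t) |t| fun _ => le_rfl
  have h1 := fr_free_laplace hS hR hg'
  obtain ⟨C, hC⟩ := fr_reg_bdd hS.2.1 hR hg
  have h2 : Tendsto (fun k => Real.exp ((R k).lmgf (b k) (gd fun v => t * g k v) - a / 2 * (R k).dir (fun v => t * g k v)) - 1)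
      atTop (𝓝 0) := by
    have := (Real.continuous_exp.tendsto 0).comp h1
    rw [Real.exp_zero] at this
    have h3 := this.sub_const 1
    rwa [sub_self] at h3
  have h4 : ∀ᶠ k in atTop, |Real.exp (a * (R k).dir (g k) * t ^ 2 / 2)| ≤ Real.exp (a * C * t ^ 2 / 2) := by
    filter_upwards [hC] with k hk
    rw [abs_of_pos (Real.exp_pos _), Real.exp_le_exp]
    have : a * (R k).dir (g k) ≤ a * C := mul_le_mul_of_nonneg_left hk ha
    have h5 : a * (R k).dir (g k) * t ^ 2 ≤ a * C * t ^ 2 := mul_le_mul_of_nonneg_right this (sq_nonneg t)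
    linarith
  refine (bdd_le_mul_tendsto_zero' _ h4 h2).congr fun k => ?_
  rw [fr_l11_exp_lmgf (R k) (b k) (fr_l11_bpos hS k), fr_l11_dir_smul, mul_sub, mul_one, ← Real.exp_add]
  congr 2
  ring

/-- the series of the exponential, in the form of `coeff_tendsto`. -/
theorem fr_l12_exp (s t : ℝ) : HasSum (fun j : ℕ => s ^ j / (j ! : ℝ) * t ^ j) (Real.exp (s * t)) := by
  have h := NormedSpace.expSeries_div_hasSum_exp (s * t)
  rw [← Real.exp_eq_exp_ℝ] at h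
  have e : (fun j : ℕ => s ^ j / (j ! : ℝ) * t ^ j) = fun j : ℕ => (s * t) ^ j / (j ! : ℝ) := by
    funext j
    rw [mul_pow]
    ring
  rw [e]
  exact h

/-- nonnegativity of `E0`. -/
theorem fr_l12_E0_nonneg {S : LSys} (hS : S.Ok) (F : S.L → ℝ) (h : ∀ z, 0 ≤ F z) : 0 ≤ S.E0 F := by
  rw [rd_E0_eq]
  exact div_nonneg (rd_Zf_nonneg hS 0 h) (rd_w_pos hS 0).le

/-- the data of `coeff_tendsto`, `alt_tendsto` for the gradient tests. -/
theorem fr_l12_data {b : ℕ → ℝ} {n : ℕ → ℕ} {a : ℝ} (hS : ScaleCoef b n a) {R : ℕ → Rc} (hR : Adm n R)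
    {g : ℕ → ℤ × ℤ → ℝ} (hg : Reg n R g) :
    (∀ k j, 0 ≤ ((R k).sys (b k)).E0 (fun z => (R k).gradX (b k) (g k) z ^ (2 * j)) / ((2 * j)! : ℝ)) ∧
    (∀ k j, 0 ≤ (a * (R k).dir (g k) / 2) ^ j / (j ! : ℝ)) ∧
    (∀ k t, 0 ≤ t → HasSum (fun j => ((R k).sys (b k)).E0 (fun z => (R k).gradX (b k) (g k) z ^ (2 * j)) / ((2 * j)! : ℝ) * t ^ j)
      (((R k).sys (b k)).E0 (fun z => Real.exp (Real.sqrt t * (R k).gradX (b k) (g k) z)))) ∧
    (∀ k t, 0 ≤ t → HasSum (fun j => (a * (R k).dir (g k) / 2) ^ j / (j ! : ℝ) * t ^ j) (Real.exp (a * (R k).dir (g k) / 2 * t))) ∧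
    (∀ t : ℝ, ∃ B : ℝ, ∀ᶠ k in atTop, Real.exp (a * (R k).dir (g k) / 2 * t) ≤ B) ∧
    (∀ t : ℝ, 0 < t → Tendsto (fun k => ((R k).sys (b k)).E0 (fun z => Real.exp (Real.sqrt t * (R k).gradX (b k) (g k) z))
      - Real.exp (a * (R k).dir (g k) / 2 * t)) atTop (𝓝 0)) := by
  have ha : 0 ≤ a := fr_scaleCoef_nonneg hS
  have hok : ∀ k, ((R k).sys (b k)).Ok := fun k => fr_ok (R k) (b k) (fr_l11_bpos hS k)
  refine ⟨fun k j => ?_, fun k j => ?_, fun k t ht => ?_, fun k t _ => fr_l12_exp _ _, fun t => ?_, fun t ht => ?_⟩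
  · exact div_nonneg (fr_l12_E0_nonneg (hok k) _ fun z => (even_two_mul j).pow_nonneg _) (Nat.cast_nonneg _)
  · have := fr_l11_dir_nonneg (R k) (g k)
    positivity
  · have h := E0_exp_series _ (hok k) ((R k).gradX (b k) (g k)) (Real.sqrt t)
    have e : (fun j : ℕ => ((R k).sys (b k)).E0 (fun z => (R k).gradX (b k) (g k) z ^ (2 * j)) / ((2 * j)! : ℝ) * t ^ j)
        = fun j : ℕ => Real.sqrt t ^ (2 * j) / ((2 * j)! : ℝ) * ((R k).sys (b k)).E0 fun z => (R k).gradX (b k) (g k) z ^ (2 * j) := by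
      funext j
      rw [pow_mul, Real.sq_sqrt ht]
      ring
    rw [e]
    exact h
  · obtain ⟨C, hC⟩ := fr_reg_bdd hS.2.1 hR hg
    refine ⟨Real.exp (a * C / 2 * |t|), ?_⟩
    filter_upwards [hC] with k hk
    rw [Real.exp_le_exp]
    have h0 := fr_l11_dir_nonneg (R k) (g k)
    have h1 : a * (R k).dir (g k) / 2 ≤ a * C / 2 := by
      have := mul_le_mul_of_nonneg_left hk ha
      linarith
    have h2 : 0 ≤ a * (R k).dir (g k) / 2 := by positivity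
    calc a * (R k).dir (g k) / 2 * t ≤ a * (R k).dir (g k) / 2 * |t| := mul_le_mul_of_nonneg_left (le_abs_self t) h2
      _ ≤ a * C / 2 * |t| := mul_le_mul_of_nonneg_right h1 (abs_nonneg t)
  · refine (fr_free_mgf hS hR hg (Real.sqrt t)).congr fun k => ?_
    rw [Real.sq_sqrt ht.le]
    congr 2
    ring

/-- `(2j)! = (2j-1)‼ 2^j j!`. -/
theorem fr_l12_fact (j : ℕ) : ((2 * j)! : ℝ) = ((2 * j - 1).doubleFactorial : ℝ) * (2 ^ j * (j ! : ℝ)) := by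
  rcases j with _ | j
  · simp
  · have h1 : 2 * (j + 1) = (2 * j + 1) + 1 := by ring
    have h2 : 2 * (j + 1) - 1 = 2 * j + 1 := by omega
    rw [h2]
    have h3 : (2 * (j + 1))! = (2 * (j + 1))‼ * (2 * j + 1)‼ := by
      conv_lhs => rw [h1]
      rw [Nat.factorial_eq_mul_doubleFactorial, ← h1]
    rw [h3, Nat.doubleFactorial_two_mul]
    push_cast
    ring

/-- L-FR-L12.  `coeff_tendsto` with `c k j = E0 X^{2j} / (2j)!`, `F k τ = E0 e^{√τ X}` (`E0_exp_series`, `(√τ)^{2j} = τ^j`), `d k j = (a dir / 2)^j / j!`, `G k τ = exp (a dir τ / 2)` (`Real.hasSum_exp`-type lemma), `fr_free_mgf` at `t = √τ`,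
`fr_scaleCoef_nonneg`, `fr_reg_bdd`.   Multiply by `(2j)!`: `(2j)! / (2^j j!) = (2j-1)‼` (`Nat.factorial_eq_mul_doubleFactorial`, `Nat.doubleFactorial_two_mul`; `j = 0` apart). -/
theorem fr_free_moment {b : ℕ → ℝ} {n : ℕ → ℕ} {a : ℝ} (hS : ScaleCoef b n a) {R : ℕ → Rc} (hR : Adm n R)
    {g : ℕ → ℤ × ℤ → ℝ} (hg : Reg n R g) (j : ℕ) :
    Tendsto (fun k => ((R k).sys (b k)).E0 (fun z => (R k).gradX (b k) (g k) z ^ (2 * j))
      - ((2 * j - 1).doubleFactorial : ℝ) * (a * (R k).dir (g k)) ^ j) atTop (𝓝 0) := by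
  obtain ⟨hc, hd, hF, hG, hB, h⟩ := fr_l12_data hS hR hg
  have h1 := (coeff_tendsto _ _ hc hd _ _ hF hG hB h j).const_mul ((2 * j)! : ℝ)
  rw [mul_zero] at h1
  refine h1.congr fun k => ?_
  have h0 : ((2 * j)! : ℝ) ≠ 0 := by positivity
  rw [mul_sub, mul_div_cancel₀ _ h0]
  congr 1
  rw [fr_l12_fact, div_pow]
  have h2 : (j ! : ℝ) ≠ 0 := by positivity
  field_simp

/-- products of convergent differences. -/
theorem fr_l13_mul {u v p q : ℕ → ℝ} (hu : Tendsto (fun k => u k - p k) atTop (𝓝 0))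
    (hv : Tendsto (fun k => v k - q k) atTop (𝓝 0)) (B : ℝ) (hp : ∀ᶠ k in atTop, |p k| ≤ B) (hq : ∀ᶠ k in atTop, |q k| ≤ B) :
    Tendsto (fun k => u k * v k - p k * q k) atTop (𝓝 0) := by
  have h1 := hu.mul hv
  have h2 := bdd_le_mul_tendsto_zero' B hp hv
  have h3 := bdd_le_mul_tendsto_zero' B hq hu
  have h4 := (h1.add h2).add h3
  rw [mul_zero, add_zero, add_zero] at h4
  refine h4.congr fun k => ?_
  ring

/-- polarisation of the fourth moment. -/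
theorem fr_l13_E0 {S : LSys} (hS : S.Ok) (X Y : S.L →+ ℝ) :
    12 * S.E0 (fun z => X z ^ 2 * Y z ^ 2) = S.E0 (fun z => (X + Y) z ^ 4) + S.E0 (fun z => (X - Y) z ^ 4)
      - 2 * S.E0 (fun z => X z ^ 4) - 2 * S.E0 (fun z => Y z ^ 4) := by
  have d1 : S.Dom fun z => (X + Y) z ^ 4 := rd_dom_pow (rd_dom_test (X + Y)) 4
  have d2 : S.Dom fun z => (X - Y) z ^ 4 := rd_dom_pow (rd_dom_test (X - Y)) 4
  have d3 : S.Dom fun z => X z ^ 4 := rd_dom_pow (rd_dom_test X) 4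
  have d4 : S.Dom fun z => Y z ^ 4 := rd_dom_pow (rd_dom_test Y) 4
  have d5 : S.Dom fun z => X z ^ 2 * Y z ^ 2 := rd_dom_mul (rd_dom_pow (rd_dom_test X) 2) (rd_dom_pow (rd_dom_test Y) 2)
  have h1 := rd_E0_add hS d1 d2
  have h2 := rd_E0_add hS (rd_dom_smul 12 d5) (rd_dom_add (rd_dom_smul 2 d3) (rd_dom_smul 2 d4))
  have h3 := rd_E0_add hS (rd_dom_smul 2 d3) (rd_dom_smul 2 d4)
  rw [h3, rd_E0_smul, rd_E0_smul, rd_E0_smul] at h2
  have e : (fun z => (X + Y) z ^ 4 + (X - Y) z ^ 4)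
      = fun z => 12 * (X z ^ 2 * Y z ^ 2) + (2 * X z ^ 4 + 2 * Y z ^ 4) := by
    funext z
    rw [AddMonoidHom.add_apply, AddMonoidHom.sub_apply]
    ring
  rw [e] at h1
  linarith

theorem fr_l13_dir_add (R : Rc) (g g' : ℤ × ℤ → ℝ) :
    R.dir (fun v => g v + g' v) = R.dir g + R.dir g' + 2 * R.cost2 (gd g) (gd g') := by
  unfold Rc.dir Rc.cost Rc.cost2
  rw [Finset.mul_sum, ← Finset.sum_add_distrib, ← Finset.sum_add_distrib]
  refine Finset.sum_congr rfl fun e _ => ?_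
  unfold gd
  ring

theorem fr_l13_dir_sub (R : Rc) (g g' : ℤ × ℤ → ℝ) :
    R.dir (fun v => g v + -1 * g' v) = R.dir g + R.dir g' - 2 * R.cost2 (gd g) (gd g') := by
  unfold Rc.dir Rc.cost Rc.cost2
  rw [Finset.mul_sum, ← Finset.sum_add_distrib, ← Finset.sum_sub_distrib]
  refine Finset.sum_congr rfl fun e _ => ?_
  unfold gd
  ring

theorem fr_l13_gradX_add (R : Rc) (b : ℝ) (g g' : ℤ × ℤ → ℝ) :
    R.gradX b (fun v => g v + g' v) = R.gradX b g + R.gradX b g' := by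
  have e : gd (fun v => g v + g' v) = fun e => gd g e + gd g' e := by
    funext e
    unfold gd
    ring
  unfold Rc.gradX
  rw [e, flowX_add]

theorem fr_l13_gradX_sub (R : Rc) (b : ℝ) (g g' : ℤ × ℤ → ℝ) :
    R.gradX b (fun v => g v + -1 * g' v) = R.gradX b g - R.gradX b g' := by
  have e : gd (fun v => g v + -1 * g' v) = fun e => gd g e + -1 * gd g' e := by
    funext e
    unfold gd
    ring
  unfold Rc.gradX
  rw [e, flowX_add R b (gd g) (fun e => -1 * gd g' e), flowX_smul, neg_one_smul, sub_eq_add_neg]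

theorem fr_l13_cost2_le (R : Rc) (w w' : Bond → ℝ) : |R.cost2 w w'| ≤ (R.cost w + R.cost w') / 2 := by
  unfold Rc.cost Rc.cost2
  rw [← Finset.sum_add_distrib, Finset.sum_div]
  refine (Finset.abs_sum_le_sum_abs _ _).trans (Finset.sum_le_sum fun e _ => ?_)
  rw [abs_le]
  constructor <;> nlinarith [sq_nonneg (w e + w' e), sq_nonneg (w e - w' e)]

/-- L-FR-L13.  `12 X²Y² = (X+Y)⁴ + (X-Y)⁴ - 2X⁴ - 2Y⁴`; `fr_free_moment` (`j = 2`) for `g, g', g ± g'`; `fr_free_var`, `fr_free_cov`; with `D, D', c` = `dir g`, `dir g'`, `cost2`: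
`3 (D + D' + 2c)² + 3 (D + D' - 2c)² - 6 D² - 6 D'² = 12 (D D' + 2 c²)`.   Products of convergent differences: everything is bounded (`fr_reg_bdd`, `|c| ≤ √(D D')`). -/
theorem fr_free_kap {b : ℕ → ℝ} {n : ℕ → ℕ} {a : ℝ} (hS : ScaleCoef b n a) {R : ℕ → Rc} (hR : Adm n R)
    {g g' : ℕ → ℤ × ℤ → ℝ} (hg : Reg n R g) (hg' : Reg n R g') :
    Tendsto (fun k => kap ((R k).sys (b k)) ((R k).gradX (b k) (g k)) ((R k).gradX (b k) (g' k))) atTop (𝓝 0) := by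
  have ha : 0 ≤ a := fr_scaleCoef_nonneg hS
  have hok : ∀ k, ((R k).sys (b k)).Ok := fun k => fr_ok (R k) (b k) (fr_l11_bpos hS k)
  have hgm : Reg n R fun k v => -1 * g' k v := fr_reg_smul hg' (fun _ => -1) 1 fun _ => by simp
  have m1 := fr_free_moment hS hR hg 2
  have m2 := fr_free_moment hS hR hg' 2
  have m3 := fr_free_moment hS hR (fr_reg_add hg hg') 2
  have m4 := fr_free_moment hS hR (fr_reg_add hg hgm) 2
  have v1 := fr_free_var hS hR hg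
  have v2 := fr_free_var hS hR hg'
  have c1 := fr_free_cov hS hR hg hg'
  obtain ⟨C, hC⟩ := fr_reg_bdd hS.2.1 hR hg
  obtain ⟨C', hC'⟩ := fr_reg_bdd hS.2.1 hR hg'
  obtain ⟨B, hB⟩ : ∃ B : ℝ, B = a * (|C| + |C'|) := ⟨_, rfl⟩
  have b1 : ∀ᶠ k in atTop, |a * (R k).dir (g k)| ≤ B := by
    filter_upwards [hC] with k hk
    have h0 := fr_l11_dir_nonneg (R k) (g k)
    rw [abs_of_nonneg (mul_nonneg ha h0), hB]
    exact mul_le_mul_of_nonneg_left (by linarith [le_abs_self C, abs_nonneg C']) ha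
  have b2 : ∀ᶠ k in atTop, |a * (R k).dir (g' k)| ≤ B := by
    filter_upwards [hC'] with k hk
    have h0 := fr_l11_dir_nonneg (R k) (g' k)
    rw [abs_of_nonneg (mul_nonneg ha h0), hB]
    exact mul_le_mul_of_nonneg_left (by linarith [le_abs_self C', abs_nonneg C]) ha
  have b3 : ∀ᶠ k in atTop, |a * (R k).cost2 (gd (g k)) (gd (g' k))| ≤ B := by
    filter_upwards [hC, hC'] with k hk hk'
    rw [abs_mul, abs_of_nonneg ha, hB]
    refine mul_le_mul_of_nonneg_left ?_ ha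
    have h1 := fr_l13_cost2_le (R k) (gd (g k)) (gd (g' k))
    have h2 : (R k).cost (gd (g k)) = (R k).dir (g k) := rfl
    have h3 : (R k).cost (gd (g' k)) = (R k).dir (g' k) := rfl
    have h4 := fr_l11_dir_nonneg (R k) (g k)
    have h5 := fr_l11_dir_nonneg (R k) (g' k)
    rw [h2, h3] at h1
    linarith [le_abs_self C', le_abs_self C]
  have p1 := fr_l13_mul v1 v2 B b1 b2
  have p2 := fr_l13_mul c1 c1 B b3 b3
  have h5 := (((((m3.add m4).sub (m1.const_mul 2)).sub (m2.const_mul 2)).div_const 12).sub p1).sub (p2.const_mul 2)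
  have hz : ((0 : ℝ) + 0 - 2 * 0 - 2 * 0) / 12 - 0 - 2 * 0 = 0 := by norm_num
  rw [hz] at h5
  refine h5.congr fun k => ?_
  have e1 := fr_l13_E0 (hok k) ((R k).gradX (b k) (g k)) ((R k).gradX (b k) (g' k))
  have e3 : (((2 * 2 - 1 : ℕ).doubleFactorial : ℕ) : ℝ) = 3 := by norm_num [Nat.doubleFactorial]
  have e4 : (2 * 2 : ℕ) = 4 := rfl
  rw [fr_l13_gradX_add, fr_l13_gradX_sub, fr_l13_dir_add, fr_l13_dir_sub, e3]
  simp only [e4]
  unfold kap Rc.var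
  have e5 : (R k).flowX (b k) (gd (g k)) = (R k).gradX (b k) (g k) := rfl
  have e6 : (R k).flowX (b k) (gd (g' k)) = (R k).gradX (b k) (g' k) := rfl
  rw [e5, e6]
  linear_combination (-1 / 12 : ℝ) * e1

/-- L-FR-L12.  `alt_tendsto` with the same data; `phi_series`; `exp (-s/2) = ∑ (-1)^j (s/2)^j / j!`. -/
theorem fr_free_char {b : ℕ → ℝ} {n : ℕ → ℕ} {a : ℝ} (hS : ScaleCoef b n a) {R : ℕ → Rc} (hR : Adm n R)
    {g : ℕ → ℤ × ℤ → ℝ} (hg : Reg n R g) :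
    Tendsto (fun k => ((R k).sys (b k)).phi ((R k).gradX (b k) (g k)) - Real.exp (-(a * (R k).dir (g k)) / 2)) atTop (𝓝 0) := by
  obtain ⟨hc, hd, hF, hG, hB, h⟩ := fr_l12_data hS hR hg
  refine (alt_tendsto _ _ hc hd _ _ hF hG hB h).congr fun k => ?_
  have hok : ((R k).sys (b k)).Ok := fr_ok (R k) (b k) (fr_l11_bpos hS k)
  congr 1
  · rw [← (phi_series _ hok ((R k).gradX (b k) (g k))).tsum_eq]
    refine tsum_congr fun j => ?_
    ring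
  · have h2 := fr_l12_exp (a * (R k).dir (g k) / 2) (-1)
    have e : a * (R k).dir (g k) / 2 * -1 = -(a * (R k).dir (g k)) / 2 := by ring
    rw [e] at h2
    rw [← h2.tsum_eq]
    refine tsum_congr fun j => ?_
    ring

/-! ## 4. [E]C5.6, quantitative -/

/-- the Laplace transform of a symmetric law is the mean of `cosh`. -/
theorem fr_l14_cosh (S : LSys) (hS : S.Ok) (X : S.L →+ ℝ) :
    S.E0 (fun z => Real.cosh (X z)) = S.E0 fun z => Real.exp (X z) := by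
  have h1 : S.E0 (fun z => Real.exp (-X z)) = S.E0 fun z => Real.exp (X z) := by
    rw [← rd_E0_inv fun z => Real.exp (X z)]
    congr 1
    funext z
    rw [map_neg]
  have h2 : (fun z => Real.cosh (X z)) = fun z => (1 / 2 : ℝ) * (Real.exp (X z) + Real.exp ((-X) z)) := by
    funext z
    rw [Real.cosh_eq, AddMonoidHom.neg_apply]
    ring
  rw [h2, rd_E0_smul, rd_E0_add hS (rd_dom_exp X) (rd_dom_exp (-X))]
  have h3 : S.E0 (fun z => Real.exp ((-X) z)) = S.E0 fun z => Real.exp (X z) := h1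
  rw [h3]
  ring

theorem fr_l14_dom_cosh (S : LSys) (X : S.L →+ ℝ) : S.Dom fun z => Real.cosh (X z) := by
  have h2 : (fun z => Real.cosh (X z)) = fun z => (1 / 2 : ℝ) * (Real.exp (X z) + Real.exp ((-X) z)) := by
    funext z
    rw [Real.cosh_eq, AddMonoidHom.neg_apply]
    ring
  rw [h2]
  exact rd_dom_smul _ (rd_dom_add (rd_dom_exp X) (rd_dom_exp (-X)))

theorem fr_l14_E0_nonneg (S : LSys) (hS : S.Ok) {F : S.L → ℝ} (hF : S.Dom F) (h : ∀ z, 0 ≤ F z) : 0 ≤ S.E0 F := by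
  have := rd_E0_mono hS (rd_dom_const 0) hF h
  rwa [rd_E0_const hS] at this

/-- the abstract form of [E]C5.6. -/
theorem fr_l14_abs (S : LSys) (hS : S.Ok) (X : S.L →+ ℝ) (V M6 D : ℝ) (hV : S.V0 X ≤ V)
    (h6 : S.E0 (fun z => X z ^ 6) ≤ M6) (hD : S.E0 (fun z => Real.exp ((2 • X) z)) ≤ D) :
    S.E0 (fun z => Real.exp (X z)) ≤ 1 + Real.sqrt (Real.sqrt (V * M6) * D) / 2 := by
  have dX : S.Dom fun z => X z := rd_dom_test X
  have dC : S.Dom fun z => Real.cosh (X z) := fr_l14_dom_cosh S X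
  have d2 : S.Dom fun z => X z ^ 2 := rd_dom_pow dX 2
  have d3 : S.Dom fun z => X z ^ 3 := rd_dom_pow dX 3
  have d2C : S.Dom fun z => X z ^ 2 * Real.cosh (X z) := rd_dom_mul d2 dC
  -- step 1, 2
  have s1 : S.E0 (fun z => Real.exp (X z)) ≤ 1 + S.E0 (fun z => X z ^ 2 * Real.cosh (X z)) / 2 := by
    rw [← fr_l14_cosh S hS X]
    have h1 : S.E0 (fun z => Real.cosh (X z)) ≤ S.E0 fun z => 1 + (1 / 2 : ℝ) * (X z ^ 2 * Real.cosh (X z)) := by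
      refine rd_E0_mono hS dC (rd_dom_add (rd_dom_const 1) (rd_dom_smul _ d2C)) fun z => ?_
      have := cosh_sub_one_le (X z)
      linarith
    rw [rd_E0_add hS (rd_dom_const 1) (rd_dom_smul _ d2C), rd_E0_const hS, rd_E0_smul] at h1
    linarith
  -- step 4
  have s4 : S.E0 (fun z => X z ^ 4) ≤ Real.sqrt (V * M6) := by
    have h1 := E0_cs S hS (fun z => X z) (fun z => X z ^ 3) dX d3
    have e1 : (fun z => X z * X z ^ 3) = fun z => X z ^ 4 := by funext z; ring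
    have e2 : (fun z => (X z ^ 3) ^ 2) = fun z => X z ^ 6 := by funext z; ring
    rw [e1, e2, ← rd_V0_eq] at h1
    apply Real.le_sqrt_of_sq_le
    refine h1.trans ?_
    have h0 : 0 ≤ S.V0 X := rd_V0_nonneg hS X
    have h06 : 0 ≤ S.E0 (fun z => X z ^ 6) :=
      fr_l14_E0_nonneg S hS (rd_dom_pow dX 6) fun z => by positivity
    exact mul_le_mul hV h6 h06 (h0.trans hV)
  -- step 7
  have s7 : S.E0 (fun z => Real.cosh (X z) ^ 2) ≤ D := by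
    refine le_trans ?_ hD
    rw [← fr_l14_cosh S hS (2 • X)]
    refine rd_E0_mono hS (rd_dom_pow dC 2) (fr_l14_dom_cosh S (2 • X)) fun z => ?_
    have e : (2 • X) z = 2 * X z := by simp
    rw [e, Real.cosh_two_mul, Real.cosh_sq]
    nlinarith [sq_nonneg (Real.sinh (X z))]
  -- step 3
  have s3 : S.E0 (fun z => X z ^ 2 * Real.cosh (X z)) ≤ Real.sqrt (Real.sqrt (V * M6) * D) := by
    have h1 := E0_cs S hS (fun z => X z ^ 2) (fun z => Real.cosh (X z)) d2 dC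
    have e1 : (fun z => (X z ^ 2) ^ 2) = fun z => X z ^ 4 := by funext z; ring
    rw [e1] at h1
    apply Real.le_sqrt_of_sq_le
    refine h1.trans ?_
    have h04 : 0 ≤ S.E0 (fun z => X z ^ 4) :=
      fr_l14_E0_nonneg S hS (rd_dom_pow dX 4) fun z => by positivity
    have h0C : 0 ≤ S.E0 (fun z => Real.cosh (X z) ^ 2) :=
      fr_l14_E0_nonneg S hS (rd_dom_pow dC 2) fun z => by positivity
    exact mul_le_mul s4 s7 h0C (h04.trans s4)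
  linarith

theorem fr_l14_alg (Q a M D : ℝ) (hQ : 0 ≤ Q) (ha : 0 ≤ a) (hM : 0 ≤ M) :
    1 + Real.sqrt (Real.sqrt (Q * a * M) * D) / 2 = 1 + Real.sqrt (Real.sqrt (Q * M) * D) / 2 * a ^ ((1 : ℝ) / 4) := by
  have e1 : Q * a * M = (Q * M) * a := by ring
  have e2 : a ^ ((1 : ℝ) / 4) = Real.sqrt (Real.sqrt a) := by
    rw [Real.sqrt_eq_rpow, Real.sqrt_eq_rpow, ← Real.rpow_mul ha]
    norm_num
  rw [e1, e2, Real.sqrt_mul (mul_nonneg hQ hM), mul_right_comm, Real.sqrt_mul' _ (Real.sqrt_nonneg _)]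
  ring

/-- L-FR-L14.  `E e^X = E cosh X` (`rd_E0_inv`) `≤ 1 + E[X² cosh X]/2` (`cosh_sub_one_le`) `≤ 1 + √(E X⁴) √(E cosh² X)/2` (`E0_cs`), `E X⁴ ≤ √(E X²) √(E X⁶)` (`E0_cs`), `E X² = (p₁² + p₂²) aCoef b m` (`fr_affine_sq`),
`E X⁶ ≤ C₆ (2π)⁶ (2P²)³` (`fr_ref_moment`, `fr_affine_cost`: cost `≤ 2P²`), `cosh² x ≤ cosh (2x)`, `E cosh 2X ≤ exp (β (cosh (4π √2 P) - 1))` (`fr_ref_mgf`). -/
theorem fr_affine_small (β P : ℝ) : ∃ C : ℝ, ∀ (b : ℝ), 0 < b → b ≤ β → ∀ (m : ℕ), 1 ≤ m → ∀ p₁ p₂ : ℝ, |p₁| ≤ P → |p₂| ≤ P →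
    ((C2.sq m).sys b).E0 (fun z => Real.exp ((C2.sq m).gradX b (fun v => (p₁ * v.1 + p₂ * v.2) / m) z))
      ≤ 1 + C * aCoef b m ^ ((1 : ℝ) / 4) := by
  obtain ⟨C6, hC6⟩ := fr_ref_moment β 6
  obtain ⟨T, hT⟩ : ∃ T : ℝ, T = 8 * Real.pi ^ 2 * P ^ 2 := ⟨_, rfl⟩
  obtain ⟨D, hD⟩ : ∃ D : ℝ, D = Real.exp (β * (Real.cosh (Real.sqrt (4 * T)) - 1)) := ⟨_, rfl⟩
  obtain ⟨M6, hM6⟩ : ∃ M6 : ℝ, M6 = max C6 0 * T ^ 3 := ⟨_, rfl⟩
  refine ⟨Real.sqrt (Real.sqrt (2 * P ^ 2 * M6) * D) / 2, fun b hb hbβ m hm p₁ p₂ hp₁ hp₂ => ?_⟩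
  have hβ : 0 < β := lt_of_lt_of_le hb hbβ
  have hmR : (0 : ℝ) < m := by exact_mod_cast hm
  have hP : 0 ≤ P := (abs_nonneg _).trans hp₁
  have hT0 : 0 ≤ T := by rw [hT]; positivity
  have hM0 : 0 ≤ M6 := by rw [hM6]; positivity
  have hD0 : 0 ≤ D := by rw [hD]; positivity
  have ha : 0 ≤ aCoef b m := fr_aCoef_nonneg b hb m
  have hS := fr_ok (C2.sq m) b hb
  have hpp : p₁ ^ 2 + p₂ ^ 2 ≤ 2 * P ^ 2 := by
    have h1 : p₁ ^ 2 ≤ P ^ 2 := sq_le_sq' (by linarith [(abs_le.1 hp₁).1]) (abs_le.1 hp₁).2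
    have h2 : p₂ ^ 2 ≤ P ^ 2 := sq_le_sq' (by linarith [(abs_le.1 hp₂).1]) (abs_le.1 hp₂).2
    linarith
  obtain ⟨g, hg⟩ : ∃ g : ℤ × ℤ → ℝ, g = fun v => (p₁ * v.1 + p₂ * v.2) / m := ⟨_, rfl⟩
  have hg' : g = fun v => p₁ / m * v.1 + p₂ / m * v.2 + 0 := by
    rw [hg]; funext v; field_simp; ring
  rw [← hg]
  obtain ⟨t, ht⟩ : ∃ t : ((C2.sq m).sys b).E → ℝ, t = fun e => 2 * Real.pi * gd g (domBond (D := (C2.sq m).set) (cut := ∅) e) := ⟨_, rfl⟩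
  have hX : (C2.sq m).gradX b g = flowS ((C2.sq m).sys b) t := by rw [ht]; rfl
  have hsum : ∑ e, t e ^ 2 ≤ T := by
    have h1 : ∑ e, t e ^ 2 = 4 * Real.pi ^ 2 * (C2.sq m).cost (gd g) := by
      rw [ht]; exact fr_sum_sq (C2.sq m) (gd g)
    have h2 : (C2.sq m).cost (gd g) = ((p₁ / m) ^ 2 + (p₂ / m) ^ 2) * ((m : ℝ) * ((m : ℝ) - 1)) := by
      rw [← fr_affine_cost (0, 0) m (p₁ / m) (p₂ / m) 0, hg']
      rfl
    have h3 : (C2.sq m).cost (gd g) ≤ 2 * P ^ 2 := by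
      rw [h2]
      have e : ((p₁ / m) ^ 2 + (p₂ / m) ^ 2) * ((m : ℝ) * ((m : ℝ) - 1)) = (p₁ ^ 2 + p₂ ^ 2) * (1 - (m : ℝ)⁻¹) := by
        field_simp
      rw [e]
      have h4 : 0 < (m : ℝ)⁻¹ := inv_pos.2 hmR
      have h5 : (m : ℝ)⁻¹ ≤ 1 := inv_le_one_of_one_le₀ (by exact_mod_cast hm)
      nlinarith [sq_nonneg p₁, sq_nonneg p₂]
    rw [h1, hT]
    have : 0 ≤ 4 * Real.pi ^ 2 := by positivity
    nlinarith
  have hsum0 : 0 ≤ ∑ e, t e ^ 2 := Finset.sum_nonneg fun e _ => sq_nonneg _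
  have hV : ((C2.sq m).sys b).V0 ((C2.sq m).gradX b g) ≤ 2 * P ^ 2 * aCoef b m := by
    have h1 : ((C2.sq m).sys b).V0 ((C2.sq m).gradX b g) = ((p₁ / m) ^ 2 + (p₂ / m) ^ 2) * (m : ℝ) ^ 2 * aCoef b m := by
      rw [← fr_affine_sq (0, 0) m b hb (p₁ / m) (p₂ / m) 0, hg']
      rfl
    rw [h1]
    have e : ((p₁ / m) ^ 2 + (p₂ / m) ^ 2) * (m : ℝ) ^ 2 = p₁ ^ 2 + p₂ ^ 2 := by field_simp
    rw [e]
    exact mul_le_mul_of_nonneg_right hpp ha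
  have h6 : ((C2.sq m).sys b).E0 (fun z => (C2.sq m).gradX b g z ^ 6) ≤ M6 := by
    have h1 := hC6 ((C2.sq m).sys b) hS (fun _ => hbβ) t
    rw [← hX] at h1
    have e : (fun z => |(C2.sq m).gradX b g z| ^ 6) = fun z => (C2.sq m).gradX b g z ^ 6 := by
      funext z
      exact (show Even 6 by decide).pow_abs _
    rw [e] at h1
    refine h1.trans ?_
    have e2 : Real.sqrt (∑ e, t e ^ 2) ^ 6 = (∑ e, t e ^ 2) ^ 3 := by
      have : Real.sqrt (∑ e, t e ^ 2) ^ 6 = (Real.sqrt (∑ e, t e ^ 2) ^ 2) ^ 3 := by ring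
      rw [this, Real.sq_sqrt hsum0]
    rw [e2, hM6]
    have h3 : (∑ e, t e ^ 2) ^ 3 ≤ T ^ 3 := pow_le_pow_left₀ hsum0 hsum 3
    calc C6 * (∑ e, t e ^ 2) ^ 3 ≤ max C6 0 * (∑ e, t e ^ 2) ^ 3 :=
          mul_le_mul_of_nonneg_right (le_max_left _ _) (by positivity)
      _ ≤ max C6 0 * T ^ 3 := mul_le_mul_of_nonneg_left h3 (le_max_right _ _)
  have hDD : ((C2.sq m).sys b).E0 (fun z => Real.exp ((2 • (C2.sq m).gradX b g) z)) ≤ D := by
    have h1 := fr_ref_mgf ((C2.sq m).sys b) hS β (fun _ => hbβ) (fun e => 2 * t e)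
    rw [frs_flowS_smul, ← hX] at h1
    have e : (fun z => Real.exp (((2 : ℝ) • (C2.sq m).gradX b g) z)) = fun z => Real.exp ((2 • (C2.sq m).gradX b g) z) := by
      funext z
      simp
    rw [e] at h1
    refine h1.trans ?_
    rw [hD]
    apply Real.exp_le_exp.2
    apply mul_le_mul_of_nonneg_left _ hβ.le
    have h2 : ∑ e, (2 * t e) ^ 2 = 4 * ∑ e, t e ^ 2 := by
      rw [Finset.mul_sum]
      exact Finset.sum_congr rfl fun e _ => by ring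
    rw [h2]
    have h3 : Real.sqrt (4 * ∑ e, t e ^ 2) ≤ Real.sqrt (4 * T) := Real.sqrt_le_sqrt (by linarith)
    have h4 : Real.cosh (Real.sqrt (4 * ∑ e, t e ^ 2)) ≤ Real.cosh (Real.sqrt (4 * T)) := by
      rw [Real.cosh_le_cosh, abs_of_nonneg (Real.sqrt_nonneg _), abs_of_nonneg (Real.sqrt_nonneg _)]
      exact h3
    linarith
  have h0 := fr_l14_abs ((C2.sq m).sys b) hS ((C2.sq m).gradX b g) _ _ _ hV h6 hDD
  exact h0.trans (le_of_eq (fr_l14_alg _ _ _ _ (by positivity) ha hM0))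

end

end Claimed.Agent.R285.Free
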