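import Claimed.Agent.R285.Free.P1

/-!
# ROW 285, unit FREE, file 7 (POT): exact potentials, the radial flow, Neumann cosines and smears (architect helper60).   Paper-free; s2 and the 1D part of s3 are Mathlib only.

Exports for `Read/C2.lean`: `face_potential`, `face_affine`, `gVar_grad`, `radial_flow`, `reg_smear` (names `fr_*`).

## s2, the radial flow [B](2.25) = [C](2.14) = [E](5.22)
Cells = unit squares, `z₀` = centre of the cell `i0`.  Flux of `z ↦ (z - z₀)/(2π|z - z₀|²)` through a unit face = (angle subtended at `z₀`)/2π `= fl c y`, `c` = signed distance of the line of the face, `[y, y+1]` its position; `c, y ∈ ℤ + ½`, never `0`.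
* divergence: EXACT, from `arctan u + arctan u⁻¹ = ± π/2` (`fl_div`).
* energy: `(mean of two fluxes)² ≤ mean of squares`, so the energy is `≤ ∑_faces fl²`;  on one line `∑_y fl(c,y)² ≤ 1/(8π|c|)` by Cauchy-Schwarz in telescoping form (`arctan_cs`, `psiA_abs_le`);  `∑_c 1/|c| ≤ 6 + 2 log G`.  Sharp constant `1/(2π)`, no integral, no polar coordinates.
* boundary values: the defect is `≤ 1/G` per face, total `0`; it is carried by an explicit divergence free flow of sup norm `≤ 5/G` (`corr_flow`); cross term `≤ 2 (5/G) ∑ |fl| ≤ 2 (5/G)(G+1)` as a line subtends at most `π`.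
All identities and inequalities were checked numerically (`G ≤ 100`: excess `≤ 0.1`, second sum `≈ 0.71`).

LEAVES `L-FR-Q*`: every `sorry`.
-/

set_option autoImplicit false

namespace Claimed.Agent.R285.Free

open Filter Topology C2
open scoped Classical

noncomputable section

/-! ## 1. The free Laplacian; exact potentials -/

/-- L-FR-Q1.  The four neighbours.  `R.lap g v = ∑_{e ∈ bd} gd g e (1_{e.snd = v} - 1_{e.1 = v})`: only the bonds `(v,true)`, `(v,false)`, `((v.1-1,v.2),true)`, `((v.1,v.2-1),false)` contribute (`Finset.sum_eq_...`, `mem_bd`). -/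
theorem lap_eq (R : Rc) (g : ℤ × ℤ → ℝ) (v : ℤ × ℤ) (hv : v ∈ R.set) : R.lap g v =
    (if (v.1 + 1, v.2) ∈ R.set then g v - g (v.1 + 1, v.2) else 0) + (if (v.1 - 1, v.2) ∈ R.set then g v - g (v.1 - 1, v.2) else 0)
      + (if (v.1, v.2 + 1) ∈ R.set then g v - g (v.1, v.2 + 1) else 0) + (if (v.1, v.2 - 1) ∈ R.set then g v - g (v.1, v.2 - 1) else 0) := by
  obtain ⟨a, b⟩ := v
  set F : Bond → ℝ := fun e => gd g e * ((if e.snd = (a, b) then 1 else 0) - (if e.1 = (a, b) then 1 else 0)) with hF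
  set S4 : Finset Bond := {((a, b), true), ((a, b), false), ((a - 1, b), true), ((a, b - 1), false)} with hS4
  have h1 : R.lap g (a, b) = ∑ e ∈ S4, if e ∈ R.bd then F e else 0 := by
    rw [← Finset.sum_filter]
    symm
    apply Finset.sum_subset
    · intro e he; exact (Finset.mem_filter.1 he).2
    · intro e he hne
      obtain ⟨⟨x, y⟩, t⟩ := e
      have hn : ((x, y), t) ∉ S4 := fun h => hne (Finset.mem_filter.2 ⟨h, he⟩)
      have n1 : ¬ ((x, y) = (a, b)) := by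
        intro h
        apply hn
        rw [h, hS4]
        cases t <;> simp
      have n2 : ¬ (Bond.snd ((x, y), t) = (a, b)) := by
        intro h
        apply hn
        rw [hS4]
        cases t
        · simp only [Bond.snd, Bool.false_eq_true, if_false, Prod.mk.injEq] at h
          obtain ⟨rfl, rfl⟩ := h
          simp
        · simp only [Bond.snd, if_true, Prod.mk.injEq] at h
          obtain ⟨rfl, rfl⟩ := h
          simp
      show gd g ((x, y), t) * ((if Bond.snd ((x, y), t) = (a, b) then 1 else 0) - (if (x, y) = (a, b) then 1 else 0)) = 0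
      rw [if_neg n1, if_neg n2]
      ring
  rw [h1, hS4, Finset.sum_insert (by simp; omega), Finset.sum_insert (by simp; omega), Finset.sum_insert (by simp), Finset.sum_singleton]
  simp only [mem_bd, hF, gd, Bond.snd, if_true, Bool.false_eq_true, if_false, hv, true_and, and_true, sub_add_cancel,
    Prod.mk.injEq, add_eq_left, one_ne_zero, and_false, sub_eq_self]
  have e1 : ∀ (P : Prop) [Decidable P] (x : ℝ), (if P then x * ((0 : ℝ) - 1) else 0) = if P then -x else 0 := by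
    intro P _ x; split_ifs <;> ring
  have e2 : ∀ (P : Prop) [Decidable P] (x : ℝ), (if P then x * ((1 : ℝ) - 0) else 0) = if P then x else 0 := by
    intro P _ x; split_ifs <;> ring
  simp only [e1, e2, neg_sub]
  ring

/-- L-FR-Q1.  Summation by parts (`Finset.sum_comm`, `Finset.sum_ite_eq`, `mem_bd`). -/
theorem cost2_eq_lap (R : Rc) (g g' : ℤ × ℤ → ℝ) : R.cost2 (gd g) (gd g') = ∑ v ∈ R.set, g v * R.lap g' v := by
  unfold Rc.cost2 Rc.lap
  simp_rw [Finset.mul_sum]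
  rw [Finset.sum_comm]
  refine Finset.sum_congr rfl fun e he => ?_
  obtain ⟨h1, h2⟩ := mem_bd.1 he
  have e1 : ∀ v, g v * (gd g' e * ((if e.snd = v then 1 else 0) - (if e.1 = v then 1 else 0)))
      = gd g' e * ((if e.snd = v then g v else 0) - (if e.1 = v then g v else 0)) := by
    intro v
    split_ifs <;> ring
  rw [Finset.sum_congr rfl (fun v _ => e1 v), ← Finset.mul_sum, Finset.sum_sub_distrib, Finset.sum_ite_eq, Finset.sum_ite_eq,
    if_pos h1, if_pos h2]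
  unfold gd
  ring

theorem fr_mem_right {R : Rc} {a b : ℤ} (hv : (a, b) ∈ R.set) : ((a + 1, b) ∈ R.set) ↔ a + 1 < R.o.1 + R.p := by
  obtain ⟨⟨h1, h2⟩, h3, h4⟩ := fr_mem_set.1 hv
  rw [fr_mem_set]
  simp only at h1 h2 h3 h4 ⊢
  constructor
  · intro h; exact h.1.2
  · intro h; exact ⟨⟨by omega, h⟩, h3, h4⟩

theorem fr_mem_left {R : Rc} {a b : ℤ} (hv : (a, b) ∈ R.set) : ((a - 1, b) ∈ R.set) ↔ R.o.1 ≤ a - 1 := by
  obtain ⟨⟨h1, h2⟩, h3, h4⟩ := fr_mem_set.1 hv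
  rw [fr_mem_set]
  simp only at h1 h2 h3 h4 ⊢
  constructor
  · intro h; exact h.1.1
  · intro h; exact ⟨⟨h, by omega⟩, h3, h4⟩

theorem fr_mem_up {R : Rc} {a b : ℤ} (hv : (a, b) ∈ R.set) : ((a, b + 1) ∈ R.set) ↔ b + 1 < R.o.2 + R.q := by
  obtain ⟨⟨h1, h2⟩, h3, h4⟩ := fr_mem_set.1 hv
  rw [fr_mem_set]
  simp only at h1 h2 h3 h4 ⊢
  constructor
  · intro h; exact h.2.2
  · intro h; exact ⟨⟨h1, h2⟩, by omega, h⟩

theorem fr_mem_down {R : Rc} {a b : ℤ} (hv : (a, b) ∈ R.set) : ((a, b - 1) ∈ R.set) ↔ R.o.2 ≤ b - 1 := by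
  obtain ⟨⟨h1, h2⟩, h3, h4⟩ := fr_mem_set.1 hv
  rw [fr_mem_set]
  simp only at h1 h2 h3 h4 ⊢
  constructor
  · intro h; exact h.2.1
  · intro h; exact ⟨⟨h1, h2⟩, h, by omega⟩

/-- L-FR-Q2 (= `C2.face_potential`).  `lap_eq`; `t = v.1 - o₁ ∈ [0,p)`; cases `p = 1`; `t = 0`; `t = p - 1`; interior: `2 t(t+1) - (t+1)(t+2) - (t-1)t = -2`. -/
theorem fr_face_potential (R : Rc) (hp : 0 < R.p) (hq : 0 < R.q) (v : ℤ × ℤ) (hv : v ∈ R.set) :
    R.lap (fun u => ((u.1 - R.o.1 : ℤ) : ℝ) * (((u.1 - R.o.1 : ℤ) : ℝ) + 1) / (2 * R.p * R.q)) v = R.faceR v - R.unif v := by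
  obtain ⟨a, b⟩ := v
  obtain ⟨⟨h1, h2⟩, h3, h4⟩ := fr_mem_set.1 hv
  simp only at h1 h2 h3 h4
  have hp' : (R.p : ℝ) ≠ 0 := by exact_mod_cast hp.ne'
  have hq' : (R.q : ℝ) ≠ 0 := by exact_mod_cast hq.ne'
  rw [lap_eq R _ _ hv]
  simp only [sub_self, ite_self, add_zero]
  unfold Rc.faceR Rc.unif
  rw [if_pos hv]
  simp only [hv, true_and, fr_mem_right hv, fr_mem_left hv]
  have c1 : ((a + 1 - R.o.1 : ℤ) : ℝ) = ((a - R.o.1 : ℤ) : ℝ) + 1 := by push_cast; ring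
  have c2 : ((a - 1 - R.o.1 : ℤ) : ℝ) = ((a - R.o.1 : ℤ) : ℝ) - 1 := by push_cast; ring
  rw [c1, c2]
  by_cases k1 : a + 1 < R.o.1 + R.p
  · rw [if_pos k1, if_neg (by omega : ¬ (a + 1 = R.o.1 + R.p))]
    by_cases k2 : R.o.1 ≤ a - 1
    · rw [if_pos k2]
      field_simp
      ring
    · rw [if_neg k2]
      have : ((a - R.o.1 : ℤ) : ℝ) = 0 := by
        have : a - R.o.1 = 0 := by omega
        rw [this]; simp
      rw [this]
      field_simp
      ring
  · rw [if_neg k1, if_pos (by omega : a + 1 = R.o.1 + R.p)]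
    have ht : ((a - R.o.1 : ℤ) : ℝ) = (R.p : ℝ) - 1 := by
      have : a - R.o.1 = (R.p : ℤ) - 1 := by omega
      rw [this]; push_cast; ring
    rw [ht]
    by_cases k2 : R.o.1 ≤ a - 1
    · rw [if_pos k2]
      field_simp
      ring
    · rw [if_neg k2]
      have : (R.p : ℝ) = 1 := by
        have : (R.p : ℤ) = 1 := by omega
        exact_mod_cast this
      rw [this]
      field_simp
      ring

/-- L-FR-Q2 (= `C2.face_affine`). -/
theorem fr_face_affine (R : Rc) (hq : 0 < R.q) (v : ℤ × ℤ) (hv : v ∈ R.set) :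
    R.lap (fun u => (u.1 : ℝ) / R.q) v = R.faceR v - R.faceL v := by
  obtain ⟨a, b⟩ := v
  obtain ⟨⟨h1, h2⟩, h3, h4⟩ := fr_mem_set.1 hv
  simp only at h1 h2 h3 h4
  have hq' : (R.q : ℝ) ≠ 0 := by exact_mod_cast hq.ne'
  rw [lap_eq R _ _ hv]
  simp only [sub_self, ite_self, add_zero]
  unfold Rc.faceR Rc.faceL
  simp only [hv, true_and, fr_mem_right hv, fr_mem_left hv]
  by_cases k1 : a + 1 < R.o.1 + R.p
  · rw [if_pos k1, if_neg (by omega : ¬ (a + 1 = R.o.1 + R.p))]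
    by_cases k2 : R.o.1 ≤ a - 1
    · rw [if_pos k2, if_neg (by omega : ¬ (a = R.o.1))]
      push_cast
      field_simp
      ring
    · rw [if_neg k2, if_pos (by omega : a = R.o.1)]
      push_cast
      field_simp
      ring
  · rw [if_neg k1, if_pos (by omega : a + 1 = R.o.1 + R.p)]
    by_cases k2 : R.o.1 ≤ a - 1
    · rw [if_pos k2, if_neg (by omega : ¬ (a = R.o.1))]
      push_cast
      field_simp
      ring
    · rw [if_neg k2, if_pos (by omega : a = R.o.1)]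
      ring

theorem frq_sum_V {D : Finset (ℤ × ℤ)} {cut : Set Bond} (F : ℤ × ℤ → ℝ) :
    ∑ x : (domG D cut).V, F (domPos x) = ∑ p ∈ D, F p :=
  (Finset.sum_subtype D (fun _ => Iff.rfl) F).symm

theorem frq_sum_E {D : Finset (ℤ × ℤ)} {cut : Set Bond} (F : Bond → ℝ) :
    ∑ e : (domG D cut).E, F (domBond e) = ∑ e ∈ domBonds D cut, F e :=
  (Finset.sum_subtype (domBonds D cut) (fun _ => Iff.rfl) F).symm

/-- extension by zero of a function on the vertices -/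
def frExt {D : Finset (ℤ × ℤ)} {cut : Set Bond} (v : (domG D cut).V → ℝ) (p : ℤ × ℤ) : ℝ :=
  if h : p ∈ D then v ⟨p, h⟩ else 0

theorem frExt_pos {D : Finset (ℤ × ℤ)} {cut : Set Bond} (v : (domG D cut).V → ℝ) (x : (domG D cut).V) :
    frExt v (domPos x) = v x := by
  have hx : domPos x ∈ D := Subtype.property (p := fun v => v ∈ D) x
  unfold frExt
  rw [dif_pos hx]
  rfl

theorem fr_mem_rspan_plain {G : HGraph} (P : Set G.V) (w : G.V → ℝ) (hw : ∀ x ∈ P, w x = 0) :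
    w ∈ (HLaw.plain G P).rspan := by
  have e : w = ∑ x, w x • (fun y : G.V => (((if y = x then 1 else 0 : ℤ)) : ℝ)) := by
    funext y
    rw [Finset.sum_apply]
    simp only [Pi.smul_apply, smul_eq_mul]
    rw [Finset.sum_eq_single y]
    · simp
    · intro x _ hne
      rw [if_neg (Ne.symm hne)]; simp
    · intro h; exact absurd (Finset.mem_univ y) h
  rw [e]
  refine Submodule.sum_mem _ fun x _ => ?_
  by_cases hx : x ∈ P
  · rw [hw x hx, zero_smul]; exact Submodule.zero_mem _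
  · refine Submodule.smul_mem _ _ (Submodule.subset_span ⟨fun y => if y = x then 1 else 0, ?_, rfl⟩)
    intro y hy
    have : y ≠ x := fun h => hx (h ▸ hy)
    simp [this]

/-- the functional of `gVar` in lattice form, general domain -/
theorem fr_gVar_fun0 {D : Finset (ℤ × ℤ)} {cut : Set Bond} (P : Set (domG D cut).V) (a : ℝ) (F : ℤ × ℤ → ℝ)
    (v : (domG D cut).V → ℝ) :
    2 * ∑ x, domFn (D := D) (cut := cut) F x * v x - (HLaw.plain (domG D cut) P).form a v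
      = 2 * ∑ p ∈ D, frExt v p * F p - a⁻¹ * ∑ e ∈ domBonds D cut, gd (frExt v) e ^ 2 := by
  have e1 : ∑ x, domFn (D := D) (cut := cut) F x * v x = ∑ p ∈ D, frExt v p * F p := by
    rw [← frq_sum_V (D := D) (cut := cut) (fun p => frExt v p * F p)]
    refine Finset.sum_congr rfl fun x _ => ?_
    rw [frExt_pos]
    unfold domFn
    ring
  have e2 : (HLaw.plain (domG D cut) P).form a v = a⁻¹ * ∑ e ∈ domBonds D cut, gd (frExt v) e ^ 2 := by
    unfold HLaw.form HLaw.en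
    have h0 : ∑ o : (HLaw.plain (domG D cut) P).O, (HLaw.plain (domG D cut) P).obs v o ^ 2 = 0 := by
      have : IsEmpty (HLaw.plain (domG D cut) P).O := (inferInstance : IsEmpty Empty)
      exact Finset.sum_of_isEmpty _
    rw [h0, add_zero]
    congr 1
    rw [← frq_sum_E (D := D) (cut := cut) (fun b => gd (frExt v) b ^ 2)]
    refine Finset.sum_congr rfl fun e _ => ?_
    simp only [Pi.zero_apply, add_zero, gd]
    have t1 : frExt v (domBond e).snd = v ((domG D cut).tgt e) := frExt_pos v ((domG D cut).tgt e)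
    have t2 : frExt v (domBond e).1 = v ((domG D cut).src e) := frExt_pos v ((domG D cut).src e)
    rw [t1, t2]
  rw [e1, e2]

/-- the functional of `gVar` in lattice form -/
theorem fr_gVar_fun (R : Rc) (a : ℝ) (g : ℤ × ℤ → ℝ) (v : R.G.V → ℝ) :
    2 * ∑ x, domFn (D := R.set) (cut := ∅) (R.lap g) x * v x - R.law.form a v
      = ∑ e ∈ R.bd, (2 * (gd (frExt (D := R.set) (cut := ∅) v) e * gd g e) - a⁻¹ * gd (frExt (D := R.set) (cut := ∅) v) e ^ 2) := by
  refine (fr_gVar_fun0 (D := R.set) (cut := ∅) _ a (R.lap g) v).trans ?_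
  rw [← cost2_eq_lap]
  unfold Rc.cost2 Rc.bd
  rw [Finset.mul_sum, Finset.mul_sum, ← Finset.sum_sub_distrib]

/-- L-FR-Q3 (= `C2.gVar_grad`).  No observation rows.  `⟨lap g, v⟩ = ∑_e ∇_e g ∇_e v`, so `2⟨f,v⟩ - a⁻¹ en v = a dir g - a⁻¹ ∑_e (∇_e v - a ∇_e g)² ≤ a dir g` (`ciSup_le`), with equality at `v = a (g - g(o))`, which lies in `rspan`
(real functions vanishing at the pinned corner = span of the indicators `δ_x`, `x ≠ o`); `le_ciSup` with the bound just proved.  (`R.set = ∅`: everything is `0`.) -/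
theorem fr_gVar_grad (R : Rc) (a : ℝ) (ha : 0 < a) (g : ℤ × ℤ → ℝ) :
    R.law.gVar a (domFn (D := R.set) (cut := ∅) (R.lap g)) = a * R.dir g := by
  have hdir : a * R.dir g = ∑ e ∈ R.bd, a * gd g e ^ 2 := by
    unfold Rc.dir Rc.cost
    rw [Finset.mul_sum]
  have bound : ∀ v : R.law.rspan, 2 * ∑ x, domFn (D := R.set) (cut := ∅) (R.lap g) x * (v : R.G.V → ℝ) x
      - R.law.form a (v : R.G.V → ℝ) ≤ a * R.dir g := by
    intro v
    rw [fr_gVar_fun, hdir]
    refine Finset.sum_le_sum fun e _ => ?_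
    generalize gd (frExt (D := R.set) (cut := ∅) (v : R.G.V → ℝ)) e = X
    generalize gd g e = Y
    have : a * Y ^ 2 - (2 * (X * Y) - a⁻¹ * X ^ 2) = a⁻¹ * (X - a * Y) ^ 2 := by
      field_simp
      ring
    have h2 : 0 ≤ a⁻¹ * (X - a * Y) ^ 2 := by positivity
    linarith
  unfold HLaw.gVar
  refine le_antisymm (ciSup_le bound) ?_
  set v₀ : R.G.V → ℝ := domFn (D := R.set) (cut := ∅) (fun u => a * (g u - g R.o)) with hv₀
  have hmem : v₀ ∈ R.law.rspan := by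
    refine fr_mem_rspan_plain _ v₀ fun x hx => ?_
    have hx' : domPos x = R.o := hx
    simp only [hv₀, domFn]
    rw [hx']; ring
  have hval : 2 * ∑ x, domFn (D := R.set) (cut := ∅) (R.lap g) x * v₀ x - R.law.form a v₀ = a * R.dir g := by
    rw [fr_gVar_fun, hdir]
    refine Finset.sum_congr rfl fun e he => ?_
    have h1 : e.1 ∈ R.set := domBonds_fst he
    have h2 : e.snd ∈ R.set := domBonds_snd he
    have : gd (frExt (D := R.set) (cut := ∅) v₀) e = a * gd g e := by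
      unfold gd frExt
      rw [dif_pos h1, dif_pos h2]
      simp only [hv₀, domFn, domPos]
      ring
    rw [this]
    field_simp
    ring
  rw [← hval]
  exact le_ciSup (f := fun v : R.law.rspan => 2 * ∑ x, domFn (D := R.set) (cut := ∅) (R.lap g) x * (v : R.G.V → ℝ) x
      - R.law.form a (v : R.G.V → ℝ)) ⟨a * R.dir g, by rintro _ ⟨v, rfl⟩; exact bound v⟩ ⟨v₀, hmem⟩

/-! ## 2. The radial flow (Mathlib only) -/

/-- flux through the face `{c} × [y, y+1]` (coordinates relative to the source) -/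
def fl (c y : ℝ) : ℝ := (Real.arctan ((y + 1) / c) - Real.arctan (y / c)) / (2 * Real.pi)

/-- primitive of `(1 + t²)⁻²` -/
def psiA (t : ℝ) : ℝ := (Real.arctan t + t / (1 + t ^ 2)) / 2

theorem frq_psiA_hasDerivAt (t : ℝ) : HasDerivAt psiA (((1 + t ^ 2)⁻¹) ^ 2) t := by
  have h1 : HasDerivAt Real.arctan (1 / (1 + t ^ 2)) t := Real.hasDerivAt_arctan t
  have hpos : (1 + t ^ 2) ≠ 0 := by positivity
  have h2 : HasDerivAt (fun s : ℝ => 1 + s ^ 2) (2 * t) t := by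
    have := ((hasDerivAt_id t).pow 2).const_add 1
    simpa using this
  have h3 : HasDerivAt (fun s : ℝ => s / (1 + s ^ 2))
      ((1 * (1 + t ^ 2) - t * (2 * t)) / (1 + t ^ 2) ^ 2) t := (hasDerivAt_id t).div h2 hpos
  have h4 := (h1.add h3).div_const 2
  have e : (1 / (1 + t ^ 2) + (1 * (1 + t ^ 2) - t * (2 * t)) / (1 + t ^ 2) ^ 2) / 2
      = ((1 + t ^ 2)⁻¹) ^ 2 := by
    field_simp
    ring
  exact h4.congr_deriv e

theorem frq_K_mono (lam : ℝ) :
    Monotone fun t : ℝ => psiA t - 2 * lam * Real.arctan t + lam ^ 2 * t := by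
  have hd : ∀ t : ℝ, HasDerivAt (fun t : ℝ => psiA t - 2 * lam * Real.arctan t + lam ^ 2 * t)
      (((1 + t ^ 2)⁻¹ - lam) ^ 2) t := by
    intro t
    have h := ((frq_psiA_hasDerivAt t).sub ((Real.hasDerivAt_arctan t).const_mul (2 * lam))).add
      ((hasDerivAt_id t).const_mul (lam ^ 2))
    have e : (1 + t ^ 2)⁻¹ ^ 2 - 2 * lam * (1 / (1 + t ^ 2)) + lam ^ 2 * 1
        = ((1 + t ^ 2)⁻¹ - lam) ^ 2 := by
      rw [one_div]
      ring
    exact h.congr_deriv e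
  refine monotone_of_deriv_nonneg (fun t => (hd t).differentiableAt) fun t => ?_
  rw [(hd t).deriv]
  positivity

/-- L-FR-Q4 (Mathlib only).  **Cauchy-Schwarz without integrals.**  For every `λ` the function `K t = psiA t - 2 λ arctan t + λ² t` has derivative `((1+t²)⁻¹ - λ)² ≥ 0` (`Real.hasDerivAt_arctan`, quotient rule; `monotone_of_deriv_nonneg`),
so `(psiA v - psiA u) - 2 λ (arctan v - arctan u) + λ² (v - u) ≥ 0` for all `λ`: discriminant (`discrim_le_zero`, or `λ = (arctan v - arctan u)/(v - u)`; `u = v` apart). -/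
theorem arctan_cs {u v : ℝ} (h : u ≤ v) : (Real.arctan v - Real.arctan u) ^ 2 ≤ (v - u) * (psiA v - psiA u) := by
  rcases h.eq_or_lt with rfl | hlt
  · simp
  have ha : 0 < v - u := sub_pos.2 hlt
  have hK := frq_K_mono ((Real.arctan v - Real.arctan u) / (v - u)) h
  simp only at hK
  set b := Real.arctan v - Real.arctan u with hb
  have e : 0 ≤ (psiA v - psiA u) - 2 * (b / (v - u)) * b + (b / (v - u)) ^ 2 * (v - u) := by
    rw [hb]; linarith
  have e2 : (psiA v - psiA u) - 2 * (b / (v - u)) * b + (b / (v - u)) ^ 2 * (v - u)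
      = (psiA v - psiA u) - b ^ 2 / (v - u) := by
    field_simp
    ring
  rw [e2, sub_nonneg, div_le_iff₀ ha] at e
  linarith

theorem frq_psiA_mono : Monotone psiA := by
  have := frq_K_mono 0
  simpa using this

theorem frq_psiA_neg (t : ℝ) : psiA (-t) = - psiA t := by
  simp only [psiA, Real.arctan_neg, neg_sq]
  ring

theorem frq_psiA_zero : psiA 0 = 0 := by simp [psiA]

/-- `t - psiA t` is monotone -/
theorem frq_id_sub_psiA_mono : Monotone fun t : ℝ => t - psiA t := by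
  have hd : ∀ t : ℝ, HasDerivAt (fun t : ℝ => t - psiA t) (1 - ((1 + t ^ 2)⁻¹) ^ 2) t := fun t =>
    (hasDerivAt_id t).sub (frq_psiA_hasDerivAt t)
  refine monotone_of_deriv_nonneg (fun t => (hd t).differentiableAt) fun t => ?_
  rw [(hd t).deriv, sub_nonneg]
  have h1 : (1 + t ^ 2)⁻¹ ≤ 1 := inv_le_one_of_one_le₀ (by nlinarith [sq_nonneg t])
  have h0 : 0 ≤ (1 + t ^ 2)⁻¹ := by positivity
  nlinarith

/-- `arctan t - psiA t` is monotone -/
theorem frq_arctan_sub_psiA_mono : Monotone fun t : ℝ => Real.arctan t - psiA t := by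
  have hd : ∀ t : ℝ, HasDerivAt (fun t : ℝ => Real.arctan t - psiA t)
      (1 / (1 + t ^ 2) - ((1 + t ^ 2)⁻¹) ^ 2) t := fun t =>
    (Real.hasDerivAt_arctan t).sub (frq_psiA_hasDerivAt t)
  refine monotone_of_deriv_nonneg (fun t => (hd t).differentiableAt) fun t => ?_
  rw [(hd t).deriv, sub_nonneg, one_div]
  have h1 : (1 + t ^ 2)⁻¹ ≤ 1 := inv_le_one_of_one_le₀ (by nlinarith [sq_nonneg t])
  have h0 : 0 ≤ (1 + t ^ 2)⁻¹ := by positivity
  nlinarith

theorem frq_psiA_le_of_pos {t : ℝ} (ht : 0 < t) : psiA t ≤ Real.pi / 4 := by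
  have h1 := frq_arctan_sub_psiA_mono (inv_pos.2 ht).le
  simp only [Real.arctan_zero, frq_psiA_zero, sub_zero] at h1
  rw [Real.arctan_inv_of_pos ht] at h1
  have e : t⁻¹ / (1 + t⁻¹ ^ 2) = t / (1 + t ^ 2) := by
    field_simp
    ring
  simp only [psiA, Real.arctan_inv_of_pos ht, e] at h1 ⊢
  linarith

/-- L-FR-Q4 (Mathlib only).  `psiA` is odd and monotone (`λ = 0` above) and tends to `π/4` (`Real.tendsto_arctan_atTop`, `t/(1+t²) → 0`): `ge_of_tendsto`.
(Or: for `t > 0`, `t/(1+t²) ≤ arctan t⁻¹ = π/2 - arctan t`, as `s ↦ arctan s - s/(1+s²)` has derivative `2s²/(1+s²)² ≥ 0`.) -/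
theorem psiA_abs_le (t : ℝ) : |psiA t| ≤ Real.pi / 4 := by
  rcases lt_trichotomy t 0 with h | rfl | h
  · have h1 := frq_psiA_le_of_pos (neg_pos.2 h)
    have h2 : psiA t ≤ 0 := by
      have := frq_psiA_mono h.le
      rwa [frq_psiA_zero] at this
    rw [frq_psiA_neg] at h1
    rw [abs_of_nonpos h2]
    exact h1
  · rw [frq_psiA_zero, abs_zero]; positivity
  · have h2 : 0 ≤ psiA t := by
      have := frq_psiA_mono h.le
      rwa [frq_psiA_zero] at this
    rw [abs_of_nonneg h2]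
    exact frq_psiA_le_of_pos h

/-- `arctan` is `1`-Lipschitz -/
theorem frq_arctan_lip (u v : ℝ) : |Real.arctan v - Real.arctan u| ≤ |v - u| := by
  wlog h : u ≤ v generalizing u v
  · have := this v u (le_of_not_ge h)
    rwa [abs_sub_comm, abs_sub_comm u v] at this
  have h1 := arctan_cs h
  have h2 : psiA v - psiA u ≤ v - u := by
    have := frq_id_sub_psiA_mono h
    simp only at this
    linarith
  have h3 : 0 ≤ v - u := sub_nonneg.2 h
  have h4 : (Real.arctan v - Real.arctan u) ^ 2 ≤ (v - u) ^ 2 := by nlinarith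
  exact sq_le_sq.1 h4

/-- L-FR-Q5 (Mathlib only).  `div_neg`, `Real.arctan_neg`. -/
theorem fl_neg (c y : ℝ) : fl (-c) y = - fl c y := by
  simp only [fl, div_neg, Real.arctan_neg]
  ring

theorem frq_pair {a b : ℝ} (ha : a ≠ 0) (hb : b ≠ 0) :
    Real.arctan (b / a) + Real.arctan (a / b) = Real.sign a * Real.sign b * (Real.pi / 2) := by
  have e : a / b = (b / a)⁻¹ := (inv_div b a).symm
  rw [e]
  rcases lt_or_gt_of_ne ha with ha' | ha' <;> rcases lt_or_gt_of_ne hb with hb' | hb'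
  · rw [Real.arctan_inv_of_pos (div_pos_of_neg_of_neg hb' ha'), Real.sign_of_neg ha',
      Real.sign_of_neg hb']
    ring
  · rw [Real.arctan_inv_of_neg (div_neg_of_pos_of_neg hb' ha'), Real.sign_of_neg ha',
      Real.sign_of_pos hb']
    ring
  · rw [Real.arctan_inv_of_neg (div_neg_of_neg_of_pos hb' ha'), Real.sign_of_pos ha',
      Real.sign_of_neg hb']
    ring
  · rw [Real.arctan_inv_of_pos (div_pos hb' ha'), Real.sign_of_pos ha', Real.sign_of_pos hb']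
    ring

theorem frq_sign_step (l : ℤ) :
    Real.sign ((l : ℝ) + 1 / 2) - Real.sign ((l : ℝ) - 1 / 2) = if l = 0 then 2 else 0 := by
  rcases lt_trichotomy l 0 with h | rfl | h
  · have h1 : (l : ℝ) ≤ -1 := by exact_mod_cast Int.le_sub_one_of_lt h
    rw [Real.sign_of_neg (by linarith), Real.sign_of_neg (by linarith), if_neg h.ne]
    ring
  · rw [Real.sign_of_pos (by norm_num), Real.sign_of_neg (by norm_num), if_pos rfl]
    ring
  · have h1 : (1 : ℝ) ≤ l := by exact_mod_cast Int.add_one_le_of_lt h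
    rw [Real.sign_of_pos (by linarith), Real.sign_of_pos (by linarith), if_neg h.ne']
    ring

theorem frq_half_ne (l : ℤ) : (l : ℝ) + 1 / 2 ≠ 0 ∧ (l : ℝ) - 1 / 2 ≠ 0 := by
  constructor
  · intro h
    have h2 : ((2 * l + 1 : ℤ) : ℝ) = 0 := by push_cast; linarith
    have h3 : 2 * l + 1 = 0 := by exact_mod_cast h2
    omega
  · intro h
    have h2 : ((2 * l - 1 : ℤ) : ℝ) = 0 := by push_cast; linarith
    have h3 : 2 * l - 1 = 0 := by exact_mod_cast h2
    omega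

/-- L-FR-Q5 (Mathlib only).  **Exact divergence.**  `x = l - ½`, `y = m - ½` are nonzero, as are `x + 1`, `y + 1`.  Pair the eight arctangents: `arctan (b/a) + arctan (a/b) = sgn(ab) π/2` (`Real.arctan_inv_of_pos`, `Real.arctan_inv_of_neg`).
The sum is `(π/2)(σ(x+1,y+1) - σ(x+1,y) - σ(x,y+1) + σ(x,y)) = (π/2)(sgn(x+1) - sgn x)(sgn(y+1) - sgn y)`; cases `l < 0`, `l = 0`, `l > 0` and the same for `m`. -/
theorem fl_div (l m : ℤ) : fl ((l : ℝ) + 1 / 2) ((m : ℝ) - 1 / 2) - fl ((l : ℝ) - 1 / 2) ((m : ℝ) - 1 / 2)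
    + fl ((m : ℝ) + 1 / 2) ((l : ℝ) - 1 / 2) - fl ((m : ℝ) - 1 / 2) ((l : ℝ) - 1 / 2) = if l = 0 ∧ m = 0 then 1 else 0 := by
  obtain ⟨hX, hx⟩ := frq_half_ne l
  obtain ⟨hY, hy⟩ := frq_half_ne m
  have eY : (m : ℝ) - 1 / 2 + 1 = (m : ℝ) + 1 / 2 := by ring
  have eX : (l : ℝ) - 1 / 2 + 1 = (l : ℝ) + 1 / 2 := by ring
  simp only [fl, eX, eY]
  have p1 := frq_pair hX hY
  have p2 := frq_pair hX hy
  have p3 := frq_pair hx hY
  have p4 := frq_pair hx hy
  have s1 := frq_sign_step l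
  have s2 := frq_sign_step m
  have hpi : Real.pi ≠ 0 := Real.pi_ne_zero
  set X := (l : ℝ) + 1 / 2
  set x := (l : ℝ) - 1 / 2
  set Y := (m : ℝ) + 1 / 2
  set y := (m : ℝ) - 1 / 2
  have key : (Real.arctan (Y / X) - Real.arctan (y / X)) - (Real.arctan (Y / x) - Real.arctan (y / x))
      + (Real.arctan (X / Y) - Real.arctan (x / Y)) - (Real.arctan (X / y) - Real.arctan (x / y))
      = (Real.sign X - Real.sign x) * (Real.sign Y - Real.sign y) * (Real.pi / 2) := by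
    linear_combination p1 - p2 - p3 + p4
  have e : (Real.arctan (Y / X) - Real.arctan (y / X)) / (2 * Real.pi)
      - (Real.arctan (Y / x) - Real.arctan (y / x)) / (2 * Real.pi)
      + (Real.arctan (X / Y) - Real.arctan (x / Y)) / (2 * Real.pi)
      - (Real.arctan (X / y) - Real.arctan (x / y)) / (2 * Real.pi)
      = (Real.sign X - Real.sign x) * (Real.sign Y - Real.sign y) / 4 := by
    have : (Real.arctan (Y / X) - Real.arctan (y / X)) / (2 * Real.pi)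
      - (Real.arctan (Y / x) - Real.arctan (y / x)) / (2 * Real.pi)
      + (Real.arctan (X / Y) - Real.arctan (x / Y)) / (2 * Real.pi)
      - (Real.arctan (X / y) - Real.arctan (x / y)) / (2 * Real.pi)
      = ((Real.arctan (Y / X) - Real.arctan (y / X)) - (Real.arctan (Y / x) - Real.arctan (y / x))
      + (Real.arctan (X / Y) - Real.arctan (x / Y)) - (Real.arctan (X / y) - Real.arctan (x / y)))
        / (2 * Real.pi) := by ring
    rw [this, key]
    field_simp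
    ring
  rw [e, s1, s2]
  by_cases hl : l = 0 <;> by_cases hm : m = 0 <;> simp [hl, hm]
  norm_num

theorem frq_fl_nonneg {c : ℝ} (hc : 0 < c) (y : ℝ) : 0 ≤ fl c y := by
  unfold fl
  refine div_nonneg (sub_nonneg.2 (Real.arctan_strictMono.monotone ?_)) (by positivity)
  exact div_le_div_of_nonneg_right (by linarith) hc.le

theorem frq_row_sq_pos {c : ℝ} (hc : 0 < c) (y₀ : ℝ) (N : ℕ) :
    ∑ j ∈ Finset.range N, fl c (y₀ + j) ^ 2 ≤ 1 / (8 * Real.pi * c) := by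
  have hpi := Real.pi_pos
  have h1 : ∀ j ∈ Finset.range N, fl c (y₀ + j) ^ 2 ≤
      (psiA ((y₀ + ((j + 1 : ℕ) : ℝ)) / c) - psiA ((y₀ + (j : ℝ)) / c)) / (c * (2 * Real.pi) ^ 2) := by
    intro j _
    have hle : (y₀ + (j : ℝ)) / c ≤ (y₀ + ((j + 1 : ℕ) : ℝ)) / c :=
      div_le_div_of_nonneg_right (by push_cast; linarith) hc.le
    have h2 := arctan_cs hle
    have e1 : (y₀ + ((j + 1 : ℕ) : ℝ)) / c - (y₀ + (j : ℝ)) / c = 1 / c := by
      push_cast; field_simp; ring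
    have e2 : y₀ + (j : ℝ) + 1 = y₀ + ((j + 1 : ℕ) : ℝ) := by push_cast; ring
    rw [e1] at h2
    unfold fl
    rw [e2, div_pow, div_le_div_iff₀ (by positivity) (by positivity)]
    calc (Real.arctan ((y₀ + ((j + 1 : ℕ) : ℝ)) / c) - Real.arctan ((y₀ + (j : ℝ)) / c)) ^ 2
          * (c * (2 * Real.pi) ^ 2)
        ≤ (1 / c * (psiA ((y₀ + ((j + 1 : ℕ) : ℝ)) / c) - psiA ((y₀ + (j : ℝ)) / c)))
          * (c * (2 * Real.pi) ^ 2) := mul_le_mul_of_nonneg_right h2 (by positivity)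
      _ = (psiA ((y₀ + ((j + 1 : ℕ) : ℝ)) / c) - psiA ((y₀ + (j : ℝ)) / c)) * (2 * Real.pi) ^ 2 := by
          field_simp
  refine (Finset.sum_le_sum h1).trans ?_
  rw [← Finset.sum_div, Finset.sum_range_sub (fun j : ℕ => psiA ((y₀ + (j : ℝ)) / c))]
  have a1 := abs_le.1 (psiA_abs_le ((y₀ + (N : ℝ)) / c))
  have a2 := abs_le.1 (psiA_abs_le ((y₀ + ((0 : ℕ) : ℝ)) / c))
  rw [div_le_div_iff₀ (by positivity) (by positivity)]
  have h3 : psiA ((y₀ + (N : ℝ)) / c) - psiA ((y₀ + ((0 : ℕ) : ℝ)) / c) ≤ Real.pi / 2 := by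
    linarith [a1.2, a2.1]
  calc (psiA ((y₀ + (N : ℝ)) / c) - psiA ((y₀ + ((0 : ℕ) : ℝ)) / c)) * (8 * Real.pi * c)
      ≤ Real.pi / 2 * (8 * Real.pi * c) := mul_le_mul_of_nonneg_right h3 (by positivity)
    _ = 1 * (c * (2 * Real.pi) ^ 2) := by ring

/-- L-FR-Q6 (Mathlib only).  `c > 0` (else `fl_neg`).  `u_j = (y₀ + j)/c`: `(2π fl)² ≤ c⁻¹ (psiA u_{j+1} - psiA u_j)` (`arctan_cs`); telescope (`Finset.sum_range_sub`); `psiA_abs_le`: `∑ ≤ c⁻¹ (π/2) / (4π²)`. -/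
theorem fl_row_sq (c : ℝ) (hc : c ≠ 0) (y₀ : ℝ) (N : ℕ) : ∑ j ∈ Finset.range N, fl c (y₀ + j) ^ 2 ≤ 1 / (8 * Real.pi * |c|) := by
  rcases lt_or_gt_of_ne hc with h | h
  · have := frq_row_sq_pos (neg_pos.2 h) y₀ N
    simp only [fl_neg, neg_sq] at this
    rwa [abs_of_neg h]
  · rw [abs_of_pos h]
    exact frq_row_sq_pos h y₀ N

theorem frq_row_abs_pos {c : ℝ} (hc : 0 < c) (y₀ : ℝ) (N : ℕ) :
    ∑ j ∈ Finset.range N, |fl c (y₀ + j)| ≤ 1 / 2 := by
  have hpi := Real.pi_pos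
  have h1 : ∀ j ∈ Finset.range N, |fl c (y₀ + j)| =
      (Real.arctan ((y₀ + ((j + 1 : ℕ) : ℝ)) / c) - Real.arctan ((y₀ + (j : ℝ)) / c)) / (2 * Real.pi) := by
    intro j _
    rw [abs_of_nonneg (frq_fl_nonneg hc _)]
    have e2 : y₀ + (j : ℝ) + 1 = y₀ + ((j + 1 : ℕ) : ℝ) := by push_cast; ring
    unfold fl
    rw [e2]
  rw [Finset.sum_congr rfl h1, ← Finset.sum_div,
    Finset.sum_range_sub (fun j : ℕ => Real.arctan ((y₀ + (j : ℝ)) / c)),
    div_le_div_iff₀ (by positivity) (by norm_num)]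
  have a1 := Real.arctan_lt_pi_div_two ((y₀ + (N : ℝ)) / c)
  have a2 := Real.neg_pi_div_two_lt_arctan ((y₀ + ((0 : ℕ) : ℝ)) / c)
  linarith

/-- L-FR-Q6 (Mathlib only).  For `c > 0` all terms are `≥ 0` (`Real.arctan_strictMono`) and telescope to `(arctan u_N - arctan u_0)/(2π) ≤ 1/2` (`Real.arctan_lt_pi_div_two`, `Real.neg_pi_div_two_lt_arctan`). -/
theorem fl_row_abs (c : ℝ) (hc : c ≠ 0) (y₀ : ℝ) (N : ℕ) : ∑ j ∈ Finset.range N, |fl c (y₀ + j)| ≤ 1 / 2 := by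
  rcases lt_or_gt_of_ne hc with h | h
  · have := frq_row_abs_pos (neg_pos.2 h) y₀ N
    simpa only [fl_neg, abs_neg] using this
  · exact frq_row_abs_pos h y₀ N

/-- L-FR-Q6 (Mathlib only).  `arctan` is `1`-Lipschitz (from `arctan_cs` and `psiA v - psiA u ≤ v - u`, or the mean value theorem). -/
theorem fl_abs_le (c : ℝ) (hc : c ≠ 0) (y : ℝ) : |fl c y| ≤ 1 / (2 * Real.pi * |c|) := by
  have hpi := Real.pi_pos
  have h1 := frq_arctan_lip (y / c) ((y + 1) / c)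
  have e : (y + 1) / c - y / c = 1 / c := by field_simp; ring
  rw [e, abs_div, abs_one] at h1
  unfold fl
  rw [abs_div, abs_of_pos (by positivity : (0 : ℝ) < 2 * Real.pi),
    div_le_div_iff₀ (by positivity) (by positivity)]
  have hc' : 0 < |c| := abs_pos.2 hc
  calc |Real.arctan ((y + 1) / c) - Real.arctan (y / c)| * (2 * Real.pi * |c|)
      ≤ 1 / |c| * (2 * Real.pi * |c|) := mul_le_mul_of_nonneg_right h1 (by positivity)
    _ = 1 * (2 * Real.pi) := by field_simp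

/-- the flux as one arctangent -/
theorem frq_fl_eq {c y : ℝ} (hc : c ≠ 0) (h : 0 < c ^ 2 + y * (y + 1)) :
    fl c y = Real.arctan (c / (c ^ 2 + y * (y + 1))) / (2 * Real.pi) := by
  have hc2 : 0 < c ^ 2 := by positivity
  have h1 : (y + 1) / c * (-(y / c)) < 1 := by
    have e : (y + 1) / c * (-(y / c)) = -(y * (y + 1)) / c ^ 2 := by field_simp
    rw [e, div_lt_one hc2]
    linarith
  have h2 := Real.arctan_add h1
  rw [Real.arctan_neg] at h2
  have e : ((y + 1) / c + -(y / c)) / (1 - (y + 1) / c * (-(y / c))) = c / (c ^ 2 + y * (y + 1)) := by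
    have h3 : (1 - (y + 1) / c * (-(y / c))) = (c ^ 2 + y * (y + 1)) / c ^ 2 := by
      field_simp
      ring
    rw [h3]
    field_simp
    ring
  rw [e] at h2
  unfold fl
  rw [← h2]
  ring

/-- L-FR-Q7 (Mathlib only).  **Pointwise bound of the one-directional divergence.**  `κ = m² - ¼`.  For `c = l ± ½`: `c² + κ > 0`, so `arctan ((y+1)/c) - arctan (y/c) = arctan (c/(c² + κ))` (`Real.arctan_add` with `-(y/c)`; `y (y+1) = κ`).
`arctan` is `1`-Lipschitz and `(l+½)/((l+½)²+κ) - (l-½)/((l-½)²+κ) = (m² - l²)/((l²+m²)² - l²)`; `(l²+m²)² - l² ≥ (l²+m²)²/2`. -/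
theorem fl_diff_le (l m : ℤ) (h : 2 ≤ l ^ 2 + m ^ 2) :
    |fl ((l : ℝ) + 1 / 2) ((m : ℝ) - 1 / 2) - fl ((l : ℝ) - 1 / 2) ((m : ℝ) - 1 / 2)| ≤ 1 / (Real.pi * ((l : ℝ) ^ 2 + (m : ℝ) ^ 2)) := by
  have hpi := Real.pi_pos
  obtain ⟨hX, hx⟩ := frq_half_ne l
  set S : ℝ := (l : ℝ) ^ 2 + (m : ℝ) ^ 2 with hS
  have hS2 : (2 : ℝ) ≤ S := by rw [hS]; exact_mod_cast h
  -- integer facts: `l ^ 2 ± l + m ^ 2 ≥ 1`
  have hp : (1 : ℝ) ≤ S + l := by
    have : (1 : ℤ) ≤ l ^ 2 + m ^ 2 + l := by nlinarith [sq_nonneg (l + 1), sq_nonneg m, sq_nonneg l]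
    rw [hS]; exact_mod_cast this
  have hn : (1 : ℝ) ≤ S - l := by
    have : (1 : ℤ) ≤ l ^ 2 + m ^ 2 - l := by nlinarith [sq_nonneg (l - 1), sq_nonneg m, sq_nonneg l]
    rw [hS]; exact_mod_cast this
  have e1 : ((l : ℝ) + 1 / 2) ^ 2 + ((m : ℝ) - 1 / 2) * ((m : ℝ) - 1 / 2 + 1) = S + l := by
    rw [hS]; ring
  have e2 : ((l : ℝ) - 1 / 2) ^ 2 + ((m : ℝ) - 1 / 2) * ((m : ℝ) - 1 / 2 + 1) = S - l := by
    rw [hS]; ring
  rw [frq_fl_eq hX (by rw [e1]; linarith), frq_fl_eq hx (by rw [e2]; linarith), e1, e2, ← sub_div,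
    abs_div, abs_of_pos (by positivity : (0 : ℝ) < 2 * Real.pi)]
  have h1 := frq_arctan_lip (((l : ℝ) - 1 / 2) / (S - l)) (((l : ℝ) + 1 / 2) / (S + l))
  have e3 : ((l : ℝ) + 1 / 2) / (S + l) - ((l : ℝ) - 1 / 2) / (S - l)
      = ((m : ℝ) ^ 2 - (l : ℝ) ^ 2) / (S ^ 2 - (l : ℝ) ^ 2) := by
    have a1 : S + l ≠ 0 := by linarith
    have a2 : S - l ≠ 0 := by linarith
    have a3 : S ^ 2 - (l : ℝ) ^ 2 ≠ 0 := by
      have : S ^ 2 - (l : ℝ) ^ 2 = (S + l) * (S - l) := by ring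
      rw [this]; exact mul_ne_zero a1 a2
    field_simp
    rw [hS]; ring
  have hl2 : (l : ℝ) ^ 2 ≤ S := by rw [hS]; nlinarith [sq_nonneg (m : ℝ)]
  have hden : S ^ 2 / 2 ≤ S ^ 2 - (l : ℝ) ^ 2 := by nlinarith
  have hnum : |(m : ℝ) ^ 2 - (l : ℝ) ^ 2| ≤ S := by
    rw [abs_le, hS]; constructor <;> nlinarith [sq_nonneg (m : ℝ), sq_nonneg (l : ℝ)]
  have h2 : |((m : ℝ) ^ 2 - (l : ℝ) ^ 2) / (S ^ 2 - (l : ℝ) ^ 2)| ≤ 2 / S := by
    have hpos : 0 < S ^ 2 - (l : ℝ) ^ 2 := by nlinarith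
    rw [abs_div, abs_of_pos hpos, div_le_div_iff₀ hpos (by linarith)]
    nlinarith
  rw [e3] at h1
  rw [div_le_div_iff₀ (by positivity) (by positivity)]
  have h3 := h1.trans h2
  calc |Real.arctan (((l : ℝ) + 1 / 2) / (S + l)) - Real.arctan (((l : ℝ) - 1 / 2) / (S - l))| * (Real.pi * S)
      ≤ 2 / S * (Real.pi * S) := mul_le_mul_of_nonneg_right h3 (by positivity)
    _ = 1 * (2 * Real.pi) := by field_simp

theorem frq_fl_abs_half (c : ℝ) (hc : c ≠ 0) (y : ℝ) : |fl c y| ≤ 1 / 2 := by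
  have := fl_row_abs c hc y 1
  simpa using this

theorem frq_summable_a : Summable fun l : ℤ => (1 + (l : ℝ) ^ 2)⁻¹ := by
  have hN : Summable fun n : ℕ => (1 + (n : ℝ) ^ 2)⁻¹ := by
    have h1 : Summable fun n : ℕ => 2 * (1 / ((n + 1 : ℕ) : ℝ) ^ 2) :=
      ((summable_nat_add_iff 1).2 (Real.summable_one_div_nat_pow.2 one_lt_two)).mul_left 2
    refine Summable.of_nonneg_of_le (fun n => by positivity) (fun n => ?_) h1
    rw [← one_div, mul_one_div, div_le_div_iff₀ (by positivity) (by positivity)]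
    push_cast
    nlinarith [sq_nonneg ((n : ℝ) - 1)]
  refine Summable.of_nat_of_neg ?_ ?_
  · simpa using hN
  · simpa using hN

theorem frq_diff_term_le (l m : ℤ) :
    (fl ((l : ℝ) + 1 / 2) ((m : ℝ) - 1 / 2) - fl ((l : ℝ) - 1 / 2) ((m : ℝ) - 1 / 2)) ^ 2
      ≤ 3 * ((1 + (l : ℝ) ^ 2)⁻¹ * (1 + (m : ℝ) ^ 2)⁻¹) := by
  obtain ⟨hX, hx⟩ := frq_half_ne l
  rw [← mul_inv, ← div_eq_mul_inv, le_div_iff₀ (by positivity)]
  by_cases h : 2 ≤ l ^ 2 + m ^ 2
  · have h1 := fl_diff_le l m h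
    set S : ℝ := (l : ℝ) ^ 2 + (m : ℝ) ^ 2 with hS
    have hS2 : (2 : ℝ) ≤ S := by rw [hS]; exact_mod_cast h
    have hpi := Real.pi_gt_three
    have h2 : 1 / (Real.pi * S) ≤ 1 / S :=
      div_le_div_of_nonneg_left zero_le_one (by linarith) (by nlinarith)
    have h3 : (fl ((l : ℝ) + 1 / 2) ((m : ℝ) - 1 / 2) - fl ((l : ℝ) - 1 / 2) ((m : ℝ) - 1 / 2)) ^ 2
        ≤ (1 / S) ^ 2 := by
      rw [← sq_abs]
      exact pow_le_pow_left₀ (abs_nonneg _) (h1.trans h2) 2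
    have h4 : (1 + (l : ℝ) ^ 2) * (1 + (m : ℝ) ^ 2) ≤ S ^ 2 := by
      have : (l : ℝ) ^ 2 * (m : ℝ) ^ 2 ≤ S ^ 2 / 4 := by
        rw [hS]; nlinarith [sq_nonneg ((l : ℝ) ^ 2 - (m : ℝ) ^ 2)]
      have e : (1 + (l : ℝ) ^ 2) * (1 + (m : ℝ) ^ 2) = 1 + S + (l : ℝ) ^ 2 * (m : ℝ) ^ 2 := by
        rw [hS]; ring
      rw [e]; nlinarith
    calc _ ≤ (1 / S) ^ 2 * S ^ 2 :=
          mul_le_mul h3 h4 (by positivity) (by positivity)
      _ = 1 := by field_simp
      _ ≤ 3 := by norm_num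
  · have hlm : (l : ℝ) ^ 2 + (m : ℝ) ^ 2 ≤ 1 := by
      have : l ^ 2 + m ^ 2 ≤ 1 := by omega
      exact_mod_cast this
    have a1 := abs_le.1 (frq_fl_abs_half _ hX ((m : ℝ) - 1 / 2))
    have a2 := abs_le.1 (frq_fl_abs_half _ hx ((m : ℝ) - 1 / 2))
    have h3 : (fl ((l : ℝ) + 1 / 2) ((m : ℝ) - 1 / 2) - fl ((l : ℝ) - 1 / 2) ((m : ℝ) - 1 / 2)) ^ 2 ≤ 1 := by
      rw [sq_le_one_iff_abs_le_one, abs_le]
      constructor <;> linarith [a1.1, a1.2, a2.1, a2.2]
    have h4 : (1 + (l : ℝ) ^ 2) * (1 + (m : ℝ) ^ 2) ≤ 3 := by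
      nlinarith [sq_nonneg (l : ℝ), sq_nonneg (m : ℝ), mul_nonneg (sq_nonneg (l : ℝ)) (sq_nonneg (m : ℝ)),
        sq_nonneg ((l : ℝ) ^ 2 - (m : ℝ) ^ 2)]
    calc _ ≤ 1 * 3 := mul_le_mul h3 h4 (by positivity) (by norm_num)
      _ = 3 := by norm_num

/-- L-FR-Q8 (Mathlib only).  `fl_diff_le`; the five points with `l² + m² ≤ 1` contribute `≤ 1` each (`|fl| ≤ 1/2`, `fl_row_abs` with `N = 1`).   `(l²+m²)⁻² ≤ (9/4) (1+l²)⁻¹ (1+m²)⁻¹`; `T ⊆ [-N,N]²`;
`∑_{|l| ≤ N} (1+l²)⁻¹ ≤ 1 + 2 ∑_{l=1}^N l⁻² ≤ 5`. -/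
theorem fl_diff_sq : ∃ C : ℝ, ∀ T : Finset (ℤ × ℤ),
    ∑ t ∈ T, (fl ((t.1 : ℝ) + 1 / 2) ((t.2 : ℝ) - 1 / 2) - fl ((t.1 : ℝ) - 1 / 2) ((t.2 : ℝ) - 1 / 2)) ^ 2 ≤ C := by
  have hs : Summable fun t : ℤ × ℤ => (1 + (t.1 : ℝ) ^ 2)⁻¹ * (1 + (t.2 : ℝ) ^ 2)⁻¹ :=
    frq_summable_a.mul_of_nonneg frq_summable_a (fun l => by positivity) (fun l => by positivity)
  refine ⟨∑' t : ℤ × ℤ, 3 * ((1 + (t.1 : ℝ) ^ 2)⁻¹ * (1 + (t.2 : ℝ) ^ 2)⁻¹), fun T => ?_⟩
  refine (Finset.sum_le_sum fun t _ => frq_diff_term_le t.1 t.2).trans ?_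
  exact (hs.mul_left 3).sum_le_tsum T fun t _ => by positivity

theorem frq_harm (M : ℕ) : ∑ r ∈ Finset.range (M + 1), 1 / ((r : ℝ) + 1 / 2) ≤ 3 + Real.log M := by
  rw [Finset.sum_range_succ']
  have h1 : ∑ r ∈ Finset.range M, 1 / (((r + 1 : ℕ) : ℝ) + 1 / 2) ≤ (harmonic M : ℝ) := by
    rw [harmonic]
    push_cast
    refine Finset.sum_le_sum fun r _ => ?_
    rw [one_div]
    exact inv_anti₀ (by positivity) (by linarith)
  have h2 := harmonic_le_one_add_log M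
  norm_num at h1 ⊢
  linarith

/-- L-FR-Q8 (Mathlib only).  Split at `s = p0`: both parts are `∑_{r=0}^{M} (r + ½)⁻¹ ≤ 2 + ∑_{r=1}^M r⁻¹ ≤ 3 + log G`, `M < G` (`harmonic_le_one_add_log`). -/
theorem half_harm (G p0 : ℕ) (h : p0 < G) : ∑ s ∈ Finset.range (G + 1), 1 / |(s : ℝ) - p0 - 1 / 2| ≤ 6 + 2 * Real.log G := by
  obtain ⟨k, rfl⟩ : ∃ k, G = p0 + 1 + k := ⟨G - p0 - 1, by omega⟩
  have hlog : ∀ M : ℕ, M ≤ p0 + 1 + k → Real.log M ≤ Real.log ((p0 + 1 + k : ℕ) : ℝ) := by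
    intro M hM
    rcases Nat.eq_zero_or_pos M with rfl | hM0
    · simp only [Nat.cast_zero, Real.log_zero]
      exact Real.log_nonneg (by exact_mod_cast (by omega : 1 ≤ p0 + 1 + k))
    · exact Real.log_le_log (by exact_mod_cast hM0) (by exact_mod_cast hM)
  have e : p0 + 1 + k + 1 = (p0 + 1) + (k + 1) := by ring
  rw [e, Finset.sum_range_add]
  have h1 : ∑ s ∈ Finset.range (p0 + 1), 1 / |(s : ℝ) - p0 - 1 / 2| ≤ 3 + Real.log p0 := by
    rw [← Finset.sum_range_reflect]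
    refine le_trans (le_of_eq ?_) (frq_harm p0)
    refine Finset.sum_congr rfl fun j hj => ?_
    have hj' : j ≤ p0 := by have := Finset.mem_range.1 hj; omega
    have e1 : ((p0 + 1 - 1 - j : ℕ) : ℝ) = (p0 : ℝ) - j := by
      rw [Nat.add_sub_cancel, Nat.cast_sub hj']
    rw [e1]
    have e2 : (p0 : ℝ) - j - p0 - 1 / 2 = -((j : ℝ) + 1 / 2) := by ring
    rw [e2, abs_neg, abs_of_pos (by positivity)]
  have h2 : ∑ s ∈ Finset.range (k + 1), 1 / |((p0 + 1 + s : ℕ) : ℝ) - p0 - 1 / 2| ≤ 3 + Real.log k := by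
    refine le_trans (le_of_eq ?_) (frq_harm k)
    refine Finset.sum_congr rfl fun j _ => ?_
    have e2 : ((p0 + 1 + j : ℕ) : ℝ) - p0 - 1 / 2 = (j : ℝ) + 1 / 2 := by push_cast; ring
    rw [e2, abs_of_pos (by positivity)]
  have l1 := hlog p0 (by omega)
  have l2 := hlog k (by omega)
  linarith

theorem frq_corr_half (G : ℕ) (hG : 0 < G) (α β σ : ℕ → ℝ) (δ : ℝ)
    (hα : ∀ j < G, |α j| ≤ δ) (hβ : ∀ j < G, |β j| ≤ δ) (hσ : ∀ i < G, |σ i| ≤ 2 * δ) :
    ∃ F : ℕ → ℕ → ℝ, (∀ j, F G j = α j) ∧ (∀ j, F 0 j = - β j) ∧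
      (∀ i j, F (i + 1) j - F i j
        = (α j + β j) / G + ((∑ k ∈ Finset.range G, σ k) / G - σ i) / G) ∧
      ∀ s ≤ G, ∀ j < G, |F s j| ≤ 5 * δ := by
  have hG' : (0 : ℝ) < G := by exact_mod_cast hG
  have hδ0 : 0 ≤ δ := (abs_nonneg _).trans (hα 0 hG)
  set m := (∑ k ∈ Finset.range G, σ k) / G with hm
  have hmb : |m| ≤ 2 * δ := by
    rw [hm, abs_div, abs_of_pos hG', div_le_iff₀ hG']
    refine (Finset.abs_sum_le_sum_abs _ _).trans ?_
    refine (Finset.sum_le_card_nsmul _ _ (2 * δ) fun i hi => hσ i (Finset.mem_range.1 hi)).trans ?_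
    rw [Finset.card_range, nsmul_eq_mul]
    linarith
  refine ⟨fun s j => - β j + (s / G) * (α j + β j) + ∑ i ∈ Finset.range s, (m - σ i) / G,
    ?_, ?_, ?_, ?_⟩
  · intro j
    have h1 : ∑ i ∈ Finset.range G, (m - σ i) / G = 0 := by
      rw [← Finset.sum_div, Finset.sum_sub_distrib, Finset.sum_const, Finset.card_range,
        nsmul_eq_mul, hm, mul_div_cancel₀ _ hG'.ne', sub_self, zero_div]
    simp only [h1, div_self hG'.ne']
    ring
  · intro j
    simp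
  · intro i j
    simp only [Finset.sum_range_succ]
    push_cast
    ring
  · intro s hs j hj
    have hs' : (s : ℝ) ≤ G := by exact_mod_cast hs
    have hθ0 : 0 ≤ (s : ℝ) / G := by positivity
    have hθ1 : (s : ℝ) / G ≤ 1 := (div_le_one hG').2 hs'
    have a1 := abs_le.1 (hα j hj)
    have a2 := abs_le.1 (hβ j hj)
    have h1 : |- β j + (s / G) * (α j + β j)| ≤ δ := by
      have e : - β j + (s / G) * (α j + β j) = (1 - (s : ℝ) / G) * (- β j) + (s / G) * α j := by ring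
      rw [e, abs_le]
      constructor <;> nlinarith [a1.1, a1.2, a2.1, a2.2]
    have h2 : |∑ i ∈ Finset.range s, (m - σ i) / G| ≤ 4 * δ := by
      refine (Finset.abs_sum_le_sum_abs _ _).trans ?_
      have h3 : ∀ i ∈ Finset.range s, |(m - σ i) / G| ≤ 4 * δ / G := by
        intro i hi
        have hi' : i < G := lt_of_lt_of_le (Finset.mem_range.1 hi) hs
        rw [abs_div, abs_of_pos hG']
        refine div_le_div_of_nonneg_right ?_ hG'.le
        have b1 := abs_le.1 hmb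
        have b2 := abs_le.1 (hσ i hi')
        rw [abs_le]
        constructor <;> linarith [b1.1, b1.2, b2.1, b2.2]
      refine (Finset.sum_le_card_nsmul _ _ _ h3).trans ?_
      rw [Finset.card_range, nsmul_eq_mul]
      have : (s : ℝ) * (4 * δ / G) = (s / G) * (4 * δ) := by ring
      rw [this]
      nlinarith
    calc |- β j + (s / G) * (α j + β j) + ∑ i ∈ Finset.range s, (m - σ i) / G|
        ≤ |- β j + (s / G) * (α j + β j)| + |∑ i ∈ Finset.range s, (m - σ i) / G| := abs_add_le _ _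
      _ ≤ 5 * δ := by linarith

/-- L-FR-Q9 (Mathlib only, algebra).  **The correction flow.**  `ρ j = dR j + dL j`, `τ i = dT i + dB i`, `ρ̄, τ̄` their means.
`hx s j = -dL j + (s/G) ρ j + ∑_{i<s} (τ̄ - τ i)/G`,   `vy i s = -dB i + (s/G) τ i + ∑_{j<s} (ρ̄ - ρ j)/G`.   Divergence `(ρ̄ + τ̄)/G = 0`.   `|(1 - s/G)(-dL) + (s/G) dR| ≤ δ`, `|∑_{i<s} …| ≤ 4δ`. -/
theorem corr_flow (G : ℕ) (hG : 0 < G) (dR dL dT dB : ℕ → ℝ) (δ : ℝ)
    (hδ : ∀ j < G, |dR j| ≤ δ ∧ |dL j| ≤ δ ∧ |dT j| ≤ δ ∧ |dB j| ≤ δ)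
    (h0 : ∑ j ∈ Finset.range G, (dR j + dL j + dT j + dB j) = 0) :
    ∃ hx vy : ℕ → ℕ → ℝ, (∀ j < G, hx G j = dR j ∧ hx 0 j = - dL j ∧ vy j G = dT j ∧ vy j 0 = - dB j) ∧
      (∀ i < G, ∀ j < G, hx (i + 1) j - hx i j + vy i (j + 1) - vy i j = 0) ∧
      (∀ s ≤ G, ∀ j < G, |hx s j| ≤ 5 * δ ∧ |vy j s| ≤ 5 * δ) := by
  have hG' : (0 : ℝ) < G := by exact_mod_cast hG
  have hsum : ∀ a b : ℕ → ℝ, (∀ j < G, |a j| ≤ δ) → (∀ j < G, |b j| ≤ δ) →
      ∀ j < G, |a j + b j| ≤ 2 * δ := by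
    intro a b ha hb j hj
    have := abs_add_le (a j) (b j)
    linarith [ha j hj, hb j hj]
  obtain ⟨F, F1, F2, F3, F4⟩ := frq_corr_half G hG dR dL (fun i => dT i + dB i) δ
    (fun j hj => (hδ j hj).1) (fun j hj => (hδ j hj).2.1)
    (hsum dT dB (fun j hj => (hδ j hj).2.2.1) (fun j hj => (hδ j hj).2.2.2))
  obtain ⟨F', F1', F2', F3', F4'⟩ := frq_corr_half G hG dT dB (fun i => dR i + dL i) δ
    (fun j hj => (hδ j hj).2.2.1) (fun j hj => (hδ j hj).2.2.2)
    (hsum dR dL (fun j hj => (hδ j hj).1) (fun j hj => (hδ j hj).2.1))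
  refine ⟨F, fun i s => F' s i, fun j _ => ⟨F1 j, F2 j, F1' j, F2' j⟩, fun i _ j _ => ?_,
    fun s hs j hj => ⟨F4 s hs j hj, F4' s hs j hj⟩⟩
  have e : F (i + 1) j - F i j + F' (j + 1) i - F' j i
      = (F (i + 1) j - F i j) + (F' (j + 1) i - F' j i) := by ring
  rw [e, F3, F3']
  have h1 : ∑ k ∈ Finset.range G, (dT k + dB k) + ∑ k ∈ Finset.range G, (dR k + dL k) = 0 := by
    rw [← Finset.sum_add_distrib, ← h0]
    exact Finset.sum_congr rfl fun k _ => by ring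
  have e2 : (dR j + dL j) / G + ((∑ k ∈ Finset.range G, (dT k + dB k)) / G - (dT i + dB i)) / G
      + ((dT i + dB i) / G + ((∑ k ∈ Finset.range G, (dR k + dL k)) / G - (dR j + dL j)) / G)
      = (∑ k ∈ Finset.range G, (dT k + dB k) + ∑ k ∈ Finset.range G, (dR k + dL k)) / G / G := by
    ring
  rw [e2, h1]
  simp

/-- the main flow: flux through the face between the columns `s - 1`, `s` in the row `j`; source in the cell `(p, q)` -/
def frqA (p q s j : ℕ) : ℝ := fl ((s : ℝ) - p - 1 / 2) ((j : ℝ) - q - 1 / 2)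

theorem frq_c_ne (s p : ℕ) : (s : ℝ) - p - 1 / 2 ≠ 0 := by
  have := (frq_half_ne ((s : ℤ) - p)).2
  push_cast at this
  exact this

theorem frqA_row_sq (p q s G : ℕ) :
    ∑ j ∈ Finset.range G, frqA p q s j ^ 2 ≤ 1 / (8 * Real.pi) * (1 / |(s : ℝ) - p - 1 / 2|) := by
  have h := fl_row_sq _ (frq_c_ne s p) (-(q : ℝ) - 1 / 2) G
  have e : ∀ j : ℕ, -(q : ℝ) - 1 / 2 + j = (j : ℝ) - q - 1 / 2 := fun j => by ring
  simp only [e] at h
  refine h.trans (le_of_eq ?_)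
  rw [one_div_mul_one_div]

theorem frqA_row_abs (p q s G : ℕ) : ∑ j ∈ Finset.range G, |frqA p q s j| ≤ 1 / 2 := by
  have h := fl_row_abs _ (frq_c_ne s p) (-(q : ℝ) - 1 / 2) G
  have e : ∀ j : ℕ, -(q : ℝ) - 1 / 2 + j = (j : ℝ) - q - 1 / 2 := fun j => by ring
  simp only [e] at h
  exact h

theorem frqA_div (p q i j : ℕ) :
    frqA p q (i + 1) j - frqA p q i j + frqA q p (j + 1) i - frqA q p j i
      = if i = p ∧ j = q then 1 else 0 := by
  have h := fl_div ((i : ℤ) - p) ((j : ℤ) - q)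
  push_cast at h
  have e1 : ((i + 1 : ℕ) : ℝ) - p - 1 / 2 = (i : ℝ) - p + 1 / 2 := by push_cast; ring
  have e2 : ((j + 1 : ℕ) : ℝ) - q - 1 / 2 = (j : ℝ) - q + 1 / 2 := by push_cast; ring
  simp only [frqA, e1, e2]
  rw [h]
  have c1 : ((i : ℤ) - p = 0 ∧ (j : ℤ) - q = 0) ↔ (i = p ∧ j = q) := by omega
  simp only [c1]

/-- shifted sums -/
theorem frq_sum_shift (f : ℕ → ℝ) (hf : ∀ s, 0 ≤ f s) (G : ℕ) :
    ∑ i ∈ Finset.range G, (f (i + 1) + f i) ≤ 2 * ∑ s ∈ Finset.range (G + 1), f s := by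
  rw [Finset.sum_add_distrib]
  have h1 : ∑ i ∈ Finset.range G, f (i + 1) ≤ ∑ s ∈ Finset.range (G + 1), f s := by
    rw [Finset.sum_range_succ']
    linarith [hf 0]
  have h2 : ∑ i ∈ Finset.range G, f i ≤ ∑ s ∈ Finset.range (G + 1), f s := by
    rw [Finset.sum_range_succ]
    linarith [hf G]
  linarith

theorem frqA_energy (p q G : ℕ) (hp : p < G) :
    ∑ i ∈ Finset.range G, ∑ j ∈ Finset.range G, (frqA p q (i + 1) j ^ 2 + frqA p q i j ^ 2) / 2
      ≤ (6 + 2 * Real.log G) / (8 * Real.pi) := by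
  have hpi := Real.pi_pos
  have e : ∀ i ∈ Finset.range G, ∑ j ∈ Finset.range G, (frqA p q (i + 1) j ^ 2 + frqA p q i j ^ 2) / 2
      = ((∑ j ∈ Finset.range G, frqA p q (i + 1) j ^ 2) + ∑ j ∈ Finset.range G, frqA p q i j ^ 2) / 2 := by
    intro i _
    rw [← Finset.sum_add_distrib, Finset.sum_div]
  rw [Finset.sum_congr rfl e, ← Finset.sum_div]
  have h1 := frq_sum_shift (fun s => ∑ j ∈ Finset.range G, frqA p q s j ^ 2)
    (fun s => Finset.sum_nonneg fun j _ => sq_nonneg _) G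
  have h2 : ∑ s ∈ Finset.range (G + 1), ∑ j ∈ Finset.range G, frqA p q s j ^ 2
      ≤ 1 / (8 * Real.pi) * (6 + 2 * Real.log G) := by
    refine (Finset.sum_le_sum fun s _ => frqA_row_sq p q s G).trans ?_
    rw [← Finset.mul_sum]
    exact mul_le_mul_of_nonneg_left (half_harm G p hp) (by positivity)
  have e3 : (6 + 2 * Real.log G) / (8 * Real.pi) = 1 / (8 * Real.pi) * (6 + 2 * Real.log G) := by ring
  rw [e3]
  linarith

theorem frqA_cross (p q G : ℕ) :
    ∑ i ∈ Finset.range G, ∑ j ∈ Finset.range G, (|frqA p q (i + 1) j| + |frqA p q i j|) ≤ (G : ℝ) + 1 := by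
  have e : ∀ i ∈ Finset.range G, ∑ j ∈ Finset.range G, (|frqA p q (i + 1) j| + |frqA p q i j|)
      = (∑ j ∈ Finset.range G, |frqA p q (i + 1) j|) + ∑ j ∈ Finset.range G, |frqA p q i j| := by
    intro i _
    rw [← Finset.sum_add_distrib]
  rw [Finset.sum_congr rfl e]
  have h1 := frq_sum_shift (fun s => ∑ j ∈ Finset.range G, |frqA p q s j|)
    (fun s => Finset.sum_nonneg fun j _ => abs_nonneg _) G
  have h2 : ∑ s ∈ Finset.range (G + 1), ∑ j ∈ Finset.range G, |frqA p q s j| ≤ ((G : ℝ) + 1) * (1 / 2) := by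
    refine (Finset.sum_le_card_nsmul _ _ (1 / 2) fun s _ => frqA_row_abs p q s G).trans ?_
    rw [Finset.card_range, nsmul_eq_mul]
    push_cast
    exact le_rfl
  linarith

theorem frqA_second {C : ℝ} (hC : ∀ T : Finset (ℤ × ℤ),
    ∑ t ∈ T, (fl ((t.1 : ℝ) + 1 / 2) ((t.2 : ℝ) - 1 / 2) - fl ((t.1 : ℝ) - 1 / 2) ((t.2 : ℝ) - 1 / 2)) ^ 2 ≤ C)
    (p q G : ℕ) :
    ∑ i ∈ Finset.range G, ∑ j ∈ Finset.range G, (frqA p q (i + 1) j - frqA p q i j) ^ 2 ≤ C := by
  rw [← Finset.sum_product']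
  have hinj : Set.InjOn (fun x : ℕ × ℕ => (((x.1 : ℤ) - p, (x.2 : ℤ) - q) : ℤ × ℤ))
      (Finset.range G ×ˢ Finset.range G : Finset (ℕ × ℕ)) := by
    rintro ⟨a, b⟩ _ ⟨a', b'⟩ _ h
    simp only [Prod.mk.injEq] at h ⊢
    omega
  have h := hC ((Finset.range G ×ˢ Finset.range G).image
    (fun x : ℕ × ℕ => (((x.1 : ℤ) - p, (x.2 : ℤ) - q) : ℤ × ℤ)))
  rw [Finset.sum_image hinj] at h
  refine le_trans (le_of_eq ?_) h
  refine Finset.sum_congr rfl fun x _ => ?_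
  have e1 : ((x.1 + 1 : ℕ) : ℝ) - p - 1 / 2 = (((x.1 : ℤ) - p : ℤ) : ℝ) + 1 / 2 := by push_cast; ring
  have e2 : (x.1 : ℝ) - p - 1 / 2 = (((x.1 : ℤ) - p : ℤ) : ℝ) - 1 / 2 := by push_cast; ring
  have e3 : (x.2 : ℝ) - q - 1 / 2 = (((x.2 : ℤ) - q : ℤ) : ℝ) - 1 / 2 := by push_cast; ring
  simp only [frqA, e1, e2, e3]

/-- boundary values of the main flow -/
theorem frqA_bdry {G p : ℕ} (hG : 0 < G) (h1 : (G : ℝ) / 4 ≤ p) (h2 : (p : ℝ) + 1 ≤ 3 * G / 4) (q j : ℕ) :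
    |frqA p q G j| ≤ 3 / (4 * G) ∧ |frqA p q 0 j| ≤ 3 / (4 * G) := by
  have hG' : (0 : ℝ) < G := by exact_mod_cast hG
  have hpi := Real.pi_gt_three
  have key : ∀ c : ℝ, (G : ℝ) / 4 ≤ |c| → 1 / (2 * Real.pi * |c|) ≤ 3 / (4 * G) := by
    intro c hc
    have hc0 : 0 < |c| := lt_of_lt_of_le (by positivity) hc
    rw [div_le_div_iff₀ (by positivity) (by positivity)]
    nlinarith
  constructor
  · refine (fl_abs_le _ (frq_c_ne G p) _).trans (key _ ?_)
    rw [abs_of_pos (by linarith)]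
    linarith
  · refine (fl_abs_le _ (frq_c_ne 0 p) _).trans (key _ ?_)
    rw [abs_of_neg (by push_cast; linarith)]
    push_cast
    linarith

/-- the estimates in one direction -/
theorem frq_dir {C : ℝ} (hC : ∀ T : Finset (ℤ × ℤ),
    ∑ t ∈ T, (fl ((t.1 : ℝ) + 1 / 2) ((t.2 : ℝ) - 1 / 2) - fl ((t.1 : ℝ) - 1 / 2) ((t.2 : ℝ) - 1 / 2)) ^ 2 ≤ C)
    (p q G : ℕ) (hp : p < G) (c : ℕ → ℕ → ℝ) (hc : ∀ s ≤ G, ∀ j < G, |c s j| ≤ 5 * (1 / (G : ℝ))) :
    ∑ i ∈ Finset.range G, ∑ j ∈ Finset.range G,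
        (((frqA p q (i + 1) j + c (i + 1) j) + (frqA p q i j + c i j)) / 2) ^ 2
      ≤ (6 + 2 * Real.log G) / (8 * Real.pi) + 35 ∧
    ∑ i ∈ Finset.range G, ∑ j ∈ Finset.range G,
        ((frqA p q (i + 1) j + c (i + 1) j) - (frqA p q i j + c i j)) ^ 2 ≤ 2 * C + 200 := by
  have hG : 0 < G := lt_of_le_of_lt (Nat.zero_le _) hp
  have hG' : (0 : ℝ) < G := by exact_mod_cast hG
  have hG1 : (1 : ℝ) ≤ G := by exact_mod_cast hG
  set b : ℝ := 5 * (1 / (G : ℝ)) with hb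
  have hb0 : 0 ≤ b := by positivity
  have hbG : b * G = 5 := by rw [hb]; field_simp
  have hconst : ∀ K : ℝ, ∑ i ∈ Finset.range G, ∑ j ∈ Finset.range G, K = (G : ℝ) * (G * K) := by
    intro K
    simp only [Finset.sum_const, Finset.card_range, nsmul_eq_mul]
  constructor
  · have hpt : ∀ i ∈ Finset.range G, ∀ j ∈ Finset.range G,
        (((frqA p q (i + 1) j + c (i + 1) j) + (frqA p q i j + c i j)) / 2) ^ 2
        ≤ (frqA p q (i + 1) j ^ 2 + frqA p q i j ^ 2) / 2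
          + b * (|frqA p q (i + 1) j| + |frqA p q i j|) + b ^ 2 := by
      intro i hi j hj
      have hi' := Finset.mem_range.1 hi
      have hj' := Finset.mem_range.1 hj
      have c1 := hc (i + 1) (by omega) j hj'
      have c2 := hc i (by omega) j hj'
      set a := frqA p q (i + 1) j
      set a' := frqA p q i j
      set B := (c (i + 1) j + c i j) / 2 with hB
      have hBb : |B| ≤ b := by
        rw [hB, abs_le]
        have d1 := abs_le.1 c1
        have d2 := abs_le.1 c2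
        constructor <;> linarith [d1.1, d1.2, d2.1, d2.2]
      have e : ((a + c (i + 1) j) + (a' + c i j)) / 2 = (a + a') / 2 + B := by rw [hB]; ring
      rw [e]
      have h1 : ((a + a') / 2) ^ 2 ≤ (a ^ 2 + a' ^ 2) / 2 := by nlinarith [sq_nonneg (a - a')]
      have h2 : 2 * ((a + a') / 2) * B ≤ b * (|a| + |a'|) := by
        have : 2 * ((a + a') / 2) * B = (a + a') * B := by ring
        rw [this]
        calc (a + a') * B ≤ |(a + a') * B| := le_abs_self _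
          _ = |a + a'| * |B| := abs_mul _ _
          _ ≤ (|a| + |a'|) * b := mul_le_mul (abs_add_le _ _) hBb (abs_nonneg _) (by positivity)
          _ = b * (|a| + |a'|) := by ring
      have h3 : B ^ 2 ≤ b ^ 2 := by
        rw [← sq_abs]; exact pow_le_pow_left₀ (abs_nonneg _) hBb 2
      nlinarith
    refine (Finset.sum_le_sum fun i hi => Finset.sum_le_sum fun j hj => hpt i hi j hj).trans ?_
    simp only [Finset.sum_add_distrib, ← Finset.mul_sum]
    rw [hconst]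
    have h1 := frqA_energy p q G hp
    have h2 := frqA_cross p q G
    have h3 : b * ∑ i ∈ Finset.range G, ∑ j ∈ Finset.range G, (|frqA p q (i + 1) j| + |frqA p q i j|) ≤ 10 := by
      calc _ ≤ b * ((G : ℝ) + 1) := mul_le_mul_of_nonneg_left h2 hb0
        _ = 5 + b := by rw [mul_add, hbG, mul_one]
        _ ≤ 10 := by
          have : b ≤ 5 := by nlinarith
          linarith
    have h4 : (G : ℝ) * (G * b ^ 2) = 25 := by
      have : (G : ℝ) * (G * b ^ 2) = (b * G) ^ 2 := by ring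
      rw [this, hbG]; norm_num
    simp only [Finset.sum_add_distrib] at h2 h3
    linarith
  · have hpt : ∀ i ∈ Finset.range G, ∀ j ∈ Finset.range G,
        ((frqA p q (i + 1) j + c (i + 1) j) - (frqA p q i j + c i j)) ^ 2
        ≤ 2 * (frqA p q (i + 1) j - frqA p q i j) ^ 2 + 8 * b ^ 2 := by
      intro i hi j hj
      have hi' := Finset.mem_range.1 hi
      have hj' := Finset.mem_range.1 hj
      have c1 := hc (i + 1) (by omega) j hj'
      have c2 := hc i (by omega) j hj'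
      set a := frqA p q (i + 1) j
      set a' := frqA p q i j
      set B := c (i + 1) j - c i j with hB
      have hBb : |B| ≤ 2 * b := by
        rw [hB, abs_le]
        have d1 := abs_le.1 c1
        have d2 := abs_le.1 c2
        constructor <;> linarith [d1.1, d1.2, d2.1, d2.2]
      have e : (a + c (i + 1) j) - (a' + c i j) = (a - a') + B := by rw [hB]; ring
      rw [e]
      have h3 : B ^ 2 ≤ (2 * b) ^ 2 := by
        rw [← sq_abs]; exact pow_le_pow_left₀ (abs_nonneg _) hBb 2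
      nlinarith [sq_nonneg ((a - a') - B)]
    refine (Finset.sum_le_sum fun i hi => Finset.sum_le_sum fun j hj => hpt i hi j hj).trans ?_
    simp only [Finset.sum_add_distrib, ← Finset.mul_sum]
    rw [hconst]
    have h1 := frqA_second hC p q G
    have h4 : (G : ℝ) * (G * (8 * b ^ 2)) = 200 := by
      have : (G : ℝ) * (G * (8 * b ^ 2)) = 8 * (b * G) ^ 2 := by ring
      rw [this, hbG]; norm_num
    linarith

/-- L-FR-Q10 (Mathlib only).  **The radial flow in face variables**: `hx s j` = flux to the right through the face between the columns `s - 1` and `s` in the row `j`; `vy i s` likewise upwards.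
Main flow `hx₀ s j = fl (s - p0 - ½) (j - q0 - ½)`, `vy₀ i s = fl (s - q0 - ½) (i - p0 - ½)`: divergence by `fl_div` (`l = i - p0`, `m = j - q0`).   Defects `dR j = 1/(4G) - hx₀ G j`, `dL j = 1/(4G) + hx₀ 0 j`, …:
`|hx₀ G j| ≤ 1/(2π (G/4)) `(`fl_abs_le`), so `δ = 1/G`; total `0` by summing the divergence over all cells (`Finset.sum_range_sub` in each row and column).   Add `corr_flow`.
Energy: `((a + a')/2 + B)² ≤ (a² + a'²)/2 + |B| (|a| + |a'|) + B²`, `|B| ≤ 5/G`; `∑_cells (a² + a'²)/2 ≤ ∑_{s ≤ G} ∑_j hx₀ s j² ≤ ∑_s 1/(8π|s - p0 - ½|) ≤ (6 + 2 log G)/(8π)` (`fl_row_sq`, `half_harm`);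
`∑_cells (|a| + |a'|) ≤ 2 ∑_{s ≤ G} 1/2 = G + 1` (`fl_row_abs`).   Second sum: `(A + B)² ≤ 2A² + 2B²`, `fl_diff_sq` (image of the cells under `(i,j) ↦ (i - p0, j - q0)`, resp. swapped), `|B| ≤ 10/G`. -/
theorem radial_grid : ∃ C : ℝ, ∀ G : ℕ, 4 ≤ G → ∀ p0 q0 : ℕ,
    (G : ℝ) / 4 ≤ p0 → (p0 : ℝ) + 1 ≤ 3 * G / 4 → (G : ℝ) / 4 ≤ q0 → (q0 : ℝ) + 1 ≤ 3 * G / 4 →
    ∃ hx vy : ℕ → ℕ → ℝ,
      (∀ j < G, hx G j = 1 / (4 * G) ∧ hx 0 j = - (1 / (4 * G)) ∧ vy j G = 1 / (4 * G) ∧ vy j 0 = - (1 / (4 * G))) ∧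
      (∀ i < G, ∀ j < G, hx (i + 1) j - hx i j + vy i (j + 1) - vy i j = if i = p0 ∧ j = q0 then 1 else 0) ∧
      ∑ i ∈ Finset.range G, ∑ j ∈ Finset.range G, (((hx (i + 1) j + hx i j) / 2) ^ 2 + ((vy i (j + 1) + vy i j) / 2) ^ 2)
        ≤ Real.log G / (2 * Real.pi) + C ∧
      ∑ i ∈ Finset.range G, ∑ j ∈ Finset.range G, ((hx (i + 1) j - hx i j) ^ 2 + (vy i (j + 1) - vy i j) ^ 2) ≤ C := by
  obtain ⟨C₁, hC₁⟩ := fl_diff_sq
  have hC₁0 : 0 ≤ C₁ := by simpa using hC₁ ∅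
  have hpi := Real.pi_pos
  refine ⟨3 / (2 * Real.pi) + 70 + (4 * C₁ + 400), fun G hG4 p0 q0 hp1 hp2 hq1 hq2 => ?_⟩
  have hG : 0 < G := by omega
  have hG' : (0 : ℝ) < G := by exact_mod_cast hG
  have hpG : p0 < G := by
    have : (p0 : ℝ) < G := by linarith
    exact_mod_cast this
  have hqG : q0 < G := by
    have : (q0 : ℝ) < G := by linarith
    exact_mod_cast this
  -- the defects
  have hdef : ∀ j < G, |1 / (4 * (G : ℝ)) - frqA p0 q0 G j| ≤ 1 / (G : ℝ) ∧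
      |1 / (4 * (G : ℝ)) + frqA p0 q0 0 j| ≤ 1 / (G : ℝ) ∧
      |1 / (4 * (G : ℝ)) - frqA q0 p0 G j| ≤ 1 / (G : ℝ) ∧
      |1 / (4 * (G : ℝ)) + frqA q0 p0 0 j| ≤ 1 / (G : ℝ) := by
    intro j _
    obtain ⟨a1, a2⟩ := frqA_bdry hG hp1 hp2 q0 j
    obtain ⟨a3, a4⟩ := frqA_bdry hG hq1 hq2 p0 j
    have e : 1 / (G : ℝ) = 1 / (4 * (G : ℝ)) + 3 / (4 * G) := by field_simp; norm_num
    have h0 : 0 ≤ 1 / (4 * (G : ℝ)) := by positivity
    rw [abs_le] at a1 a2 a3 a4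
    refine ⟨?_, ?_, ?_, ?_⟩ <;> rw [abs_le, e] <;> constructor <;> linarith [a1.1, a1.2, a2.1, a2.2, a3.1, a3.2, a4.1, a4.2]
  -- total defect
  have htot : ∑ j ∈ Finset.range G, ((1 / (4 * (G : ℝ)) - frqA p0 q0 G j) + (1 / (4 * (G : ℝ)) + frqA p0 q0 0 j)
      + (1 / (4 * (G : ℝ)) - frqA q0 p0 G j) + (1 / (4 * (G : ℝ)) + frqA q0 p0 0 j)) = 0 := by
    have hdiv : ∑ i ∈ Finset.range G, ∑ j ∈ Finset.range G,
        (frqA p0 q0 (i + 1) j - frqA p0 q0 i j + frqA q0 p0 (j + 1) i - frqA q0 p0 j i) = 1 := by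
      simp only [frqA_div]
      rw [Finset.sum_eq_single p0, Finset.sum_eq_single q0]
      · simp
      · intro j _ hj; simp [hj]
      · intro h; exact absurd (Finset.mem_range.2 hqG) h
      · intro i _ hi; simp [hi]
      · intro h; exact absurd (Finset.mem_range.2 hpG) h
    have t1 : ∑ i ∈ Finset.range G, ∑ j ∈ Finset.range G, (frqA p0 q0 (i + 1) j - frqA p0 q0 i j)
        = ∑ j ∈ Finset.range G, (frqA p0 q0 G j - frqA p0 q0 0 j) := by
      rw [Finset.sum_comm]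
      exact Finset.sum_congr rfl fun j _ => Finset.sum_range_sub (fun i => frqA p0 q0 i j) G
    have t2 : ∑ i ∈ Finset.range G, ∑ j ∈ Finset.range G, (frqA q0 p0 (j + 1) i - frqA q0 p0 j i)
        = ∑ i ∈ Finset.range G, (frqA q0 p0 G i - frqA q0 p0 0 i) :=
      Finset.sum_congr rfl fun i _ => Finset.sum_range_sub (fun j => frqA q0 p0 j i) G
    have e1 : ∑ i ∈ Finset.range G, ∑ j ∈ Finset.range G,
        (frqA p0 q0 (i + 1) j - frqA p0 q0 i j + frqA q0 p0 (j + 1) i - frqA q0 p0 j i)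
        = ∑ i ∈ Finset.range G, ∑ j ∈ Finset.range G, (frqA p0 q0 (i + 1) j - frqA p0 q0 i j)
          + ∑ i ∈ Finset.range G, ∑ j ∈ Finset.range G, (frqA q0 p0 (j + 1) i - frqA q0 p0 j i) := by
      rw [← Finset.sum_add_distrib]
      refine Finset.sum_congr rfl fun i _ => ?_
      rw [← Finset.sum_add_distrib]
      exact Finset.sum_congr rfl fun j _ => by ring
    rw [e1, t1, t2] at hdiv
    have e2 : ∑ j ∈ Finset.range G, ((1 / (4 * (G : ℝ)) - frqA p0 q0 G j) + (1 / (4 * (G : ℝ)) + frqA p0 q0 0 j)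
      + (1 / (4 * (G : ℝ)) - frqA q0 p0 G j) + (1 / (4 * (G : ℝ)) + frqA q0 p0 0 j))
      = ∑ j ∈ Finset.range G, (1 / (G : ℝ)) - (∑ j ∈ Finset.range G, (frqA p0 q0 G j - frqA p0 q0 0 j)
          + ∑ i ∈ Finset.range G, (frqA q0 p0 G i - frqA q0 p0 0 i)) := by
      rw [← Finset.sum_add_distrib, ← Finset.sum_sub_distrib]
      refine Finset.sum_congr rfl fun j _ => ?_
      field_simp
      ring
    rw [e2, hdiv, Finset.sum_const, Finset.card_range, nsmul_eq_mul]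
    field_simp
    ring
  obtain ⟨cx, cy, hb, hd, hbd⟩ := corr_flow G hG _ _ _ _ (1 / (G : ℝ)) hdef htot
  refine ⟨fun s j => frqA p0 q0 s j + cx s j, fun i s => frqA q0 p0 s i + cy i s, ?_, ?_, ?_, ?_⟩
  · intro j hj
    obtain ⟨b1, b2, b3, b4⟩ := hb j hj
    simp only [b1, b2, b3, b4]
    refine ⟨by ring, by ring, by ring, by ring⟩
  · intro i hi j hj
    have h1 := hd i hi j hj
    have h2 := frqA_div p0 q0 i j
    simp only
    linarith
  · obtain ⟨x1, -⟩ := frq_dir hC₁ p0 q0 G hpG cx (fun s hs j hj => (hbd s hs j hj).1)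
    obtain ⟨y1, -⟩ := frq_dir hC₁ q0 p0 G hqG (fun s i => cy i s) (fun s hs j hj => (hbd s hs j hj).2)
    rw [Finset.sum_comm] at y1
    simp only [Finset.sum_add_distrib]
    have e : Real.log G / (2 * Real.pi) + (3 / (2 * Real.pi) + 70 + (4 * C₁ + 400))
        = ((6 + 2 * Real.log G) / (8 * Real.pi) + 35) + ((6 + 2 * Real.log G) / (8 * Real.pi) + 35)
          + (4 * C₁ + 400) := by
      field_simp
      ring
    rw [e]
    linarith
  · obtain ⟨-, x2⟩ := frq_dir hC₁ p0 q0 G hpG cx (fun s hs j hj => (hbd s hs j hj).1)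
    obtain ⟨-, y2⟩ := frq_dir hC₁ q0 p0 G hqG (fun s i => cy i s) (fun s hs j hj => (hbd s hs j hj).2)
    rw [Finset.sum_comm] at y2
    simp only [Finset.sum_add_distrib]
    have : 0 ≤ 3 / (2 * Real.pi) := by positivity
    linarith

/-- L-FR-Q11 (= `C2.radial_flow`, Mathlib only).  `radial_grid` with `H i 0 = hx (i.1+1) i.2`, `H i 1 = - hx i.1 i.2`, `H i 2 = vy i.1 (i.2+1)`, `H i 3 = - vy i.1 i.2` (`![..]`); `Fintype.sum_prod_type`, `Finset.sum_range`. -/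
theorem fr_radial_flow : ∃ C : ℝ, ∀ G : ℕ, 4 ≤ G → ∀ i0 : Fin G × Fin G,
    (G : ℝ) / 4 ≤ i0.1.1 → (i0.1.1 : ℝ) + 1 ≤ 3 * G / 4 → (G : ℝ) / 4 ≤ i0.2.1 → (i0.2.1 : ℝ) + 1 ≤ 3 * G / 4 →
    ∃ H : Fin G × Fin G → Fin 4 → ℝ,
      (∀ i i' : Fin G × Fin G, i.1.1 + 1 = i'.1.1 → i.2 = i'.2 → H i 0 = - H i' 1) ∧
      (∀ i i' : Fin G × Fin G, i.2.1 + 1 = i'.2.1 → i.1 = i'.1 → H i 2 = - H i' 3) ∧
      (∀ i : Fin G × Fin G, (i.1.1 + 1 = G → H i 0 = 1 / (4 * G)) ∧ (i.1.1 = 0 → H i 1 = 1 / (4 * G)) ∧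
        (i.2.1 + 1 = G → H i 2 = 1 / (4 * G)) ∧ (i.2.1 = 0 → H i 3 = 1 / (4 * G))) ∧
      (∀ i : Fin G × Fin G, H i 0 + H i 1 + H i 2 + H i 3 = if i = i0 then 1 else 0) ∧
      ∑ i, (((H i 0 - H i 1) / 2) ^ 2 + ((H i 2 - H i 3) / 2) ^ 2) ≤ Real.log G / (2 * Real.pi) + C ∧
      ∑ i, ((H i 0 + H i 1) ^ 2 + (H i 2 + H i 3) ^ 2) ≤ C := by
  obtain ⟨C, hC⟩ := radial_grid
  refine ⟨C, fun G hG i0 h1 h2 h3 h4 => ?_⟩
  obtain ⟨hx, vy, hb, hd, he, hs⟩ := hC G hG i0.1.1 i0.2.1 h1 h2 h3 h4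
  refine ⟨fun i => ![hx (i.1.1 + 1) i.2.1, - hx i.1.1 i.2.1, vy i.1.1 (i.2.1 + 1), - vy i.1.1 i.2.1],
    ?_, ?_, ?_, ?_, ?_, ?_⟩
  · intro i i' h h'
    simp [h, h']
  · intro i i' h h'
    simp [h, h']
  · intro i
    refine ⟨fun h => ?_, fun h => ?_, fun h => ?_, fun h => ?_⟩
    · simpa [h] using (hb i.2.1 i.2.2).1
    · have := (hb i.2.1 i.2.2).2.1
      simp [h, this]
    · simpa [h] using (hb i.1.1 i.1.2).2.2.1
    · have := (hb i.1.1 i.1.2).2.2.2
      simp [h, this]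
  · intro i
    have := hd i.1.1 i.1.2 i.2.1 i.2.2
    have c : (i.1.1 = i0.1.1 ∧ i.2.1 = i0.2.1) ↔ i = i0 := by
      rw [Prod.ext_iff, Fin.ext_iff, Fin.ext_iff]
    simp only [c] at this
    rw [← this]
    simp
    ring
  · rw [Fintype.sum_prod_type]
    rw [Finset.sum_range] at he
    simp only [Finset.sum_range] at he
    refine le_trans (le_of_eq ?_) he
    refine Finset.sum_congr rfl fun a _ => Finset.sum_congr rfl fun b _ => ?_
    simp
  · rw [Fintype.sum_prod_type]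
    rw [Finset.sum_range] at hs
    simp only [Finset.sum_range] at hs
    refine le_trans (le_of_eq ?_) hs
    refine Finset.sum_congr rfl fun a _ => Finset.sum_congr rfl fun b _ => ?_
    simp
    ring

/-! ## 3. Neumann cosines and smears: [C](2.5)

`A_R = R.lap` is diagonal in the products of the discrete cosines `dc p i x = cos (π i (x + ½)/p)`, eigenvalues `dcL p i + dcL q j`, `dcL p i = 2 - 2 cos (π i/p) ≥ 4 i²/p²`.   `pot R f T` = the part of the potential `A⁺ f` carried by the modes in `T`.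
Low modes (`i, j < J`): finitely many sampled cosines with bounded frequencies and bounded coefficients, `Reg` by `fr_reg_cos`.   High modes: energy `≤ |f|² max(p,q)²/(4J²)` (volume profiles), `≤ |f|² (p/J + q/J + q²/(4pJ²))` (profiles on one column).
All identities and bounds of this section were checked numerically. -/

/-- the discrete Neumann cosine -/
def dc (p i : ℕ) (x : ℤ) : ℝ := Real.cos (Real.pi * i * ((x : ℝ) + 1 / 2) / p)

/-- its squared norm on `[0,p)` -/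
def dcN (p i : ℕ) : ℝ := if i = 0 then (p : ℝ) else p / 2

/-- its eigenvalue -/
def dcL (p i : ℕ) : ℝ := 2 - 2 * Real.cos (Real.pi * i / p)

/-- L-FR-Q12 (Mathlib only).  `θ = π m/p ∈ (0, 2π)`: `2 sin (θ/2) cos (θ (x + ½)) = sin (θ (x+1)) - sin (θ x)`; telescope: `sin (θ p) = sin (π m) = 0`; `sin (θ/2) ≠ 0`. -/
theorem cos_sum_zero (p m : ℕ) (hm : 0 < m) (hm2 : m < 2 * p) :
    ∑ x ∈ Finset.range p, Real.cos (Real.pi * m * ((x : ℝ) + 1 / 2) / p) = 0 := by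
  have hp : 0 < p := by omega
  have hp' : (0 : ℝ) < p := by exact_mod_cast hp
  have hm' : (0 : ℝ) < m := by exact_mod_cast hm
  set θ : ℝ := Real.pi * m / p with hθ
  have hs : Real.sin (θ / 2) ≠ 0 := by
    apply ne_of_gt
    apply Real.sin_pos_of_pos_of_lt_pi
    · have := Real.pi_pos
      positivity
    · rw [hθ, div_div, div_lt_iff₀ (by positivity)]
      have : (m : ℝ) < 2 * p := by exact_mod_cast hm2
      nlinarith [Real.pi_pos]
  have key : ∀ x : ℕ, 2 * Real.sin (θ / 2) * Real.cos (Real.pi * m * ((x : ℝ) + 1 / 2) / p)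
      = Real.sin (θ * ((x + 1 : ℕ) : ℝ)) - Real.sin (θ * (x : ℝ)) := by
    intro x
    have e1 : θ * ((x + 1 : ℕ) : ℝ) = Real.pi * m * ((x : ℝ) + 1 / 2) / p + θ / 2 := by
      rw [hθ]; push_cast; ring
    have e2 : θ * (x : ℝ) = Real.pi * m * ((x : ℝ) + 1 / 2) / p - θ / 2 := by rw [hθ]; ring
    rw [e1, e2, Real.sin_add, Real.sin_sub]; ring
  have h2 : 2 * Real.sin (θ / 2) * ∑ x ∈ Finset.range p, Real.cos (Real.pi * m * ((x : ℝ) + 1 / 2) / p) = 0 := by
    rw [Finset.mul_sum, Finset.sum_congr rfl (fun x _ => key x),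
      Finset.sum_range_sub (fun x : ℕ => Real.sin (θ * (x : ℝ)))]
    have e : θ * (p : ℝ) = (m : ℝ) * Real.pi := by rw [hθ]; field_simp
    rw [e, Real.sin_nat_mul_pi]
    simp
  rcases mul_eq_zero.1 h2 with h | h
  · exact absurd h (mul_ne_zero two_ne_zero hs)
  · exact h

/-- L-FR-Q12 (Mathlib only).  `cos A cos B = (cos (A - B) + cos (A + B))/2`, `cos_sum_zero` with `m = i + i'` and `m = |i - i'|`. -/
theorem dc_orth (p i i' : ℕ) (hi : i < p) (hi' : i' < p) :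
    ∑ x ∈ Finset.range p, dc p i x * dc p i' x = if i = i' then dcN p i else 0 := by
  have hp' : (0 : ℝ) < p := by exact_mod_cast (by omega : 0 < p)
  -- product formula with natural frequencies a = larger - smaller
  have prod : ∀ (a b : ℕ), b ≤ a → ∀ x : ℕ, dc p a x * dc p b x
      = (Real.cos (Real.pi * ((a - b : ℕ) : ℝ) * ((x : ℝ) + 1 / 2) / p)
        + Real.cos (Real.pi * ((a + b : ℕ) : ℝ) * ((x : ℝ) + 1 / 2) / p)) / 2 := by
    intro a b hab x
    unfold dc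
    have e1 : Real.pi * ((a - b : ℕ) : ℝ) * ((x : ℝ) + 1 / 2) / p
        = Real.pi * a * ((x : ℝ) + 1 / 2) / p - Real.pi * b * ((x : ℝ) + 1 / 2) / p := by
      rw [Nat.cast_sub hab]; ring
    have e2 : Real.pi * ((a + b : ℕ) : ℝ) * ((x : ℝ) + 1 / 2) / p
        = Real.pi * a * ((x : ℝ) + 1 / 2) / p + Real.pi * b * ((x : ℝ) + 1 / 2) / p := by
      push_cast; ring
    rw [e1, e2, Real.cos_sub, Real.cos_add]
    simp only [Int.cast_natCast]
    ring
  have main : ∀ (a b : ℕ), b ≤ a → a < p →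
      ∑ x ∈ Finset.range p, dc p a x * dc p b x = if a = b then dcN p a else 0 := by
    intro a b hab ha
    rw [Finset.sum_congr rfl (fun x _ => prod a b hab x), ← Finset.sum_div, Finset.sum_add_distrib]
    by_cases h : a = b
    · subst h
      rw [if_pos rfl]
      have z1 : ∑ x ∈ Finset.range p, Real.cos (Real.pi * ((a - a : ℕ) : ℝ) * ((x : ℝ) + 1 / 2) / p) = p := by
        simp
      rw [z1]
      unfold dcN
      by_cases h0 : a = 0
      · subst h0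
        simp
      · rw [if_neg h0, cos_sum_zero p (a + a) (by omega) (by omega)]
        ring
    · rw [if_neg h, cos_sum_zero p (a - b) (by omega) (by omega), cos_sum_zero p (a + b) (by omega) (by omega)]
      simp
  rcases le_total i' i with h | h
  · exact main i i' h hi
  · have := main i' i h hi'
    have e0 : ∑ x ∈ Finset.range p, dc p i x * dc p i' x = ∑ x ∈ Finset.range p, dc p i' x * dc p i x :=
      Finset.sum_congr rfl fun x _ => mul_comm _ _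
    rw [e0, this]
    by_cases e : i = i'
    · subst e; rfl
    · rw [if_neg e, if_neg (Ne.symm e)]

theorem dcN_pos (p i : ℕ) (hp : 0 < p) : 0 < dcN p i := by
  have hp' : (0 : ℝ) < p := by exact_mod_cast hp
  unfold dcN
  split_ifs <;> positivity

/-- L-FR-Q12 (Mathlib only).  The matrix `M i x = dc p i x / √(dcN p i)` on `Fin p` satisfies `M Mᵀ = 1` (`dc_orth`), hence `Mᵀ M = 1` (`Matrix.mul_eq_one_comm`). -/
theorem dc_complete (p x x' : ℕ) (hx : x < p) (hx' : x' < p) :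
    ∑ i ∈ Finset.range p, dc p i x * dc p i x' / dcN p i = if x = x' then 1 else 0 := by
  have hp : 0 < p := by omega
  set M : Matrix (Fin p) (Fin p) ℝ := Matrix.of fun i y => dc p i (y : ℕ) / Real.sqrt (dcN p i) with hM
  have hMa : ∀ i y, M i y = dc p i (y : ℕ) / Real.sqrt (dcN p i) := fun _ _ => rfl
  have h1 : M * M.transpose = 1 := by
    ext i i'
    rw [Matrix.mul_apply]
    have e : ∀ y : Fin p, M i y * M.transpose y i'
        = (dc p i (y : ℕ) * dc p i' (y : ℕ)) / (Real.sqrt (dcN p i) * Real.sqrt (dcN p i')) := by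
      intro y
      rw [Matrix.transpose_apply, hMa, hMa]; ring
    rw [Finset.sum_congr rfl (fun y _ => e y), ← Finset.sum_div,
      Fin.sum_univ_eq_sum_range (fun y : ℕ => dc p i (y : ℕ) * dc p i' (y : ℕ)) p, dc_orth p i i' i.2 i'.2]
    by_cases h : i = i'
    · subst h
      rw [if_pos rfl, Matrix.one_apply_eq, Real.mul_self_sqrt (dcN_pos p i hp).le, div_self (dcN_pos p i hp).ne']
    · rw [if_neg (fun h' => h (Fin.ext h')), Matrix.one_apply_ne h, zero_div]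
  have h2 : M.transpose * M = 1 := mul_eq_one_comm.1 h1
  have h3 := congrFun (congrFun h2 ⟨x, hx⟩) ⟨x', hx'⟩
  rw [Matrix.mul_apply] at h3
  have e : ∀ i : Fin p, M.transpose ⟨x, hx⟩ i * M i ⟨x', hx'⟩ = dc p i x * dc p i x' / dcN p i := by
    intro i
    rw [Matrix.transpose_apply, hMa, hMa, div_mul_div_comm, Real.mul_self_sqrt (dcN_pos p i hp).le]
  rw [Finset.sum_congr rfl (fun i _ => e i),
    Fin.sum_univ_eq_sum_range (fun i : ℕ => dc p i x * dc p i x' / dcN p i) p] at h3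
  rw [h3, Matrix.one_apply]
  simp [Fin.ext_iff]

/-- L-FR-Q13 (Mathlib only).  `cos (A + θ) + cos (A - θ) = 2 cos A cos θ`. -/
theorem dc_eigen (p i : ℕ) (x : ℤ) : 2 * dc p i x - dc p i (x + 1) - dc p i (x - 1) = dcL p i * dc p i x := by
  unfold dc dcL
  have e1 : Real.pi * i * (((x + 1 : ℤ) : ℝ) + 1 / 2) / p = Real.pi * i * ((x : ℝ) + 1 / 2) / p + Real.pi * i / p := by
    push_cast; ring
  have e2 : Real.pi * i * (((x - 1 : ℤ) : ℝ) + 1 / 2) / p = Real.pi * i * ((x : ℝ) + 1 / 2) / p - Real.pi * i / p := by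
    push_cast; ring
  rw [e1, e2, Real.cos_add, Real.cos_sub]
  ring

/-- L-FR-Q13 (Mathlib only).  Even reflection at both ends: `cos` is even; `cos (π i + s) = cos (π i - s)`. -/
theorem dc_refl (p i : ℕ) (hp : 0 < p) : dc p i (-1) = dc p i 0 ∧ dc p i p = dc p i ((p : ℤ) - 1) := by
  have hp' : (p : ℝ) ≠ 0 := by exact_mod_cast hp.ne'
  unfold dc
  constructor
  · rw [← Real.cos_neg]
    congr 1
    push_cast
    ring
  · have e1 : Real.pi * i * ((((p : ℕ) : ℤ) : ℝ) + 1 / 2) / p = (i : ℝ) * Real.pi + Real.pi * i / (2 * p) := by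
      push_cast; field_simp
    have e2 : Real.pi * i * ((((p : ℤ) - 1 : ℤ) : ℝ) + 1 / 2) / p = (i : ℝ) * Real.pi - Real.pi * i / (2 * p) := by
      push_cast; field_simp; ring
    rw [e1, e2, Real.cos_add, Real.cos_sub, Real.sin_nat_mul_pi]
    ring

/-- L-FR-Q13 (Mathlib only).  `dcL = 4 sin² (π i/(2p))`, Jordan: `Real.mul_le_sin` (`2/π · x ≤ sin x` on `[0, π/2]`). -/
theorem dcL_lower (p i : ℕ) (hp : 0 < p) (hi : i ≤ p) : 4 * ((i : ℝ) / p) ^ 2 ≤ dcL p i := by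
  have hp' : (0 : ℝ) < p := by exact_mod_cast hp
  have hi' : (i : ℝ) ≤ p := by exact_mod_cast hi
  have hpi := Real.pi_pos
  set y : ℝ := Real.pi * i / (2 * p) with hy
  have hy0 : 0 ≤ y := by positivity
  have hy1 : y ≤ Real.pi / 2 := by
    rw [hy, div_le_div_iff₀ (by positivity) (by norm_num)]
    nlinarith
  have hj := Real.mul_le_sin hy0 hy1
  have e : 2 / Real.pi * y = (i : ℝ) / p := by rw [hy]; field_simp
  rw [e] at hj
  have e2 : dcL p i = 4 * Real.sin y ^ 2 := by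
    unfold dcL
    have : Real.pi * i / p = 2 * y := by rw [hy]; field_simp
    rw [this, Real.cos_two_mul, Real.sin_sq]
    ring
  rw [e2]
  have h0 : (0 : ℝ) ≤ (i : ℝ) / p := by positivity
  nlinarith [pow_le_pow_left₀ h0 hj 2]

/-- the product cosines of a rectangle -/
def ph (R : Rc) (t : ℕ × ℕ) (v : ℤ × ℤ) : ℝ := dc R.p t.1 (v.1 - R.o.1) * dc R.q t.2 (v.2 - R.o.2)

/-- squared norms -/
def phN (R : Rc) (t : ℕ × ℕ) : ℝ := dcN R.p t.1 * dcN R.q t.2

/-- eigenvalues -/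
def phL (R : Rc) (t : ℕ × ℕ) : ℝ := dcL R.p t.1 + dcL R.q t.2

/-- inner products -/
def cf (R : Rc) (f : ℤ × ℤ → ℝ) (t : ℕ × ℕ) : ℝ := ∑ u ∈ R.set, f u * ph R t u

/-- all modes -/
def allModes (R : Rc) : Finset (ℕ × ℕ) := Finset.range R.p ×ˢ Finset.range R.q

/-- the nonconstant modes -/
def modes (R : Rc) : Finset (ℕ × ℕ) := (allModes R).erase (0, 0)

/-- the part of the potential of `f` carried by the modes in `T` -/
def pot (R : Rc) (f : ℤ × ℤ → ℝ) (T : Finset (ℕ × ℕ)) (v : ℤ × ℤ) : ℝ := ∑ t ∈ T, cf R f t / (phN R t * phL R t) * ph R t v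

theorem sum_Ico_int (o : ℤ) (p : ℕ) (G : ℤ → ℝ) : ∑ a ∈ Finset.Ico o (o + p), G a = ∑ x ∈ Finset.range p, G (o + x) := by
  have : Finset.Ico o (o + p) = (Finset.range p).image (fun x : ℕ => o + (x : ℤ)) := by
    ext a
    simp only [Finset.mem_Ico, Finset.mem_image, Finset.mem_range]
    constructor
    · rintro ⟨h1, h2⟩
      exact ⟨(a - o).toNat, by omega, by omega⟩
    · rintro ⟨x, hx, rfl⟩; omega
  rw [this, Finset.sum_image (by intro x _ y _ h; simpa using h)]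

/-- L-FR-Q14.  Reindexing (`Finset.sum_product`, `Finset.sum_bij` / `Finset.sum_image` with `x ↦ o + x`). -/
theorem sum_set_eq (R : Rc) (F : ℤ × ℤ → ℝ) :
    ∑ v ∈ R.set, F v = ∑ x ∈ Finset.range R.p, ∑ y ∈ Finset.range R.q, F (R.o.1 + x, R.o.2 + y) := by
  unfold Rc.set
  rw [Finset.sum_product, sum_Ico_int]
  refine Finset.sum_congr rfl fun x _ => ?_
  rw [sum_Ico_int]

theorem dc_nbr (p i : ℕ) (X : ℤ) (h0 : 0 ≤ X) (h1 : X < p) :
    (if X + 1 < p then dc p i X - dc p i (X + 1) else 0) + (if 0 ≤ X - 1 then dc p i X - dc p i (X - 1) else 0)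
      = dcL p i * dc p i X := by
  have hp : 0 < p := by omega
  obtain ⟨r1, r2⟩ := dc_refl p i hp
  have a1 : (if X + 1 < p then dc p i X - dc p i (X + 1) else 0) = dc p i X - dc p i (X + 1) := by
    split_ifs with h
    · rfl
    · have e : X = (p : ℤ) - 1 := by omega
      rw [e, sub_add_cancel, r2, sub_self]
  have a2 : (if 0 ≤ X - 1 then dc p i X - dc p i (X - 1) else 0) = dc p i X - dc p i (X - 1) := by
    split_ifs with h
    · rfl
    · have e : X = 0 := by omega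
      rw [e, zero_sub, r1, sub_self]
  rw [a1, a2, ← dc_eigen]
  ring

/-- L-FR-Q14.  `lap_eq`; in each direction the two terms give `dcL · dc`: interior by `dc_eigen`; at a face the missing neighbour has the same value (`dc_refl`), so its term vanishes anyway. -/
theorem lap_ph (R : Rc) (t : ℕ × ℕ) (v : ℤ × ℤ) (hv : v ∈ R.set) : R.lap (ph R t) v = phL R t * ph R t v := by
  obtain ⟨a, b⟩ := v
  obtain ⟨⟨h1, h2⟩, h3, h4⟩ := fr_mem_set.1 hv
  simp only at h1 h2 h3 h4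
  rw [lap_eq R _ _ hv]
  simp only [fr_mem_right hv, fr_mem_left hv, fr_mem_up hv, fr_mem_down hv]
  unfold ph phL
  simp only
  have n1 := dc_nbr R.p t.1 (a - R.o.1) (by omega) (by omega)
  have n2 := dc_nbr R.q t.2 (b - R.o.2) (by omega) (by omega)
  have c1 : (a - R.o.1 + 1 < (R.p : ℤ)) ↔ a + 1 < R.o.1 + R.p := by constructor <;> intro h <;> omega
  have c2 : (0 ≤ a - R.o.1 - 1) ↔ R.o.1 ≤ a - 1 := by constructor <;> intro h <;> omega
  have c3 : (b - R.o.2 + 1 < (R.q : ℤ)) ↔ b + 1 < R.o.2 + R.q := by constructor <;> intro h <;> omega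
  have c4 : (0 ≤ b - R.o.2 - 1) ↔ R.o.2 ≤ b - 1 := by constructor <;> intro h <;> omega
  simp only [c1, c2, c3, c4] at n1 n2
  have e1 : a + 1 - R.o.1 = a - R.o.1 + 1 := by ring
  have e2 : a - 1 - R.o.1 = a - R.o.1 - 1 := by ring
  have e3 : b + 1 - R.o.2 = b - R.o.2 + 1 := by ring
  have e4 : b - 1 - R.o.2 = b - R.o.2 - 1 := by ring
  rw [e1, e2, e3, e4, add_mul, ← mul_assoc, ← n1, mul_left_comm (dcL R.q t.2), ← n2]
  split_ifs <;> ring

theorem ph_at (R : Rc) (t : ℕ × ℕ) (x y : ℕ) : ph R t (R.o.1 + x, R.o.2 + y) = dc R.p t.1 x * dc R.q t.2 y := by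
  unfold ph
  simp only [add_sub_cancel_left]

/-- L-FR-Q15.  `sum_set_eq`, the double sum factorises, `dc_orth` twice. -/
theorem ph_orth (R : Rc) (t t' : ℕ × ℕ) (ht : t ∈ allModes R) (ht' : t' ∈ allModes R) :
    ∑ v ∈ R.set, ph R t v * ph R t' v = if t = t' then phN R t else 0 := by
  obtain ⟨h1, h2⟩ := Finset.mem_product.1 ht
  obtain ⟨h1', h2'⟩ := Finset.mem_product.1 ht'
  rw [Finset.mem_range] at h1 h2 h1' h2'
  rw [sum_set_eq]
  have e : ∀ x ∈ Finset.range R.p, ∑ y ∈ Finset.range R.q, ph R t (R.o.1 + x, R.o.2 + y) * ph R t' (R.o.1 + x, R.o.2 + y)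
      = (dc R.p t.1 x * dc R.p t'.1 x) * ∑ y ∈ Finset.range R.q, dc R.q t.2 y * dc R.q t'.2 y := by
    intro x _
    rw [Finset.mul_sum]
    refine Finset.sum_congr rfl fun y _ => ?_
    rw [ph_at, ph_at]; ring
  rw [Finset.sum_congr rfl e, ← Finset.sum_mul, dc_orth _ _ _ h1 h1', dc_orth _ _ _ h2 h2']
  unfold phN
  by_cases c : t = t'
  · subst c; simp
  · rw [if_neg c]
    have : ¬ (t.1 = t'.1 ∧ t.2 = t'.2) := fun h => c (Prod.ext h.1 h.2)
    by_cases c1 : t.1 = t'.1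
    · have c2 : t.2 ≠ t'.2 := fun h => this ⟨c1, h⟩
      rw [if_neg c2, mul_zero]
    · rw [if_neg c1, zero_mul]

/-- the reproducing kernel -/
theorem ph_kernel (R : Rc) (x y x' y' : ℕ) (hx : x < R.p) (hy : y < R.q) (hx' : x' < R.p) (hy' : y' < R.q) :
    ∑ t ∈ allModes R, ph R t (R.o.1 + x, R.o.2 + y) * ph R t (R.o.1 + x', R.o.2 + y') / phN R t
      = if x = x' ∧ y = y' then 1 else 0 := by
  unfold allModes
  rw [Finset.sum_product]
  have e : ∀ i ∈ Finset.range R.p, ∑ j ∈ Finset.range R.q,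
      ph R (i, j) (R.o.1 + x, R.o.2 + y) * ph R (i, j) (R.o.1 + x', R.o.2 + y') / phN R (i, j)
      = (dc R.p i x * dc R.p i x' / dcN R.p i) * ∑ j ∈ Finset.range R.q, dc R.q j y * dc R.q j y' / dcN R.q j := by
    intro i _
    rw [Finset.mul_sum]
    refine Finset.sum_congr rfl fun j _ => ?_
    rw [ph_at, ph_at]
    unfold phN
    simp only
    rw [div_mul_div_comm]
    congr 1
    ring
  rw [Finset.sum_congr rfl e, ← Finset.sum_mul, dc_complete _ _ _ hx hx', dc_complete _ _ _ hy hy']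
  by_cases c1 : x = x' <;> by_cases c2 : y = y' <;> simp [c1, c2]

/-- L-FR-Q15.  `dc_complete` twice: `∑_t ph t u ph t v / phN t = δ_{uv}` on `R.set`; exchange the sums. -/
theorem ph_expand (R : Rc) (f : ℤ × ℤ → ℝ) (v : ℤ × ℤ) (hv : v ∈ R.set) : f v = ∑ t ∈ allModes R, cf R f t / phN R t * ph R t v := by
  obtain ⟨a, b⟩ := v
  obtain ⟨⟨h1, h2⟩, h3, h4⟩ := fr_mem_set.1 hv
  simp only at h1 h2 h3 h4
  obtain ⟨x', hx', rfl⟩ : ∃ x' : ℕ, x' < R.p ∧ a = R.o.1 + x' := ⟨(a - R.o.1).toNat, by omega, by omega⟩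
  obtain ⟨y', hy', rfl⟩ : ∃ y' : ℕ, y' < R.q ∧ b = R.o.2 + y' := ⟨(b - R.o.2).toNat, by omega, by omega⟩
  have e : ∀ t ∈ allModes R, cf R f t / phN R t * ph R t (R.o.1 + x', R.o.2 + y')
      = ∑ x ∈ Finset.range R.p, ∑ y ∈ Finset.range R.q, f (R.o.1 + x, R.o.2 + y) *
        (ph R t (R.o.1 + x, R.o.2 + y) * ph R t (R.o.1 + x', R.o.2 + y') / phN R t) := by
    intro t _
    unfold cf
    rw [sum_set_eq, Finset.sum_div, Finset.sum_mul]
    refine Finset.sum_congr rfl fun x _ => ?_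
    rw [Finset.sum_div, Finset.sum_mul]
    refine Finset.sum_congr rfl fun y _ => ?_
    ring
  rw [Finset.sum_congr rfl e, Finset.sum_comm]
  have e2 : ∀ x ∈ Finset.range R.p, ∑ t ∈ allModes R, ∑ y ∈ Finset.range R.q, f (R.o.1 + x, R.o.2 + y) *
        (ph R t (R.o.1 + x, R.o.2 + y) * ph R t (R.o.1 + x', R.o.2 + y') / phN R t)
      = ∑ y ∈ Finset.range R.q, f (R.o.1 + x, R.o.2 + y) * (if x = x' ∧ y = y' then 1 else 0) := by
    intro x hx
    rw [Finset.sum_comm]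
    refine Finset.sum_congr rfl fun y hy => ?_
    rw [← Finset.mul_sum, ph_kernel R x y x' y' (Finset.mem_range.1 hx) (Finset.mem_range.1 hy) hx' hy']
  rw [Finset.sum_congr rfl e2]
  rw [Finset.sum_eq_single x', Finset.sum_eq_single y']
  · simp
  · intro y _ hne
    simp [hne]
  · intro h; exact absurd (Finset.mem_range.2 hy') h
  · intro x _ hne
    simp [hne]
  · intro h; exact absurd (Finset.mem_range.2 hx') h

/-- L-FR-Q15.  Parseval: multiply `ph_expand` by `f v` and sum. -/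
theorem ph_parseval (R : Rc) (f : ℤ × ℤ → ℝ) : ∑ t ∈ allModes R, cf R f t ^ 2 / phN R t = ∑ v ∈ R.set, f v ^ 2 := by
  have e : ∀ v ∈ R.set, f v ^ 2 = ∑ t ∈ allModes R, cf R f t / phN R t * (f v * ph R t v) := by
    intro v hv
    rw [pow_two]
    nth_rewrite 2 [ph_expand R f v hv]
    rw [Finset.mul_sum]
    exact Finset.sum_congr rfl fun t _ => by ring
  rw [Finset.sum_congr rfl e, Finset.sum_comm]
  refine Finset.sum_congr rfl fun t _ => ?_
  rw [← Finset.mul_sum]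
  unfold cf
  ring

/-- L-FR-Q15.  One-dimensional Parseval (same proof from `dc_complete`). -/
theorem dc_parseval (q : ℕ) (ψ : ℕ → ℝ) :
    ∑ j ∈ Finset.range q, (∑ y ∈ Finset.range q, ψ y * dc q j y) ^ 2 / dcN q j = ∑ y ∈ Finset.range q, ψ y ^ 2 := by
  have e : ∀ j ∈ Finset.range q, (∑ y ∈ Finset.range q, ψ y * dc q j y) ^ 2 / dcN q j
      = ∑ y ∈ Finset.range q, ∑ y' ∈ Finset.range q, ψ y * ψ y' * (dc q j y * dc q j y' / dcN q j) := by
    intro j _
    rw [pow_two, Finset.sum_mul_sum, Finset.sum_div]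
    refine Finset.sum_congr rfl fun y _ => ?_
    rw [Finset.sum_div]
    exact Finset.sum_congr rfl fun y' _ => by ring
  rw [Finset.sum_congr rfl e, Finset.sum_comm]
  refine Finset.sum_congr rfl fun y hy => ?_
  rw [Finset.sum_comm]
  have e2 : ∀ y' ∈ Finset.range q, ∑ j ∈ Finset.range q, ψ y * ψ y' * (dc q j y * dc q j y' / dcN q j)
      = ψ y * ψ y' * (if y = y' then 1 else 0) := by
    intro y' hy'
    rw [← Finset.mul_sum, dc_complete q y y' (Finset.mem_range.1 hy) (Finset.mem_range.1 hy')]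
  rw [Finset.sum_congr rfl e2, Finset.sum_eq_single y]
  · simp [pow_two]
  · intro y' _ hne
    simp [Ne.symm hne]
  · intro h; exact absurd hy h

/-- L-FR-Q16.  `dcL_lower`. -/
theorem phL_lower (R : Rc) (t : ℕ × ℕ) (ht : t ∈ allModes R) : 4 * ((t.1 : ℝ) / R.p) ^ 2 + 4 * ((t.2 : ℝ) / R.q) ^ 2 ≤ phL R t := by
  obtain ⟨h1, h2⟩ := Finset.mem_product.1 ht
  rw [Finset.mem_range] at h1 h2
  unfold phL
  exact add_le_add (dcL_lower _ _ (by omega) h1.le) (dcL_lower _ _ (by omega) h2.le)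

theorem phL_pos (R : Rc) (t : ℕ × ℕ) (ht : t ∈ modes R) : 0 < phL R t := by
  obtain ⟨hne, ht'⟩ := Finset.mem_erase.1 ht
  obtain ⟨h1, h2⟩ := Finset.mem_product.1 ht'
  rw [Finset.mem_range] at h1 h2
  have hp : (0 : ℝ) < R.p := by exact_mod_cast (by omega : 0 < R.p)
  have hq : (0 : ℝ) < R.q := by exact_mod_cast (by omega : 0 < R.q)
  refine lt_of_lt_of_le ?_ (phL_lower R t ht')
  by_cases c : t.1 = 0
  · have c2 : t.2 ≠ 0 := fun h => hne (Prod.ext c h)
    have : (0 : ℝ) < t.2 := by exact_mod_cast Nat.pos_of_ne_zero c2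
    positivity
  · have : (0 : ℝ) < t.1 := by exact_mod_cast Nat.pos_of_ne_zero c
    positivity

theorem phN_pos (R : Rc) (t : ℕ × ℕ) (ht : t ∈ allModes R) : 0 < phN R t := by
  obtain ⟨h1, h2⟩ := Finset.mem_product.1 ht
  rw [Finset.mem_range] at h1 h2
  unfold phN
  exact mul_pos (dcN_pos _ _ (by omega)) (dcN_pos _ _ (by omega))

theorem lap_sum (R : Rc) {ι : Type} (T : Finset ι) (c : ι → ℝ) (g : ι → ℤ × ℤ → ℝ) (v : ℤ × ℤ) :
    R.lap (fun u => ∑ t ∈ T, c t * g t u) v = ∑ t ∈ T, c t * R.lap (g t) v := by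
  unfold Rc.lap gd
  simp_rw [Finset.mul_sum]
  rw [Finset.sum_comm]
  refine Finset.sum_congr rfl fun e _ => ?_
  rw [← Finset.sum_sub_distrib, Finset.sum_mul]
  exact Finset.sum_congr rfl fun t _ => by ring

theorem lap_pot (R : Rc) (f : ℤ × ℤ → ℝ) (T : Finset (ℕ × ℕ)) (hT : T ⊆ modes R) (v : ℤ × ℤ) (hv : v ∈ R.set) :
    R.lap (pot R f T) v = ∑ t ∈ T, cf R f t / phN R t * ph R t v := by
  have : pot R f T = fun u => ∑ t ∈ T, cf R f t / (phN R t * phL R t) * ph R t u := rfl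
  rw [this, lap_sum]
  refine Finset.sum_congr rfl fun t ht => ?_
  rw [lap_ph R t v hv]
  have h1 := (phL_pos R t (hT ht)).ne'
  have h2 := (phN_pos R t (Finset.mem_of_mem_erase (hT ht))).ne'
  field_simp

/-- L-FR-Q16.  `lap` is linear, `lap_ph`: `lap (pot ..) v = ∑_{t ≠ 0} cf t / phN t · ph t v` (`phL t > 0` by `phL_lower`), which is `f v` minus the term `t = (0,0)` of `ph_expand`; `cf R f (0,0) = ∑ f = 0`. -/
theorem pot_lap (R : Rc) (f : ℤ × ℤ → ℝ) (h0 : ∑ v ∈ R.set, f v = 0) (v : ℤ × ℤ) (hv : v ∈ R.set) : R.lap (pot R f (modes R)) v = f v := by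
  rw [lap_pot R f _ subset_rfl v hv, ph_expand R f v hv]
  obtain ⟨⟨h1, h2⟩, h3, h4⟩ := fr_mem_set.1 hv
  have hmem : ((0, 0) : ℕ × ℕ) ∈ allModes R := by
    unfold allModes
    rw [Finset.mem_product, Finset.mem_range, Finset.mem_range]
    constructor <;> simp only <;> omega
  unfold modes
  rw [← Finset.add_sum_erase _ _ hmem]
  have : cf R f (0, 0) = 0 := by
    unfold cf
    rw [← h0]
    refine Finset.sum_congr rfl fun u _ => ?_
    unfold ph dc
    simp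
  rw [this]
  simp

/-- L-FR-Q16.  `dir g = cost2 (gd g) (gd g) = ∑_v g v lap g v` (`cost2_eq_lap`), `lap_ph`, `ph_orth`. -/
theorem pot_dir (R : Rc) (f : ℤ × ℤ → ℝ) (T : Finset (ℕ × ℕ)) (hT : T ⊆ modes R) :
    R.dir (pot R f T) = ∑ t ∈ T, cf R f t ^ 2 / (phN R t * phL R t) := by
  have h1 : R.dir (pot R f T) = R.cost2 (gd (pot R f T)) (gd (pot R f T)) := by
    unfold Rc.dir Rc.cost Rc.cost2
    exact Finset.sum_congr rfl fun e _ => pow_two _
  rw [h1, cost2_eq_lap]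
  have e : ∀ v ∈ R.set, pot R f T v * R.lap (pot R f T) v
      = ∑ t ∈ T, ∑ t' ∈ T, (cf R f t / (phN R t * phL R t)) * (cf R f t' / phN R t') * (ph R t v * ph R t' v) := by
    intro v hv
    rw [lap_pot R f T hT v hv]
    unfold pot
    rw [Finset.sum_mul_sum]
    exact Finset.sum_congr rfl fun t _ => Finset.sum_congr rfl fun t' _ => by ring
  rw [Finset.sum_congr rfl e, Finset.sum_comm]
  refine Finset.sum_congr rfl fun t ht => ?_
  rw [Finset.sum_comm]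
  have hta := Finset.mem_of_mem_erase (hT ht)
  have e2 : ∀ t' ∈ T, ∑ v ∈ R.set, (cf R f t / (phN R t * phL R t)) * (cf R f t' / phN R t') * (ph R t v * ph R t' v)
      = (cf R f t / (phN R t * phL R t)) * (cf R f t' / phN R t') * (if t = t' then phN R t else 0) := by
    intro t' ht'
    rw [← Finset.mul_sum, ph_orth R t t' hta (Finset.mem_of_mem_erase (hT ht'))]
  rw [Finset.sum_congr rfl e2, Finset.sum_eq_single t]
  · rw [if_pos rfl]
    have h1 := (phL_pos R t (hT ht)).ne'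
    have h2 := (phN_pos R t hta).ne'
    field_simp
  · intro t' _ hne
    rw [if_neg (Ne.symm hne), mul_zero]
  · intro h; exact absurd ht h

/-- the high modes -/
def hiModes (R : Rc) (J : ℕ) : Finset (ℕ × ℕ) := (modes R).filter fun t => J ≤ t.1 ∨ J ≤ t.2

/-- the low modes -/
def loModes (R : Rc) (J : ℕ) : Finset (ℕ × ℕ) := (modes R).filter fun t => t.1 < J ∧ t.2 < J

/-- L-FR-Q17.  On the high modes `phL ≥ 4 J²/max(p,q)²` (`phL_lower`); `ph_parseval` (drop the other nonnegative terms). -/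
theorem tail_vol (R : Rc) (f : ℤ × ℤ → ℝ) (J : ℕ) (hJ : 0 < J) :
    ∑ t ∈ hiModes R J, cf R f t ^ 2 / (phN R t * phL R t) ≤ ((max R.p R.q : ℕ) : ℝ) ^ 2 / (4 * (J : ℝ) ^ 2) * ∑ v ∈ R.set, f v ^ 2 := by
  have hJ' : (0 : ℝ) < J := by exact_mod_cast hJ
  rw [← ph_parseval, Finset.mul_sum]
  have hsub : hiModes R J ⊆ allModes R := fun t ht => Finset.mem_of_mem_erase (Finset.mem_filter.1 ht).1
  refine le_trans (Finset.sum_le_sum fun t ht => ?_) (Finset.sum_le_sum_of_subset_of_nonneg hsub fun t ht _ => ?_)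
  · obtain ⟨htm, hJt⟩ := Finset.mem_filter.1 ht
    have hta := hsub ht
    have hN := phN_pos R t hta
    have hL := phL_pos R t htm
    obtain ⟨h1, h2⟩ := Finset.mem_product.1 hta
    rw [Finset.mem_range] at h1 h2
    have hp : (0 : ℝ) < R.p := by exact_mod_cast (by omega : 0 < R.p)
    have hq : (0 : ℝ) < R.q := by exact_mod_cast (by omega : 0 < R.q)
    set m : ℝ := ((max R.p R.q : ℕ) : ℝ) with hm
    have hmp : (R.p : ℝ) ≤ m := Nat.cast_le.2 (le_max_left R.p R.q)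
    have hmq : (R.q : ℝ) ≤ m := Nat.cast_le.2 (le_max_right R.p R.q)
    have hm0 : 0 < m := lt_of_lt_of_le hp hmp
    have low : 4 * (J : ℝ) ^ 2 / m ^ 2 ≤ phL R t := by
      refine le_trans ?_ (phL_lower R t hta)
      have a1 : 0 ≤ 4 * ((t.1 : ℝ) / R.p) ^ 2 := by positivity
      have a2 : 0 ≤ 4 * ((t.2 : ℝ) / R.q) ^ 2 := by positivity
      rcases hJt with h | h
      · have hh : (J : ℝ) ≤ t.1 := by exact_mod_cast h
        have : (J : ℝ) / m ≤ (t.1 : ℝ) / R.p := div_le_div₀ (by positivity) hh hp hmp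
        have := pow_le_pow_left₀ (by positivity) this 2
        rw [div_pow] at this
        calc 4 * (J : ℝ) ^ 2 / m ^ 2 = 4 * ((J : ℝ) ^ 2 / m ^ 2) := by ring
          _ ≤ 4 * ((t.1 : ℝ) / R.p) ^ 2 := by linarith
          _ ≤ _ := by linarith
      · have hh : (J : ℝ) ≤ t.2 := by exact_mod_cast h
        have : (J : ℝ) / m ≤ (t.2 : ℝ) / R.q := div_le_div₀ (by positivity) hh hq hmq
        have := pow_le_pow_left₀ (by positivity) this 2
        rw [div_pow] at this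
        calc 4 * (J : ℝ) ^ 2 / m ^ 2 = 4 * ((J : ℝ) ^ 2 / m ^ 2) := by ring
          _ ≤ 4 * ((t.2 : ℝ) / R.q) ^ 2 := by linarith
          _ ≤ _ := by linarith
    have inv : 1 / phL R t ≤ m ^ 2 / (4 * (J : ℝ) ^ 2) := by
      rw [div_le_div_iff₀ hL (by positivity)]
      rw [div_le_iff₀ (by positivity)] at low
      linarith
    calc cf R f t ^ 2 / (phN R t * phL R t) = (1 / phL R t) * (cf R f t ^ 2 / phN R t) := by field_simp
      _ ≤ m ^ 2 / (4 * (J : ℝ) ^ 2) * (cf R f t ^ 2 / phN R t) := mul_le_mul_of_nonneg_right inv (by positivity)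
  · have hN := phN_pos R t ht
    positivity

/-- L-FR-Q18 (Mathlib only).  `(i + t)² ≤ 2 (i² + t²)` and `2/(i+t)² ≤ 2/((i+t-1)(i+t)) = 2/(i+t-1) - 2/(i+t)`: telescope.   Second: `i⁻² ≤ 1/(i-1) - 1/i` for `i ≥ 2`. -/
theorem sum_inv_sq_add (t : ℝ) (ht : 0 < t) (P : ℕ) : ∑ i ∈ Finset.Icc 1 P, (1 : ℝ) / ((i : ℝ) ^ 2 + t ^ 2) ≤ 2 / t := by
  have key : ∀ P : ℕ, ∑ i ∈ Finset.Icc 1 P, (1 : ℝ) / ((i : ℝ) ^ 2 + t ^ 2) ≤ 2 / t - 2 / ((P : ℝ) + t) := by
    intro P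
    induction P with
    | zero => simp
    | succ P ih =>
      rw [Finset.sum_Icc_succ_top (by omega)]
      have hP : (0 : ℝ) ≤ P := Nat.cast_nonneg P
      have h1 : (1 : ℝ) / (((P + 1 : ℕ) : ℝ) ^ 2 + t ^ 2) ≤ 2 / ((P : ℝ) + t) - 2 / (((P + 1 : ℕ) : ℝ) + t) := by
        push_cast
        rw [div_sub_div _ _ (by positivity) (by positivity), div_le_div_iff₀ (by positivity) (by positivity)]
        nlinarith [sq_nonneg ((P : ℝ) + 1 - t), mul_nonneg hP ht.le]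
      linarith
  have := key P
  have h2 : 0 ≤ 2 / ((P : ℝ) + t) := by positivity
  linarith

/-- L-FR-Q18 (Mathlib only). -/
theorem sum_inv_sq_tail (J P : ℕ) (hJ : 0 < J) : ∑ i ∈ Finset.Icc J P, (1 : ℝ) / (i : ℝ) ^ 2 ≤ 2 / (J : ℝ) := by
  have hJ' : (1 : ℝ) ≤ J := by exact_mod_cast hJ
  have key : ∀ n : ℕ, ∑ i ∈ Finset.Icc J (J + n), (1 : ℝ) / (i : ℝ) ^ 2 ≤ 2 / (J : ℝ) - 1 / ((J + n : ℕ) : ℝ) := by
    intro n
    induction n with
    | zero =>
      simp only [add_zero, Finset.Icc_self, Finset.sum_singleton]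
      rw [div_sub_div_same, div_le_div_iff₀ (by positivity) (by positivity)]
      nlinarith
    | succ n ih =>
      rw [← add_assoc, Finset.sum_Icc_succ_top (by omega)]
      have hn : (0 : ℝ) ≤ n := Nat.cast_nonneg n
      have h1 : (1 : ℝ) / (((J + n + 1 : ℕ) : ℝ)) ^ 2 ≤ 1 / ((J + n : ℕ) : ℝ) - 1 / ((J + n + 1 : ℕ) : ℝ) := by
        push_cast
        rw [div_sub_div _ _ (by positivity) (by positivity), div_le_div_iff₀ (by positivity) (by positivity)]
        nlinarith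
      linarith
  by_cases h : J ≤ P
  · obtain ⟨n, rfl⟩ := Nat.exists_eq_add_of_le h
    have := key n
    have h2 : (0 : ℝ) ≤ 1 / ((J + n : ℕ) : ℝ) := by positivity
    linarith
  · rw [Finset.Icc_eq_empty h, Finset.sum_empty]
    positivity

/-- the weight bounding `1/(dcN p i · phL (i,j))` on the high modes -/
def tcB (p q J i : ℕ) : ℝ :=
  (if i = 0 then (q : ℝ) ^ 2 / (4 * p * (J : ℝ) ^ 2) else 0)
  + (if 1 ≤ i then ((p : ℝ) / 2) * (1 / ((i : ℝ) ^ 2 + ((J : ℝ) * p / q) ^ 2)) else 0)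
  + (if J ≤ i then ((p : ℝ) / 2) * (1 / (i : ℝ) ^ 2) else 0)

theorem tcB_nonneg (p q J i : ℕ) : 0 ≤ tcB p q J i := by
  unfold tcB
  split_ifs <;> positivity

theorem tcB_sum (p q J : ℕ) (hp : 0 < p) (hq : 0 < q) (hJ : 0 < J) :
    ∑ i ∈ Finset.range p, tcB p q J i ≤ (p : ℝ) / J + (q : ℝ) / J + (q : ℝ) ^ 2 / (4 * p * (J : ℝ) ^ 2) := by
  have hp' : (0 : ℝ) < p := by exact_mod_cast hp
  have hq' : (0 : ℝ) < q := by exact_mod_cast hq
  have hJ' : (0 : ℝ) < J := by exact_mod_cast hJ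
  unfold tcB
  rw [Finset.sum_add_distrib, Finset.sum_add_distrib]
  have s1 : ∑ i ∈ Finset.range p, (if i = 0 then (q : ℝ) ^ 2 / (4 * p * (J : ℝ) ^ 2) else 0)
      ≤ (q : ℝ) ^ 2 / (4 * p * (J : ℝ) ^ 2) := by
    rw [Finset.sum_ite_eq']
    split_ifs
    · exact le_rfl
    · positivity
  have s2 : ∑ i ∈ Finset.range p, (if 1 ≤ i then ((p : ℝ) / 2) * (1 / ((i : ℝ) ^ 2 + ((J : ℝ) * p / q) ^ 2)) else 0)
      ≤ (q : ℝ) / J := by
    rw [← Finset.sum_filter]
    have hsub : (Finset.range p).filter (fun i => 1 ≤ i) ⊆ Finset.Icc 1 p := by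
      intro i hi
      rw [Finset.mem_filter, Finset.mem_range] at hi
      rw [Finset.mem_Icc]; omega
    refine (Finset.sum_le_sum_of_subset_of_nonneg hsub fun i _ _ => by positivity).trans ?_
    rw [← Finset.mul_sum]
    have := sum_inv_sq_add ((J : ℝ) * p / q) (by positivity) p
    calc (p : ℝ) / 2 * ∑ i ∈ Finset.Icc 1 p, 1 / ((i : ℝ) ^ 2 + ((J : ℝ) * p / q) ^ 2)
        ≤ (p : ℝ) / 2 * (2 / ((J : ℝ) * p / q)) := mul_le_mul_of_nonneg_left this (by positivity)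
      _ = (q : ℝ) / J := by field_simp
  have s3 : ∑ i ∈ Finset.range p, (if J ≤ i then ((p : ℝ) / 2) * (1 / (i : ℝ) ^ 2) else 0)
      ≤ (p : ℝ) / J := by
    rw [← Finset.sum_filter]
    have hsub : (Finset.range p).filter (fun i => J ≤ i) ⊆ Finset.Icc J p := by
      intro i hi
      rw [Finset.mem_filter, Finset.mem_range] at hi
      rw [Finset.mem_Icc]; omega
    refine (Finset.sum_le_sum_of_subset_of_nonneg hsub fun i _ _ => by positivity).trans ?_
    rw [← Finset.mul_sum]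
    have := sum_inv_sq_tail J p hJ
    calc (p : ℝ) / 2 * ∑ i ∈ Finset.Icc J p, 1 / (i : ℝ) ^ 2
        ≤ (p : ℝ) / 2 * (2 / (J : ℝ)) := mul_le_mul_of_nonneg_left this (by positivity)
      _ = (p : ℝ) / J := by field_simp
  linarith

theorem tcB_bound (R : Rc) (J : ℕ) (hJ : 0 < J) (t : ℕ × ℕ) (ht : t ∈ hiModes R J) :
    1 / (dcN R.p t.1 * phL R t) ≤ tcB R.p R.q J t.1 := by
  obtain ⟨htm, hJt⟩ := Finset.mem_filter.1 ht
  have hta := Finset.mem_of_mem_erase htm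
  obtain ⟨h1, h2⟩ := Finset.mem_product.1 hta
  rw [Finset.mem_range] at h1 h2
  have hp : (0 : ℝ) < R.p := by exact_mod_cast (by omega : 0 < R.p)
  have hq : (0 : ℝ) < R.q := by exact_mod_cast (by omega : 0 < R.q)
  have hJ' : (0 : ℝ) < J := by exact_mod_cast hJ
  have low := phL_lower R t hta
  have a1 : 0 ≤ 4 * ((t.1 : ℝ) / R.p) ^ 2 := by positivity
  have a2 : 0 ≤ 4 * ((t.2 : ℝ) / R.q) ^ 2 := by positivity
  have low2 : J ≤ t.2 → 4 * ((J : ℝ) / R.q) ^ 2 ≤ 4 * ((t.2 : ℝ) / R.q) ^ 2 := by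
    intro h
    have hh : (J : ℝ) ≤ t.2 := by exact_mod_cast h
    have : (J : ℝ) / R.q ≤ (t.2 : ℝ) / R.q := div_le_div_of_nonneg_right hh hq.le
    have := pow_le_pow_left₀ (by positivity) this 2
    linarith
  unfold tcB dcN
  by_cases h0 : t.1 = 0
  · have hJ2 : J ≤ t.2 := by omega
    rw [if_pos h0, if_pos h0, if_neg (by omega), if_neg (by omega), add_zero, add_zero]
    have := low2 hJ2
    calc 1 / ((R.p : ℝ) * phL R t) ≤ 1 / ((R.p : ℝ) * (4 * ((J : ℝ) / R.q) ^ 2)) :=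
          one_div_le_one_div_of_le (by positivity) (mul_le_mul_of_nonneg_left (by linarith) hp.le)
      _ = (R.q : ℝ) ^ 2 / (4 * R.p * (J : ℝ) ^ 2) := by field_simp
  · have hi : (0 : ℝ) < t.1 := by exact_mod_cast (by omega : 0 < t.1)
    rw [if_neg h0, if_neg h0, if_pos (by omega), zero_add]
    rcases hJt with h | h
    · rw [if_pos h]
      have b2 : 0 ≤ (R.p : ℝ) / 2 * (1 / ((t.1 : ℝ) ^ 2 + ((J : ℝ) * R.p / R.q) ^ 2)) := by positivity
      have : 1 / ((R.p : ℝ) / 2 * phL R t) ≤ (R.p : ℝ) / 2 * (1 / (t.1 : ℝ) ^ 2) := by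
        calc 1 / ((R.p : ℝ) / 2 * phL R t) ≤ 1 / ((R.p : ℝ) / 2 * (4 * ((t.1 : ℝ) / R.p) ^ 2)) :=
              one_div_le_one_div_of_le (by positivity) (mul_le_mul_of_nonneg_left (by linarith) (by positivity))
          _ = (R.p : ℝ) / 2 * (1 / (t.1 : ℝ) ^ 2) := by field_simp; ring
      linarith
    · have b3 : 0 ≤ (if J ≤ t.1 then ((R.p : ℝ) / 2) * (1 / (t.1 : ℝ) ^ 2) else 0) := by
        split_ifs <;> positivity
      have := low2 h
      have : 1 / ((R.p : ℝ) / 2 * phL R t) ≤ (R.p : ℝ) / 2 * (1 / ((t.1 : ℝ) ^ 2 + ((J : ℝ) * R.p / R.q) ^ 2)) := by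
        calc 1 / ((R.p : ℝ) / 2 * phL R t)
            ≤ 1 / ((R.p : ℝ) / 2 * (4 * ((t.1 : ℝ) / R.p) ^ 2 + 4 * ((J : ℝ) / R.q) ^ 2)) :=
              one_div_le_one_div_of_le (by positivity) (mul_le_mul_of_nonneg_left (by linarith) (by positivity))
          _ = (R.p : ℝ) / 2 * (1 / ((t.1 : ℝ) ^ 2 + ((J : ℝ) * R.p / R.q) ^ 2)) := by field_simp; ring
      linarith

theorem dc_abs_le (p i : ℕ) (x : ℤ) : |dc p i x| ≤ 1 := Real.abs_cos_le_one _

/-- L-FR-Q19.  **Profiles on one column.**  `cf R f (i,j) = dc p i (x₀ - o₁) ψ̂ j`, `ψ̂ j = ∑_y f (x₀, o₂ + y) dc q j y`, `|dc| ≤ 1`.   So the sum is `≤ ∑_j ψ̂ j²/dcN q j · S j`, `S j = ∑_{i : (i,j) high} 1/(dcN p i · phL (i,j))`, and `∑_j ψ̂ j²/dcN q j = ∑ f²` (`dc_parseval`).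
`j ≥ J`: the term `i = 0` is `≤ q²/(4 p J²)`; for `i ≥ 1`: `dcN = p/2`, `phL ≥ 4 (i² + t²)/p²`, `t = J p/q`: `∑ ≤ (p/2)(2/t) = q/J` (`sum_inv_sq_add`).   `j < J`: only `i ≥ J`: `∑ ≤ (p/2)(2/J)` (`sum_inv_sq_tail`). -/
theorem tail_col (R : Rc) (f : ℤ × ℤ → ℝ) (x₀ : ℤ) (hf : ∀ v ∈ R.set, v.1 ≠ x₀ → f v = 0) (J : ℕ) (hJ : 0 < J) :
    ∑ t ∈ hiModes R J, cf R f t ^ 2 / (phN R t * phL R t)
      ≤ ((R.p : ℝ) / J + (R.q : ℝ) / J + (R.q : ℝ) ^ 2 / (4 * R.p * (J : ℝ) ^ 2)) * ∑ v ∈ R.set, f v ^ 2 := by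
  have hsub : hiModes R J ⊆ allModes R := fun t ht => Finset.mem_of_mem_erase (Finset.mem_filter.1 ht).1
  have hS0 : 0 ≤ ∑ v ∈ R.set, f v ^ 2 := Finset.sum_nonneg fun v _ => by positivity
  have hC0 : 0 ≤ (R.p : ℝ) / J + (R.q : ℝ) / J + (R.q : ℝ) ^ 2 / (4 * R.p * (J : ℝ) ^ 2) := by positivity
  by_cases hpq : 0 < R.p ∧ 0 < R.q
  swap
  · have : hiModes R J = ∅ := by
      rw [Finset.eq_empty_iff_forall_notMem]
      intro t ht
      obtain ⟨h1, h2⟩ := Finset.mem_product.1 (hsub ht)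
      rw [Finset.mem_range] at h1 h2
      omega
    rw [this, Finset.sum_empty]
    positivity
  obtain ⟨hp, hq⟩ := hpq
  set ψ : ℕ → ℝ := fun y => f (x₀, R.o.2 + y) with hψ
  set ψh : ℕ → ℝ := fun j => ∑ y ∈ Finset.range R.q, ψ y * dc R.q j y with hψh
  -- the two facts on `f`
  have key : (∀ t, cf R f t ^ 2 ≤ ψh t.2 ^ 2) ∧ ∑ y ∈ Finset.range R.q, ψ y ^ 2 ≤ ∑ v ∈ R.set, f v ^ 2 ∨
      ∀ t, cf R f t = 0 := by
    by_cases hx : R.o.1 ≤ x₀ ∧ x₀ < R.o.1 + R.p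
    · left
      obtain ⟨X, hX⟩ : ∃ X : ℕ, x₀ = R.o.1 + X := ⟨(x₀ - R.o.1).toNat, by omega⟩
      have hXp : X < R.p := by omega
      have hz : ∀ x ∈ Finset.range R.p, x ≠ X → ∀ y ∈ Finset.range R.q, f (R.o.1 + x, R.o.2 + y) = 0 := by
        intro x hx' hne y hy
        rw [Finset.mem_range] at hx' hy
        refine hf _ ?_ ?_
        · unfold Rc.set
          rw [Finset.mem_product, Finset.mem_Ico, Finset.mem_Ico]
          simp only
          omega
        · simp only; omega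
      constructor
      · intro t
        have : cf R f t = dc R.p t.1 X * ψh t.2 := by
          unfold cf
          rw [sum_set_eq, Finset.sum_eq_single X]
          · rw [hψh]
            simp only
            rw [Finset.mul_sum]
            refine Finset.sum_congr rfl fun y _ => ?_
            rw [ph_at, hψ]
            simp only
            rw [hX]; ring
          · intro x hx' hne
            refine Finset.sum_eq_zero fun y hy => ?_
            rw [hz x hx' hne y hy, zero_mul]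
          · intro h; exact absurd (Finset.mem_range.2 hXp) h
        rw [this, mul_pow]
        have h1 : dc R.p t.1 X ^ 2 ≤ 1 := by
          have := dc_abs_le R.p t.1 X
          rw [← sq_abs]
          exact pow_le_one₀ (abs_nonneg _) this
        nlinarith [sq_nonneg (ψh t.2)]
      · rw [sum_set_eq]
        have := Finset.single_le_sum (f := fun x : ℕ => ∑ y ∈ Finset.range R.q, f (R.o.1 + x, R.o.2 + y) ^ 2)
          (fun x _ => Finset.sum_nonneg fun y _ => by positivity) (Finset.mem_range.2 hXp)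
        rw [← hX] at this
        exact this
    · right
      intro t
      unfold cf
      refine Finset.sum_eq_zero fun u hu => ?_
      rw [hf u hu ?_, zero_mul]
      intro h
      apply hx
      unfold Rc.set at hu
      rw [Finset.mem_product, Finset.mem_Ico, Finset.mem_Ico] at hu
      omega
  rcases key with ⟨k1, k2⟩ | k0
  swap
  · rw [Finset.sum_eq_zero fun t _ => by rw [k0 t]; simp]
    positivity
  have step1 : ∀ t ∈ hiModes R J, cf R f t ^ 2 / (phN R t * phL R t)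
      ≤ tcB R.p R.q J t.1 * (ψh t.2 ^ 2 / dcN R.q t.2) := by
    intro t ht
    have hb := tcB_bound R J hJ t ht
    have hN2 := dcN_pos R.q t.2 hq
    have hN1 := dcN_pos R.p t.1 hp
    have hL := phL_pos R t (Finset.mem_filter.1 ht).1
    calc cf R f t ^ 2 / (phN R t * phL R t) ≤ ψh t.2 ^ 2 / (phN R t * phL R t) := by
          unfold phN
          exact div_le_div_of_nonneg_right (k1 t) (by positivity)
      _ = 1 / (dcN R.p t.1 * phL R t) * (ψh t.2 ^ 2 / dcN R.q t.2) := by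
          unfold phN; field_simp
      _ ≤ _ := mul_le_mul_of_nonneg_right hb (by positivity)
  refine (Finset.sum_le_sum step1).trans ?_
  refine (Finset.sum_le_sum_of_subset_of_nonneg hsub fun t _ _ =>
    mul_nonneg (tcB_nonneg _ _ _ _) (div_nonneg (by positivity) (dcN_pos R.q t.2 hq).le)).trans ?_
  unfold allModes
  rw [Finset.sum_product]
  simp only
  rw [← Finset.sum_mul_sum, hψh]
  simp only
  rw [dc_parseval]
  exact mul_le_mul (tcB_sum _ _ _ hp hq hJ) k2 (Finset.sum_nonneg fun y _ => by positivity) hC0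

/-- L-FR-Q19.  The same with the coordinates exchanged (same proof, or transport by the transposition `R ↦ ⟨(o₂,o₁), q, p⟩`, `t ↦ (t.2, t.1)`). -/
theorem tail_row (R : Rc) (f : ℤ × ℤ → ℝ) (y₀ : ℤ) (hf : ∀ v ∈ R.set, v.2 ≠ y₀ → f v = 0) (J : ℕ) (hJ : 0 < J) :
    ∑ t ∈ hiModes R J, cf R f t ^ 2 / (phN R t * phL R t)
      ≤ ((R.p : ℝ) / J + (R.q : ℝ) / J + (R.p : ℝ) ^ 2 / (4 * R.q * (J : ℝ) ^ 2)) * ∑ v ∈ R.set, f v ^ 2 := by
  set R' : Rc := ⟨(R.o.2, R.o.1), R.q, R.p⟩ with hR'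
  set f' : ℤ × ℤ → ℝ := fun v => f (v.2, v.1) with hf'
  have hmem : ∀ v : ℤ × ℤ, v ∈ R'.set ↔ (v.2, v.1) ∈ R.set := by
    intro v
    unfold Rc.set
    simp only [Finset.mem_product, Finset.mem_Ico, hR']
    tauto
  have h := tail_col R' f' y₀ (fun v hv hne => hf (v.2, v.1) ((hmem v).1 hv) hne) J hJ
  have ecf : ∀ t : ℕ × ℕ, cf R' f' (t.2, t.1) = cf R f t := by
    intro t
    unfold cf
    rw [sum_set_eq, sum_set_eq, Finset.sum_comm]
    refine Finset.sum_congr rfl fun x _ => Finset.sum_congr rfl fun y _ => ?_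
    rw [ph_at, ph_at]
    simp only [hR', hf']
    ring
  have eN : ∀ t : ℕ × ℕ, phN R' (t.2, t.1) = phN R t := fun t => by unfold phN; exact mul_comm _ _
  have eL : ∀ t : ℕ × ℕ, phL R' (t.2, t.1) = phL R t := fun t => by unfold phL; exact add_comm _ _
  have eS : ∑ v ∈ R'.set, f' v ^ 2 = ∑ v ∈ R.set, f v ^ 2 := by
    rw [sum_set_eq, sum_set_eq, Finset.sum_comm]
  have hmm : ∀ (A B : Rc), A.p = B.q → A.q = B.p → ∀ t ∈ hiModes A J, Prod.swap t ∈ hiModes B J := by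
    intro A B e1 e2 t ht
    unfold hiModes modes allModes at ht ⊢
    simp only [Finset.mem_filter, Finset.mem_erase, Finset.mem_product, Finset.mem_range, ne_eq, Prod.fst_swap,
      Prod.snd_swap, Prod.ext_iff] at ht ⊢
    omega
  have eH : ∑ t ∈ hiModes R J, cf R f t ^ 2 / (phN R t * phL R t)
      = ∑ t ∈ hiModes R' J, cf R' f' t ^ 2 / (phN R' t * phL R' t) := by
    refine Finset.sum_nbij' Prod.swap Prod.swap (hmm R R' rfl rfl) (hmm R' R rfl rfl) (fun t _ => rfl) (fun t _ => rfl) ?_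
    intro t _
    rw [← ecf t, ← eN t, ← eL t]
    rfl
  rw [eH, ← eS]
  refine h.trans (le_of_eq ?_)
  simp only [hR']
  ring

/-- L-FR-Q20.  `Reg` is closed under energy limits (`ε/4` twice, `cost_add_le`) and finite sums (`Finset.induction`, `fr_reg_add`; the zero sequence is `C2bd 0`). -/
theorem fr_reg_closure {n : ℕ → ℕ} {R : ℕ → Rc} {g : ℕ → ℤ × ℤ → ℝ}
    (h : ∀ ε : ℝ, 0 < ε → ∃ g' : ℕ → ℤ × ℤ → ℝ, Reg n R g' ∧ ∀ᶠ k in atTop, (R k).dir (fun v => g k v - g' k v) ≤ ε) : Reg n R g := by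
  intro ε hε
  obtain ⟨g', hg', h1⟩ := h (ε / 4) (by positivity)
  obtain ⟨M, γ, hγ, h2⟩ := hg' (ε / 4) (by positivity)
  refine ⟨M, γ, hγ, ?_⟩
  filter_upwards [h1, h2] with k a1 a2
  have e : (R k).dir (fun v => g k v - γ k v)
      = (R k).cost (fun e => gd (fun v => g k v - g' k v) e + gd (fun v => g' k v - γ k v) e) := by
    unfold Rc.dir
    congr 1
    funext e
    unfold gd
    ring
  rw [e]
  refine (cost_add_le _ _ _).trans ?_
  unfold Rc.dir at a1 a2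
  linarith

/-- L-FR-Q20. -/
theorem fr_reg_sum {n : ℕ → ℕ} {R : ℕ → Rc} {ι : Type} (T : Finset ι) (g : ι → ℕ → ℤ × ℤ → ℝ) (h : ∀ i ∈ T, Reg n R (g i)) :
    Reg n R fun k v => ∑ i ∈ T, g i k v := by
  induction T using Finset.induction_on with
  | empty =>
    simp only [Finset.sum_empty]
    refine fr_reg_c2 _ 0 fun k => ⟨fun e _ => ?_, fun e _ u _ _ => ?_⟩ <;> simp [gd]
  | insert a T ha ih =>
    simp only [Finset.sum_insert ha]
    exact fr_reg_add (h a (Finset.mem_insert_self _ _)) (ih fun i hi => h i (Finset.mem_insert_of_mem hi))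

theorem dc_phase (p n i : ℕ) (K : ℝ) (h : (p : ℝ) ≤ K * n) (o x : ℤ) :
    dc p i (x - o) = Real.cos ((Real.pi * i * n / p) * ((x : ℝ) / n) + Real.pi * i * (1 / 2 - (o : ℝ)) / p) := by
  unfold dc
  congr 1
  by_cases hp : p = 0
  · subst hp; simp
  · have hp' : (p : ℝ) ≠ 0 := by exact_mod_cast hp
    have hn : (n : ℝ) ≠ 0 := by
      intro h0
      rw [h0, mul_zero] at h
      have : (0 : ℝ) < p := by exact_mod_cast Nat.pos_of_ne_zero hp
      linarith
    push_cast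
    field_simp
    ring

theorem dc_freq_le (p n i J : ℕ) (c : ℝ) (hc : 0 < c) (h : c * n ≤ p) (hi : i < J) :
    |Real.pi * i * n / p| ≤ Real.pi * J / c := by
  have hpi := Real.pi_pos
  by_cases hp : p = 0
  · subst hp; simp; positivity
  · have hp' : (0 : ℝ) < p := by exact_mod_cast Nat.pos_of_ne_zero hp
    rw [abs_of_nonneg (by positivity), div_le_div_iff₀ hp' hc]
    have hiJ : (i : ℝ) ≤ J := by exact_mod_cast hi.le
    have hn : (0 : ℝ) ≤ n := Nat.cast_nonneg n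
    calc Real.pi * i * n * c = Real.pi * i * (c * n) := by ring
      _ ≤ Real.pi * J * p := mul_le_mul (mul_le_mul_of_nonneg_left hiJ hpi.le) h (by positivity) (by positivity)

theorem ph_reg {n : ℕ → ℕ} {R : ℕ → Rc} (hR : AdmN n R) (J : ℕ) (t : ℕ × ℕ) (h1 : t.1 < J) (h2 : t.2 < J) :
    Reg n R fun k => ph (R k) t := by
  obtain ⟨⟨K, hK⟩, c, hc, hcn⟩ := hR
  set α : ℕ → ℝ := fun k => Real.pi * t.1 * n k / (R k).p with hα
  set β : ℕ → ℝ := fun k => Real.pi * t.2 * n k / (R k).q with hβ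
  set γ : ℕ → ℝ := fun k => Real.pi * t.1 * (1 / 2 - ((R k).o.1 : ℝ)) / (R k).p with hγ
  set γ' : ℕ → ℝ := fun k => Real.pi * t.2 * (1 / 2 - ((R k).o.2 : ℝ)) / (R k).q with hγ'
  have bα : ∀ k, |α k| ≤ Real.pi * J / c := fun k => dc_freq_le _ _ _ _ c hc (hcn k).1 h1
  have bβ : ∀ k, |β k| ≤ Real.pi * J / c := fun k => dc_freq_le _ _ _ _ c hc (hcn k).2 h2
  have bβ' : ∀ k, |(-β k)| ≤ Real.pi * J / c := fun k => by rw [abs_neg]; exact bβ k
  have r1 := fr_reg_cos (n := n) (R := R) α β (fun k => γ k + γ' k) _ bα bβ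
  have r2 := fr_reg_cos (n := n) (R := R) α (fun k => - β k) (fun k => γ k - γ' k) _ bα bβ'
  have r := fr_reg_add (fr_reg_smul r1 (fun _ => 1 / 2) (1 / 2) (fun _ => by norm_num))
    (fr_reg_smul r2 (fun _ => 1 / 2) (1 / 2) (fun _ => by norm_num))
  have e : (fun k => ph (R k) t) = fun k v =>
      1 / 2 * Real.cos (α k * ((v.1 : ℝ) / n k) + β k * ((v.2 : ℝ) / n k) + (γ k + γ' k))
      + 1 / 2 * Real.cos (α k * ((v.1 : ℝ) / n k) + (- β k) * ((v.2 : ℝ) / n k) + (γ k - γ' k)) := by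
    funext k v
    unfold ph
    rw [dc_phase _ (n k) _ K (hK k).2.2.1, dc_phase _ (n k) _ K (hK k).2.2.2]
    have e1 : α k * ((v.1 : ℝ) / n k) + β k * ((v.2 : ℝ) / n k) + (γ k + γ' k)
        = (α k * ((v.1 : ℝ) / n k) + γ k) + (β k * ((v.2 : ℝ) / n k) + γ' k) := by ring
    have e2 : α k * ((v.1 : ℝ) / n k) + (- β k) * ((v.2 : ℝ) / n k) + (γ k - γ' k)
        = (α k * ((v.1 : ℝ) / n k) + γ k) - (β k * ((v.2 : ℝ) / n k) + γ' k) := by ring
    rw [e1, e2, Real.cos_add (α k * ((v.1 : ℝ) / n k) + γ k), Real.cos_sub (α k * ((v.1 : ℝ) / n k) + γ k)]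
    simp only [hα, hβ, hγ, hγ']
    ring
  rw [e]
  exact r

theorem pot_coef_le {n : ℕ} {R : Rc} {K c : ℝ} (hc : 0 < c) (hKp : (R.p : ℝ) ≤ K * n) (hKq : (R.q : ℝ) ≤ K * n)
    (hcp : c * n ≤ R.p) (hcq : c * n ≤ R.q) (t : ℕ × ℕ) (ht : t ∈ modes R) : c ^ 2 / K ^ 2 ≤ phN R t * phL R t := by
  have hta := Finset.mem_of_mem_erase ht
  have hne := Finset.ne_of_mem_erase ht
  obtain ⟨h1, h2⟩ := Finset.mem_product.1 hta
  rw [Finset.mem_range] at h1 h2
  have hp : (0 : ℝ) < R.p := by exact_mod_cast (by omega : 0 < R.p)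
  have hq : (0 : ℝ) < R.q := by exact_mod_cast (by omega : 0 < R.q)
  have hn0 : (0 : ℝ) ≤ n := Nat.cast_nonneg n
  have hKn : 0 < K * n := lt_of_lt_of_le hp hKp
  have hn : (0 : ℝ) < n := by
    rcases hn0.lt_or_eq with h | h
    · exact h
    · rw [← h, mul_zero] at hKn; exact absurd hKn (lt_irrefl _)
  have hK : 0 < K := by
    by_contra h
    push Not at h
    have := mul_nonpos_of_nonpos_of_nonneg h hn0
    linarith
  have low := phL_lower R t hta
  have a1 : 0 ≤ 4 * ((t.1 : ℝ) / R.p) ^ 2 := by positivity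
  have a2 : 0 ≤ 4 * ((t.2 : ℝ) / R.q) ^ 2 := by positivity
  have hL : 4 / (K * n) ^ 2 ≤ phL R t := by
    have hor : 1 ≤ t.1 ∨ 1 ≤ t.2 := by
      by_contra h
      push Not at h
      exact hne (Prod.ext (by simp; omega) (by simp; omega))
    rcases hor with h | h
    · have hh : (1 : ℝ) ≤ t.1 := by exact_mod_cast h
      have : 1 / (K * n) ≤ (t.1 : ℝ) / R.p := div_le_div₀ (by positivity) hh hp hKp
      have := pow_le_pow_left₀ (by positivity) this 2
      rw [div_pow, one_pow] at this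
      calc 4 / (K * n) ^ 2 = 4 * (1 / (K * n) ^ 2) := by ring
        _ ≤ 4 * ((t.1 : ℝ) / R.p) ^ 2 := by linarith
        _ ≤ _ := by linarith
    · have hh : (1 : ℝ) ≤ t.2 := by exact_mod_cast h
      have : 1 / (K * n) ≤ (t.2 : ℝ) / R.q := div_le_div₀ (by positivity) hh hq hKq
      have := pow_le_pow_left₀ (by positivity) this 2
      rw [div_pow, one_pow] at this
      calc 4 / (K * n) ^ 2 = 4 * (1 / (K * n) ^ 2) := by ring
        _ ≤ 4 * ((t.2 : ℝ) / R.q) ^ 2 := by linarith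
        _ ≤ _ := by linarith
  have hN1 : c * n / 2 ≤ dcN R.p t.1 := by
    unfold dcN; split_ifs <;> linarith
  have hN2 : c * n / 2 ≤ dcN R.q t.2 := by
    unfold dcN; split_ifs <;> linarith
  have hN : (c * n / 2) * (c * n / 2) ≤ phN R t := by
    unfold phN
    exact mul_le_mul hN1 hN2 (by positivity) (le_trans (by positivity) hN1)
  calc c ^ 2 / K ^ 2 = (c * n / 2) * (c * n / 2) * (4 / (K * n) ^ 2) := by field_simp; ring
    _ ≤ phN R t * phL R t := mul_le_mul hN hL (by positivity) (le_trans (by positivity) hN)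

/-- L-FR-Q21.  **The low modes are regular.**  Write the sum over `loModes (R k) J` as a sum over the FIXED set `range J ×ˢ range J` with coefficient `0` off `modes (R k)` (`Finset.sum_filter`, `Finset.sum_subset`); `fr_reg_sum`, `fr_reg_smul`.
Coefficients: `phN ≥ p q/4 ≥ c² n²/4`, `phL ≥ 4/max(p,q)² ≥ 4/(K n)²` on `modes`, so `|cf/(phN phL)| ≤ B K²/c²`.
`ph R t v = (cos (A + A') + cos (A - A'))/2`, `A = α (v.1/n) + γ`, `α = π t.1 n/p` (`|α| ≤ π J/c`), `γ = π t.1 (½ - o₁)/p`, same for `A'`: `fr_reg_cos`.  (`n k = 0`: `R k` is empty, `p = 0`, all terms are constants.) -/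
theorem pot_reg {n : ℕ → ℕ} {R : ℕ → Rc} (hR : AdmN n R) (f : ℕ → ℤ × ℤ → ℝ) (J : ℕ) (B : ℝ)
    (hB : ∀ k t, |cf (R k) (f k) t| ≤ B) : Reg n R fun k => pot (R k) (f k) (loModes (R k) J) := by
  have hR' := hR
  obtain ⟨⟨K, hK⟩, c, hc, hcn⟩ := hR'
  have hB0 : 0 ≤ B := (abs_nonneg _).trans (hB 0 (0, 0))
  set co : ℕ × ℕ → ℕ → ℝ := fun t k =>
    if t ∈ modes (R k) then cf (R k) (f k) t / (phN (R k) t * phL (R k) t) else 0 with hco
  have e : (fun k => pot (R k) (f k) (loModes (R k) J))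
      = fun k v => ∑ t ∈ Finset.range J ×ˢ Finset.range J, co t k * ph (R k) t v := by
    funext k v
    have hlo : loModes (R k) J = (Finset.range J ×ˢ Finset.range J).filter fun t => t ∈ modes (R k) := by
      ext t
      unfold loModes
      simp only [Finset.mem_filter, Finset.mem_product, Finset.mem_range]
      tauto
    unfold pot
    rw [hlo, Finset.sum_filter]
    refine Finset.sum_congr rfl fun t _ => ?_
    rw [hco]
    simp only
    split_ifs <;> simp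
  rw [e]
  refine fr_reg_sum _ (fun t k v => co t k * ph (R k) t v) fun t ht => ?_
  obtain ⟨h1, h2⟩ := Finset.mem_product.1 ht
  rw [Finset.mem_range] at h1 h2
  refine fr_reg_smul (ph_reg hR J t h1 h2) (co t) (B * (K ^ 2 / c ^ 2)) fun k => ?_
  rw [hco]
  simp only
  split_ifs with hm
  · have low := pot_coef_le hc (hK k).2.2.1 (hK k).2.2.2 (hcn k).1 (hcn k).2 t hm
    have hta := Finset.mem_of_mem_erase hm
    have hpos : 0 < phN (R k) t * phL (R k) t := mul_pos (phN_pos _ _ hta) (phL_pos _ _ hm)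
    have hK0 : K ≠ 0 := by
      rintro rfl
      obtain ⟨h1, -⟩ := Finset.mem_product.1 hta
      rw [Finset.mem_range] at h1
      have hp : (0 : ℝ) < (R k).p := by exact_mod_cast (by omega : 0 < (R k).p)
      have := (hK k).2.2.1
      linarith
    have hK2 : 0 < K ^ 2 := by positivity
    rw [abs_div, abs_of_pos hpos]
    calc |cf (R k) (f k) t| / (phN (R k) t * phL (R k) t) ≤ B / (c ^ 2 / K ^ 2) :=
          div_le_div₀ hB0 (hB k t) (by positivity) low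
      _ = B * (K ^ 2 / c ^ 2) := by field_simp
  · rw [abs_zero]; positivity

theorem cf_add (R : Rc) (f g : ℤ × ℤ → ℝ) (t : ℕ × ℕ) : cf R (fun v => f v + g v) t = cf R f t + cf R g t := by
  unfold cf
  rw [← Finset.sum_add_distrib]
  exact Finset.sum_congr rfl fun u _ => by ring

theorem cf_congr (R : Rc) {f g : ℤ × ℤ → ℝ} (h : ∀ v ∈ R.set, f v = g v) (t : ℕ × ℕ) : cf R f t = cf R g t :=
  Finset.sum_congr rfl fun u hu => by rw [h u hu]

theorem ph_sq_le (R : Rc) (t : ℕ × ℕ) (v : ℤ × ℤ) : ph R t v ^ 2 ≤ 1 := by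
  unfold ph
  rw [← sq_abs, abs_mul]
  exact pow_le_one₀ (by positivity) (mul_le_one₀ (dc_abs_le _ _ _) (abs_nonneg _) (dc_abs_le _ _ _))

theorem cf_sq_le (R : Rc) (f : ℤ × ℤ → ℝ) (S : Finset (ℤ × ℤ)) (hS : S ⊆ R.set) (hf : ∀ v ∈ R.set, v ∉ S → f v = 0)
    (t : ℕ × ℕ) : cf R f t ^ 2 ≤ (S.card : ℝ) * ∑ v ∈ R.set, f v ^ 2 := by
  have e : cf R f t = ∑ u ∈ S, f u * ph R t u :=
    (Finset.sum_subset hS fun u hu hn => by rw [hf u hu hn, zero_mul]).symm
  rw [e]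
  refine sq_sum_le_card_mul_sum_sq.trans (mul_le_mul_of_nonneg_left ?_ (Nat.cast_nonneg _))
  calc ∑ u ∈ S, (f u * ph R t u) ^ 2 ≤ ∑ u ∈ S, f u ^ 2 := by
        refine Finset.sum_le_sum fun u _ => ?_
        rw [mul_pow]
        nlinarith [ph_sq_le R t u, sq_nonneg (f u)]
    _ ≤ ∑ v ∈ R.set, f v ^ 2 := Finset.sum_le_sum_of_subset_of_nonneg hS fun v _ _ => by positivity

theorem fr_card_set (R : Rc) : R.set.card = R.p * R.q := by
  unfold Rc.set
  rw [Finset.card_product, Int.card_Ico, Int.card_Ico]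
  simp

theorem fr_card_bdry (R : Rc) : R.bdry.card ≤ 2 * R.p + 2 * R.q := by
  have hsub : R.bdry ⊆ (({R.o.1} ×ˢ Finset.Ico R.o.2 (R.o.2 + R.q)) ∪ ({R.o.1 + R.p - 1} ×ˢ Finset.Ico R.o.2 (R.o.2 + R.q)))
      ∪ ((Finset.Ico R.o.1 (R.o.1 + R.p) ×ˢ {R.o.2}) ∪ (Finset.Ico R.o.1 (R.o.1 + R.p) ×ˢ {R.o.2 + R.q - 1})) := by
    intro v hv
    unfold Rc.bdry Rc.set at hv
    simp only [Finset.mem_filter, Finset.mem_product, Finset.mem_Ico] at hv
    simp only [Finset.mem_union, Finset.mem_product, Finset.mem_singleton, Finset.mem_Ico]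
    omega
  refine (Finset.card_le_card hsub).trans ?_
  refine (Finset.card_union_le _ _).trans ?_
  have c1 := Finset.card_union_le ({R.o.1} ×ˢ Finset.Ico R.o.2 (R.o.2 + R.q)) ({R.o.1 + R.p - 1} ×ˢ Finset.Ico R.o.2 (R.o.2 + R.q))
  have c2 := Finset.card_union_le (Finset.Ico R.o.1 (R.o.1 + R.p) ×ˢ {R.o.2}) (Finset.Ico R.o.1 (R.o.1 + R.p) ×ˢ {R.o.2 + R.q - 1})
  simp only [Finset.card_product, Finset.card_singleton, Int.card_Ico, add_sub_cancel_left, Int.toNat_natCast] at c1 c2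
  omega

theorem tail_five (R : Rc) (J : ℕ) (f a b c d e : ℤ × ℤ → ℝ) (h : ∀ v ∈ R.set, f v = a v + b v + c v + d v + e v) :
    ∑ t ∈ hiModes R J, cf R f t ^ 2 / (phN R t * phL R t)
      ≤ 5 * (∑ t ∈ hiModes R J, cf R a t ^ 2 / (phN R t * phL R t) + ∑ t ∈ hiModes R J, cf R b t ^ 2 / (phN R t * phL R t)
        + ∑ t ∈ hiModes R J, cf R c t ^ 2 / (phN R t * phL R t) + ∑ t ∈ hiModes R J, cf R d t ^ 2 / (phN R t * phL R t)
        + ∑ t ∈ hiModes R J, cf R e t ^ 2 / (phN R t * phL R t)) := by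
  rw [← Finset.sum_add_distrib, ← Finset.sum_add_distrib, ← Finset.sum_add_distrib, ← Finset.sum_add_distrib, Finset.mul_sum]
  refine Finset.sum_le_sum fun t ht => ?_
  have htm := (Finset.mem_filter.1 ht).1
  have hpos : 0 < phN R t * phL R t := mul_pos (phN_pos _ _ (Finset.mem_of_mem_erase htm)) (phL_pos _ _ htm)
  have ecf : cf R f t = cf R a t + cf R b t + cf R c t + cf R d t + cf R e t := by
    rw [cf_congr R h t, cf_add, cf_add, cf_add, cf_add]
  rw [ecf]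
  generalize cf R a t = x1
  generalize cf R b t = x2
  generalize cf R c t = x3
  generalize cf R d t = x4
  generalize cf R e t = x5
  have key : (x1 + x2 + x3 + x4 + x5) ^ 2 ≤ 5 * (x1 ^ 2 + x2 ^ 2 + x3 ^ 2 + x4 ^ 2 + x5 ^ 2) := by
    nlinarith [sq_nonneg (x1 - x2), sq_nonneg (x1 - x3), sq_nonneg (x1 - x4), sq_nonneg (x1 - x5), sq_nonneg (x2 - x3),
      sq_nonneg (x2 - x4), sq_nonneg (x2 - x5), sq_nonneg (x3 - x4), sq_nonneg (x3 - x5), sq_nonneg (x4 - x5)]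
  calc (x1 + x2 + x3 + x4 + x5) ^ 2 / (phN R t * phL R t)
      ≤ 5 * (x1 ^ 2 + x2 ^ 2 + x3 ^ 2 + x4 ^ 2 + x5 ^ 2) / (phN R t * phL R t) := div_le_div_of_nonneg_right key hpos.le
    _ = _ := by ring

theorem tail_smear (R : Rc) (f₁ f₂ : ℤ × ℤ → ℝ) (h3 : ∀ v ∈ R.set, v ∉ R.bdry → f₂ v = 0) (J : ℕ) (hJ : 0 < J) :
    ∑ t ∈ hiModes R J, cf R (fun v => f₁ v + f₂ v) t ^ 2 / (phN R t * phL R t)
      ≤ 5 * (((max R.p R.q : ℕ) : ℝ) ^ 2 / (4 * (J : ℝ) ^ 2) * ∑ v ∈ R.set, f₁ v ^ 2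
        + (2 * ((R.p : ℝ) / J + (R.q : ℝ) / J + (R.q : ℝ) ^ 2 / (4 * R.p * (J : ℝ) ^ 2))
          + 2 * ((R.p : ℝ) / J + (R.q : ℝ) / J + (R.p : ℝ) ^ 2 / (4 * R.q * (J : ℝ) ^ 2))) * ∑ v ∈ R.set, f₂ v ^ 2) := by
  set fL : ℤ × ℤ → ℝ := fun v => if v.1 = R.o.1 then f₂ v else 0 with hfL
  set fR : ℤ × ℤ → ℝ := fun v => if v.1 ≠ R.o.1 ∧ v.1 + 1 = R.o.1 + R.p then f₂ v else 0 with hfR
  set fD : ℤ × ℤ → ℝ := fun v => if v.1 ≠ R.o.1 ∧ v.1 + 1 ≠ R.o.1 + R.p ∧ v.2 = R.o.2 then f₂ v else 0 with hfD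
  set fU : ℤ × ℤ → ℝ := fun v =>
    if v.1 ≠ R.o.1 ∧ v.1 + 1 ≠ R.o.1 + R.p ∧ v.2 ≠ R.o.2 ∧ v.2 + 1 = R.o.2 + R.q then f₂ v else 0 with hfU
  have dec : ∀ v ∈ R.set, f₁ v + f₂ v = f₁ v + fL v + fR v + fD v + fU v := by
    intro v hv
    simp only [hfL, hfR, hfD, hfU]
    by_cases c1 : v.1 = R.o.1
    · simp [c1]
    by_cases c2 : v.1 + 1 = R.o.1 + R.p
    · simp [c1, c2]
    by_cases c3 : v.2 = R.o.2
    · simp [c1, c2, c3]
    by_cases c4 : v.2 + 1 = R.o.2 + R.q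
    · simp [c1, c2, c3, c4]
    · have : v ∉ R.bdry := by
        unfold Rc.bdry
        rw [Finset.mem_filter]
        tauto
      simp [c1, c2, c3, c4, h3 v hv this]
  have sL : ∑ v ∈ R.set, fL v ^ 2 ≤ ∑ v ∈ R.set, f₂ v ^ 2 := Finset.sum_le_sum fun v _ => by
    simp only [hfL]; split_ifs
    · exact le_rfl
    · rw [zero_pow two_ne_zero]; positivity
  have sR : ∑ v ∈ R.set, fR v ^ 2 ≤ ∑ v ∈ R.set, f₂ v ^ 2 := Finset.sum_le_sum fun v _ => by
    simp only [hfR]; split_ifs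
    · exact le_rfl
    · rw [zero_pow two_ne_zero]; positivity
  have sD : ∑ v ∈ R.set, fD v ^ 2 ≤ ∑ v ∈ R.set, f₂ v ^ 2 := Finset.sum_le_sum fun v _ => by
    simp only [hfD]; split_ifs
    · exact le_rfl
    · rw [zero_pow two_ne_zero]; positivity
  have sU : ∑ v ∈ R.set, fU v ^ 2 ≤ ∑ v ∈ R.set, f₂ v ^ 2 := Finset.sum_le_sum fun v _ => by
    simp only [hfU]; split_ifs
    · exact le_rfl
    · rw [zero_pow two_ne_zero]; positivity
  have t1 := tail_vol R f₁ J hJ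
  have tL := tail_col R fL R.o.1 (fun v _ hne => by simp only [hfL]; rw [if_neg hne]) J hJ
  have tR := tail_col R fR (R.o.1 + R.p - 1) (fun v _ hne => by
    simp only [hfR]; rw [if_neg]; intro h; apply hne; omega) J hJ
  have tD := tail_row R fD R.o.2 (fun v _ hne => by simp only [hfD]; rw [if_neg]; tauto) J hJ
  have tU := tail_row R fU (R.o.2 + R.q - 1) (fun v _ hne => by
    simp only [hfU]; rw [if_neg]; intro h; apply hne; omega) J hJ
  have hc0 : 0 ≤ (R.p : ℝ) / J + (R.q : ℝ) / J + (R.q : ℝ) ^ 2 / (4 * R.p * (J : ℝ) ^ 2) := by positivity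
  have hr0 : 0 ≤ (R.p : ℝ) / J + (R.q : ℝ) / J + (R.p : ℝ) ^ 2 / (4 * R.q * (J : ℝ) ^ 2) := by positivity
  have tL' := tL.trans (mul_le_mul_of_nonneg_left sL hc0)
  have tR' := tR.trans (mul_le_mul_of_nonneg_left sR hc0)
  have tD' := tD.trans (mul_le_mul_of_nonneg_left sD hr0)
  have tU' := tU.trans (mul_le_mul_of_nonneg_left sU hr0)
  refine (tail_five R J _ f₁ fL fR fD fU dec).trans ?_
  linarith

theorem smear_arith (K c C n J p q m S₁ S₂ : ℝ) (hK : 0 ≤ K) (hc : 0 < c) (hn : 1 ≤ n) (hJ : 1 ≤ J)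
    (hp : p ≤ K * n) (hq : q ≤ K * n) (hm0 : 0 ≤ m) (hm : m ≤ K * n) (hcp : c * n ≤ p) (hcq : c * n ≤ q)
    (hS₁ : 0 ≤ S₁) (hS₂ : 0 ≤ S₂) (h1 : n ^ 2 * S₁ ≤ C) (h2 : n * S₂ ≤ C) :
    5 * (m ^ 2 / (4 * J ^ 2) * S₁ + (2 * (p / J + q / J + q ^ 2 / (4 * p * J ^ 2))
      + 2 * (p / J + q / J + p ^ 2 / (4 * q * J ^ 2))) * S₂) ≤ 5 * (K ^ 2 * C / 4 + (8 * K + K ^ 2 / c) * C) / J := by
  have hn0 : 0 < n := by linarith
  have hJ0 : 0 < J := by linarith
  have hcn : 0 < c * n := by positivity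
  have hp0 : 0 < p := by linarith
  have hq0 : 0 < q := by linarith
  have hC : 0 ≤ C := le_trans (by positivity) h2
  have hJ2 : J ≤ J ^ 2 := by nlinarith
  -- volume part
  have a1 : m ^ 2 / (4 * J ^ 2) * S₁ ≤ K ^ 2 * C / 4 / J := by
    have m2 : m ^ 2 ≤ (K * n) ^ 2 := pow_le_pow_left₀ hm0 hm 2
    calc m ^ 2 / (4 * J ^ 2) * S₁ ≤ (K * n) ^ 2 / (4 * J ^ 2) * S₁ :=
          mul_le_mul_of_nonneg_right (div_le_div_of_nonneg_right m2 (by positivity)) hS₁
      _ = K ^ 2 * (n ^ 2 * S₁) / (4 * J ^ 2) := by ring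
      _ ≤ K ^ 2 * C / (4 * J ^ 2) := div_le_div_of_nonneg_right (mul_le_mul_of_nonneg_left h1 (by positivity)) (by positivity)
      _ ≤ K ^ 2 * C / (4 * J) := div_le_div_of_nonneg_left (by positivity) (by positivity) (by linarith)
      _ = K ^ 2 * C / 4 / J := by field_simp
  -- one face
  have face : ∀ x y : ℝ, x ≤ K * n → y ≤ K * n → c * n ≤ x → c * n ≤ y →
      x / J + y / J + y ^ 2 / (4 * x * J ^ 2) ≤ n * ((2 * K + K ^ 2 / (4 * c)) / J) := by
    intro x y hx hy hcx hcy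
    have hx0 : 0 < x := by linarith
    have hy0 : 0 < y := by linarith
    have b1 : x / J ≤ K * n / J := div_le_div_of_nonneg_right hx hJ0.le
    have b2 : y / J ≤ K * n / J := div_le_div_of_nonneg_right hy hJ0.le
    have b3 : y ^ 2 / (4 * x * J ^ 2) ≤ (K * n) ^ 2 / (4 * (c * n) * J) := by
      refine div_le_div₀ (by positivity) (pow_le_pow_left₀ hy0.le hy 2) (by positivity) ?_
      have : 4 * (c * n) ≤ 4 * x := by linarith
      exact mul_le_mul this hJ2 hJ0.le (by positivity)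
    have e : n * ((2 * K + K ^ 2 / (4 * c)) / J) = K * n / J + K * n / J + (K * n) ^ 2 / (4 * (c * n) * J) := by
      field_simp
      ring
    rw [e]
    linarith
  have f1 := face p q hp hq hcp hcq
  have f2 := face q p hq hp hcq hcp
  have a2 : (2 * (p / J + q / J + q ^ 2 / (4 * p * J ^ 2)) + 2 * (p / J + q / J + p ^ 2 / (4 * q * J ^ 2))) * S₂
      ≤ (8 * K + K ^ 2 / c) * C / J := by
    have : 2 * (p / J + q / J + q ^ 2 / (4 * p * J ^ 2)) + 2 * (p / J + q / J + p ^ 2 / (4 * q * J ^ 2))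
        ≤ 4 * (n * ((2 * K + K ^ 2 / (4 * c)) / J)) := by linarith
    calc _ ≤ 4 * (n * ((2 * K + K ^ 2 / (4 * c)) / J)) * S₂ := mul_le_mul_of_nonneg_right this hS₂
      _ = (8 * K + K ^ 2 / c) / J * (n * S₂) := by field_simp; ring
      _ ≤ (8 * K + K ^ 2 / c) / J * C := mul_le_mul_of_nonneg_left h2 (by positivity)
      _ = _ := by ring
  calc _ ≤ 5 * (K ^ 2 * C / 4 / J + (8 * K + K ^ 2 / c) * C / J) := by linarith
    _ = _ := by ring

/-- L-FR-Q22 (= `C2.reg_smear`).  `f = f₁ + f₂`, `g k = pot (R k) (f k) (modes (R k))`; `pot_lap`.   `Reg` by `fr_reg_closure` with `g' k = pot … (loModes (R k) J)` (`pot_reg`;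
`|cf f₁| ≤ √(∑ f₁²) √(p q) ≤ √C K`, `|cf f₂| ≤ √(card bdry) √(∑ f₂²) ≤ 2 √(K C)`, Cauchy-Schwarz `Finset.sum_mul_sq_le_sq_mul_sq`, `|ph| ≤ 1`).   `g - g' = pot … (hiModes (R k) J)`, energy by `pot_dir`.
Split `f₂` into four parts carried by the left column, the right column, the lower row, the upper row (each site of `bdry` in exactly one part); `cf` is linear, `(∑_{s ≤ 5} a_s)² ≤ 5 ∑ a_s²`; `tail_vol` for `f₁`
(`≤ K² n²/(4J²) · C/n²`), `tail_col`, `tail_row` for the parts of `f₂` (`≤ (2K n/J + K² n/(4 c J²)) · C/n`).   Choose `J` large. -/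
theorem fr_reg_smear {n : ℕ → ℕ} {R : ℕ → Rc} (hn : Tendsto n atTop atTop) (hR : AdmN n R) (f₁ f₂ : ℕ → ℤ × ℤ → ℝ) (C : ℝ)
    (h0 : ∀ k, ∑ v ∈ (R k).set, (f₁ k v + f₂ k v) = 0) (h1 : ∀ k, (n k : ℝ) ^ 2 * ∑ v ∈ (R k).set, f₁ k v ^ 2 ≤ C)
    (h2 : ∀ k, (n k : ℝ) * ∑ v ∈ (R k).set, f₂ k v ^ 2 ≤ C) (h3 : ∀ k, ∀ v ∈ (R k).set, v ∉ (R k).bdry → f₂ k v = 0) :
    ∃ g : ℕ → ℤ × ℤ → ℝ, Reg n R g ∧ ∀ k, ∀ v ∈ (R k).set, (R k).lap (g k) v = f₁ k v + f₂ k v := by
  have hR' := hR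
  obtain ⟨⟨K₀, hK₀⟩, c, hc, hcn⟩ := hR'
  set K : ℝ := |K₀| with hKdef
  have hK0 : 0 ≤ K := abs_nonneg _
  have hKK : ∀ k, K₀ * n k ≤ K * n k := fun k => mul_le_mul_of_nonneg_right (le_abs_self K₀) (Nat.cast_nonneg _)
  have hKp : ∀ k, ((R k).p : ℝ) ≤ K * n k := fun k => (hK₀ k).2.2.1.trans (hKK k)
  have hKq : ∀ k, ((R k).q : ℝ) ≤ K * n k := fun k => (hK₀ k).2.2.2.trans (hKK k)
  have hS₁ : ∀ k, 0 ≤ ∑ v ∈ (R k).set, f₁ k v ^ 2 := fun k => Finset.sum_nonneg fun v _ => by positivity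
  have hS₂ : ∀ k, 0 ≤ ∑ v ∈ (R k).set, f₂ k v ^ 2 := fun k => Finset.sum_nonneg fun v _ => by positivity
  have hC0 : 0 ≤ C := le_trans (mul_nonneg (Nat.cast_nonneg _) (hS₂ 0)) (h2 0)
  set f : ℕ → ℤ × ℤ → ℝ := fun k v => f₁ k v + f₂ k v with hf
  refine ⟨fun k => pot (R k) (f k) (modes (R k)), ?_, fun k v hv => pot_lap (R k) (f k) (h0 k) v hv⟩
  -- the uniform bound on the coefficients
  have hB : ∀ k t, |cf (R k) (f k) t| ≤ Real.sqrt (K ^ 2 * C) + Real.sqrt (4 * K * C) := by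
    intro k t
    have hn0 : (0 : ℝ) ≤ n k := Nat.cast_nonneg _
    have hp0 : (0 : ℝ) ≤ (R k).p := Nat.cast_nonneg _
    have hq0 : (0 : ℝ) ≤ (R k).q := Nat.cast_nonneg _
    have e : cf (R k) (f k) t = cf (R k) (f₁ k) t + cf (R k) (f₂ k) t := cf_add _ _ _ _
    have b1 : cf (R k) (f₁ k) t ^ 2 ≤ K ^ 2 * C := by
      refine (cf_sq_le (R k) (f₁ k) (R k).set (Finset.Subset.refl _) (fun v hv hv' => absurd hv hv') t).trans ?_
      rw [fr_card_set]
      push_cast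
      calc ((R k).p : ℝ) * (R k).q * ∑ v ∈ (R k).set, f₁ k v ^ 2
          ≤ (K * n k) * (K * n k) * ∑ v ∈ (R k).set, f₁ k v ^ 2 :=
            mul_le_mul_of_nonneg_right (mul_le_mul (hKp k) (hKq k) hq0 (by positivity)) (hS₁ k)
        _ = K ^ 2 * ((n k : ℝ) ^ 2 * ∑ v ∈ (R k).set, f₁ k v ^ 2) := by ring
        _ ≤ K ^ 2 * C := mul_le_mul_of_nonneg_left (h1 k) (by positivity)
    have b2 : cf (R k) (f₂ k) t ^ 2 ≤ 4 * K * C := by
      refine (cf_sq_le (R k) (f₂ k) (R k).bdry (Finset.filter_subset _ _) (h3 k) t).trans ?_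
      have hcard : ((R k).bdry.card : ℝ) ≤ 2 * (R k).p + 2 * (R k).q := by exact_mod_cast fr_card_bdry (R k)
      calc ((R k).bdry.card : ℝ) * ∑ v ∈ (R k).set, f₂ k v ^ 2
          ≤ (4 * (K * n k)) * ∑ v ∈ (R k).set, f₂ k v ^ 2 :=
            mul_le_mul_of_nonneg_right (by linarith [hKp k, hKq k]) (hS₂ k)
        _ = 4 * K * ((n k : ℝ) * ∑ v ∈ (R k).set, f₂ k v ^ 2) := by ring
        _ ≤ 4 * K * C := mul_le_mul_of_nonneg_left (h2 k) (by positivity)
    rw [e]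
    exact (abs_add_le _ _).trans (add_le_add (Real.abs_le_sqrt b1) (Real.abs_le_sqrt b2))
  apply fr_reg_closure
  intro ε hε
  set D : ℝ := 5 * (K ^ 2 * C / 4 + (8 * K + K ^ 2 / c) * C) with hD
  have hD0 : 0 ≤ D := by positivity
  obtain ⟨J, hJ⟩ := exists_nat_gt (D / ε)
  have hJ0' : (0 : ℝ) < J := lt_of_le_of_lt (by positivity) hJ
  have hJ0 : 0 < J := by exact_mod_cast hJ0'
  refine ⟨fun k => pot (R k) (f k) (loModes (R k) J), pot_reg hR f J _ hB, ?_⟩
  filter_upwards [hn.eventually_ge_atTop 1] with k hk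
  have e : (fun v => pot (R k) (f k) (modes (R k)) v - pot (R k) (f k) (loModes (R k) J) v)
      = pot (R k) (f k) (hiModes (R k) J) := by
    funext v
    unfold pot loModes hiModes
    rw [← Finset.sum_filter_add_sum_filter_not (modes (R k)) (fun t => t.1 < J ∧ t.2 < J), add_sub_cancel_left]
    refine Finset.sum_congr (Finset.filter_congr fun t _ => ?_) fun _ _ => rfl
    omega
  rw [e, pot_dir (R k) (f k) (hiModes (R k) J) (Finset.filter_subset _ _)]
  refine (tail_smear (R k) (f₁ k) (f₂ k) (h3 k) J hJ0).trans ?_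
  have hm : (((max (R k).p (R k).q : ℕ)) : ℝ) ≤ K * n k := by
    rcases max_cases (R k).p (R k).q with ⟨h, -⟩ | ⟨h, -⟩ <;> rw [h]
    · exact hKp k
    · exact hKq k
  refine (smear_arith K c C (n k) J (R k).p (R k).q _ _ _ hK0 hc (by exact_mod_cast hk) (by exact_mod_cast hJ0)
    (hKp k) (hKq k) (Nat.cast_nonneg _) hm (hcn k).1 (hcn k).2 (hS₁ k) (hS₂ k) (h1 k) (h2 k)).trans ?_
  rw [← hD, div_le_iff₀ hJ0']
  rw [div_lt_iff₀ hε] at hJ
  linarith

end

end Claimed.Agent.R285.Free
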