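import Claimed.Agent.R285.Read.C2

/-!
# ROW 285, FREE → PINS: the free limit theorems of `Read/C2.lean` at ANY POSITION in `ℤ²`      (helper115, 17:50Z)

`C2.Adm n R` bounds the POSITION of the rectangles (`|o| ≤ K n`); `Admissible K g ν` (Base/Geom) does not bound the position of the grid.  So `C2.free_*`, `reg_smear`, `reg_bdd` cannot be applied to `Pot.roRc (g k)` or to the cells of `g k`.
Here: `AdmS` / `AdmSN` = sizes only, and the same theorems under `AdmS` (names `*_s`), by moving every rectangle to the origin (`Rc.org`, `Rc.mvF`, `Rc.mvB`, `C2.rc_translate`).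
-/

set_option autoImplicit false

namespace Claimed.Agent.R285.C2

open Filter Topology
open scoped Classical

noncomputable section

/-- rectangles of size `O(n k)`, ANY position -/
def AdmS (n : ℕ → ℕ) (R : ℕ → Rc) : Prop := ∃ K : ℝ, ∀ k, ((R k).p : ℝ) ≤ K * n k ∧ ((R k).q : ℝ) ≤ K * n k

/-- nondegenerate rectangles, ANY position -/
def AdmSN (n : ℕ → ℕ) (R : ℕ → Rc) : Prop :=
  AdmS n R ∧ ∃ c : ℝ, 0 < c ∧ ∀ k, c * n k ≤ (R k).p ∧ c * n k ≤ (R k).q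

/-- the rectangle moved by `-u` -/
def Rc.mv (R : Rc) (u : ℤ × ℤ) : Rc := ⟨R.o - u, R.p, R.q⟩

/-- a function on `ℤ²` moved by `-u` -/
def mvF (u : ℤ × ℤ) (g : ℤ × ℤ → ℝ) : ℤ × ℤ → ℝ := fun v => g (v + u)

/-- a function on bonds moved by `-u` -/
def mvB (u : ℤ × ℤ) (w : Bond → ℝ) : Bond → ℝ := fun e => w (e.1 + u, e.2)

theorem pos_snd (e : Bond) (u : ℤ × ℤ) : Bond.snd (e.1 + u, e.2) = e.snd + u := by
  obtain ⟨⟨a, c⟩, d⟩ := e
  obtain ⟨u1, u2⟩ := u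
  cases d <;> simp [Bond.snd] <;> ring

theorem pos_mem_set (R : Rc) (u v : ℤ × ℤ) : v ∈ (R.mv u).set ↔ v + u ∈ R.set := by
  simp only [Rc.set, Rc.mv, Finset.mem_product, Finset.mem_Ico, Prod.fst_add, Prod.snd_add, Prod.fst_sub, Prod.snd_sub]
  constructor <;> intro h <;> refine ⟨⟨?_, ?_⟩, ?_, ?_⟩ <;> omega

theorem pos_mem_bd (R : Rc) (u : ℤ × ℤ) (e : Bond) : e ∈ (R.mv u).bd ↔ (e.1 + u, e.2) ∈ R.bd := by
  simp only [Rc.bd, domBonds, Finset.mem_filter, Finset.mem_product, Finset.mem_univ, and_true, Set.mem_empty_iff_false,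
    not_false_eq_true, pos_snd, pos_mem_set]

theorem pos_sum_set (R : Rc) (u : ℤ × ℤ) (F : ℤ × ℤ → ℝ) : ∑ v ∈ R.set, F v = ∑ v ∈ (R.mv u).set, F (v + u) := by
  symm
  refine Finset.sum_bij (fun v _ => v + u) (fun v hv => (pos_mem_set R u v).1 hv) (fun v _ v' _ h => add_right_cancel h)
    (fun v hv => ⟨v - u, (pos_mem_set R u _).2 (by simpa using hv), by simp⟩) (fun _ _ => rfl)

theorem pos_sum_bd (R : Rc) (u : ℤ × ℤ) (F : Bond → ℝ) : ∑ e ∈ R.bd, F e = ∑ e ∈ (R.mv u).bd, F (e.1 + u, e.2) := by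
  symm
  refine Finset.sum_bij (fun e _ => ((e.1 + u, e.2) : Bond)) (fun e he => (pos_mem_bd R u e).1 he)
    (fun e _ e' _ h => ?_) (fun e he => ⟨(e.1 - u, e.2), (pos_mem_bd R u _).2 (by simpa using he), by simp⟩) (fun _ _ => rfl)
  have h1 := congrArg Prod.fst h
  have h2 := congrArg Prod.snd h
  exact Prod.ext (add_right_cancel h1) h2

theorem pos_gd (u : ℤ × ℤ) (g : ℤ × ℤ → ℝ) : mvB u (gd g) = gd (mvF u g) := by
  funext e
  simp only [mvB, gd, mvF, pos_snd]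

theorem pos_cost (R : Rc) (u : ℤ × ℤ) (w : Bond → ℝ) : R.cost w = (R.mv u).cost (mvB u w) := pos_sum_bd R u _

theorem pos_dir (R : Rc) (u : ℤ × ℤ) (g : ℤ × ℤ → ℝ) : R.dir g = (R.mv u).dir (mvF u g) := by
  unfold Rc.dir
  rw [pos_cost R u, pos_gd]

theorem pos_lap (R : Rc) (u : ℤ × ℤ) (g : ℤ × ℤ → ℝ) (v : ℤ × ℤ) : R.lap g (v + u) = (R.mv u).lap (mvF u g) v := by
  unfold Rc.lap
  rw [pos_sum_bd R u]
  refine Finset.sum_congr rfl fun e _ => ?_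
  have h1 : gd g (e.1 + u, e.2) = gd (mvF u g) e := congrFun (pos_gd u g) e
  rw [h1, pos_snd]
  simp only [add_left_inj]

theorem pos_E0 (R : Rc) (u : ℤ × ℤ) (b : ℝ) (w : Bond → ℝ) (F : ℝ → ℝ) :
    (R.sys b).E0 (fun z => F (R.flowX b w z)) = ((R.mv u).sys b).E0 fun z => F ((R.mv u).flowX b (mvB u w) z) := by
  have h := rc_translate (R.mv u) u b (mvB u w) F
  have e1 : Rc.mk ((R.mv u).o + u) (R.mv u).p (R.mv u).q = R := by
    obtain ⟨o, p, q⟩ := R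
    simp [Rc.mv]
  have e2 : (fun e : Bond => mvB u w (e.1 - u, e.2)) = w := by
    funext e
    simp [mvB]
  rw [e1, e2] at h
  exact h

theorem pos_var (R : Rc) (u : ℤ × ℤ) (b : ℝ) (w : Bond → ℝ) : R.var b w = (R.mv u).var b (mvB u w) := by
  unfold Rc.var
  rw [rd_V0_eq, rd_V0_eq]
  exact pos_E0 R u b w (fun t => t ^ 2)

theorem pos_lmgf (R : Rc) (u : ℤ × ℤ) (b : ℝ) (w : Bond → ℝ) : R.lmgf b w = (R.mv u).lmgf b (mvB u w) := by
  unfold Rc.lmgf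
  rw [pos_E0 R u b w Real.exp]

theorem pos_adm {n : ℕ → ℕ} {R : ℕ → Rc} (h : AdmS n R) : Adm n fun k => (R k).mv (R k).o := by
  obtain ⟨K, hK⟩ := h
  refine ⟨K, fun k => ?_⟩
  have h0 : 0 ≤ K * n k := le_trans (Nat.cast_nonneg _) (hK k).1
  simpa [Rc.mv] using ⟨h0, hK k⟩

theorem pos_admN {n : ℕ → ℕ} {R : ℕ → Rc} (h : AdmSN n R) : AdmN n fun k => (R k).mv (R k).o :=
  ⟨pos_adm h.1, h.2⟩

theorem pos_c2bd {M : ℝ} {n : ℕ} {R : Rc} {g : ℤ × ℤ → ℝ} (u : ℤ × ℤ) (h : C2bd M n R g) : C2bd M n (R.mv u) (mvF u g) := by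
  constructor
  · intro e he
    rw [← pos_gd]
    exact h.1 _ ((pos_mem_bd R u e).1 he)
  · intro e he d hd he'
    rw [← pos_gd]
    have h1 := h.2 _ ((pos_mem_bd R u e).1 he) d hd (by
      have := (pos_mem_bd R u _).1 he'
      simpa [add_right_comm] using this)
    simpa [mvB, add_right_comm] using h1

theorem pos_reg {n : ℕ → ℕ} {R : ℕ → Rc} {g : ℕ → ℤ × ℤ → ℝ} (u : ℕ → ℤ × ℤ) (h : Reg n R g) :
    Reg n (fun k => (R k).mv (u k)) fun k => mvF (u k) (g k) := by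
  intro ε hε
  obtain ⟨M, γ, h1, h2⟩ := h ε hε
  refine ⟨M, fun k => mvF (u k) (γ k), fun k => pos_c2bd (u k) (h1 k), ?_⟩
  filter_upwards [h2] with k hk
  rw [pos_dir (R k) (u k)] at hk
  exact hk

theorem pos_mv_mv (R : Rc) (u : ℤ × ℤ) : (R.mv u).mv (-u) = R := by
  obtain ⟨o, p, q⟩ := R
  simp [Rc.mv]

theorem pos_mvF_mvF (u : ℤ × ℤ) (g : ℤ × ℤ → ℝ) : mvF (-u) (mvF u g) = g := by
  funext v
  simp [mvF]

/-- `Reg` does not depend on the position -/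
theorem pos_reg_back {n : ℕ → ℕ} {R : ℕ → Rc} {g : ℕ → ℤ × ℤ → ℝ} (u : ℕ → ℤ × ℤ)
    (h : Reg n (fun k => (R k).mv (u k)) fun k => mvF (u k) (g k)) : Reg n R g := by
  have h1 := pos_reg (fun k => -u k) h
  simpa only [pos_mv_mv, pos_mvF_mvF] using h1

/-! ## The theorems of `Read/C2.lean` s3 at any position -/

theorem reg_bdd_s {n : ℕ → ℕ} {R : ℕ → Rc} {g : ℕ → ℤ × ℤ → ℝ} (hn : Tendsto n atTop atTop) (hR : AdmS n R) (h : Reg n R g) :
    ∃ C : ℝ, ∀ᶠ k in atTop, (R k).dir (g k) ≤ C := by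
  obtain ⟨C, hC⟩ := reg_bdd hn (pos_adm hR) (pos_reg (fun k => (R k).o) h)
  refine ⟨C, ?_⟩
  filter_upwards [hC] with k hk
  rw [pos_dir (R k) (R k).o]
  exact hk

theorem free_var_s {b : ℕ → ℝ} {n : ℕ → ℕ} {a : ℝ} (hS : ScaleCoef b n a) {R : ℕ → Rc} (hR : AdmS n R)
    {g : ℕ → ℤ × ℤ → ℝ} (hg : Reg n R g) :
    Tendsto (fun k => (R k).var (b k) (gd (g k)) - a * (R k).dir (g k)) atTop (𝓝 0) := by
  refine (free_var hS (pos_adm hR) (pos_reg (fun k => (R k).o) hg)).congr fun k => ?_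
  rw [pos_var (R k) (R k).o, pos_dir (R k) (R k).o, pos_gd]

theorem free_laplace_s {b : ℕ → ℝ} {n : ℕ → ℕ} {a : ℝ} (hS : ScaleCoef b n a) {R : ℕ → Rc} (hR : AdmS n R)
    {g : ℕ → ℤ × ℤ → ℝ} (hg : Reg n R g) :
    Tendsto (fun k => (R k).lmgf (b k) (gd (g k)) - a / 2 * (R k).dir (g k)) atTop (𝓝 0) := by
  refine (free_laplace hS (pos_adm hR) (pos_reg (fun k => (R k).o) hg)).congr fun k => ?_
  rw [pos_lmgf (R k) (R k).o, pos_dir (R k) (R k).o, pos_gd]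

theorem free_moment_s {b : ℕ → ℝ} {n : ℕ → ℕ} {a : ℝ} (hS : ScaleCoef b n a) {R : ℕ → Rc} (hR : AdmS n R)
    {g : ℕ → ℤ × ℤ → ℝ} (hg : Reg n R g) (j : ℕ) :
    Tendsto (fun k => ((R k).sys (b k)).E0 (fun z => (R k).gradX (b k) (g k) z ^ (2 * j))
      - ((2 * j - 1).doubleFactorial : ℝ) * (a * (R k).dir (g k)) ^ j) atTop (𝓝 0) := by
  refine (free_moment hS (pos_adm hR) (pos_reg (fun k => (R k).o) hg) j).congr fun k => ?_
  have h := pos_E0 (R k) (R k).o (b k) (gd (g k)) (fun t => t ^ (2 * j))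
  rw [pos_gd] at h
  rw [pos_dir (R k) (R k).o]
  unfold Rc.gradX
  rw [h]

theorem free_char_s {b : ℕ → ℝ} {n : ℕ → ℕ} {a : ℝ} (hS : ScaleCoef b n a) {R : ℕ → Rc} (hR : AdmS n R)
    {g : ℕ → ℤ × ℤ → ℝ} (hg : Reg n R g) :
    Tendsto (fun k => ((R k).sys (b k)).phi ((R k).gradX (b k) (g k)) - Real.exp (-(a * (R k).dir (g k)) / 2)) atTop (𝓝 0) := by
  refine (free_char hS (pos_adm hR) (pos_reg (fun k => (R k).o) hg)).congr fun k => ?_
  have h := pos_E0 (R k) (R k).o (b k) (gd (g k)) Real.cos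
  rw [pos_gd] at h
  rw [pos_dir (R k) (R k).o]
  unfold Rc.gradX LSys.phi
  rw [h]

theorem free_partial_upper_s {b : ℕ → ℝ} {n : ℕ → ℕ} {a : ℝ} (hS : ScaleCoef b n a) {R R' : ℕ → Rc} (hR : AdmS n R)
    (hsub : ∀ k, (R' k).set ⊆ (R k).set) {g : ℕ → ℤ × ℤ → ℝ} (hg : Reg n R g) (ε : ℝ) (hε : 0 < ε) :
    ∀ᶠ k in atTop, (R k).var (b k) (fun e => if e ∈ (R' k).bd then gd (g k) e else 0) ≤ a * (R' k).dir (g k) + ε := by
  have h := free_partial_upper hS (R' := fun k => (R' k).mv (R k).o) (pos_adm hR)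
    (fun k v hv => (pos_mem_set _ _ _).2 (hsub k ((pos_mem_set _ _ _).1 hv))) (pos_reg (fun k => (R k).o) hg) ε hε
  filter_upwards [h] with k hk
  rw [pos_var (R k) (R k).o, pos_dir (R' k) (R k).o]
  refine le_of_eq_of_le ?_ hk
  congr 1
  funext e
  simp only [mvB, pos_mem_bd]
  rw [← pos_gd]
  rfl

theorem reg_smear_s {n : ℕ → ℕ} {R : ℕ → Rc} (hn : Tendsto n atTop atTop) (hR : AdmSN n R) (f₁ f₂ : ℕ → ℤ × ℤ → ℝ) (C : ℝ)
    (h0 : ∀ k, ∑ v ∈ (R k).set, (f₁ k v + f₂ k v) = 0) (h1 : ∀ k, (n k : ℝ) ^ 2 * ∑ v ∈ (R k).set, f₁ k v ^ 2 ≤ C)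
    (h2 : ∀ k, (n k : ℝ) * ∑ v ∈ (R k).set, f₂ k v ^ 2 ≤ C) (h3 : ∀ k, ∀ v ∈ (R k).set, v ∉ (R k).bdry → f₂ k v = 0) :
    ∃ g : ℕ → ℤ × ℤ → ℝ, Reg n R g ∧ ∀ k, ∀ v ∈ (R k).set, (R k).lap (g k) v = f₁ k v + f₂ k v := by
  obtain ⟨g, hg, hl⟩ := reg_smear hn (pos_admN hR) (fun k => mvF (R k).o (f₁ k)) (fun k => mvF (R k).o (f₂ k)) C
    (fun k => by rw [← h0 k, pos_sum_set (R k) (R k).o]; rfl)
    (fun k => by have := h1 k; rw [pos_sum_set (R k) (R k).o] at this; exact this)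
    (fun k => by have := h2 k; rw [pos_sum_set (R k) (R k).o] at this; exact this)
    (fun k v hv hb => h3 k _ ((pos_mem_set _ _ _).1 hv) (fun hb' => hb (by
      rw [Rc.bdry, Finset.mem_filter] at hb' ⊢
      refine ⟨hv, ?_⟩
      have := hb'.2
      simp only [Rc.mv, Prod.fst_add, Prod.snd_add, Prod.fst_sub, Prod.snd_sub] at this ⊢
      omega)))
  refine ⟨fun k => mvF (-(R k).o) (g k), pos_reg_back (fun k => (R k).o) ?_, fun k v hv => ?_⟩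
  · have e : (fun k => mvF (R k).o (mvF (-(R k).o) (g k))) = g := by
      funext k v
      simp [mvF]
    rw [e]
    exact hg
  · have h4 := hl k (v - (R k).o) ((pos_mem_set _ _ _).2 (by simpa using hv))
    have h5 := pos_lap (R k) (R k).o (mvF (-(R k).o) (g k)) (v - (R k).o)
    have e : mvF (R k).o (mvF (-(R k).o) (g k)) = g k := by
      funext v
      simp [mvF]
    rw [e, sub_add_cancel] at h5
    rw [h5, h4]
    simp [mvF]

end

end Claimed.Agent.R285.C2
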