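import Claimed.Agent.R285.Free.Rect

/-!
# ROW 285, unit FREE, file 3: square grids in a rectangle, the FINITE upper bound, the coefficient (architect helper60).   Paper-free.

Exports for `Read/C2.lean` s2: `aCoef_nonneg`, `aCoef_le`, `aCoef_mono_b`, `cut_coefficient`, `aCoef_tendsto'`, `scaleCoef_fixed`, `scaleCoef_nonneg`, `scaleCoef_comparable` (names `fr_*`).

The grid `(o, m)`: cell `i ∈ ℤ²` is the square `cellRc o m i = [o₁ + i₁ m, o₁ + (i₁+1) m) × [o₂ + i₂ m, o₂ + (i₂+1) m)`.  A bond of `R` is `Inner` if both end points lie in the same cell and this cell is contained in `R`.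
All other bonds of `R` (seams between cells, bonds touching a cell which sticks out of `R`) are few: `fr_rest_card`.

LEAVES `L-FR-G*`: every `sorry`.
-/

set_option autoImplicit false

namespace Claimed.Agent.R285.Free

open Filter Topology C2
open scoped Classical

noncomputable section

/-! ## 1. Grids -/

/-- index of the cell of the grid `(o,m)` containing `v` (floor division) -/
def cidx (o : ℤ × ℤ) (m : ℕ) (v : ℤ × ℤ) : ℤ × ℤ := ((v.1 - o.1) / (m : ℤ), (v.2 - o.2) / (m : ℤ))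

/-- the cell `i` of the grid `(o,m)` -/
def cellRc (o : ℤ × ℤ) (m : ℕ) (i : ℤ × ℤ) : Rc := ⟨(o.1 + i.1 * m, o.2 + i.2 * m), m, m⟩

/-- the bond `e` is internal to a cell of the grid `(o,m)` which is contained in `R` -/
def Inner (R : Rc) (o : ℤ × ℤ) (m : ℕ) (e : Bond) : Prop :=
  cidx o m e.1 = cidx o m e.snd ∧ (cellRc o m (cidx o m e.1)).set ⊆ R.set

/-- the cellwise constant flow with constants `c`, on the inner bonds -/
def cellF (R : Rc) (o : ℤ × ℤ) (m : ℕ) (c : ℤ × ℤ → Bool → ℝ) : Bond → ℝ :=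
  fun e => if Inner R o m e then c (cidx o m e.1) e.2 else 0

/-- floor division by a positive natural number. -/
theorem fr_ediv_eq_iff {m : ℕ} (hm : 0 < m) (a k : ℤ) : a / (m : ℤ) = k ↔ k * m ≤ a ∧ a < k * m + m := by
  have hm' : (0 : ℤ) < m := by exact_mod_cast hm
  constructor
  · rintro rfl
    have h1 := Int.emod_add_mul_ediv a m
    have h2 := Int.emod_nonneg a hm'.ne'
    have h3 := Int.emod_lt_of_pos a hm'
    constructor <;> nlinarith
  · rintro ⟨h1, h2⟩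
    apply le_antisymm
    · have : a / (m : ℤ) < k + 1 := by
        rw [Int.ediv_lt_iff_lt_mul hm']
        linarith
      omega
    · rw [Int.le_ediv_iff_mul_le hm']
      exact h1

/-- L-FR-G1.  `Int.ediv` facts: `v ∈ (cellRc o m i).set ↔ cidx o m v = i` for `0 < m` (`Int.ediv_eq_iff...`, `Int.emod_nonneg`, `Int.emod_lt_of_pos`). -/
theorem mem_cellRc {o : ℤ × ℤ} {m : ℕ} (hm : 0 < m) {i v : ℤ × ℤ} : v ∈ (cellRc o m i).set ↔ cidx o m v = i := by
  rw [fr_mem_set, Prod.ext_iff]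
  simp only [cellRc, cidx]
  rw [fr_ediv_eq_iff hm, fr_ediv_eq_iff hm]
  constructor
  · rintro ⟨⟨h1, h2⟩, h3, h4⟩
    exact ⟨⟨by linarith, by linarith⟩, by linarith, by linarith⟩
  · rintro ⟨⟨h1, h2⟩, h3, h4⟩
    exact ⟨⟨by linarith, by linarith⟩, by linarith, by linarith⟩

/-- L-FR-G1.  From `mem_cellRc`, `mem_bd`. -/
theorem inner_iff {R : Rc} {o : ℤ × ℤ} {m : ℕ} (hm : 0 < m) {e : Bond} :
    Inner R o m e ↔ ∃ i, e ∈ (cellRc o m i).bd ∧ (cellRc o m i).set ⊆ R.set := by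
  constructor
  · rintro ⟨h1, h2⟩
    exact ⟨cidx o m e.1, mem_bd.2 ⟨(mem_cellRc hm).2 rfl, (mem_cellRc hm).2 h1.symm⟩, h2⟩
  · rintro ⟨i, h1, h2⟩
    obtain ⟨h3, h4⟩ := mem_bd.1 h1
    rw [mem_cellRc hm] at h3 h4
    refine ⟨h3.trans h4.symm, ?_⟩
    rw [h3]
    exact h2

/-- a point in a full column/row of cells: its cell interval stays inside. -/
theorem fr_cell_in {m p : ℕ} (hm : 0 < m) {x t : ℤ} (h0 : 0 ≤ x) (h1 : x < ((p / m : ℕ) : ℤ) * m)
    (h2 : x / (m : ℤ) * m ≤ t) (h3 : t < x / (m : ℤ) * m + m) : 0 ≤ t ∧ t < p := by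
  have hm' : (0 : ℤ) < m := by exact_mod_cast hm
  have h4 : 0 ≤ x / (m : ℤ) := Int.ediv_nonneg h0 hm'.le
  have h5 : x / (m : ℤ) < ((p / m : ℕ) : ℤ) := by
    rw [Int.ediv_lt_iff_lt_mul hm']; exact h1
  have h6 : ((p / m : ℕ) : ℤ) * m ≤ p := by exact_mod_cast Nat.div_mul_le_self p m
  constructor
  · nlinarith
  · nlinarith

/-- L-FR-G2.  **Few bonds are not inner** (grid anchored at the corner of `R`).  A bond of `R` which is not inner either joins two cells (`(e.1.1 - o₁) % m = m - 1`, horizontal: at most `(p/m) q` of them; same for vertical)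
or has its first end point in a cell sticking out of `R` (`e.1.1 - o₁ ≥ (p/m) m` or `e.1.2 - o₂ ≥ (q/m) m`: at most `2 m q + 2 m p`).  Inject into explicit products of intervals and count (`Finset.card_le_card_of_injOn`, `Int.card_Ico`). -/
theorem fr_rest_card (R : Rc) (m : ℕ) (hm : 0 < m) :
    ((R.bd.filter fun e => ¬ Inner R R.o m e).card : ℝ) ≤ 2 * (R.p : ℝ) * R.q / m + 2 * m * ((R.p : ℝ) + R.q) := by
  have hm' : (0 : ℤ) < m := by exact_mod_cast hm
  obtain ⟨A1, hA1⟩ : ∃ A : Finset Bond, A = (Finset.Ico (0 : ℤ) ((R.p / m : ℕ) : ℤ) ×ˢ Finset.Ico R.o.2 (R.o.2 + R.q)).image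
      (fun k => (((R.o.1 + k.1 * m + m - 1, k.2), true) : Bond)) := ⟨_, rfl⟩
  obtain ⟨A2, hA2⟩ : ∃ A : Finset Bond, A = (Finset.Ico R.o.1 (R.o.1 + R.p) ×ˢ Finset.Ico (0 : ℤ) ((R.q / m : ℕ) : ℤ)).image
      (fun k => (((k.1, R.o.2 + k.2 * m + m - 1), false) : Bond)) := ⟨_, rfl⟩
  obtain ⟨B1, hB1⟩ : ∃ B : Finset Bond, B = (Finset.Ico (R.o.1 + ((R.p / m : ℕ) : ℤ) * m) (R.o.1 + R.p) ×ˢ Finset.Ico R.o.2 (R.o.2 + R.q))
      ×ˢ (Finset.univ : Finset Bool) := ⟨_, rfl⟩
  obtain ⟨B2, hB2⟩ : ∃ B : Finset Bond, B = (Finset.Ico R.o.1 (R.o.1 + R.p) ×ˢ Finset.Ico (R.o.2 + ((R.q / m : ℕ) : ℤ) * m) (R.o.2 + R.q))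
      ×ˢ (Finset.univ : Finset Bool) := ⟨_, rfl⟩
  have hsub : (R.bd.filter fun e => ¬ Inner R R.o m e) ⊆ (A1 ∪ A2) ∪ (B1 ∪ B2) := by
    intro e he
    rw [Finset.mem_filter] at he
    obtain ⟨he1, he2⟩ := he
    by_contra hcon
    simp only [Finset.mem_union, not_or] at hcon
    obtain ⟨⟨hn1, hn2⟩, hn3, hn4⟩ := hcon
    obtain ⟨hv, hv'⟩ := mem_bd.1 he1
    obtain ⟨⟨x1, x2⟩, y1, y2⟩ := fr_mem_set.1 hv
    have hx : e.1.1 - R.o.1 < ((R.p / m : ℕ) : ℤ) * m := by
      by_contra hc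
      apply hn3
      rw [hB1]
      simp only [Finset.mem_product, Finset.mem_Ico, Finset.mem_univ, and_true]
      exact ⟨⟨by linarith, x2⟩, y1, y2⟩
    have hy : e.1.2 - R.o.2 < ((R.q / m : ℕ) : ℤ) * m := by
      by_contra hc
      apply hn4
      rw [hB2]
      simp only [Finset.mem_product, Finset.mem_Ico, Finset.mem_univ, and_true]
      exact ⟨⟨x1, x2⟩, by linarith, y2⟩
    apply he2
    constructor
    · -- same cell
      obtain ⟨⟨x, y⟩, d⟩ := e
      simp only at x1 x2 y1 y2 hx hy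
      cases d with
      | true =>
        simp only [cidx, Bond.snd, if_true, Prod.mk.injEq, and_true]
        symm
        rw [fr_ediv_eq_iff hm]
        have h1 := Int.emod_add_mul_ediv (x - R.o.1) m
        have h2 := Int.emod_nonneg (x - R.o.1) hm'.ne'
        have h3 := Int.emod_lt_of_pos (x - R.o.1) hm'
        have h4 : (x - R.o.1) % (m : ℤ) ≠ m - 1 := by
          intro h4
          apply hn1
          rw [hA1, Finset.mem_image]
          refine ⟨((x - R.o.1) / (m : ℤ), y), ?_, ?_⟩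
          · simp only [Finset.mem_product, Finset.mem_Ico]
            refine ⟨⟨Int.ediv_nonneg (by linarith) hm'.le, ?_⟩, y1, y2⟩
            rw [Int.ediv_lt_iff_lt_mul hm']; exact hx
          · simp only [Prod.mk.injEq, and_true]
            rw [h4] at h1
            linarith
        have h5 : (x - R.o.1) % (m : ℤ) + 1 < m := by omega
        constructor
        · nlinarith
        · nlinarith
      | false =>
        simp only [cidx, Bond.snd, Bool.false_eq_true, if_false, Prod.mk.injEq, true_and]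
        symm
        rw [fr_ediv_eq_iff hm]
        have h1 := Int.emod_add_mul_ediv (y - R.o.2) m
        have h2 := Int.emod_nonneg (y - R.o.2) hm'.ne'
        have h3 := Int.emod_lt_of_pos (y - R.o.2) hm'
        have h4 : (y - R.o.2) % (m : ℤ) ≠ m - 1 := by
          intro h4
          apply hn2
          rw [hA2, Finset.mem_image]
          refine ⟨(x, (y - R.o.2) / (m : ℤ)), ?_, ?_⟩
          · simp only [Finset.mem_product, Finset.mem_Ico]
            refine ⟨⟨x1, x2⟩, Int.ediv_nonneg (by linarith) hm'.le, ?_⟩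
            rw [Int.ediv_lt_iff_lt_mul hm']; exact hy
          · simp only [Prod.mk.injEq, and_true, true_and]
            rw [h4] at h1
            linarith
        have h5 : (y - R.o.2) % (m : ℤ) + 1 < m := by omega
        constructor
        · nlinarith
        · nlinarith
    · intro v hv2
      obtain ⟨⟨a1, a2⟩, a3, a4⟩ := fr_mem_set.1 hv2
      simp only [cellRc, cidx] at a1 a2 a3 a4
      have k1 := fr_cell_in (p := R.p) (t := v.1 - R.o.1) hm (by linarith) hx (by linarith) (by linarith)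
      have k2 := fr_cell_in (p := R.q) (t := v.2 - R.o.2) hm (by linarith) hy (by linarith) (by linarith)
      exact fr_mem_set.2 ⟨⟨by linarith [k1.1], by linarith [k1.2]⟩, by linarith [k2.1], by linarith [k2.2]⟩
  have hc := Finset.card_le_card hsub
  have c1 : A1.card ≤ R.p / m * R.q := by
    rw [hA1]
    refine Finset.card_image_le.trans ?_
    rw [Finset.card_product, Int.card_Ico, Int.card_Ico]
    have h1 : (((R.p / m : ℕ) : ℤ) - 0).toNat = R.p / m := by rw [sub_zero, Int.toNat_natCast]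
    have h2 : (R.o.2 + (R.q : ℤ) - R.o.2).toNat = R.q := by omega
    rw [h1, h2]
  have c2 : A2.card ≤ R.p * (R.q / m) := by
    rw [hA2]
    refine Finset.card_image_le.trans ?_
    rw [Finset.card_product, Int.card_Ico, Int.card_Ico]
    have h1 : (((R.q / m : ℕ) : ℤ) - 0).toNat = R.q / m := by rw [sub_zero, Int.toNat_natCast]
    have h2 : (R.o.1 + (R.p : ℤ) - R.o.1).toNat = R.p := by omega
    rw [h1, h2]
  have c3 : B1.card ≤ m * R.q * 2 := by
    rw [hB1, Finset.card_product, Finset.card_product, Int.card_Ico, Int.card_Ico]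
    simp only [Finset.card_univ, Fintype.card_bool]
    have h1 : (R.o.1 + (R.p : ℤ) - (R.o.1 + ((R.p / m : ℕ) : ℤ) * m)).toNat ≤ m := by
      have := Nat.div_add_mod R.p m
      have h2 := Nat.mod_lt R.p hm
      have h3 : ((m * (R.p / m) + R.p % m : ℕ) : ℤ) = R.p := by exact_mod_cast this
      push_cast at h3
      have h4 : R.o.1 + (R.p : ℤ) - (R.o.1 + ((R.p / m : ℕ) : ℤ) * m) = ((R.p % m : ℕ) : ℤ) := by
        push_cast; linarith
      rw [h4]
      simp only [Int.toNat_natCast]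
      exact h2.le
    have h2 : (R.o.2 + (R.q : ℤ) - R.o.2).toNat = R.q := by omega
    rw [h2]
    gcongr
  have c4 : B2.card ≤ R.p * m * 2 := by
    rw [hB2, Finset.card_product, Finset.card_product, Int.card_Ico, Int.card_Ico]
    simp only [Finset.card_univ, Fintype.card_bool]
    have h1 : (R.o.2 + (R.q : ℤ) - (R.o.2 + ((R.q / m : ℕ) : ℤ) * m)).toNat ≤ m := by
      have := Nat.div_add_mod R.q m
      have h2 := Nat.mod_lt R.q hm
      have h3 : ((m * (R.q / m) + R.q % m : ℕ) : ℤ) = R.q := by exact_mod_cast this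
      push_cast at h3
      have h4 : R.o.2 + (R.q : ℤ) - (R.o.2 + ((R.q / m : ℕ) : ℤ) * m) = ((R.q % m : ℕ) : ℤ) := by
        push_cast; linarith
      rw [h4]
      simp only [Int.toNat_natCast]
      exact h2.le
    have h2 : (R.o.1 + (R.p : ℤ) - R.o.1).toNat = R.p := by omega
    rw [h2]
    gcongr
  have hc2 : (R.bd.filter fun e => ¬ Inner R R.o m e).card ≤ R.p / m * R.q + R.p * (R.q / m) + (m * R.q * 2 + R.p * m * 2) := by
    refine hc.trans ((Finset.card_union_le _ _).trans ?_)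
    exact add_le_add ((Finset.card_union_le _ _).trans (add_le_add c1 c2)) ((Finset.card_union_le _ _).trans (add_le_add c3 c4))
  have hc3 : ((R.bd.filter fun e => ¬ Inner R R.o m e).card : ℝ)
      ≤ ((R.p / m : ℕ) : ℝ) * R.q + R.p * ((R.q / m : ℕ) : ℝ) + (m * R.q * 2 + R.p * m * 2) := by exact_mod_cast hc2
  have d1 : ((R.p / m : ℕ) : ℝ) ≤ (R.p : ℝ) / m := Nat.cast_div_le
  have d2 : ((R.q / m : ℕ) : ℝ) ≤ (R.q : ℝ) / m := Nat.cast_div_le
  have d3 : ((R.p / m : ℕ) : ℝ) * R.q ≤ (R.p : ℝ) / m * R.q := by gcongr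
  have d4 : (R.p : ℝ) * ((R.q / m : ℕ) : ℝ) ≤ R.p * ((R.q : ℝ) / m) := by gcongr
  have e : 2 * (R.p : ℝ) * R.q / m = (R.p : ℝ) / m * R.q + R.p * ((R.q : ℝ) / m) := by ring
  rw [e]
  linarith

/-- the bonds of a rectangle, split by direction. -/
theorem fr_sum_bd (R : Rc) (f : Bond → ℝ) :
    ∑ e ∈ R.bd, f e = ∑ v ∈ Finset.Ico R.o.1 (R.o.1 + R.p - 1) ×ˢ Finset.Ico R.o.2 (R.o.2 + R.q), f (v, true)
      + ∑ v ∈ Finset.Ico R.o.1 (R.o.1 + R.p) ×ˢ Finset.Ico R.o.2 (R.o.2 + R.q - 1), f (v, false) := by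
  have h1 : ∑ e ∈ R.bd, f e = ∑ e ∈ R.bd.filter (fun e => e.2 = true), f e + ∑ e ∈ R.bd.filter (fun e => ¬ e.2 = true), f e :=
    (Finset.sum_filter_add_sum_filter_not _ _ _).symm
  rw [h1]
  congr 1
  · symm
    refine Finset.sum_bij (fun v _ => (v, true)) ?_ ?_ ?_ ?_
    · intro v hv
      rw [Finset.mem_product, Finset.mem_Ico, Finset.mem_Ico] at hv
      rw [Finset.mem_filter, mem_bd, fr_mem_set, fr_mem_set]
      simp only [Bond.snd, if_true]
      refine ⟨⟨⟨⟨?_, ?_⟩, ?_, ?_⟩, ⟨?_, ?_⟩, ?_, ?_⟩, trivial⟩ <;> omega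
    · intro v _ v' _ h
      exact (Prod.ext_iff.1 h).1
    · intro e he
      rw [Finset.mem_filter, mem_bd, fr_mem_set, fr_mem_set] at he
      obtain ⟨⟨h1, h2⟩, h3⟩ := he
      simp only [Bond.snd, h3, if_true] at h2
      refine ⟨e.1, ?_, Prod.ext rfl h3.symm⟩
      rw [Finset.mem_product, Finset.mem_Ico, Finset.mem_Ico]
      refine ⟨⟨?_, ?_⟩, ?_, ?_⟩ <;> omega
    · intro v _; rfl
  · symm
    refine Finset.sum_bij (fun v _ => (v, false)) ?_ ?_ ?_ ?_
    · intro v hv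
      rw [Finset.mem_product, Finset.mem_Ico, Finset.mem_Ico] at hv
      rw [Finset.mem_filter, mem_bd, fr_mem_set, fr_mem_set]
      simp only [Bond.snd]
      refine ⟨⟨⟨⟨?_, ?_⟩, ?_, ?_⟩, ⟨?_, ?_⟩, ?_, ?_⟩, by simp⟩ <;> (try simp) <;> omega
    · intro v _ v' _ h
      exact (Prod.ext_iff.1 h).1
    · intro e he
      rw [Finset.mem_filter, mem_bd, fr_mem_set, fr_mem_set] at he
      obtain ⟨⟨h1, h2⟩, h3⟩ := he
      have h3' : e.2 = false := by simpa using h3
      simp only [Bond.snd, h3'] at h2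
      refine ⟨e.1, ?_, Prod.ext rfl h3'.symm⟩
      rw [Finset.mem_product, Finset.mem_Ico, Finset.mem_Ico]
      simp at h2
      refine ⟨⟨?_, ?_⟩, ?_, ?_⟩ <;> omega
    · intro v _; rfl

/-- L-FR-G3.  Number of bonds of a rectangle. -/
theorem fr_bd_card (R : Rc) : (R.bd.card : ℝ) ≤ 2 * (R.p : ℝ) * R.q := by
  have h : R.bd ⊆ R.set ×ˢ (Finset.univ : Finset Bool) := fun e he =>
    Finset.mem_product.2 ⟨(mem_bd.1 he).1, Finset.mem_univ _⟩
  have h2 := Finset.card_le_card h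
  rw [Finset.card_product, Rc.set, Finset.card_product, Int.card_Ico, Int.card_Ico] at h2
  simp at h2
  have : ((R.bd.card : ℕ) : ℝ) ≤ ((R.p * R.q * 2 : ℕ) : ℝ) := by exact_mod_cast h2
  push_cast at this
  linarith

/-- L-FR-G3.  Cost of an affine shift on a square: `m (m-1)` bonds in each direction. -/
theorem fr_affine_cost (o : ℤ × ℤ) (m : ℕ) (p₁ p₂ c : ℝ) :
    (Rc.mk o m m).dir (fun v => p₁ * v.1 + p₂ * v.2 + c) = (p₁ ^ 2 + p₂ ^ 2) * ((m : ℝ) * ((m : ℝ) - 1)) := by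
  unfold Rc.dir Rc.cost
  rw [fr_sum_bd]
  have e1 : ∀ v : ℤ × ℤ, gd (fun v : ℤ × ℤ => p₁ * v.1 + p₂ * v.2 + c) (v, true) ^ 2 = p₁ ^ 2 := by
    intro v
    simp only [gd, Bond.snd, if_true]
    push_cast
    ring
  have e2 : ∀ v : ℤ × ℤ, gd (fun v : ℤ × ℤ => p₁ * v.1 + p₂ * v.2 + c) (v, false) ^ 2 = p₂ ^ 2 := by
    intro v
    simp only [gd, Bond.snd]
    simp
    ring
  simp only [e1, e2, Finset.sum_const, Finset.card_product, Int.card_Ico, nsmul_eq_mul]
  have h1 : ((o.1 + (m : ℤ) - 1 - o.1).toNat : ℝ) * (m : ℝ) = (m : ℝ) * ((m : ℝ) - 1) := by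
    rcases Nat.eq_zero_or_pos m with rfl | hm
    · simp
    · have : (o.1 + (m : ℤ) - 1 - o.1).toNat = m - 1 := by omega
      rw [this, Nat.cast_sub hm]
      push_cast; ring
  have h2 : ((o.2 + (m : ℤ) - 1 - o.2).toNat : ℝ) * (m : ℝ) = (m : ℝ) * ((m : ℝ) - 1) := by
    rcases Nat.eq_zero_or_pos m with rfl | hm
    · simp
    · have : (o.2 + (m : ℤ) - 1 - o.2).toNat = m - 1 := by omega
      rw [this, Nat.cast_sub hm]
      push_cast; ring
  have h3 : (o.1 + (m : ℤ) - o.1).toNat = m := by omega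
  have h4 : (o.2 + (m : ℤ) - o.2).toNat = m := by omega
  simp only [h3, h4]
  push_cast
  rw [h1, mul_comm (m : ℝ) ((o.2 + (m : ℤ) - 1 - o.2).toNat : ℝ), h2]
  ring


/-! ## 2. The finite upper bound ([B](2.10), [C](2.7), [E](5.5)-(5.6) before any limit) -/

/-- the cells of the grid `(o,m)` contained in `R` -/
def cellsIn (R : Rc) (o : ℤ × ℤ) (m : ℕ) : Finset (ℤ × ℤ) :=
  (R.set.image (cidx o m)).filter fun i => (cellRc o m i).set ⊆ R.set

/-- on a cell contained in `R`, the cellwise constant flow is the gradient of an affine function. -/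
theorem fr_cellF_eq {R : Rc} {o : ℤ × ℤ} {m : ℕ} (hm : 0 < m) (c : ℤ × ℤ → Bool → ℝ) {i : ℤ × ℤ}
    (hi : (cellRc o m i).set ⊆ R.set) {e : Bond} (he : e ∈ (cellRc o m i).bd) :
    cellF R o m c e = gd (fun v => c i true * v.1 + c i false * v.2 + 0) e := by
  have h1 : Inner R o m e := (inner_iff hm).2 ⟨i, he, hi⟩
  have h2 : cidx o m e.1 = i := (mem_cellRc hm).1 (mem_bd.1 he).1
  unfold cellF
  rw [if_pos h1, h2]
  obtain ⟨⟨x, y⟩, d⟩ := e
  cases d with
  | true =>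
    simp only [gd, Bond.snd, if_true]
    push_cast
    ring
  | false =>
    simp only [gd, Bond.snd, Bool.false_eq_true, if_false]
    push_cast
    ring

/-- the cost of a cellwise constant flow is the sum of the costs in the cells. -/
theorem fr_cellF_cost (R : Rc) (o : ℤ × ℤ) (m : ℕ) (hm : 0 < m) (c : ℤ × ℤ → Bool → ℝ) :
    R.cost (cellF R o m c) = ∑ i ∈ cellsIn R o m, (c i true ^ 2 + c i false ^ 2) * ((m : ℝ) * ((m : ℝ) - 1)) := by
  have h1 : R.cost (cellF R o m c) = ∑ e ∈ R.bd.filter (fun e => Inner R o m e), cellF R o m c e ^ 2 := by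
    unfold Rc.cost
    rw [Finset.sum_filter]
    refine Finset.sum_congr rfl fun e _ => ?_
    by_cases h : Inner R o m e
    · rw [if_pos h]
    · rw [if_neg h]; unfold cellF; rw [if_neg h]; simp
  rw [h1]
  have h2 : ∀ e ∈ R.bd.filter (fun e => Inner R o m e), cidx o m e.1 ∈ cellsIn R o m := by
    intro e he
    rw [Finset.mem_filter] at he
    unfold cellsIn
    rw [Finset.mem_filter]
    exact ⟨Finset.mem_image_of_mem _ (mem_bd.1 he.1).1, he.2.2⟩
  rw [← Finset.sum_fiberwise_of_maps_to h2]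
  refine Finset.sum_congr rfl fun i hi => ?_
  have hi2 : (cellRc o m i).set ⊆ R.set := by
    unfold cellsIn at hi
    exact (Finset.mem_filter.1 hi).2
  have h3 : (R.bd.filter (fun e => Inner R o m e)).filter (fun e => cidx o m e.1 = i) = (cellRc o m i).bd := by
    ext e
    rw [Finset.mem_filter, Finset.mem_filter]
    constructor
    · rintro ⟨⟨_, h4, _⟩, h5⟩
      exact mem_bd.2 ⟨(mem_cellRc hm).2 h5, (mem_cellRc hm).2 (h4 ▸ h5)⟩
    · intro he
      obtain ⟨h4, h5⟩ := mem_bd.1 he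
      exact ⟨⟨mem_bd.2 ⟨hi2 h4, hi2 h5⟩, (inner_iff hm).2 ⟨i, he, hi2⟩⟩, (mem_cellRc hm).1 h4⟩
  rw [h3, ← fr_affine_cost (o.1 + i.1 * m, o.2 + i.2 * m) m (c i true) (c i false) 0]
  unfold Rc.dir Rc.cost
  refine Finset.sum_congr rfl fun e he => ?_
  rw [fr_cellF_eq hm c hi2 he]

/-- L-FR-G4.  Variance of a cellwise constant flow.  Cells contained in `R`: a finite family (`i ∈` image of `R.set` under `cidx`, filtered), pairwise disjoint (`mem_cellRc`).  `fr_cut_var`; on the cell `i` the flow is `gd` of the affine function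
`c i true · x + c i false · y` (`flowX_congr`): `fr_affine_sq`, `fr_affine_cost`; the costs of the cells add up to `R.cost (cellF ..)`.  (`m = 1`: no inner bond, both sides are `0`; in Lean `m/(m-1) = 0`.) -/
theorem fr_cell_var (R : Rc) (b : ℝ) (hb : 0 < b) (o : ℤ × ℤ) (m : ℕ) (hm : 0 < m) (c : ℤ × ℤ → Bool → ℝ) :
    R.var b (cellF R o m c) ≤ aCoef b m * ((m : ℝ) / ((m : ℝ) - 1)) * R.cost (cellF R o m c) := by
  rcases Nat.lt_or_ge 1 m with hm1 | hm1
  · have hsub : ∀ i : {i // i ∈ cellsIn R o m}, (cellRc o m i.1).set ⊆ R.set := fun i => by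
      have := i.2
      unfold cellsIn at this
      exact (Finset.mem_filter.1 this).2
    have h1 := fr_cut_var R b hb (fun i : {i // i ∈ cellsIn R o m} => cellRc o m i.1) hsub
      (fun i j hij => Finset.disjoint_left.2 fun v h1 h2 => hij (Subtype.ext
        (((mem_cellRc hm).1 h1).symm.trans ((mem_cellRc hm).1 h2))))
      (cellF R o m c) (by
        intro e he hn
        unfold cellF
        rw [if_neg]
        intro hI
        obtain ⟨i, h2, h3⟩ := (inner_iff hm).1 hI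
        refine hn ⟨i, ?_⟩ h2
        unfold cellsIn
        rw [Finset.mem_filter]
        refine ⟨?_, h3⟩
        rw [← (mem_cellRc hm).1 (mem_bd.1 h2).1]
        exact Finset.mem_image_of_mem _ (mem_bd.1 he).1)
    refine h1.trans (le_of_eq ?_)
    have h2 : ∀ i : {i // i ∈ cellsIn R o m}, (cellRc o m i.1).var b (cellF R o m c)
        = (c i.1 true ^ 2 + c i.1 false ^ 2) * (m : ℝ) ^ 2 * aCoef b m := by
      intro i
      rw [← fr_affine_sq (o.1 + i.1.1 * m, o.2 + i.1.2 * m) m b hb (c i.1 true) (c i.1 false) 0]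
      unfold Rc.var
      rw [flowX_congr (cellRc o m i.1) b fun e he => fr_cellF_eq hm c (hsub i) he]
      rfl
    rw [Finset.sum_congr rfl fun i _ => h2 i, fr_cellF_cost R o m hm c,
      Finset.sum_coe_sort (cellsIn R o m) fun i => (c i true ^ 2 + c i false ^ 2) * (m : ℝ) ^ 2 * aCoef b m,
      Finset.mul_sum]
    refine Finset.sum_congr rfl fun i _ => ?_
    have hm2 : (m : ℝ) - 1 ≠ 0 := by
      have : (1 : ℝ) < m := by exact_mod_cast hm1
      linarith
    field_simp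
  · have hm2 : m = 1 := by omega
    subst hm2
    have h1 := fr_var_ref R b hb (cellF R o 1 c)
    rw [fr_cellF_cost R o 1 hm c] at h1 ⊢
    simpa using h1

/-- **the finite upper bound**: `fr_sqrt_var_add`, `fr_cell_var`, `fr_var_ref`.   L-FR-G4. -/
theorem fr_ub (R : Rc) (b : ℝ) (hb : 0 < b) (o : ℤ × ℤ) (m : ℕ) (hm : 0 < m) (c : ℤ × ℤ → Bool → ℝ) (w : Bond → ℝ) :
    Real.sqrt (R.var b w) ≤ Real.sqrt (aCoef b m * ((m : ℝ) / ((m : ℝ) - 1)) * R.cost (cellF R o m c))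
      + Real.sqrt (4 * Real.pi ^ 2 * b * R.cost fun e => w e - cellF R o m c e) := by
  have h1 := fr_sqrt_var_add R b hb (cellF R o m c) (fun e => w e - cellF R o m c e)
  have h2 : (fun e => cellF R o m c e + (w e - cellF R o m c e)) = w := by
    funext e; ring
  rw [h2] at h1
  exact h1.trans (add_le_add (Real.sqrt_le_sqrt (fr_cell_var R b hb o m hm c)) (Real.sqrt_le_sqrt (fr_var_ref R b hb _)))

/-! ## 3. The coefficient -/

theorem fr_aCoef_nonneg (b : ℝ) (hb : 0 < b) (m : ℕ) : 0 ≤ aCoef b m := by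
  rw [fr_aCoef_eq]; exact fr_var_nonneg _ _ hb _

/-- L-FR-G5.  `fr_aCoef_eq`, `fr_var_ref`, `fr_affine_cost` (`p₁ = 1/m`): cost `= (m-1)/m ≤ 1`. -/
theorem fr_aCoef_le (b : ℝ) (hb : 0 < b) (m : ℕ) : aCoef b m ≤ 4 * Real.pi ^ 2 * b := by
  rw [fr_aCoef_eq]
  refine (fr_var_ref _ b hb _).trans ?_
  have h1 : (C2.sq m).cost (gd fun v => (v.1 : ℝ) / m) = (((m : ℝ)⁻¹) ^ 2 + (0 : ℝ) ^ 2) * ((m : ℝ) * ((m : ℝ) - 1)) := by
    rw [← fr_affine_cost (0, 0) m ((m : ℝ)⁻¹) 0 0]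
    unfold Rc.dir C2.sq
    congr 2
    funext v
    ring
  have h2 : (C2.sq m).cost (gd fun v => (v.1 : ℝ) / m) ≤ 1 := by
    rw [h1]
    rcases Nat.eq_zero_or_pos m with rfl | hm
    · simp
    · have hm' : (0 : ℝ) < m := by exact_mod_cast hm
      have : (((m : ℝ)⁻¹) ^ 2 + (0 : ℝ) ^ 2) * ((m : ℝ) * ((m : ℝ) - 1)) = 1 - (m : ℝ)⁻¹ := by
        field_simp
        ring
      rw [this]
      have : 0 < (m : ℝ)⁻¹ := inv_pos.2 hm'
      linarith
  have h3 : 0 ≤ 4 * Real.pi ^ 2 * b := by positivity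
  nlinarith

/-- L-FR-G5.  `fr_aCoef_eq`, `lsys_var_mono_b` (`(R.sys b).atb (fun _ => b') = R.sys b'` by `rfl`). -/
theorem fr_aCoef_mono_b (b b' : ℝ) (hb : 0 < b) (hbb : b ≤ b') (m : ℕ) : aCoef b m ≤ aCoef b' m := by
  rw [fr_aCoef_eq, fr_aCoef_eq]
  exact lsys_var_mono_b ((C2.sq m).sys b) (fr_ok _ b hb) (fun _ => b') (fun _ => hbb) ((C2.sq m).flowX b _)

/-- the cells contained in `R` have at most as many sites as `R`. -/
theorem fr_cellsIn_card (R : Rc) (o : ℤ × ℤ) (m : ℕ) (hm : 0 < m) : (cellsIn R o m).card * (m * m) ≤ R.p * R.q := by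
  have h1 : ((cellsIn R o m).biUnion fun i => (cellRc o m i).set).card = ∑ i ∈ cellsIn R o m, (cellRc o m i).set.card :=
    Finset.card_biUnion fun i _ j _ hij => Finset.disjoint_left.2 fun v h1 h2 =>
      hij (((mem_cellRc hm).1 h1).symm.trans ((mem_cellRc hm).1 h2))
  have hcard : ∀ Q : Rc, Q.set.card = Q.p * Q.q := by
    intro Q
    unfold Rc.set
    rw [Finset.card_product, Int.card_Ico, Int.card_Ico]
    have e1 : (Q.o.1 + (Q.p : ℤ) - Q.o.1).toNat = Q.p := by omega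
    have e2 : (Q.o.2 + (Q.q : ℤ) - Q.o.2).toNat = Q.q := by omega
    rw [e1, e2]
  have h2 : ((cellsIn R o m).biUnion fun i => (cellRc o m i).set) ⊆ R.set := by
    intro v hv
    obtain ⟨i, hi, hv⟩ := Finset.mem_biUnion.1 hv
    unfold cellsIn at hi
    exact (Finset.mem_filter.1 hi).2 hv
  have h3 := Finset.card_le_card h2
  rw [h1, hcard R, Finset.sum_congr rfl fun i _ => hcard (cellRc o m i)] at h3
  simpa [cellRc] using h3

/-- L-FR-G6.  **[C](2.6) = [E](5.2).**  `fr_ub` on `R = sq M`, grid `((0,0), m)`, `w = gd (x/M)`, `c i = (1/M, 0)`: `cost (cellF) ≤ (M/m)² m (m-1)/M²`, so the first term is `≤ √(a_m)`;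
`w - cellF` vanishes on inner bonds and is `≤ 1/M` elsewhere: `fr_rest_card` gives cost `≤ (2M²/m + 4 m M)/M²`.  `C = 2π √(4β)`.  (`m = 1`: the first term is `0`.) -/
theorem fr_cut_coefficient (β : ℝ) : ∃ C : ℝ, ∀ (b : ℝ), 0 < b → b ≤ β → ∀ m M : ℕ, 1 ≤ m → m ≤ M →
    Real.sqrt (aCoef b M) ≤ Real.sqrt (aCoef b m) + C * Real.sqrt ((m : ℝ)⁻¹ + (m : ℝ) / M) := by
  refine ⟨Real.sqrt (16 * Real.pi ^ 2 * β), fun b hb hbβ m M hm hmM => ?_⟩
  have hm0 : 0 < m := hm
  have hM0 : 0 < M := lt_of_lt_of_le hm0 hmM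
  have hmR : (0 : ℝ) < m := by exact_mod_cast hm0
  have hMR : (0 : ℝ) < M := by exact_mod_cast hM0
  obtain ⟨c, hc⟩ : ∃ c : ℤ × ℤ → Bool → ℝ, c = fun _ d => if d then (M : ℝ)⁻¹ else 0 := ⟨_, rfl⟩
  obtain ⟨w, hw⟩ : ∃ w : Bond → ℝ, w = gd fun v => (v.1 : ℝ) / M := ⟨_, rfl⟩
  have hwe : ∀ e : Bond, w e = if e.2 then (M : ℝ)⁻¹ else 0 := by
    rintro ⟨⟨x, y⟩, d⟩
    rw [hw]
    cases d with
    | true =>
      simp only [gd, Bond.snd, if_true]
      push_cast
      field_simp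
      ring
    | false =>
      simp only [gd, Bond.snd, Bool.false_eq_true, if_false]
      ring
  have h0 := fr_ub (C2.sq M) b hb (0, 0) m hm0 c w
  rw [fr_aCoef_eq b M, ← hw]
  refine h0.trans (add_le_add ?_ ?_)
  · -- first term
    apply Real.sqrt_le_sqrt
    have ha := fr_aCoef_nonneg b hb m
    rw [mul_assoc]
    refine mul_le_of_le_one_right ha ?_
    rw [fr_cellF_cost _ _ m hm0 c]
    have h1 : ∀ i : ℤ × ℤ, (c i true ^ 2 + c i false ^ 2) * ((m : ℝ) * ((m : ℝ) - 1)) = ((M : ℝ)⁻¹) ^ 2 * ((m : ℝ) * ((m : ℝ) - 1)) := by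
      intro i; rw [hc]; simp
    rw [Finset.sum_congr rfl fun i _ => h1 i, Finset.sum_const, nsmul_eq_mul]
    have h2 := fr_cellsIn_card (C2.sq M) (0, 0) m hm0
    have h3 : ((cellsIn (C2.sq M) (0, 0) m).card : ℝ) * ((m : ℝ) * m) ≤ (M : ℝ) * M := by
      have : (((cellsIn (C2.sq M) (0, 0) m).card * (m * m) : ℕ) : ℝ) ≤ ((M * M : ℕ) : ℝ) := by exact_mod_cast h2
      push_cast at this
      exact this
    generalize ((cellsIn (C2.sq M) (0, 0) m).card : ℝ) = N at h3 ⊢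
    rcases Nat.lt_or_ge 1 m with hm1 | hm1
    · have hm2 : (0 : ℝ) < (m : ℝ) - 1 := by
        have : (1 : ℝ) < m := by exact_mod_cast hm1
        linarith
      have e : (m : ℝ) / ((m : ℝ) - 1) * (N * (((M : ℝ)⁻¹) ^ 2 * ((m : ℝ) * ((m : ℝ) - 1))))
          = N * ((m : ℝ) * m) / ((M : ℝ) * M) := by
        field_simp
      rw [e, div_le_one (by positivity)]
      exact h3
    · have hm2 : m = 1 := by omega
      subst hm2
      rw [Nat.cast_one, sub_self, div_zero, zero_mul]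
      exact zero_le_one
  · -- second term
    have hβ : 0 ≤ 16 * Real.pi ^ 2 * β := by
      have : 0 < β := lt_of_lt_of_le hb hbβ
      positivity
    rw [← Real.sqrt_mul hβ]
    apply Real.sqrt_le_sqrt
    have h1 : (C2.sq M).cost (fun e => w e - cellF (C2.sq M) (0, 0) m c e)
        ≤ ∑ e ∈ (C2.sq M).bd.filter (fun e => ¬ Inner (C2.sq M) (0, 0) m e), ((M : ℝ)⁻¹) ^ 2 := by
      unfold Rc.cost
      rw [Finset.sum_filter]
      refine Finset.sum_le_sum fun e _ => ?_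
      by_cases h : Inner (C2.sq M) (0, 0) m e
      · rw [if_neg (not_not.2 h)]
        have : cellF (C2.sq M) (0, 0) m c e = w e := by
          unfold cellF
          rw [if_pos h, hwe, hc]
        show (w e - cellF (C2.sq M) (0, 0) m c e) ^ 2 ≤ 0
        rw [this]
        simp
      · rw [if_pos h]
        have : cellF (C2.sq M) (0, 0) m c e = 0 := by
          unfold cellF
          rw [if_neg h]
        show (w e - cellF (C2.sq M) (0, 0) m c e) ^ 2 ≤ _
        rw [this, hwe, sub_zero]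
        split_ifs
        · exact le_rfl
        · simp
    rw [Finset.sum_const, nsmul_eq_mul] at h1
    have h2 := fr_rest_card (C2.sq M) m hm0
    have h2' : (((C2.sq M).bd.filter (fun e => ¬ Inner (C2.sq M) (0, 0) m e)).card : ℝ)
        ≤ 2 * (M : ℝ) * M / m + 2 * m * ((M : ℝ) + M) := h2
    have h3 : (C2.sq M).cost (fun e => w e - cellF (C2.sq M) (0, 0) m c e) ≤ 4 * ((m : ℝ)⁻¹ + (m : ℝ) / M) := by
      refine h1.trans ?_
      calc (((C2.sq M).bd.filter (fun e => ¬ Inner (C2.sq M) (0, 0) m e)).card : ℝ) * ((M : ℝ)⁻¹) ^ 2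
          ≤ (2 * (M : ℝ) * M / m + 2 * m * ((M : ℝ) + M)) * ((M : ℝ)⁻¹) ^ 2 := by gcongr
        _ = 2 * (m : ℝ)⁻¹ + 4 * ((m : ℝ) / M) := by
          field_simp
          ring
        _ ≤ 4 * ((m : ℝ)⁻¹ + (m : ℝ) / M) := by
          have : 0 < (m : ℝ)⁻¹ := inv_pos.2 hmR
          linarith
    have h4 : 0 ≤ (m : ℝ)⁻¹ + (m : ℝ) / M := by positivity
    calc 4 * Real.pi ^ 2 * b * (C2.sq M).cost (fun e => w e - cellF (C2.sq M) (0, 0) m c e)
        ≤ 4 * Real.pi ^ 2 * b * (4 * ((m : ℝ)⁻¹ + (m : ℝ) / M)) := by gcongr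
      _ = 16 * Real.pi ^ 2 * b * ((m : ℝ)⁻¹ + (m : ℝ) / M) := by ring
      _ ≤ 16 * Real.pi ^ 2 * β * ((m : ℝ)⁻¹ + (m : ℝ) / M) := by gcongr

/-- L-FR-G7 (Mathlib only).  A bounded nonnegative sequence with `√(u M) ≤ √(u m) + C √(1/m + m/M)` for `1 ≤ m ≤ M` converges: `limsup_M √(u M) ≤ √(u m) + C/√m` for every `m`, then `liminf` in `m`. -/
theorem tendsto_of_cut (u : ℕ → ℝ) (B C : ℝ) (h0 : ∀ m, 0 ≤ u m) (hB : ∀ m, u m ≤ B)
    (h : ∀ m M : ℕ, 1 ≤ m → m ≤ M → Real.sqrt (u M) ≤ Real.sqrt (u m) + C * Real.sqrt ((m : ℝ)⁻¹ + (m : ℝ) / M)) :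
    ∃ a : ℝ, Tendsto u atTop (𝓝 a) := by
  obtain ⟨s, hs⟩ : ∃ s : ℕ → ℝ, s = fun m => Real.sqrt (u m) := ⟨_, rfl⟩
  have hs0 : ∀ m, 0 ≤ s m := fun m => by rw [hs]; exact Real.sqrt_nonneg _
  have hsB : ∀ m, s m ≤ Real.sqrt B := fun m => by rw [hs]; exact Real.sqrt_le_sqrt (hB m)
  have hba : IsBoundedUnder (· ≤ ·) atTop s := isBoundedUnder_of ⟨Real.sqrt B, hsB⟩
  have hbb : IsBoundedUnder (· ≥ ·) atTop s := isBoundedUnder_of ⟨0, hs0⟩
  have h1 : ∀ m : ℕ, 1 ≤ m → limsup s atTop ≤ s m + C * Real.sqrt ((m : ℝ)⁻¹) := by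
    intro m hm
    have ht : Tendsto (fun M : ℕ => s m + C * Real.sqrt ((m : ℝ)⁻¹ + (m : ℝ) / M)) atTop
        (𝓝 (s m + C * Real.sqrt ((m : ℝ)⁻¹ + 0))) :=
      tendsto_const_nhds.add (tendsto_const_nhds.mul ((Real.continuous_sqrt.tendsto _).comp
        (tendsto_const_nhds.add (tendsto_const_div_atTop_nhds_zero_nat _))))
    rw [add_zero] at ht
    rw [← ht.limsup_eq]
    refine limsup_le_limsup ((eventually_ge_atTop m).mono fun M hM => ?_)
      hbb.isCoboundedUnder_le ht.isBoundedUnder_le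
    have := h m M hm hM
    rw [hs]
    exact this
  have h2 : limsup s atTop ≤ liminf s atTop := by
    by_contra hcon
    rw [not_le] at hcon
    obtain ⟨ε, hε⟩ : ∃ ε : ℝ, ε = (limsup s atTop - liminf s atTop) / 3 := ⟨_, rfl⟩
    have hε0 : 0 < ε := by rw [hε]; linarith
    have h3 : ∃ᶠ m in atTop, s m < liminf s atTop + ε :=
      frequently_lt_of_liminf_lt hba.isCoboundedUnder_ge (by linarith)
    have h4 : Tendsto (fun m : ℕ => C * Real.sqrt ((m : ℝ)⁻¹)) atTop (𝓝 (C * Real.sqrt 0)) :=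
      tendsto_const_nhds.mul ((Real.continuous_sqrt.tendsto _).comp tendsto_inv_atTop_nhds_zero_nat)
    rw [Real.sqrt_zero, mul_zero] at h4
    obtain ⟨m, hm1, hm2, hm3⟩ := (h3.and_eventually
      ((h4.eventually (gt_mem_nhds hε0)).and (eventually_ge_atTop 1))).exists
    have := h1 m hm3
    have h5 : limsup s atTop = liminf s atTop + 3 * ε := by rw [hε]; ring
    linarith
  have h3 : Tendsto s atTop (𝓝 (limsup s atTop)) :=
    tendsto_of_le_liminf_of_limsup_le h2 le_rfl hba hbb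
  refine ⟨limsup s atTop ^ 2, (h3.pow 2).congr fun m => ?_⟩
  rw [hs]
  exact Real.sq_sqrt (h0 m)

/-- `tendsto_of_cut`, `fr_cut_coefficient`, `fr_aCoef_le`, `fr_aCoef_nonneg`; `aLim = limUnder` (`Tendsto.limUnder_eq`).   L-FR-G8. -/
theorem fr_aCoef_tendsto (b : ℝ) (hb : 0 < b) : Tendsto (aCoef b) atTop (𝓝 (aLim b)) := by
  obtain ⟨C, hC⟩ := fr_cut_coefficient b
  obtain ⟨a, ha⟩ := tendsto_of_cut (aCoef b) (4 * Real.pi ^ 2 * b) C (fr_aCoef_nonneg b hb) (fr_aCoef_le b hb)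
    (fun m M => hC b hb le_rfl m M)
  have : aLim b = a := ha.limUnder_eq
  rw [this]
  exact ha

/-- a sequence of integers above a positive multiple of a divergent one diverges. -/
theorem fr_tendsto_of_ge {n m : ℕ → ℕ} (hn : Tendsto n atTop atTop) {c : ℝ} (hc : 0 < c)
    (h : ∀ᶠ k in atTop, c * n k ≤ m k) : Tendsto m atTop atTop := by
  have h1 : Tendsto (fun k => c * (n k : ℝ)) atTop atTop :=
    (tendsto_natCast_atTop_atTop.comp hn).const_mul_atTop hc
  have h2 : Tendsto (fun k => (m k : ℝ)) atTop atTop := tendsto_atTop_mono' _ h h1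
  exact tendsto_natCast_atTop_iff.1 h2

/-- L-FR-G8.  `m k ≥ c n k → ∞`. -/
theorem fr_scaleCoef_fixed (b : ℝ) (hb : 0 < b) (n : ℕ → ℕ) (hn : Tendsto n atTop atTop) :
    ScaleCoef (fun _ => b) n (aLim b) :=
  ⟨⟨b, b, hb, fun _ => ⟨le_rfl, le_rfl⟩⟩, hn, fun _ _ _ hc h =>
    (fr_aCoef_tendsto b hb).comp (fr_tendsto_of_ge hn hc (h.mono fun _ hk => hk.1))⟩

/-- L-FR-G8.  `m = n`, `ge_of_tendsto'`. -/
theorem fr_scaleCoef_nonneg {b : ℕ → ℝ} {n : ℕ → ℕ} {a : ℝ} (h : ScaleCoef b n a) : 0 ≤ a := by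
  obtain ⟨⟨β₀, β₁, h0, hb⟩, _, h2⟩ := h
  have h3 := h2 n 1 1 one_pos (Eventually.of_forall fun k => ⟨by simp, by simp⟩)
  exact ge_of_tendsto' h3 fun k => fr_aCoef_nonneg _ (lt_of_lt_of_le h0 (hb k).1) _

/-- L-FR-G8. -/
theorem fr_scaleCoef_comparable {b : ℕ → ℝ} {n n' : ℕ → ℕ} {a : ℝ} (h : ScaleCoef b n a) (c C : ℝ) (hc : 0 < c)
    (hn : ∀ᶠ k in atTop, c * n k ≤ n' k ∧ (n' k : ℝ) ≤ C * n k) : ScaleCoef b n' a := by
  obtain ⟨h1, h2, h3⟩ := h
  have hn' : Tendsto n' atTop atTop := fr_tendsto_of_ge h2 hc (hn.mono fun _ hk => hk.1)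
  refine ⟨h1, hn', fun m c' C' hc' hm => ?_⟩
  have hC' : 0 < C' := by
    obtain ⟨k, hk1, hk2⟩ := (hm.and (hn'.eventually (eventually_gt_atTop 0))).exists
    have hk3 : (0 : ℝ) < n' k := by exact_mod_cast hk2
    have : c' * n' k ≤ C' * n' k := hk1.1.trans hk1.2
    have := le_of_mul_le_mul_right this hk3
    linarith
  refine h3 m (c' * c) (C' * C) (mul_pos hc' hc) ((hm.and hn).mono fun k hk => ?_)
  obtain ⟨⟨a1, a2⟩, a3, a4⟩ := hk
  constructor
  · calc c' * c * n k = c' * (c * n k) := by ring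
      _ ≤ c' * n' k := by gcongr
      _ ≤ m k := a1
  · calc (m k : ℝ) ≤ C' * n' k := a2
      _ ≤ C' * (C * n k) := by gcongr
      _ = C' * C * n k := by ring

end

end Claimed.Agent.R285.Free
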