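import Claimed.Agent.R285.Base.Geom
import Claimed.Agent.R285.Xy.Base

/-!
# ROW 285, unit FREE: the DEFINITIONS of `Read/C2.lean` (author helper200), moved VERBATIM (same namespace `C2`, same names) by helper60.

Layering rule: the proof files `R285/Free/*.lean` import THIS file (and contract files of lower layers), never `Read/C2.lean`; `Read/C2.lean` imports the proofs when they exist.  No sorry here.
-/

set_option autoImplicit false

namespace Claimed.Agent.R285.C2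

open Filter Topology Claims.C0459
open scoped Classical

noncomputable section

/-! ## 0. Additions to the abstract layer ([C]L2.3, (2.12)) -/

/-- NEED (N1): the linear statistic `z ↦ ∑_e t_e z_e` of the Bessel coordinates. -/
def flowS (S : LSys) (t : S.E → ℝ) : S.L →+ ℝ where
  toFun z := ∑ e, t e * (((z : S.Amb).1 e : ℤ) : ℝ)
  map_zero' := by simp
  map_add' x y := by simp [mul_add, Finset.sum_add_distrib]

/-- fourth joint cumulant `κ(X,X,Y,Y)` of the centred law -/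
def kap (S : LSys) (X Y : S.L →+ ℝ) : ℝ :=
  S.E0 (fun z => X z ^ 2 * Y z ^ 2) - S.V0 X * S.V0 Y - 2 * S.Cv 0 0 X Y ^ 2

/-! ## 1. Free rectangles -/

/-- a lattice rectangle: lower left corner and numbers of sites -/
structure Rc where
  o : ℤ × ℤ
  p : ℕ
  q : ℕ

/-- gradient of a function on `ℤ²` as a function on bonds -/
def gd (g : ℤ × ℤ → ℝ) : Bond → ℝ := fun e => g e.snd - g e.1

namespace Rc

variable (R : Rc)

/-- the sites -/
def set : Finset (ℤ × ℤ) := Finset.Ico R.o.1 (R.o.1 + R.p) ×ˢ Finset.Ico R.o.2 (R.o.2 + R.q)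

/-- the bonds -/
def bd : Finset Bond := domBonds R.set ∅

/-- the sites of the four faces -/
def bdry : Finset (ℤ × ℤ) :=
  R.set.filter fun v => v.1 = R.o.1 ∨ v.1 + 1 = R.o.1 + R.p ∨ v.2 = R.o.2 ∨ v.2 + 1 = R.o.2 + R.q

/-- the graph -/
def G : HGraph := domG R.set ∅

/-- the free law, represented with the corner pinned -/
def law : HLaw R.G := HLaw.plain R.G (domSet (D := R.set) (cut := ∅) {R.o})

/-- its abstract system -/
def sys (b : ℝ) : LSys := R.law.sys b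

/-- the flow test `∑_e w_e ∇_e (2π h)` -/
def flowX (b : ℝ) (w : Bond → ℝ) : (R.sys b).L →+ ℝ :=
  flowS (R.sys b) fun e => 2 * Real.pi * w (domBond (D := R.set) (cut := ∅) e)

/-- the gradient test `⟨2π h, A_R g⟩` -/
def gradX (b : ℝ) (g : ℤ × ℤ → ℝ) : (R.sys b).L →+ ℝ := R.flowX b (gd g)

/-- reference cost of a flow -/
def cost (w : Bond → ℝ) : ℝ := ∑ e ∈ R.bd, w e ^ 2

/-- bilinear form of the reference cost -/
def cost2 (w w' : Bond → ℝ) : ℝ := ∑ e ∈ R.bd, w e * w' e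

/-- Dirichlet energy -/
def dir (g : ℤ × ℤ → ℝ) : ℝ := R.cost (gd g)

/-- the free Laplacian `A_R g` (a function on `ℤ²`, zero off `R`) -/
def lap (g : ℤ × ℤ → ℝ) (v : ℤ × ℤ) : ℝ :=
  ∑ e ∈ R.bd, gd g e * ((if e.snd = v then 1 else 0) - (if e.1 = v then 1 else 0))

/-- divergence (in minus out) of a flow inside `R` (a function on `ℤ²`, zero off `R`); `lap g = dv (gd g)` by `rfl`.   -- added by helper200 -/
def dv (w : Bond → ℝ) (v : ℤ × ℤ) : ℝ :=
  ∑ e ∈ R.bd, w e * ((if e.snd = v then 1 else 0) - (if e.1 = v then 1 else 0))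

/-- variance of a flow test -/
def var (b : ℝ) (w : Bond → ℝ) : ℝ := (R.sys b).V0 (R.flowX b w)

/-- log-Laplace transform of a flow test -/
def lmgf (b : ℝ) (w : Bond → ℝ) : ℝ := Real.log ((R.sys b).E0 fun z => Real.exp (R.flowX b w z))

/-- expectation in height variables (physical heights `φ = 2π h`, `φ(o) = 0`) -/
def Ex (b : ℝ) (F : (R.G.V → ℝ) → ℝ) : ℝ := R.law.Ex b (HLaw.Aff.zero R.law) F

/-- a vertex statistic `∑_v f_v φ_v` -/
def vx (f : ℤ × ℤ → ℝ) (φ : R.G.V → ℝ) : ℝ := HLaw.pair (domFn (D := R.set) (cut := ∅) f) φ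

/-- a flow statistic in height variables -/
def fl (w : Bond → ℝ) (φ : R.G.V → ℝ) : ℝ :=
  ∑ e : R.G.E, w (domBond (D := R.set) (cut := ∅) e) * (φ (R.G.tgt e) - φ (R.G.src e))

/-- the characteristic coefficient `E cos(⟨φ,s⟩ + ∑ w_e ∇_e φ)`; independent of the representative when the total of `s` is an integer -/
def chr (b : ℝ) (s : ℤ × ℤ → ℝ) (w : Bond → ℝ) : ℝ := R.Ex b fun φ => Real.cos (R.vx s φ + R.fl w φ)

/-- uniform probability -/
def unif (v : ℤ × ℤ) : ℝ := if v ∈ R.set then ((R.p : ℝ) * R.q)⁻¹ else 0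

/-- probability on the right face -/
def faceR (v : ℤ × ℤ) : ℝ := if v ∈ R.set ∧ v.1 + 1 = R.o.1 + R.p then (R.q : ℝ)⁻¹ else 0

/-- probability on the left face -/
def faceL (v : ℤ × ℤ) : ℝ := if v ∈ R.set ∧ v.1 = R.o.1 then (R.q : ℝ)⁻¹ else 0

/-- probability on the upper face -/
def faceU (v : ℤ × ℤ) : ℝ := if v ∈ R.set ∧ v.2 + 1 = R.o.2 + R.q then (R.p : ℝ)⁻¹ else 0

/-- probability on the lower face -/
def faceD (v : ℤ × ℤ) : ℝ := if v ∈ R.set ∧ v.2 = R.o.2 then (R.p : ℝ)⁻¹ else 0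

/-- the symmetric four-face probability -/
def faceS (v : ℤ × ℤ) : ℝ := (R.faceR v + R.faceL v + R.faceU v + R.faceD v) / 4

end Rc

/-- the square `B_m` -/
def sq (m : ℕ) : Rc := ⟨(0, 0), m, m⟩

/-- `z_m(b) = E e^{i⟨h, ρ̄_m⟩}` ([C] before (2.14), [E](5.18)) -/
def zface (b : ℝ) (m : ℕ) : ℝ := (sq m).chr b (sq m).faceS 0

/-! ## 2. The coefficient: [C](2.6), [E](5.2), existence of the limit -/

/-- THE hypothesis of all limit theorems: at the temperatures `b k` (in a compact interval) the coefficient at all scales comparable to `n k` tends to `a`. -/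
def ScaleCoef (b : ℕ → ℝ) (n : ℕ → ℕ) (a : ℝ) : Prop :=
  (∃ β₀ β₁ : ℝ, 0 < β₀ ∧ ∀ k, β₀ ≤ b k ∧ b k ≤ β₁) ∧ Tendsto n atTop atTop ∧
  ∀ (m : ℕ → ℕ) (c C : ℝ), 0 < c → (∀ᶠ k in atTop, c * n k ≤ m k ∧ (m k : ℝ) ≤ C * n k) →
    Tendsto (fun k => aCoef (b k) (m k)) atTop (𝓝 a)

/-! ## 3. [C]T2.4 = [E]L5.2: free Gaussian limits -/

/-- rectangles of size `O(n k)` at distance `O(n k)` from the origin (NO lower bound on the sides) -/
def Adm (n : ℕ → ℕ) (R : ℕ → Rc) : Prop :=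
  ∃ K : ℝ, ∀ k, |((R k).o.1 : ℝ)| ≤ K * n k ∧ |((R k).o.2 : ℝ)| ≤ K * n k ∧ ((R k).p : ℝ) ≤ K * n k ∧ ((R k).q : ℝ) ≤ K * n k

/-- nondegenerate rectangles -/
def AdmN (n : ℕ → ℕ) (R : ℕ → Rc) : Prop :=
  Adm n R ∧ ∃ c : ℝ, 0 < c ∧ ∀ k, c * n k ≤ (R k).p ∧ c * n k ≤ (R k).q

/-- a polynomial sampled at mesh `1/n` -/
def pol (d : ℕ) (c : Fin d → Fin d → ℝ) (n : ℕ) (v : ℤ × ℤ) : ℝ :=
  ∑ i, ∑ j, c i j * ((v.1 : ℝ) / n) ^ (i : ℕ) * ((v.2 : ℝ) / n) ^ (j : ℕ)

/-- a trigonometric sum sampled at mesh `1/n`: frequencies `α, β`, coefficients `c, s` -/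
def trg (d : ℕ) (α β c s : Fin d → ℝ) (n : ℕ) (v : ℤ × ℤ) : ℝ :=
  ∑ i, (c i * Real.cos (α i * ((v.1 : ℝ) / n) + β i * ((v.2 : ℝ) / n))
    + s i * Real.sin (α i * ((v.1 : ℝ) / n) + β i * ((v.2 : ℝ) / n)))

/-- discrete `C²` bounds at scale `n` on the rectangle `R`: gradients `≤ M/n`, second differences `≤ M/n²` (only bonds of `R` are looked at) -/
def C2bd (M : ℝ) (n : ℕ) (R : Rc) (g : ℤ × ℤ → ℝ) : Prop :=
  (∀ e ∈ R.bd, |gd g e| ≤ M / n) ∧
  ∀ e ∈ R.bd, ∀ u : ℤ × ℤ, (u = (1, 0) ∨ u = (0, 1)) → (e.1 + u, e.2) ∈ R.bd → |gd g (e.1 + u, e.2) - gd g e| ≤ M / (n : ℝ) ^ 2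

/-- "energy-approximable shifts": within `ε` in Dirichlet energy of shifts with bounded discrete `C²` norm at scale `n` (helper60, 14:50Z: replaces the closure of trigonometric sums;
sampled trigonometric sums, polynomials, smooth functions, Neumann cosines with moving frequencies are in the class by a two-line Taylor estimate; the fold argument reaches the class through `P1` interpolation, `Free/P1.lean`). -/
def Reg (n : ℕ → ℕ) (R : ℕ → Rc) (g : ℕ → ℤ × ℤ → ℝ) : Prop :=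
  ∀ ε : ℝ, 0 < ε → ∃ (M : ℝ) (γ : ℕ → ℤ × ℤ → ℝ), (∀ k, C2bd M (n k) (R k) (γ k)) ∧
    ∀ᶠ k in atTop, (R k).dir (fun v => g k v - γ k v) ≤ ε

/-! ## 4. [C]T2.5 = [E]L5.3, L5.7, L5.8 -/

/-! ## 5. [C]L2.1, P2.6: duality, the tilt inequality, the spin upper bound -/

/-- the faces of the spin box `[-R,R]²` (face `(i,j)` = unit square with lower left corner `(i,j)`) together with one ring of exterior faces -/
def dualRc (R : ℕ) : Rc := ⟨(-(R : ℤ) - 1, -(R : ℤ) - 1), 2 * R + 2, 2 * R + 2⟩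

/-- the ring of exterior faces -/
def ring (R : ℕ) : Set (ℤ × ℤ) := {v | v.1 = -(R : ℤ) - 1 ∨ v.1 = R ∨ v.2 = -(R : ℤ) - 1 ∨ v.2 = R}

/-- the dual law of the free spin box: exterior faces pinned (pin-pin bonds cancel in all ratios) -/
def dualLaw (R : ℕ) : HLaw (dualRc R).G := HLaw.plain (dualRc R).G (domSet (D := (dualRc R).set) (cut := ∅) (ring R))

/-- the dual bonds crossing a spin bond of the box -/
def dualBd (R : ℕ) : Finset Bond := (dualRc R).bd.filter fun e => e.1 ∉ ring R ∨ e.snd ∉ ring R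

/-- rotated gradient of a stream function `ψ` on the spin vertices: the dual bond `((i,j),true)` crosses the spin bond `(i+1,j)-(i+1,j+1)`, the dual bond `((i,j),false)` crosses `(i,j+1)-(i+1,j+1)`.  Divergence free. -/
def rot (ψ : ℤ × ℤ → ℝ) : Bond → ℝ := fun e =>
  if e.2 then ψ (e.1.1 + 1, e.1.2 + 1) - ψ (e.1.1 + 1, e.1.2) else -(ψ (e.1.1 + 1, e.1.2 + 1) - ψ (e.1.1, e.1.2 + 1))

/-- unit connection along the horizontal spin path from `(0,0)` to `(r,0)` -/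
def pathConn (r : ℕ) : Bond → ℤ := fun e => if e.2 = false ∧ e.1.2 = -1 ∧ 0 ≤ e.1.1 ∧ e.1.1 < r then 1 else 0

/-- the spin vertices enclosed by a rectangle of faces -/
def Rc.inner (Q : Rc) : Set (ℤ × ℤ) := {x | Q.o.1 + 1 ≤ x.1 ∧ x.1 + 1 ≤ Q.o.1 + Q.p ∧ Q.o.2 + 1 ≤ x.2 ∧ x.2 + 1 ≤ Q.o.2 + Q.q}

end

end Claimed.Agent.R285.C2

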