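import Claimed.Agent.R285.Free.Defs
import Claimed.Agent.R285.Rsd.CalcKit

/-!
# ROW 285, unit FREE, file 1: abstract tools on `LSys` (architect helper60).   Paper-free.

Needs N4 (products), N5 (symmetry) of `Read/C2.lean`, the bridge to height variables, second-moment calculus (`V0` is the square of a seminorm), Hölder, the fourth order Laplace bound, and the reflection sum.
Everything is built on `Base/Height` (`lsys_summable`, `lsys_reference`, `bes_neg`) and on the expectation calculus of `Rsd/CalcKit.lean` (`LSys.Dom`, `rd_E0_add`, `rd_E0_mono`, `rd_V0_eq`, `rd_Cv0_eq`, ...).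

LEAVES `L-FR-S*`: every `sorry`; the leaf name is in the docstring.  Several leaves share this file: edit only your own theorems (private helpers directly above them), splice on a fresh pull.
-/

set_option autoImplicit false

namespace Claimed.Agent.R285.Free

open Filter Topology C2

noncomputable section

/-! ## 1. Signed relabellings (N5) -/

/-- a signed relabelling of the coordinates which carries `S.L` onto `S'.L` (graph isomorphisms; a reversed bond has sign `-1`) -/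
structure SIso (S S' : LSys) where
  eE : S.E ≃ S'.E
  eO : S.O ≃ S'.O
  sE : S.E → ℤ
  sO : S.O → ℝ
  hsE : ∀ e, sE e = 1 ∨ sE e = -1
  hsO : ∀ o, sO o = 1 ∨ sO o = -1
  hb : ∀ e, S'.b (eE e) = S.b e
  mem : ∀ z : S.Amb, z ∈ S.L ↔
    ((fun e' => sE (eE.symm e') * z.1 (eE.symm e'), fun o' => sO (eO.symm o') * z.2 (eO.symm o')) : S'.Amb) ∈ S'.L

namespace SIso

variable {S S' : LSys} (i : SIso S S')

/-- the map on the ambient groups -/
def map : S.Amb →+ S'.Amb where
  toFun z := (fun e' => i.sE (i.eE.symm e') * z.1 (i.eE.symm e'), fun o' => i.sO (i.eO.symm o') * z.2 (i.eO.symm o'))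
  map_zero' := by ext <;> simp
  map_add' x y := by ext <;> simp [mul_add]

/-- the map on the lattices -/
def mapL : S.L →+ S'.L where
  toFun z := ⟨i.map z, (i.mem z).1 z.2⟩
  map_zero' := by ext <;> simp
  map_add' x y := by ext <;> simp

end SIso

theorem frs_sE_sq {S S' : LSys} (i : SIso S S') (e : S.E) : i.sE e * i.sE e = 1 := by
  rcases i.hsE e with h | h <;> simp [h]

theorem frs_sO_sq {S S' : LSys} (i : SIso S S') (o : S.O) : i.sO o * i.sO o = 1 := by
  rcases i.hsO o with h | h <;> simp [h]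

theorem frs_map_injective {S S' : LSys} (i : SIso S S') : Function.Injective i.map := by
  intro x y h
  refine Prod.ext (funext fun e => ?_) (funext fun o => ?_)
  · have h1 := congrFun (congrArg Prod.fst h) (i.eE e)
    simp only [SIso.map, AddMonoidHom.coe_mk, ZeroHom.coe_mk, Equiv.symm_apply_apply] at h1
    have h2 := congrArg (fun t => i.sE e * t) h1
    simp only [← mul_assoc, frs_sE_sq, one_mul] at h2
    exact h2
  · have h1 := congrFun (congrArg Prod.snd h) (i.eO o)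
    simp only [SIso.map, AddMonoidHom.coe_mk, ZeroHom.coe_mk, Equiv.symm_apply_apply] at h1
    have h2 := congrArg (fun t => i.sO o * t) h1
    simp only [← mul_assoc, frs_sO_sq, one_mul] at h2
    exact h2

theorem frs_map_surjective {S S' : LSys} (i : SIso S S') : Function.Surjective i.map := by
  intro y
  refine ⟨(fun e => i.sE e * y.1 (i.eE e), fun o => i.sO o * y.2 (i.eO o)), ?_⟩
  refine Prod.ext (funext fun e' => ?_) (funext fun o' => ?_)
  · simp only [SIso.map, AddMonoidHom.coe_mk, ZeroHom.coe_mk, Equiv.apply_symm_apply, ← mul_assoc, frs_sE_sq,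
      one_mul]
  · simp only [SIso.map, AddMonoidHom.coe_mk, ZeroHom.coe_mk, Equiv.apply_symm_apply, ← mul_assoc, frs_sO_sq,
      one_mul]

theorem frs_mapL_bijective {S S' : LSys} (i : SIso S S') : Function.Bijective i.mapL := by
  constructor
  · intro x y h
    exact Subtype.ext (frs_map_injective i (congrArg Subtype.val h))
  · intro y
    obtain ⟨x, hx⟩ := frs_map_surjective i (y : S'.Amb)
    have hxL : x ∈ S.L := (i.mem x).2 (by
      have : i.map x ∈ S'.L := hx ▸ y.2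
      exact this)
    exact ⟨⟨x, hxL⟩, Subtype.ext hx⟩

theorem frs_W_map {S S' : LSys} (i : SIso S S') (z : S.Amb) : S'.W (i.map z) = S.W z := by
  unfold LSys.W
  congr 1
  · refine (Fintype.prod_equiv i.eE _ _ fun e => ?_).symm
    simp only [SIso.map, AddMonoidHom.coe_mk, ZeroHom.coe_mk, Equiv.symm_apply_apply, i.hb]
    rcases i.hsE e with h | h
    · simp [h]
    · rw [h, neg_one_mul, bes_neg]
  · congr 3
    refine (Fintype.sum_equiv i.eO _ _ fun o => ?_).symm
    simp only [SIso.map, AddMonoidHom.coe_mk, ZeroHom.coe_mk, Equiv.symm_apply_apply]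
    rw [mul_pow, sq (i.sO o), frs_sO_sq, one_mul]

theorem frs_Zf {S S' : LSys} (i : SIso S S') (F : S'.L → ℝ) : S'.Zf 0 F = S.Zf 0 fun z => F (i.mapL z) := by
  unfold LSys.Zf
  rw [← (Equiv.ofBijective _ (frs_mapL_bijective i)).tsum_eq]
  refine tsum_congr fun z => ?_
  rw [add_zero, add_zero]
  congr 1
  exact frs_W_map i z

/-- L-FR-S1.  `mapL` is a bijection (`mem`, signs are units), `S'.W (i.map z) = S.W z` (`Fintype.prod_equiv i.eE`, `hb`, `bes_neg`; `Fintype.sum_equiv i.eO`, `(±1 · x)² = x²`);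
reindex both `tsum`s of `E0 = Ev 0 0` by `Equiv.tsum_eq`. -/
theorem siso_E0 {S S' : LSys} (i : SIso S S') (F : S'.L → ℝ) : S'.E0 F = S.E0 fun z => F (i.mapL z) := by
  rw [rd_E0_eq, rd_E0_eq, frs_Zf i F]
  congr 1
  exact frs_Zf i fun _ => 1

/-- L-FR-S1.  From `siso_E0` (unfold `V0`, `Cv`, `Ev` / use `rd_V0_eq`). -/
theorem siso_V0 {S S' : LSys} (i : SIso S S') (X : S'.L →+ ℝ) : S'.V0 X = S.V0 (X.comp i.mapL) := by
  rw [rd_V0_eq, rd_V0_eq, siso_E0 i]
  rfl

/-! ## 2. Finite products (N4) -/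

/-- the product of finitely many systems (independent components) -/
def pi {ι : Type} [Fintype ι] (S : ι → LSys) : LSys where
  E := Σ i, (S i).E
  O := Σ i, (S i).O
  b := fun e => (S e.1).b e.2
  L :=
    { carrier := {z | ∀ i, ((fun e => z.1 ⟨i, e⟩, fun o => z.2 ⟨i, o⟩) : (S i).Amb) ∈ (S i).L}
      zero_mem' := fun i => (S i).L.zero_mem
      add_mem' := fun {x y} hx hy i => (S i).L.add_mem (hx i) (hy i)
      neg_mem' := fun {x} hx i => (S i).L.neg_mem (hx i) }

/-- the projections -/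
def piPr {ι : Type} [Fintype ι] (S : ι → LSys) (i : ι) : (pi S).L →+ (S i).L where
  toFun z := ⟨(fun e => (z : (pi S).Amb).1 ⟨i, e⟩, fun o => (z : (pi S).Amb).2 ⟨i, o⟩), z.2 i⟩
  map_zero' := rfl
  map_add' _ _ := rfl

/-- the embedding of the block `i` -/
def frsEmb {ι : Type} [Fintype ι] [DecidableEq ι] (S : ι → LSys) (i : ι) : (S i).Amb →+ (pi S).Amb where
  toFun z := ((fun e => (Pi.single i z.1 : ∀ i', (S i').E → ℤ) e.1 e.2,
    fun o => (Pi.single i z.2 : ∀ i', (S i').O → ℝ) o.1 o.2) : (pi S).Amb)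
  map_zero' := by
    refine Prod.ext (funext fun e => ?_) (funext fun o => ?_)
    · simp
    · simp
  map_add' x y := by
    refine Prod.ext (funext fun e => ?_) (funext fun o => ?_)
    · simp [Pi.single_add]
    · simp [Pi.single_add]

/-- the real projection on the block `i` -/
def frsProj {ι : Type} [Fintype ι] (S : ι → LSys) (i : ι) :
    (((pi S).E → ℝ) × ((pi S).O → ℝ)) →ₗ[ℝ] (((S i).E → ℝ) × ((S i).O → ℝ)) where
  toFun x := (fun e => x.1 ⟨i, e⟩, fun o => x.2 ⟨i, o⟩)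
  map_add' _ _ := rfl
  map_smul' _ _ := rfl

theorem frs_proj_emb_same {ι : Type} [Fintype ι] [DecidableEq ι] (S : ι → LSys) (i : ι) (z : (S i).Amb) :
    frsProj S i ((pi S).real (frsEmb S i z)) = (S i).real z := by
  refine Prod.ext (funext fun e => ?_) (funext fun o => ?_)
  · simp [frsProj, frsEmb, LSys.real]
  · simp [frsProj, frsEmb, LSys.real]

theorem frs_proj_emb_ne {ι : Type} [Fintype ι] [DecidableEq ι] (S : ι → LSys) {i i' : ι} (hi : i' ≠ i) (z : (S i').Amb) :
    frsProj S i ((pi S).real (frsEmb S i' z)) = 0 := by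
  refine Prod.ext (funext fun e => ?_) (funext fun o => ?_)
  · simp [frsProj, frsEmb, LSys.real, Pi.single_eq_of_ne hi.symm]
  · simp [frsProj, frsEmb, LSys.real, Pi.single_eq_of_ne hi.symm]

theorem frs_sum_emb {ι : Type} [Fintype ι] [DecidableEq ι] (S : ι → LSys) (z : (pi S).Amb) :
    z = ∑ i, frsEmb S i ((fun e => z.1 ⟨i, e⟩, fun o => z.2 ⟨i, o⟩) : (S i).Amb) := by
  refine Prod.ext (funext fun e => ?_) (funext fun o => ?_)
  · rw [Prod.fst_sum, Finset.sum_apply]
    obtain ⟨i, e⟩ := e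
    rw [Finset.sum_eq_single i]
    · simp [frsEmb]
    · intro i' _ hi
      simp [frsEmb, Pi.single_eq_of_ne hi.symm]
    · simp
  · rw [Prod.snd_sum, Finset.sum_apply]
    obtain ⟨i, o⟩ := o
    rw [Finset.sum_eq_single i]
    · simp [frsEmb]
    · intro i' _ hi
      simp [frsEmb, Pi.single_eq_of_ne hi.symm]
    · simp

/-- L-FR-S2.  Concatenate the bases (`Fin (∑ n_i)` or a `Σ`-indexed basis reindexed by `Fintype.equivFin`); linear independence blockwise. -/
theorem pi_ok {ι : Type} [Fintype ι] (S : ι → LSys) (h : ∀ i, (S i).Ok) : (pi S).Ok := by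
  classical
  choose hb n v hv hL using h
  refine Rsd.kit_ok_of_le (pi S) (fun e => hb e.1 e.2) (ι := Σ i, Fin (n i))
    (fun p => frsEmb S p.1 (v p.1 p.2)) ?_ ?_
  · rw [Fintype.linearIndependent_iff]
    rintro g hg ⟨i, j⟩
    refine Fintype.linearIndependent_iff.1 (hv i) (fun j => g ⟨i, j⟩) ?_ j
    have h1 := congrArg (frsProj S i) hg
    rw [map_sum, map_zero, Fintype.sum_sigma, Finset.sum_eq_single i] at h1
    · rw [← h1]
      refine Finset.sum_congr rfl fun j _ => ?_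
      rw [map_smul, frs_proj_emb_same]
    · intro i' _ hi
      refine Finset.sum_eq_zero fun j _ => ?_
      rw [map_smul, frs_proj_emb_ne S hi, smul_zero]
    · simp
  · intro z hz
    rw [frs_sum_emb S z]
    refine AddSubgroup.sum_mem _ fun i _ => ?_
    have h1 : ((fun e => z.1 ⟨i, e⟩, fun o => z.2 ⟨i, o⟩) : (S i).Amb) ∈ AddSubgroup.closure (Set.range (v i)) :=
      hL i ▸ hz i
    have h2 : (AddSubgroup.closure (Set.range (v i))).map (frsEmb S i) ≤
        AddSubgroup.closure (Set.range fun p : Σ i, Fin (n i) => frsEmb S p.1 (v p.1 p.2)) := by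
      rw [AddMonoidHom.map_closure]
      refine AddSubgroup.closure_mono ?_
      rintro _ ⟨_, ⟨j, rfl⟩, rfl⟩
      exact ⟨⟨i, j⟩, rfl⟩
    exact h2 ⟨_, h1, rfl⟩

/-- the statement -/
def FrsPi (ι : Type) [Fintype ι] : Prop :=
  ∀ (κ : ι → Type) (f : ∀ i, κ i → ℝ), (∀ i, Summable fun k => ‖f i k‖) →
    (Summable fun j : ∀ i, κ i => ‖∏ i, f i (j i)‖) ∧
      HasSum (fun j : ∀ i, κ i => ∏ i, f i (j i)) (∏ i, ∑' k, f i k)

theorem frs_Pi_equiv (α β : Type) [Fintype α] [Fintype β] (e : α ≃ β) (h : FrsPi α) : FrsPi β := by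
  intro κ f hf
  obtain ⟨h1, h2⟩ := h (fun a => κ (e a)) (fun a => f (e a)) fun a => hf (e a)
  have key : ∀ j : ∀ a, κ (e a), ∏ b, f b (Equiv.piCongrLeft κ e j b) = ∏ a, f (e a) (j a) := by
    intro j
    refine (Fintype.prod_equiv e _ _ fun a => ?_).symm
    rw [Equiv.piCongrLeft_apply_apply]
  constructor
  · rw [← (Equiv.piCongrLeft κ e).summable_iff]
    refine h1.congr fun j => ?_
    simp only [Function.comp, key]
  · rw [← (Equiv.piCongrLeft κ e).hasSum_iff]
    have e2 : ∏ b, ∑' k, f b k = ∏ a, ∑' k, f (e a) k :=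
      (Fintype.prod_equiv e _ _ fun a => rfl).symm
    rw [e2]
    have e3 : ((fun j : ∀ b, κ b => ∏ b, f b (j b)) ∘ (Equiv.piCongrLeft κ e))
        = fun j : ∀ a, κ (e a) => ∏ a, f (e a) (j a) := funext key
    rw [e3]
    exact h2

theorem frs_Pi_empty : FrsPi PEmpty := by
  intro κ f _
  constructor
  · exact (hasSum_unique _).summable
  · have := hasSum_unique (fun j : ∀ i : PEmpty, κ i => ∏ i, f i (j i))
    simp

theorem frs_Pi_option (α : Type) [Fintype α] (ih : FrsPi α) : FrsPi (Option α) := by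
  intro κ f hf
  obtain ⟨h1, h2⟩ := ih (fun a => κ (some a)) (fun a => f (some a)) fun a => hf (some a)
  have key : ∀ x : κ none × ∀ a, κ (some a),
      ∏ o, f o ((Equiv.piOptionEquivProd (β := κ)).symm x o) = f none x.1 * ∏ a, f (some a) (x.2 a) := by
    intro x
    rw [Fintype.prod_option]
    rfl
  constructor
  · rw [← (Equiv.piOptionEquivProd (β := κ)).symm.summable_iff]
    have h3 := (hf none).mul_of_nonneg h1 (fun _ => norm_nonneg _) (fun _ => norm_nonneg _)
    have e4 : ((fun j : ∀ o, κ o => ‖∏ o, f o (j o)‖) ∘ (Equiv.piOptionEquivProd (β := κ)).symm)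
        = fun x : κ none × ∀ a, κ (some a) => ‖f none x.1‖ * ‖∏ a, f (some a) (x.2 a)‖ :=
      funext fun x => by
        show ‖∏ o, f o ((Equiv.piOptionEquivProd (β := κ)).symm x o)‖ = _
        rw [key x, norm_mul]
    rw [e4]
    exact h3
  · rw [← (Equiv.piOptionEquivProd (β := κ)).symm.hasSum_iff, Fintype.prod_option]
    have h5 : Summable fun x : κ none × ∀ a, κ (some a) => f none x.1 * ∏ a, f (some a) (x.2 a) :=
      summable_mul_of_summable_norm (f := f none) (g := fun y : ∀ a, κ (some a) => ∏ a, f (some a) (y a))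
        (hf none) h1
    have h6 : HasSum (f none) (∑' k, f none k) := (hf none).of_norm.hasSum
    have h3 := HasSum.mul h6 h2 h5
    have e3 : ((fun j : ∀ o, κ o => ∏ o, f o (j o)) ∘ (Equiv.piOptionEquivProd (β := κ)).symm)
        = fun x : κ none × ∀ a, κ (some a) => f none x.1 * ∏ a, f (some a) (x.2 a) := funext key
    rw [e3]
    exact h3

theorem frs_Pi_all (ι : Type) [Fintype ι] : FrsPi ι := by
  refine Fintype.induction_empty_option (P := fun (ι : Type) [Fintype ι] => FrsPi ι) ?_ frs_Pi_empty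
    (fun α _ ih => frs_Pi_option α ih) ι
  intro α β _ e h
  let _ := Fintype.ofEquiv β e.symm
  exact frs_Pi_equiv α β e h


/-- the lattice of a product is the product of the lattices -/
def frsPiEquiv {ι : Type} [Fintype ι] (S : ι → LSys) : (pi S).L ≃ ∀ i, (S i).L where
  toFun z i := piPr S i z
  invFun y := ⟨((fun e => ((y e.1 : (S e.1).L) : (S e.1).Amb).1 e.2, fun o => ((y o.1 : (S o.1).L) : (S o.1).Amb).2 o.2) :
    (pi S).Amb), fun i => (y i).2⟩
  left_inv z := by
    apply Subtype.ext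
    refine Prod.ext (funext fun e => ?_) (funext fun o => ?_)
    · rfl
    · rfl
  right_inv y := by
    funext i
    rfl

theorem frs_pi_W {ι : Type} [Fintype ι] (S : ι → LSys) (z : (pi S).Amb) :
    (pi S).W z = ∏ i, (S i).W ((fun e => z.1 ⟨i, e⟩, fun o => z.2 ⟨i, o⟩) : (S i).Amb) := by
  unfold LSys.W
  rw [Finset.prod_mul_distrib, ← Real.exp_sum]
  congr 1
  · exact Fintype.prod_sigma (fun e : Σ i, (S i).E => bes ((S e.1).b e.2) (z.1 e))
  · congr 1
    rw [← Finset.sum_div, Finset.sum_neg_distrib]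
    congr 2
    exact Fintype.sum_sigma (fun o : Σ i, (S i).O => z.2 o ^ 2)

theorem frs_pi_Zf {ι : Type} [Fintype ι] (S : ι → LSys) (h : ∀ i, (S i).Ok) (F : ∀ i, (S i).L → ℝ)
    (hF : ∀ i, (S i).Dom (F i)) :
    (pi S).Zf 0 (fun z => ∏ i, F i (piPr S i z)) = ∏ i, (S i).Zf 0 (F i) := by
  unfold LSys.Zf
  have h1 := (frs_Pi_all ι (fun i => (S i).L) (fun i z => F i z * (S i).W ((z : (S i).Amb) + 0))
    (fun i => (rd_dom_summable (h i) (hF i) 0).norm)).2
  rw [← h1.tsum_eq, ← (frsPiEquiv S).tsum_eq]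
  refine tsum_congr fun z => ?_
  rw [Finset.prod_mul_distrib, frs_pi_W]
  rfl

/-- L-FR-S3.  **Factorisation.**  `(pi S).L ≃ ∀ i, (S i).L`, `(pi S).W z = ∏ i, (S i).W (z_i)` (`Fintype.prod_sigma`, `Fintype.sum_sigma`, `Real.exp_sum`); the `tsum` of a product over a finite product of countable types is the
product of the `tsum`s: induction on `ι` (`Fintype.induction_empty_option` or `Finset.induction` on a truncated product) with `Summable.tsum_mul_tsum_of_summable_norm`; summability from `rd_dom_summable`. -/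
theorem pi_E0_prod {ι : Type} [Fintype ι] (S : ι → LSys) (h : ∀ i, (S i).Ok) (F : ∀ i, (S i).L → ℝ) (hF : ∀ i, (S i).Dom (F i)) :
    (pi S).E0 (fun z => ∏ i, F i (piPr S i z)) = ∏ i, (S i).E0 (F i) := by
  simp only [rd_E0_eq]
  rw [Finset.prod_div_distrib, frs_pi_Zf S h F hF]
  congr 1
  have h2 := frs_pi_Zf S h (fun _ _ => 1) (fun _ => rd_dom_const 1)
  simpa [LSys.w] using h2

theorem frs_dom_sum {S : LSys} {ι : Type} (s : Finset ι) (F : ι → S.L → ℝ) (h : ∀ i ∈ s, S.Dom (F i)) :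
    S.Dom fun z => ∑ i ∈ s, F i z := by
  classical
  induction s using Finset.induction_on with
  | empty => simpa using rd_dom_const (S := S) 0
  | insert a s ha ih =>
    simp only [Finset.sum_insert ha]
    exact rd_dom_add (h a (Finset.mem_insert_self a s)) (ih fun i hi => h i (Finset.mem_insert_of_mem hi))

theorem frs_dom_prod {S : LSys} {ι : Type} (s : Finset ι) (F : ι → S.L → ℝ) (h : ∀ i ∈ s, S.Dom (F i)) :
    S.Dom fun z => ∏ i ∈ s, F i z := by
  classical
  induction s using Finset.induction_on with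
  | empty => simpa using rd_dom_const (S := S) 1
  | insert a s ha ih =>
    simp only [Finset.prod_insert ha]
    exact rd_dom_mul (h a (Finset.mem_insert_self a s)) (ih fun i hi => h i (Finset.mem_insert_of_mem hi))

theorem frs_E0_sum {S : LSys} (hS : S.Ok) {ι : Type} (s : Finset ι) (F : ι → S.L → ℝ) (h : ∀ i ∈ s, S.Dom (F i)) :
    S.E0 (fun z => ∑ i ∈ s, F i z) = ∑ i ∈ s, S.E0 (F i) := by
  classical
  induction s using Finset.induction_on with
  | empty => simpa using rd_E0_const hS 0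
  | insert a s ha ih =>
    simp only [Finset.sum_insert ha]
    rw [rd_E0_add hS (h a (Finset.mem_insert_self a s)) (frs_dom_sum s F fun i hi => h i (Finset.mem_insert_of_mem hi)),
      ih fun i hi => h i (Finset.mem_insert_of_mem hi)]

theorem frs_dom_comp {S S' : LSys} (ψ : S'.L →+ S.L) {F : S.L → ℝ} (hF : S.Dom F) : S'.Dom fun z => F (ψ z) := by
  obtain ⟨C, l, hl⟩ := hF
  refine ⟨C, l.map fun Y => Y.comp ψ, fun z => ?_⟩
  have := hl (ψ z)
  simpa [List.map_map, Function.comp_def] using this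

/-- L-FR-S4.  `pi_E0_prod` with `F i = exp ∘ X i`, `Real.exp_sum`. -/
theorem pi_mgf {ι : Type} [Fintype ι] (S : ι → LSys) (h : ∀ i, (S i).Ok) (X : ∀ i, (S i).L →+ ℝ) :
    (pi S).E0 (fun z => Real.exp (∑ i, X i (piPr S i z))) = ∏ i, (S i).E0 fun z => Real.exp (X i z) := by
  simp only [Real.exp_sum]
  exact pi_E0_prod S h (fun i z => Real.exp (X i z)) fun i => rd_dom_exp (X i)

/-- L-FR-S4.  `V0 = E0 (·²)`; expand the square; `pi_E0_prod` with `F i = X i`, `F j = X j`, `1` elsewhere (`i ≠ j`: `E0 X = 0`, `rd_E0_test`) and with `F i = (X i)²`. -/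
theorem pi_var {ι : Type} [Fintype ι] (S : ι → LSys) (h : ∀ i, (S i).Ok) (X : ∀ i, (S i).L →+ ℝ) :
    (pi S).V0 (∑ i, (X i).comp (piPr S i)) = ∑ i, (S i).V0 (X i) := by
  classical
  have hOk := pi_ok S h
  rw [rd_V0_eq]
  have e1 : (fun z : (pi S).L => (∑ i, (X i).comp (piPr S i)) z ^ 2) =
      fun z => ∑ i, ∑ j, ∏ k, ((if k = i then X k (piPr S k z) else 1) * (if k = j then X k (piPr S k z) else 1)) := by
    funext z
    rw [AddMonoidHom.finset_sum_apply, pow_two, Finset.sum_mul_sum]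
    refine Finset.sum_congr rfl fun i _ => Finset.sum_congr rfl fun j _ => ?_
    rw [Finset.prod_mul_distrib, Finset.prod_ite_eq' Finset.univ i, Finset.prod_ite_eq' Finset.univ j]
    simp
  have hd : ∀ (i j k : ι), (S k).Dom fun z => (if k = i then X k z else 1) * (if k = j then X k z else 1) := by
    intro i j k
    refine rd_dom_mul ?_ ?_
    · by_cases hk : k = i
      · simpa [hk] using rd_dom_test (X k)
      · simpa [hk] using rd_dom_const (S := S k) 1
    · by_cases hk : k = j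
      · simpa [hk] using rd_dom_test (X k)
      · simpa [hk] using rd_dom_const (S := S k) 1
  have hdp : ∀ i j : ι, (pi S).Dom fun z =>
      ∏ k, ((if k = i then X k (piPr S k z) else 1) * (if k = j then X k (piPr S k z) else 1)) := fun i j =>
    frs_dom_prod Finset.univ _ fun k _ => frs_dom_comp (piPr S k) (hd i j k)
  rw [e1, frs_E0_sum hOk Finset.univ _ fun i _ => frs_dom_sum Finset.univ _ fun j _ => hdp i j]
  refine Finset.sum_congr rfl fun i _ => ?_
  rw [frs_E0_sum hOk Finset.univ _ fun j _ => hdp i j, Finset.sum_eq_single i]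
  · rw [pi_E0_prod S h (fun k z => (if k = i then X k z else 1) * (if k = i then X k z else 1)) (hd i i),
      Finset.prod_eq_single i]
    · rw [rd_V0_eq]
      simp [pow_two]
    · intro k _ hk
      simpa [hk] using rd_E0_const (h k) 1
    · intro hi
      exact absurd (Finset.mem_univ i) hi
  · intro j _ hj
    rw [pi_E0_prod S h (fun k z => (if k = i then X k z else 1) * (if k = j then X k z else 1)) (hd i j)]
    refine Finset.prod_eq_zero (Finset.mem_univ i) ?_
    have : (fun z : (S i).L => (if i = i then X i z else 1) * (if i = j then X i z else 1)) = fun z => X i z := by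
      funext z
      simp [Ne.symm hj]
    rw [this]
    exact rd_E0_test (X i)
  · intro hi
    exact absurd (Finset.mem_univ i) hi

theorem frs_dom_sin {S : LSys} (f : S.L → ℝ) : S.Dom fun z => Real.sin (f z) :=
  rd_dom_bdd 1 fun z => Real.abs_sin_le_one _

theorem frs_E0_sub {S : LSys} (hS : S.Ok) {F G : S.L → ℝ} (hF : S.Dom F) (hG : S.Dom G) :
    S.E0 (fun z => F z - G z) = S.E0 F - S.E0 G := by
  have e : (fun z => F z - G z) = fun z => F z + (-1) * G z := by
    funext z; ring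
  rw [e, rd_E0_add hS hF (rd_dom_smul _ hG), rd_E0_smul]
  ring

/-- the induction behind `pi_phi` -/
theorem frs_pi_trig {ι : Type} [Fintype ι] [DecidableEq ι] (S : ι → LSys) (h : ∀ i, (S i).Ok) (X : ∀ i, (S i).L →+ ℝ) (s : Finset ι) :
    ∀ F : ∀ k, (S k).L → ℝ, (∀ k, (S k).Dom (F k)) →
      (pi S).E0 (fun z => Real.cos (∑ i ∈ s, X i (piPr S i z)) * ∏ k ∈ sᶜ, F k (piPr S k z)) =
          (∏ k ∈ s, (S k).phi (X k)) * ∏ k ∈ sᶜ, (S k).E0 (F k) ∧
      (pi S).E0 (fun z => Real.sin (∑ i ∈ s, X i (piPr S i z)) * ∏ k ∈ sᶜ, F k (piPr S k z)) = 0 := by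
  have hOk := pi_ok S h
  induction s using Finset.induction_on with
  | empty =>
    intro F hF
    simp only [Finset.sum_empty, Real.cos_zero, Real.sin_zero, one_mul, zero_mul, Finset.prod_empty,
      Finset.compl_empty]
    exact ⟨pi_E0_prod S h F hF, rd_E0_const hOk 0⟩
  | insert a s ha ih =>
    intro F hF
    set Fc : ∀ k, (S k).L → ℝ := fun k z => if k = a then Real.cos (X k z) else F k z with hFc
    set Fs : ∀ k, (S k).L → ℝ := fun k z => if k = a then Real.sin (X k z) else F k z with hFs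
    have hFcd : ∀ k, (S k).Dom (Fc k) := by
      intro k
      by_cases hk : k = a
      · simpa [hFc, hk] using rd_dom_cos (S := S k) fun z => X k z
      · simpa [hFc, hk] using hF k
    have hFsd : ∀ k, (S k).Dom (Fs k) := by
      intro k
      by_cases hk : k = a
      · simpa [hFs, hk] using frs_dom_sin (S := S k) fun z => X k z
      · simpa [hFs, hk] using hF k
    have hcompl : sᶜ = insert a (insert a s)ᶜ := by
      ext k
      simp only [Finset.mem_compl, Finset.mem_insert, not_or]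
      constructor
      · intro hk
        by_cases hka : k = a
        · exact Or.inl hka
        · exact Or.inr ⟨hka, hk⟩
      · rintro (rfl | hk)
        · exact ha
        · exact hk.2
    have hna : a ∉ (insert a s)ᶜ := by simp
    have hne : ∀ k ∈ (insert a s)ᶜ, k ≠ a := fun k hk hka => hna (hka ▸ hk)
    have pc : ∀ z : (pi S).L, ∏ k ∈ sᶜ, Fc k (piPr S k z) =
        Real.cos (X a (piPr S a z)) * ∏ k ∈ (insert a s)ᶜ, F k (piPr S k z) := by
      intro z
      rw [hcompl, Finset.prod_insert hna]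
      congr 1
      · simp [hFc]
      · exact Finset.prod_congr rfl fun k hk => by simp [hFc, hne k hk]
    have ps : ∀ z : (pi S).L, ∏ k ∈ sᶜ, Fs k (piPr S k z) =
        Real.sin (X a (piPr S a z)) * ∏ k ∈ (insert a s)ᶜ, F k (piPr S k z) := by
      intro z
      rw [hcompl, Finset.prod_insert hna]
      congr 1
      · simp [hFs]
      · exact Finset.prod_congr rfl fun k hk => by simp [hFs, hne k hk]
    have ec : ∏ k ∈ sᶜ, (S k).E0 (Fc k) = (S a).phi (X a) * ∏ k ∈ (insert a s)ᶜ, (S k).E0 (F k) := by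
      rw [hcompl, Finset.prod_insert hna]
      congr 1
      · simp [hFc, LSys.phi]
      · exact Finset.prod_congr rfl fun k hk => by simp [hFc, hne k hk]
    have es : ∏ k ∈ sᶜ, (S k).E0 (Fs k) = 0 := by
      rw [hcompl, Finset.prod_insert hna]
      have : (S a).E0 (Fs a) = 0 := by
        have e : Fs a = fun z => Real.sin (X a z) := by
          funext z; simp [hFs]
        rw [e]
        exact rd_E0_odd _ fun z => by rw [map_neg, Real.sin_neg]
      rw [this, zero_mul]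
    obtain ⟨c1, s1⟩ := ih Fc hFcd
    obtain ⟨c2, s2⟩ := ih Fs hFsd
    have dP : ∀ G : ∀ k, (S k).L → ℝ, (∀ k, (S k).Dom (G k)) → (pi S).Dom fun z => ∏ k ∈ sᶜ, G k (piPr S k z) :=
      fun G hG => frs_dom_prod _ _ fun k _ => frs_dom_comp (piPr S k) (hG k)
    constructor
    · have e : (fun z : (pi S).L => Real.cos (∑ i ∈ insert a s, X i (piPr S i z)) * ∏ k ∈ (insert a s)ᶜ, F k (piPr S k z)) =
          fun z => Real.cos (∑ i ∈ s, X i (piPr S i z)) * ∏ k ∈ sᶜ, Fc k (piPr S k z) -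
            Real.sin (∑ i ∈ s, X i (piPr S i z)) * ∏ k ∈ sᶜ, Fs k (piPr S k z) := by
        funext z
        rw [Finset.sum_insert ha, Real.cos_add, pc, ps]
        ring
      rw [e, frs_E0_sub hOk (rd_dom_mul (rd_dom_cos _) (dP Fc hFcd)) (rd_dom_mul (frs_dom_sin _) (dP Fs hFsd)), c1, s2, ec,
        Finset.prod_insert ha]
      ring
    · have e : (fun z : (pi S).L => Real.sin (∑ i ∈ insert a s, X i (piPr S i z)) * ∏ k ∈ (insert a s)ᶜ, F k (piPr S k z)) =
          fun z => Real.cos (∑ i ∈ s, X i (piPr S i z)) * ∏ k ∈ sᶜ, Fs k (piPr S k z) +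
            Real.sin (∑ i ∈ s, X i (piPr S i z)) * ∏ k ∈ sᶜ, Fc k (piPr S k z) := by
        funext z
        rw [Finset.sum_insert ha, Real.sin_add, pc, ps]
        ring
      rw [e, rd_E0_add hOk (rd_dom_mul (rd_dom_cos _) (dP Fs hFsd)) (rd_dom_mul (frs_dom_sin _) (dP Fc hFcd)), c2, s1, es]
      ring

/-- L-FR-S4.  Induction on a `Finset` of indices with `cos (a + b) = cos a cos b - sin a sin b` and `E0 (sin ∘ X) = 0` (`rd_E0_odd`); or complex exponentials. -/
theorem pi_phi {ι : Type} [Fintype ι] (S : ι → LSys) (h : ∀ i, (S i).Ok) (X : ∀ i, (S i).L →+ ℝ) :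
    (pi S).phi (∑ i, (X i).comp (piPr S i)) = ∏ i, (S i).phi (X i) := by
  classical
  have := (frs_pi_trig S h X Finset.univ (fun _ _ => 1) fun k => rd_dom_const 1).1
  simp only [Finset.compl_univ, Finset.prod_empty, mul_one] at this
  rw [← this]
  unfold LSys.phi
  congr 1
  funext z
  rw [AddMonoidHom.finset_sum_apply]
  rfl

/-! ## 3. Height variables (N3, general form) -/

/-- L-FR-S5.  For a proper law the map `Λ → L`, `h ↦ coordA h` is a bijection (`Proper` = injective, `L = Λ.map coord` = surjective): reindex the two `tsum`s of `E0` (`Equiv.ofBijective`, `Equiv.tsum_eq`). -/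
theorem E0_heights {G : HGraph} (H : HLaw G) (hP : H.Proper) (b : ℝ) (Φ : (H.sys b).L → ℝ) :
    (H.sys b).E0 Φ =
      (∑' h : H.Λ, Φ ⟨H.coordA b (h : G.V → ℤ), H.coordA_mem b h.2⟩ * (H.sys b).W (H.coordA b (h : G.V → ℤ))) /
        ∑' h : H.Λ, (H.sys b).W (H.coordA b (h : G.V → ℤ)) := by
  set f : H.Λ → (H.sys b).L := fun h => ⟨H.coordA b (h : G.V → ℤ), H.coordA_mem b h.2⟩ with hf
  have hbij : Function.Bijective f := by
    constructor
    · intro h h' hh
      have h1 : H.coord (h : G.V → ℤ) = H.coord (h' : G.V → ℤ) := congrArg Subtype.val hh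
      have h2 : H.coord ((h : G.V → ℤ) - (h' : G.V → ℤ)) = 0 := by rw [map_sub, h1, sub_self]
      have h3 := hP _ (H.Λ.sub_mem h.2 h'.2) h2
      exact Subtype.ext (sub_eq_zero.1 h3)
    · rintro ⟨z, hz⟩
      obtain ⟨h, hh, hz'⟩ := AddSubgroup.mem_map.1 hz
      exact ⟨⟨h, hh⟩, Subtype.ext hz'⟩
  rw [rd_E0_eq]
  unfold LSys.w LSys.Zf
  rw [← (Equiv.ofBijective f hbij).tsum_eq, ← (Equiv.ofBijective f hbij).tsum_eq]
  simp only [Equiv.ofBijective_apply, add_zero, one_mul, hf]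

/-! ## 4. Second moments, Hölder, fourth order bound -/

/-- Cauchy-Schwarz for `E0` (helper of L-FR-S6, L-FR-L4) -/
theorem frs_E0_cs (S : LSys) (hS : S.Ok) (F G : S.L → ℝ) (hF : S.Dom F) (hG : S.Dom G) :
    S.E0 (fun z => F z * G z) ^ 2 ≤ S.E0 (fun z => F z ^ 2) * S.E0 (fun z => G z ^ 2) := by
  have key : ∀ s : ℝ, 0 ≤ S.E0 (fun z => G z ^ 2) * (s * s) + (2 * S.E0 fun z => F z * G z) * s + S.E0 fun z => F z ^ 2 := by
    intro s
    have h0 : 0 ≤ S.E0 fun z => (F z + s * G z) ^ 2 := by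
      rw [rd_E0_eq]
      exact div_nonneg (rd_Zf_nonneg hS 0 fun z => sq_nonneg _) (rd_w_pos hS 0).le
    have e : (fun z => (F z + s * G z) ^ 2) = fun z => (F z ^ 2 + (2 * s) * (F z * G z)) + (s * s) * G z ^ 2 := by
      funext z
      ring
    rw [e, rd_E0_add hS (rd_dom_add (rd_dom_pow hF 2) (rd_dom_smul _ (rd_dom_mul hF hG))) (rd_dom_smul _ (rd_dom_pow hG 2)),
      rd_E0_add hS (rd_dom_pow hF 2) (rd_dom_smul _ (rd_dom_mul hF hG)), rd_E0_smul, rd_E0_smul] at h0
    linarith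
  have := discrim_le_zero key
  unfold discrim at this
  nlinarith [this]

/-- L-FR-S6.  Cauchy-Schwarz: `0 ≤ V0 (X + s • Y)` for all `s` (`rd_V0_nonneg`), `V0 (X + s•Y) = V0 X + 2 s Cv X Y + s² V0 Y` (`rd_V0_eq`, `rd_Cv0_eq`, `rd_E0_add`); discriminant. -/
theorem cov_sq_le (S : LSys) (hS : S.Ok) (X Y : S.L →+ ℝ) : S.Cv 0 0 X Y ^ 2 ≤ S.V0 X * S.V0 Y := by
  rw [rd_Cv0_eq, rd_V0_eq, rd_V0_eq]
  exact frs_E0_cs S hS _ _ (rd_dom_test X) (rd_dom_test Y)

/-- L-FR-S6. -/
theorem var_add (S : LSys) (hS : S.Ok) (X Y : S.L →+ ℝ) : S.V0 (X + Y) = S.V0 X + 2 * S.Cv 0 0 X Y + S.V0 Y := by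
  rw [rd_V0_eq, rd_V0_eq, rd_V0_eq, rd_Cv0_eq]
  have e : (fun z => (X + Y) z ^ 2) = fun z => (X z ^ 2 + 2 * (X z * Y z)) + Y z ^ 2 := by
    funext z
    rw [AddMonoidHom.add_apply]
    ring
  rw [e, rd_E0_add hS (rd_dom_add (rd_dom_pow (rd_dom_test X) 2) (rd_dom_smul _ (rd_dom_mul (rd_dom_test X) (rd_dom_test Y))))
    (rd_dom_pow (rd_dom_test Y) 2),
    rd_E0_add hS (rd_dom_pow (rd_dom_test X) 2) (rd_dom_smul _ (rd_dom_mul (rd_dom_test X) (rd_dom_test Y))), rd_E0_smul]

/-- L-FR-S6.  Triangle inequality in `L²`. -/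
theorem sqrt_var_add_le (S : LSys) (hS : S.Ok) (X Y : S.L →+ ℝ) :
    Real.sqrt (S.V0 (X + Y)) ≤ Real.sqrt (S.V0 X) + Real.sqrt (S.V0 Y) := by
  have ha := rd_V0_nonneg hS X
  have hb := rd_V0_nonneg hS Y
  have hc : S.Cv 0 0 X Y ≤ Real.sqrt (S.V0 X) * Real.sqrt (S.V0 Y) := by
    rw [← Real.sqrt_mul ha]
    exact (le_abs_self _).trans (Real.abs_le_sqrt (cov_sq_le S hS X Y))
  rw [Real.sqrt_le_iff]
  refine ⟨by positivity, ?_⟩
  rw [var_add S hS X Y]
  have h1 := Real.sq_sqrt ha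
  have h2 := Real.sq_sqrt hb
  nlinarith [h1, h2, hc]

theorem frs_E0_exp_pos (S : LSys) (hS : S.Ok) (X : S.L →+ ℝ) : 0 < S.E0 fun z => Real.exp (X z) := by
  rw [rd_E0_exp]
  exact div_pos (lsys_pos S hS 0 X) (rd_w_pos hS 0)

theorem frs_dom_exp_mul (S : LSys) (c : ℝ) (X : S.L →+ ℝ) : S.Dom fun z => Real.exp (c * X z) := by
  have := rd_dom_exp (c • X)
  simpa using this

theorem frs_E0_exp_mul_pos (S : LSys) (hS : S.Ok) (c : ℝ) (X : S.L →+ ℝ) : 0 < S.E0 fun z => Real.exp (c * X z) := by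
  have := frs_E0_exp_pos S hS (c • X)
  simpa using this

/-- L-FR-S7.  Hölder for the probability weights `W z / w 0` on the countable set `L`: `Real.inner_le_Lp_mul_Lq_tsum_of_nonneg` (or Young's inequality `x y ≤ x^p/p + y^q/q` after normalisation, which avoids `Lp`). -/
theorem mgf_holder (S : LSys) (hS : S.Ok) (X Y : S.L →+ ℝ) (p q : ℝ) (hpq : p.HolderConjugate q) :
    Real.log (S.E0 fun z => Real.exp (X z + Y z)) ≤
      p⁻¹ * Real.log (S.E0 fun z => Real.exp (p * X z)) + q⁻¹ * Real.log (S.E0 fun z => Real.exp (q * Y z)) := by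
  set A := S.E0 fun z => Real.exp (p * X z) with hA
  set B := S.E0 fun z => Real.exp (q * Y z) with hB
  have hApos : 0 < A := frs_E0_exp_mul_pos S hS p X
  have hBpos : 0 < B := frs_E0_exp_mul_pos S hS q Y
  set c := p⁻¹ * Real.log A + q⁻¹ * Real.log B with hc
  have hp0 : p ≠ 0 := hpq.ne_zero
  have hq0 : q ≠ 0 := hpq.symm.ne_zero
  have hpt : ∀ z, Real.exp (-c) * Real.exp (X z + Y z) ≤
      (p⁻¹ * A⁻¹) * Real.exp (p * X z) + (q⁻¹ * B⁻¹) * Real.exp (q * Y z) := by
    intro z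
    have hy := Real.young_inequality_of_nonneg (Real.exp_pos (X z - p⁻¹ * Real.log A)).le
      (Real.exp_pos (Y z - q⁻¹ * Real.log B)).le hpq
    rw [← Real.exp_mul, ← Real.exp_mul, ← Real.exp_add] at hy
    have e1 : (X z - p⁻¹ * Real.log A) * p = p * X z - Real.log A := by
      field_simp
    have e2 : (Y z - q⁻¹ * Real.log B) * q = q * Y z - Real.log B := by
      field_simp
    rw [e1, e2, Real.exp_sub, Real.exp_sub, Real.exp_log hApos, Real.exp_log hBpos] at hy
    rw [← Real.exp_add]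
    have e3 : -c + (X z + Y z) = X z - p⁻¹ * Real.log A + (Y z - q⁻¹ * Real.log B) := by
      rw [hc]; ring
    rw [e3]
    calc _ ≤ _ := hy
      _ = _ := by
        field_simp
  have hd1 : S.Dom fun z => Real.exp (X z + Y z) := by
    have := rd_dom_exp (X + Y)
    simpa using this
  have hE := rd_E0_mono hS (rd_dom_smul (Real.exp (-c)) hd1)
    (rd_dom_add (rd_dom_smul (p⁻¹ * A⁻¹) (frs_dom_exp_mul S p X)) (rd_dom_smul (q⁻¹ * B⁻¹) (frs_dom_exp_mul S q Y))) hpt
  rw [rd_E0_add hS (rd_dom_smul (p⁻¹ * A⁻¹) (frs_dom_exp_mul S p X)) (rd_dom_smul (q⁻¹ * B⁻¹) (frs_dom_exp_mul S q Y)),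
    rd_E0_smul, rd_E0_smul, rd_E0_smul, ← hA, ← hB, mul_assoc, mul_assoc, inv_mul_cancel₀ hApos.ne',
    inv_mul_cancel₀ hBpos.ne', mul_one, mul_one, hpq.inv_add_inv_eq_one] at hE
  have hpos : 0 < S.E0 fun z => Real.exp (X z + Y z) := by
    have := frs_E0_exp_pos S hS (X + Y)
    simpa using this
  have h2 : (S.E0 fun z => Real.exp (X z + Y z)) ≤ Real.exp c := by
    have h3 := mul_le_mul_of_nonneg_left hE (Real.exp_pos c).le
    rw [← mul_assoc, ← Real.exp_add, add_neg_cancel, Real.exp_zero, one_mul, mul_one] at h3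
    exact h3
  calc Real.log (S.E0 fun z => Real.exp (X z + Y z)) ≤ Real.log (Real.exp c) := Real.log_le_log hpos h2
    _ = c := Real.log_exp c

/-- L-FR-S8 (Mathlib only).  Compare the power series: `∑_{j ≥ 2} x^{2j}/(2j)! = x⁴ ∑_i x^{2i}/(2i+4)! ≤ x⁴/24 ∑_i x^{2i}/(2i)!`.  (Or: `f(x) = 1 + x²/2 + x⁴ cosh x/24 - cosh x` has `f(0)=f'(0)=0` and `f'' ≥ 0`.) -/
theorem cosh_le_quartic (x : ℝ) : Real.cosh x ≤ 1 + x ^ 2 / 2 + x ^ 4 * Real.cosh x / 24 := by
  have h1 := Real.hasSum_cosh x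
  have h2 := (hasSum_nat_add_iff' 2).2 h1
  have h3 := h1.mul_left (x ^ 4 / 24)
  have hle : ∀ n : ℕ, x ^ (2 * (n + 2)) / ((2 * (n + 2)).factorial : ℝ) ≤
      x ^ 4 / 24 * (x ^ (2 * n) / ((2 * n).factorial : ℝ)) := by
    intro n
    have hf : (24 : ℝ) * ((2 * n).factorial : ℝ) ≤ ((2 * (n + 2)).factorial : ℝ) := by
      have h4 : Nat.factorial 4 * (2 * n).factorial ≤ (4 + 2 * n).factorial :=
        Nat.le_of_dvd (Nat.factorial_pos _) (Nat.factorial_mul_factorial_dvd_factorial_add 4 (2 * n))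
      have h5 : 2 * (n + 2) = 4 + 2 * n := by ring
      rw [h5]
      have h6 : Nat.factorial 4 = 24 := rfl
      rw [h6] at h4
      exact_mod_cast h4
    have hp : 0 ≤ x ^ (2 * (n + 2)) := (even_two_mul _).pow_nonneg x
    have he : x ^ 4 / 24 * (x ^ (2 * n) / ((2 * n).factorial : ℝ)) =
        x ^ (2 * (n + 2)) / (24 * ((2 * n).factorial : ℝ)) := by
      have : x ^ (2 * (n + 2)) = x ^ 4 * x ^ (2 * n) := by rw [← pow_add]; congr 1; ring
      rw [this]
      have h7 : ((2 * n).factorial : ℝ) ≠ 0 := by positivity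
      field_simp
    rw [he]
    exact div_le_div_of_nonneg_left hp (by positivity) hf
  have h4 := hasSum_le hle h2 h3
  simp only [Finset.sum_range_succ, Finset.sum_range_zero, mul_zero, pow_zero, Nat.factorial_zero,
    Nat.cast_one, div_one, zero_add, mul_one, Nat.factorial_two, Nat.cast_ofNat] at h4
  linarith

/-- L-FR-S8 (Mathlib only).  `x⁴/24 ≤ cosh x` (one term of the series; `Real.cosh_eq`, `Real.pow_div_factorial_le_exp` for `|x|`). -/
theorem quartic_le_cosh (x : ℝ) : x ^ 4 ≤ 24 * Real.cosh x := by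
  have h1 := Real.hasSum_cosh x
  have h2 := le_hasSum h1 2 fun j _ =>
    div_nonneg ((even_two_mul j).pow_nonneg x) (by positivity)
  have h3 : ((2 * 2).factorial : ℝ) = 24 := by norm_num [Nat.factorial]
  rw [h3] at h2
  have h4 : x ^ (2 * 2) = x ^ 4 := by norm_num
  rw [h4] at h2
  linarith

/- `lmgf_quartic` (L-FR-S9) is stated and proved in section 6, after `fr_ref_moment` (it uses `fr_ref_mgf`). -/

/-! ## 5. The reflection sum -/

theorem rp_sum_aux {A : Type} (g : A → ℝ) (hs : Summable fun p : A × A => g p.1 * g p.2) :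
    0 ≤ ∑' p : A × A, g p.1 * g p.2 := by
  by_cases hg : ∀ y, g y = 0
  · simp [hg]
  · push Not at hg
    obtain ⟨y0, hy0⟩ := hg
    have h1 : Summable fun c => g y0 * g c := hs.prod_factor y0
    have h2 : Summable g := (summable_mul_left_iff hy0).1 h1
    rw [← tsum_mul_tsum_of_summable_norm h2.norm h2.norm]
    exact mul_self_nonneg _

/-- L-FR-S10 (Mathlib only).  **Reflection positivity as a sum.**  `∑_{(τ,x,y)} = ∑_τ c τ (∑_x u τ x F τ x)²` (`Summable.tsum_prod'`/`tsum_prod` twice, `tsum_mul_tsum_of_summable_norm` in the fibre; fibrewise summability from `hs`). -/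
theorem rp_sum {T A : Type} (c : T → ℝ) (u F : T → A → ℝ) (hc : ∀ τ, 0 ≤ c τ)
    (hs : Summable fun x : T × A × A => c x.1 * (u x.1 x.2.1 * F x.1 x.2.1) * (u x.1 x.2.2 * F x.1 x.2.2)) :
    0 ≤ ∑' x : T × A × A, c x.1 * (u x.1 x.2.1 * F x.1 x.2.1) * (u x.1 x.2.2 * F x.1 x.2.2) := by
  rw [hs.tsum_prod' fun τ => hs.prod_factor τ]
  refine tsum_nonneg fun τ => ?_
  have h1 := hs.prod_factor τ
  simp only [mul_assoc] at h1 ⊢
  rw [tsum_mul_left]
  rcases (hc τ).eq_or_lt with h0 | h0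
  · rw [← h0, zero_mul]
  · have h2 := (summable_mul_left_iff h0.ne').1 h1
    refine mul_nonneg h0.le ?_
    have h3 := rp_sum_aux (fun x => u τ x * F τ x) (by simpa only [mul_assoc] using h2)
    simpa only [mul_assoc] using h3

/-! ## 6. Reference bounds, power series, Cauchy-Schwarz (leaves L-FR-L1..L4) -/

/-- the series of `cosh x - 1`. -/
theorem fr_l1_hasSum (x : ℝ) :
    HasSum (fun j : ℕ => (x ^ 2) ^ (j + 1) / ((2 * (j + 1)).factorial : ℝ)) (Real.cosh x - 1) := by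
  have h := (hasSum_nat_add_iff' 1).2 (Real.hasSum_cosh x)
  simp only [Finset.range_one, Finset.sum_singleton, Nat.mul_zero, pow_zero, Nat.factorial_zero, Nat.cast_one,
    div_one] at h
  have e : (fun j : ℕ => (x ^ 2) ^ (j + 1) / ((2 * (j + 1)).factorial : ℝ))
      = fun j : ℕ => x ^ (2 * (j + 1)) / ((2 * (j + 1)).factorial : ℝ) := by
    funext j
    rw [← pow_mul]
  rw [e]
  exact h

/-- sum of powers `≤` power of the sum. -/
theorem fr_l1_sum_pow {ι : Type} [Fintype ι] (u : ι → ℝ) (hu : ∀ e, 0 ≤ u e) (j : ℕ) :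
    ∑ e, u e ^ (j + 1) ≤ (∑ e, u e) ^ (j + 1) := by
  have hU : 0 ≤ ∑ e, u e := Finset.sum_nonneg fun e _ => hu e
  have h1 : ∀ e, u e ^ (j + 1) ≤ (∑ e, u e) ^ j * u e := by
    intro e
    rw [pow_succ]
    refine mul_le_mul_of_nonneg_right (pow_le_pow_left₀ (hu e) ?_ j) (hu e)
    exact Finset.single_le_sum (fun i _ => hu i) (Finset.mem_univ e)
  calc ∑ e, u e ^ (j + 1) ≤ ∑ e, (∑ e, u e) ^ j * u e := Finset.sum_le_sum fun e _ => h1 e
    _ = (∑ e, u e) ^ (j + 1) := by rw [← Finset.mul_sum, pow_succ]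

/-- L-FR-L1 (Mathlib only).  `Real.hasSum_cosh`: `cosh x - 1 = ∑_{j ≥ 1} x^{2j}/(2j)!`; termwise `∑_e (t_e²)^j ≤ (∑_e t_e²)^j` for `j ≥ 1` (`u_e^j ≤ u_e (∑ u)^{j-1}`); `Real.sq_sqrt`. -/
theorem sum_cosh_le {ι : Type} [Fintype ι] (t : ι → ℝ) : ∑ e, (Real.cosh (t e) - 1) ≤ Real.cosh (Real.sqrt (∑ e, t e ^ 2)) - 1 := by
  have hU : 0 ≤ ∑ e, t e ^ 2 := Finset.sum_nonneg fun e _ => sq_nonneg _
  have h1 : HasSum (fun j : ℕ => ∑ e, (t e ^ 2) ^ (j + 1) / ((2 * (j + 1)).factorial : ℝ)) (∑ e, (Real.cosh (t e) - 1)) :=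
    hasSum_sum fun e _ => fr_l1_hasSum (t e)
  have h2 := fr_l1_hasSum (Real.sqrt (∑ e, t e ^ 2))
  rw [Real.sq_sqrt hU] at h2
  refine hasSum_le (fun j => ?_) h1 h2
  rw [← Finset.sum_div]
  exact div_le_div_of_nonneg_right (fr_l1_sum_pow _ (fun e => sq_nonneg _) j) (Nat.cast_nonneg _)

/-- L-FR-L1 (Mathlib only).  Series, or `cosh_le_quartic`-style comparison: `∑_{j≥1} x^{2j}/(2j)! = x² ∑_i x^{2i}/(2i+2)! ≤ x²/2 ∑_i x^{2i}/(2i)!`. -/
theorem cosh_sub_one_le (x : ℝ) : Real.cosh x - 1 ≤ x ^ 2 / 2 * Real.cosh x := by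
  have h1 := fr_l1_hasSum x
  have h2 : HasSum (fun j : ℕ => x ^ 2 / 2 * (x ^ (2 * j) / ((2 * j).factorial : ℝ))) (x ^ 2 / 2 * Real.cosh x) :=
    (Real.hasSum_cosh x).mul_left _
  refine hasSum_le (fun j => ?_) h1 h2
  have hf : (2 * ((2 * j).factorial : ℝ)) ≤ ((2 * (j + 1)).factorial : ℝ) := by
    have e : 2 * (j + 1) = (2 * j + 1) + 1 := by ring
    rw [e, Nat.factorial_succ, Nat.factorial_succ]
    push_cast
    have h0 : (0 : ℝ) < ((2 * j).factorial : ℝ) := by exact_mod_cast Nat.factorial_pos _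
    have hj : (0 : ℝ) ≤ (j : ℝ) := Nat.cast_nonneg j
    nlinarith [mul_nonneg hj h0.le, mul_nonneg (mul_nonneg hj hj) h0.le]
  have h0 : (0 : ℝ) < ((2 * j).factorial : ℝ) := by exact_mod_cast Nat.factorial_pos _
  have e2 : x ^ 2 / 2 * (x ^ (2 * j) / ((2 * j).factorial : ℝ)) = (x ^ 2) ^ (j + 1) / (2 * ((2 * j).factorial : ℝ)) := by
    rw [pow_succ (x ^ 2) j, ← pow_mul]
    field_simp
  rw [e2]
  exact div_le_div_of_nonneg_left (by positivity) (by positivity) hf

theorem frs_flowS_apply (S : LSys) (t : S.E → ℝ) (z : S.L) :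
    flowS S t z = ∑ e, t e * (((z : S.Amb).1 e : ℤ) : ℝ) := rfl

theorem frs_flowS_smul (S : LSys) (c : ℝ) (t : S.E → ℝ) : flowS S (fun e => c * t e) = c • flowS S t := by
  ext z
  simp only [frs_flowS_apply, AddMonoidHom.smul_apply, smul_eq_mul, Finset.mul_sum, mul_assoc]

/-- L-FR-L2 (= `C2.ref_mgf`).  `lsys_reference`, `b e (cosh - 1) ≤ β (cosh - 1)`, `sum_cosh_le`.  (`flowS S t z = ∑ e, t e * z_e` by definition.) -/
theorem fr_ref_mgf (S : LSys) (hS : S.Ok) (β : ℝ) (hβ : ∀ e, S.b e ≤ β) (t : S.E → ℝ) :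
    S.E0 (fun z => Real.exp (flowS S t z)) ≤ Real.exp (β * (Real.cosh (Real.sqrt (∑ e, t e ^ 2)) - 1)) := by
  refine (lsys_reference S hS t).trans (Real.exp_le_exp.2 ?_)
  have h1 : ∑ e, S.b e * (Real.cosh (t e) - 1) ≤ β * ∑ e, (Real.cosh (t e) - 1) := by
    rw [Finset.mul_sum]
    exact Finset.sum_le_sum fun e _ => mul_le_mul_of_nonneg_right (hβ e) (by linarith [Real.one_le_cosh (t e)])
  refine h1.trans ?_
  rcases isEmpty_or_nonempty S.E with hE | ⟨⟨e⟩⟩
  · simp
  · exact mul_le_mul_of_nonneg_left (sum_cosh_le t) ((hS.1 e).le.trans (hβ e))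

/-- L-FR-L2 (= `C2.ref_var`).  `lsys_laplace_lower` for `s • flowS S t = flowS S (s t)`: `s² V0/2 ≤ log E e^{sX} ≤ ∑ b_e (cosh (s t_e) - 1) ≤ β ∑ (s t_e)²/2 cosh (s t_e)` (`cosh_sub_one_le`); divide by `s²`, let `s → 0`
(or `rd_le_of_cubic`). -/
theorem fr_ref_var (S : LSys) (hS : S.Ok) (β : ℝ) (hβ : ∀ e, S.b e ≤ β) (t : S.E → ℝ) :
    S.V0 (flowS S t) ≤ β * ∑ e, t e ^ 2 := by
  have key : ∀ s : ℝ, 0 < s → s ≤ 1 → (S.V0 (flowS S t) / 2) * s ^ 2 ≤
      (β * (∑ e, t e ^ 2) / 2) * s ^ 2 + (β * ∑ e, t e ^ 4 * Real.cosh (t e) / 24) * s ^ 3 := by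
    intro s hs hs1
    have h1 := lsys_laplace_lower S hS (flowS S fun e => s * t e)
    rw [frs_flowS_smul, rd_V0_smul, ← frs_flowS_smul] at h1
    have h2 : Real.log (S.E0 fun z => Real.exp (flowS S (fun e => s * t e) z)) ≤
        ∑ e, S.b e * (Real.cosh (s * t e) - 1) := by
      rw [← Real.log_exp (∑ e, S.b e * (Real.cosh (s * t e) - 1))]
      exact Real.log_le_log (frs_E0_exp_pos S hS _) (lsys_reference S hS fun e => s * t e)
    have h3 : ∀ e, S.b e * (Real.cosh (s * t e) - 1) ≤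
        β * (t e ^ 2 / 2 * s ^ 2 + t e ^ 4 * Real.cosh (t e) / 24 * s ^ 3) := by
      intro e
      have hq := cosh_le_quartic (s * t e)
      have hc : Real.cosh (s * t e) ≤ Real.cosh (t e) := by
        rw [Real.cosh_le_cosh, abs_mul, abs_of_pos hs]
        exact mul_le_of_le_one_left (abs_nonneg _) hs1
      have hc1 := Real.one_le_cosh (t e)
      have ht4 : 0 ≤ t e ^ 4 := by positivity
      have hs43 : s ^ 4 ≤ s ^ 3 := pow_le_pow_of_le_one hs.le hs1 (by norm_num)
      have h4 : (s * t e) ^ 4 * Real.cosh (s * t e) ≤ t e ^ 4 * Real.cosh (t e) * s ^ 3 := by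
        rw [mul_pow]
        calc s ^ 4 * t e ^ 4 * Real.cosh (s * t e) ≤ s ^ 3 * t e ^ 4 * Real.cosh (t e) := by
              apply mul_le_mul (mul_le_mul_of_nonneg_right hs43 ht4) hc (by linarith [Real.one_le_cosh (s * t e)])
              positivity
          _ = _ := by ring
      have h5 : Real.cosh (s * t e) - 1 ≤ t e ^ 2 / 2 * s ^ 2 + t e ^ 4 * Real.cosh (t e) / 24 * s ^ 3 := by
        have : (s * t e) ^ 2 = t e ^ 2 * s ^ 2 := by ring
        linarith
      have h6 : 0 ≤ t e ^ 2 / 2 * s ^ 2 + t e ^ 4 * Real.cosh (t e) / 24 * s ^ 3 := by positivity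
      calc S.b e * (Real.cosh (s * t e) - 1) ≤ S.b e * (t e ^ 2 / 2 * s ^ 2 + t e ^ 4 * Real.cosh (t e) / 24 * s ^ 3) :=
            mul_le_mul_of_nonneg_left h5 (hS.1 e).le
        _ ≤ _ := mul_le_mul_of_nonneg_right (hβ e) h6
    have h7 := Finset.sum_le_sum fun e (_ : e ∈ Finset.univ) => h3 e
    rw [← Finset.mul_sum, Finset.sum_add_distrib, ← Finset.sum_mul, ← Finset.sum_mul, ← Finset.sum_div] at h7
    nlinarith [h1, h2, h7]
  have := rd_le_of_cubic key
  linarith

/-- L-FR-L2 (= `C2.ref_moment`).  `σ = √(∑ t²)`.  `σ = 0`: the test vanishes.  Otherwise `|x|^r ≤ r! e^{|x|} ≤ r! (e^x + e^{-x})` at `x = X/σ`, `fr_ref_mgf` for `± t/σ`: `C = 2 r! exp (|β| (cosh 1 - 1))`. -/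
theorem fr_ref_moment (β : ℝ) (r : ℕ) : ∃ C : ℝ, ∀ (S : LSys), S.Ok → (∀ e, S.b e ≤ β) → ∀ t : S.E → ℝ,
    S.E0 (fun z => |flowS S t z| ^ r) ≤ C * Real.sqrt (∑ e, t e ^ 2) ^ r := by
  refine ⟨2 * (r.factorial : ℝ) * Real.exp (|β| * (Real.cosh 1 - 1)), fun S hS hβ t => ?_⟩
  set σ := Real.sqrt (∑ e, t e ^ 2) with hσ
  have hC1 : (1 : ℝ) ≤ 2 * (r.factorial : ℝ) * Real.exp (|β| * (Real.cosh 1 - 1)) := by
    have h1 : (1 : ℝ) ≤ (r.factorial : ℝ) := by exact_mod_cast Nat.one_le_iff_ne_zero.2 (Nat.factorial_ne_zero r)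
    have h2 : (1 : ℝ) ≤ Real.exp (|β| * (Real.cosh 1 - 1)) :=
      Real.one_le_exp (mul_nonneg (abs_nonneg _) (by linarith [Real.one_le_cosh 1]))
    nlinarith
  have hsum0 : 0 ≤ ∑ e, t e ^ 2 := Finset.sum_nonneg fun e _ => sq_nonneg _
  rcases (Real.sqrt_nonneg (∑ e, t e ^ 2)).eq_or_lt with h0 | hpos
  · -- the test vanishes
    have hz : ∑ e, t e ^ 2 = 0 := (Real.sqrt_eq_zero hsum0).1 h0.symm
    have ht : ∀ e, t e = 0 := fun e => by
      have := (Finset.sum_eq_zero_iff_of_nonneg fun e _ => sq_nonneg (t e)).1 hz e (Finset.mem_univ e)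
      exact pow_eq_zero_iff (two_ne_zero) |>.1 this
    have e1 : (fun z : S.L => |flowS S t z| ^ r) = fun _ => (0 : ℝ) ^ r := by
      funext z
      rw [frs_flowS_apply]
      simp [ht]
    rw [e1, rd_E0_const hS, hσ, ← h0]
    rcases Nat.eq_zero_or_pos r with rfl | hr
    · simpa using hC1
    · simp [hr.ne']
  · have hσpos : 0 < σ := hpos
    set u : S.E → ℝ := fun e => σ⁻¹ * t e with hu
    have hu1 : Real.sqrt (∑ e, u e ^ 2) = 1 := by
      have : ∑ e, u e ^ 2 = 1 := by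
        simp only [hu, mul_pow, ← Finset.mul_sum]
        rw [← Real.sq_sqrt hsum0, ← hσ]
        field_simp
      rw [this, Real.sqrt_one]
    have hu2 : Real.sqrt (∑ e, (-1 * u e) ^ 2) = 1 := by
      simpa using hu1
    have hb : ∀ z : S.L, |flowS S t z| ^ r ≤ (σ ^ r * (r.factorial : ℝ)) *
        (Real.exp (flowS S u z) + Real.exp (flowS S (fun e => -1 * u e) z)) := by
      intro z
      have e1 : flowS S t z = σ * flowS S u z := by
        rw [hu, frs_flowS_smul]
        simp only [AddMonoidHom.smul_apply, smul_eq_mul]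
        field_simp
      have e2 : flowS S (fun e => -1 * u e) z = -flowS S u z := by
        rw [frs_flowS_smul]
        simp
      rw [e1, e2, abs_mul, abs_of_pos hσpos, mul_pow, mul_assoc]
      refine mul_le_mul_of_nonneg_left ?_ (by positivity)
      have h1 := Real.pow_div_factorial_le_exp _ (abs_nonneg (flowS S u z)) r
      rw [div_le_iff₀ (by positivity)] at h1
      calc |flowS S u z| ^ r ≤ Real.exp |flowS S u z| * (r.factorial : ℝ) := h1
        _ ≤ (Real.exp (flowS S u z) + Real.exp (-flowS S u z)) * (r.factorial : ℝ) :=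
            mul_le_mul_of_nonneg_right (rd_exp_abs_le _) (by positivity)
        _ = _ := mul_comm _ _
    have hE := rd_E0_mono hS (rd_dom_pow (rd_dom_abs (rd_dom_test (flowS S t))) r)
      (rd_dom_smul _ (rd_dom_add (rd_dom_exp (flowS S u)) (rd_dom_exp (flowS S fun e => -1 * u e)))) hb
    rw [rd_E0_smul, rd_E0_add hS (rd_dom_exp (flowS S u)) (rd_dom_exp (flowS S fun e => -1 * u e))] at hE
    have m1 := fr_ref_mgf S hS β hβ u
    have m2 := fr_ref_mgf S hS β hβ fun e => -1 * u e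
    rw [hu1] at m1
    rw [hu2] at m2
    have m3 : Real.exp (β * (Real.cosh 1 - 1)) ≤ Real.exp (|β| * (Real.cosh 1 - 1)) :=
      Real.exp_le_exp.2 (mul_le_mul_of_nonneg_right (le_abs_self β) (by linarith [Real.one_le_cosh 1]))
    calc S.E0 (fun z => |flowS S t z| ^ r) ≤ _ := hE
      _ ≤ σ ^ r * (r.factorial : ℝ) * (Real.exp (|β| * (Real.cosh 1 - 1)) + Real.exp (|β| * (Real.cosh 1 - 1))) :=
          mul_le_mul_of_nonneg_left (add_le_add (m1.trans m3) (m2.trans m3)) (by positivity)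
      _ = _ := by ring

theorem frs_dom_cosh {S : LSys} (X : S.L →+ ℝ) : S.Dom fun z => Real.cosh (X z) := by
  have h := rd_dom_smul (1 / 2) (rd_dom_add (rd_dom_exp X) (rd_dom_exp (-X)))
  have e : (fun z : S.L => Real.cosh (X z)) = fun z => 1 / 2 * (Real.exp (X z) + Real.exp ((-X) z)) := by
    funext z
    rw [Real.cosh_eq, AddMonoidHom.neg_apply]
    ring
  rw [e]
  exact h

theorem frs_E0_exp_eq_cosh {S : LSys} (hS : S.Ok) (X : S.L →+ ℝ) :
    (S.E0 fun z => Real.exp (X z)) = S.E0 fun z => Real.cosh (X z) := by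
  have e : (fun z : S.L => Real.cosh (X z)) = fun z => 1 / 2 * (Real.exp (X z) + Real.exp ((-X) z)) := by
    funext z
    rw [Real.cosh_eq, AddMonoidHom.neg_apply]
    ring
  have hinv := rd_E0_inv fun z : S.L => Real.exp (X z)
  have e2 : (fun z : S.L => Real.exp (X (-z))) = fun z => Real.exp ((-X) z) := by
    funext z
    rw [map_neg, AddMonoidHom.neg_apply]
  rw [e2] at hinv
  rw [e, rd_E0_smul, rd_E0_add hS (rd_dom_exp X) (rd_dom_exp (-X)), hinv]
  ring

theorem frs_cosh_mul_le {a x : ℝ} (ha : 0 ≤ a) : Real.cosh (a * x) * Real.cosh x ≤ Real.cosh ((1 + a) * x) := by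
  have e : (1 + a) * x = a * x + x := by ring
  rw [e, Real.cosh_add]
  have : 0 ≤ Real.sinh (a * x) * Real.sinh x := by
    rcases le_total 0 x with hx | hx
    · exact mul_nonneg (Real.sinh_nonneg_iff.2 (mul_nonneg ha hx)) (Real.sinh_nonneg_iff.2 hx)
    · exact mul_nonneg_of_nonpos_of_nonpos (Real.sinh_nonpos_iff.2 (mul_nonpos_of_nonneg_of_nonpos ha hx))
        (Real.sinh_nonpos_iff.2 hx)
  linarith

/-- L-FR-S9.  **Fourth order Laplace bound** ([B] l.455, [C] l.405 with a better remainder).  `σ² = ∑ t_e²`.  If `σ = 0` the test vanishes.  Otherwise `E e^X = E cosh X` (inversion symmetry)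
`≤ 1 + V0 X/2 + E[X⁴ cosh X]/24` (`cosh_le_quartic`), `X⁴ ≤ 24 σ⁴ cosh (X/σ)` (`quartic_le_cosh`), `cosh a cosh b ≤ cosh (|a|+|b|)`, so `E[X⁴ cosh X] ≤ 24 σ⁴ E cosh((1+1/σ) X) ≤ 24 σ⁴ exp(β (cosh (σ + 1) - 1))`
by `lsys_reference` in the form `E e^{flowS t} ≤ exp(β (cosh |t|₂ - 1))` (`∑ (cosh t_e - 1) ≤ cosh |t|₂ - 1`: termwise on the series, `∑ t_e^{2j} ≤ (∑ t_e²)^j`); `log (1 + x) ≤ x`. -/
theorem lmgf_quartic (β B : ℝ) : ∃ C : ℝ, ∀ (S : LSys), S.Ok → (∀ e, S.b e ≤ β) → ∀ t : S.E → ℝ, ∑ e, t e ^ 2 ≤ B →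
    Real.log (S.E0 fun z => Real.exp (flowS S t z)) ≤ S.V0 (flowS S t) / 2 + C * (∑ e, t e ^ 2) ^ 2 := by
  refine ⟨Real.exp (|β| * (Real.cosh (Real.sqrt B + 1) - 1)), fun S hS hβ t hB => ?_⟩
  set K := Real.exp (|β| * (Real.cosh (Real.sqrt B + 1) - 1)) with hK
  set X := flowS S t with hX
  set σ := Real.sqrt (∑ e, t e ^ 2) with hσ
  have hsum0 : 0 ≤ ∑ e, t e ^ 2 := Finset.sum_nonneg fun e _ => sq_nonneg _
  have hσ2 : σ ^ 2 = ∑ e, t e ^ 2 := Real.sq_sqrt hsum0
  have hV := rd_V0_nonneg hS X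
  rcases (Real.sqrt_nonneg (∑ e, t e ^ 2)).eq_or_lt with h0 | hpos
  · have hz : ∑ e, t e ^ 2 = 0 := (Real.sqrt_eq_zero hsum0).1 h0.symm
    have ht : ∀ e, t e = 0 := fun e => by
      have := (Finset.sum_eq_zero_iff_of_nonneg fun e _ => sq_nonneg (t e)).1 hz e (Finset.mem_univ e)
      exact pow_eq_zero_iff (two_ne_zero) |>.1 this
    have e1 : (fun z : S.L => Real.exp (X z)) = fun _ => (1 : ℝ) := by
      funext z
      rw [hX, frs_flowS_apply]
      simp [ht]
    rw [e1, rd_E0_const hS, Real.log_one, hz]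
    simp only [ne_eq, OfNat.ofNat_ne_zero, not_false_eq_true, zero_pow, mul_zero, add_zero]
    positivity
  · have hσpos : 0 < σ := hpos
    have hpt : ∀ z : S.L, Real.cosh (X z) ≤ (1 + 1 / 2 * X z ^ 2) + σ ^ 4 * Real.cosh (((1 + σ⁻¹) • X) z) := by
      intro z
      have h1 := cosh_le_quartic (X z)
      have h2 := quartic_le_cosh (σ⁻¹ * X z)
      have h3 : X z ^ 4 ≤ 24 * σ ^ 4 * Real.cosh (σ⁻¹ * X z) := by
        have e : X z ^ 4 = σ ^ 4 * (σ⁻¹ * X z) ^ 4 := by
          field_simp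
        rw [e]
        calc σ ^ 4 * (σ⁻¹ * X z) ^ 4 ≤ σ ^ 4 * (24 * Real.cosh (σ⁻¹ * X z)) :=
              mul_le_mul_of_nonneg_left h2 (by positivity)
          _ = _ := by ring
      have h4 := frs_cosh_mul_le (a := σ⁻¹) (x := X z) (by positivity)
      have h5 : X z ^ 4 * Real.cosh (X z) ≤ 24 * σ ^ 4 * Real.cosh ((1 + σ⁻¹) * X z) := by
        calc X z ^ 4 * Real.cosh (X z) ≤ 24 * σ ^ 4 * Real.cosh (σ⁻¹ * X z) * Real.cosh (X z) :=
              mul_le_mul_of_nonneg_right h3 (by linarith [Real.one_le_cosh (X z)])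
          _ = 24 * σ ^ 4 * (Real.cosh (σ⁻¹ * X z) * Real.cosh (X z)) := by ring
          _ ≤ _ := mul_le_mul_of_nonneg_left h4 (by positivity)
      have e6 : ((1 + σ⁻¹) • X) z = (1 + σ⁻¹) * X z := by simp
      rw [e6]
      linarith
    have hd1 : S.Dom fun z => (1 : ℝ) + 1 / 2 * X z ^ 2 :=
      rd_dom_add (rd_dom_const 1) (rd_dom_smul _ (rd_dom_pow (rd_dom_test X) 2))
    have hE := rd_E0_mono hS (frs_dom_cosh X) (rd_dom_add hd1 (rd_dom_smul _ (frs_dom_cosh ((1 + σ⁻¹) • X)))) hpt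
    rw [rd_E0_add hS hd1 (rd_dom_smul _ (frs_dom_cosh ((1 + σ⁻¹) • X))),
      rd_E0_add hS (rd_dom_const 1) (rd_dom_smul _ (rd_dom_pow (rd_dom_test X) 2)), rd_E0_const hS, rd_E0_smul, rd_E0_smul,
      ← rd_V0_eq, ← frs_E0_exp_eq_cosh hS, ← frs_E0_exp_eq_cosh hS] at hE
    have hm : (S.E0 fun z => Real.exp (((1 + σ⁻¹) • X) z)) ≤ K := by
      rw [hX, ← frs_flowS_smul]
      refine (fr_ref_mgf S hS β hβ _).trans ?_
      rw [hK]
      have e7 : Real.sqrt (∑ e, ((1 + σ⁻¹) * t e) ^ 2) = σ + 1 := by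
        simp only [mul_pow, ← Finset.mul_sum]
        rw [← hσ2, ← mul_pow, Real.sqrt_sq (by positivity)]
        field_simp
      rw [e7]
      have h8 : σ + 1 ≤ Real.sqrt B + 1 := by
        have := Real.sqrt_le_sqrt hB
        linarith
      have h9 : Real.cosh (σ + 1) ≤ Real.cosh (Real.sqrt B + 1) := by
        rw [Real.cosh_le_cosh, abs_of_pos (by positivity), abs_of_nonneg (by positivity)]
        exact h8
      have h10 := Real.one_le_cosh (σ + 1)
      refine Real.exp_le_exp.2 ?_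
      calc β * (Real.cosh (σ + 1) - 1) ≤ |β| * (Real.cosh (σ + 1) - 1) :=
            mul_le_mul_of_nonneg_right (le_abs_self β) (by linarith)
        _ ≤ _ := mul_le_mul_of_nonneg_left (by linarith) (abs_nonneg β)
    have hlog := Real.log_le_sub_one_of_pos (frs_E0_exp_pos S hS X)
    have h11 : σ ^ 4 = (∑ e, t e ^ 2) ^ 2 := by rw [← hσ2]; ring
    have h12 : σ ^ 4 * (S.E0 fun z => Real.exp (((1 + σ⁻¹) • X) z)) ≤ σ ^ 4 * K :=
      mul_le_mul_of_nonneg_left hm (by positivity)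
    rw [← h11]
    linarith

/-- `E0` commutes with an even power series dominated by the series of `cosh` -/
theorem frs_series (S : LSys) (hS : S.Ok) (X : S.L →+ ℝ) (c : ℕ → ℝ) (hc : ∀ j, |c j| ≤ 1) (g : ℝ → ℝ)
    (hg : ∀ r, HasSum (fun j : ℕ => c j * r ^ (2 * j) / ((2 * j).factorial : ℝ)) (g r)) :
    HasSum (fun j : ℕ => c j / ((2 * j).factorial : ℝ) * S.E0 fun z => X z ^ (2 * j)) (S.E0 fun z => g (X z)) := by
  set f0 : S.L × ℕ → ℝ := fun p => X p.1 ^ (2 * p.2) / ((2 * p.2).factorial : ℝ) * S.W ((p.1 : S.Amb) + 0) with hf0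
  have hpow : ∀ (x : ℝ) (j : ℕ), 0 ≤ x ^ (2 * j) := fun x j => by rw [pow_mul]; positivity
  have hf0nn : 0 ≤ f0 := fun p => mul_nonneg (div_nonneg (hpow _ _) (by positivity)) (rd_W_pos hS _).le
  have hfib0 : ∀ z : S.L, HasSum (fun j : ℕ => f0 (z, j)) (Real.cosh (X z) * S.W ((z : S.Amb) + 0)) := by
    intro z
    simp only [hf0]
    exact (Real.hasSum_cosh (X z)).mul_right (S.W ((z : S.Amb) + 0))
  have hs0 : Summable f0 := by
    rw [summable_prod_of_nonneg hf0nn]
    refine ⟨fun z => (hfib0 z).summable, ?_⟩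
    have e : (fun z : S.L => ∑' j, f0 (z, j)) = fun z => Real.cosh (X z) * S.W ((z : S.Amb) + 0) :=
      funext fun z => (hfib0 z).tsum_eq
    rw [e]
    exact rd_dom_summable hS (frs_dom_cosh X) 0
  set f : S.L × ℕ → ℝ := fun p => c p.2 * X p.1 ^ (2 * p.2) / ((2 * p.2).factorial : ℝ) * S.W ((p.1 : S.Amb) + 0) with hf
  have hs : Summable f := by
    refine Summable.of_norm_bounded hs0 fun p => ?_
    simp only [hf, hf0, Real.norm_eq_abs, abs_mul, abs_div, abs_of_nonneg (hpow _ _), abs_of_pos (rd_W_pos hS _),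
      Nat.abs_cast]
    refine mul_le_mul_of_nonneg_right ?_ (rd_W_pos hS _).le
    refine div_le_div_of_nonneg_right ?_ (by positivity)
    exact mul_le_of_le_one_left (hpow _ _) (hc _)
  have hfib : ∀ z : S.L, HasSum (fun j : ℕ => f (z, j)) (g (X z) * S.W ((z : S.Amb) + 0)) := by
    intro z
    simp only [hf]
    exact (hg (X z)).mul_right (S.W ((z : S.Amb) + 0))
  have h1 : HasSum (fun z : S.L => g (X z) * S.W ((z : S.Amb) + 0)) (∑' p, f p) :=
    hs.hasSum.prod_fiberwise hfib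
  have h2 : HasSum (fun j : ℕ => c j / ((2 * j).factorial : ℝ) * S.Zf 0 fun z => X z ^ (2 * j)) (∑' p, f p) := by
    have hsw : HasSum (fun p : ℕ × S.L => f (p.2, p.1)) (∑' p, f p) :=
      (Equiv.prodComm ℕ S.L).hasSum_iff.2 hs.hasSum
    refine hsw.prod_fiberwise fun j => ?_
    have h3 := (rd_dom_summable hS (rd_dom_pow (rd_dom_test X) (2 * j)) 0).hasSum.mul_left (c j / ((2 * j).factorial : ℝ))
    have e : (fun z : S.L => f (z, j)) = fun z => c j / ((2 * j).factorial : ℝ) * (X z ^ (2 * j) * S.W ((z : S.Amb) + 0)) := by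
      funext z
      simp only [hf]
      ring
    rw [e]
    exact h3
  have h4 : S.Zf 0 (fun z => g (X z)) = ∑' p, f p := h1.tsum_eq
  simp only [rd_E0_eq]
  rw [h4]
  have h5 := h2.div_const (S.w 0)
  simpa only [mul_div_assoc] using h5

/-- L-FR-L3.  **`E0` commutes with the exponential series.**  `E0 F = Zf 0 F / w 0` (`rd_E0_eq`), `Zf 0 F = ∑' z, F z W z`.  The double family `(z, i) ↦ (t X z)^i / i! · W z` is absolutely summable
(`∑_i = e^{|t X z|} W z`, `rd_dom_exp_abs`, `rd_dom_summable`): exchange (`Summable.tsum_comm'` / `HasSum.prod_fiberwise`); odd `i` vanish (`rd_E0_odd`); keep the even ones (`HasSum` over `ℕ` from even/odd split: `HasSum.even_add_odd` backwards,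
or sum the series of `cosh` directly: `E0 e^{tX} = E0 cosh (tX)` by `rd_E0_inv`, `Real.hasSum_cosh`). -/
theorem E0_exp_series (S : LSys) (hS : S.Ok) (X : S.L →+ ℝ) (t : ℝ) :
    HasSum (fun j : ℕ => t ^ (2 * j) / ((2 * j).factorial : ℝ) * S.E0 fun z => X z ^ (2 * j)) (S.E0 fun z => Real.exp (t * X z)) := by
  have h := frs_series S hS (t • X) (fun _ => 1) (fun _ => by simp) Real.cosh fun r => by
    simpa using Real.hasSum_cosh r
  have e1 : (S.E0 fun z => Real.cosh ((t • X) z)) = S.E0 fun z => Real.exp (t * X z) := by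
    rw [← frs_E0_exp_eq_cosh hS]
    simp
  rw [e1] at h
  have e2 : (fun j : ℕ => t ^ (2 * j) / ((2 * j).factorial : ℝ) * S.E0 fun z => X z ^ (2 * j)) =
      fun j : ℕ => 1 / ((2 * j).factorial : ℝ) * S.E0 fun z => (t • X) z ^ (2 * j) := by
    funext j
    have e3 : (fun z : S.L => (t • X) z ^ (2 * j)) = fun z => t ^ (2 * j) * X z ^ (2 * j) := by
      funext z
      simp [mul_pow]
    rw [e3, rd_E0_smul]
    ring
  rw [e2]
  exact h

/-- L-FR-L3.  Same exchange with `Real.hasSum_cos`. -/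
theorem phi_series (S : LSys) (hS : S.Ok) (X : S.L →+ ℝ) :
    HasSum (fun j : ℕ => (-1) ^ j / ((2 * j).factorial : ℝ) * S.E0 fun z => X z ^ (2 * j)) (S.phi X) := by
  have h := frs_series S hS X (fun j => (-1) ^ j) (fun j => by simp) Real.cos fun r => Real.hasSum_cos r
  exact h

/-- L-FR-L4.  Cauchy-Schwarz: `0 ≤ E0 (F + s G)²` for all `s` (`rd_E0_mono`, `rd_E0_add`, `rd_E0_smul`, `rd_dom_*`); discriminant (`discrim_le_zero`). -/
theorem E0_cs (S : LSys) (hS : S.Ok) (F G : S.L → ℝ) (hF : S.Dom F) (hG : S.Dom G) :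
    S.E0 (fun z => F z * G z) ^ 2 ≤ S.E0 (fun z => F z ^ 2) * S.E0 (fun z => G z ^ 2) := by
  exact frs_E0_cs S hS F G hF hG

end

end Claimed.Agent.R285.Free
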