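import Claimed.Agent.R285.Free.Sys

/-!
# ROW 285, unit FREE, file 2: the finite rules on free rectangles (architect helper60).   Paper-free.

Exports for `Read/C2.lean` s1, s3: `rc_ok`, `rc_proper`, `aCoef_eq`, `rc_translate`, `gradX_lift`, `fold_axis`, `fold_diag` (same statements, names `fr_*`).
All statements are FINITE (one rectangle, one temperature).  Vocabulary: `Free/Defs.lean` (`Rc`, `gd`, `Rc.flowX`, `Rc.gradX`, `Rc.var`, `Rc.lmgf`, `Rc.cost`, `Rc.dir`).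

## Facts on the graph `R.G = domG R.set ∅` used everywhere
* edges = `{e : Bond // e ∈ R.bd}`, `e ∈ R.bd ↔ e.1 ∈ R.set ∧ e.snd ∈ R.set`;  `(R.sys b).E = R.G.E`, `(R.sys b).O = Empty` by `rfl`;
* `(R.sys b).L` = the gradients of ALL integer functions on `R.set` (subtract the value at the corner): `fr_mem_L`.

LEAVES `L-FR-R*`: every `sorry`; leaf names in the docstrings.  Edit only your own theorems, splice on a fresh pull.
-/

set_option autoImplicit false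

namespace Claimed.Agent.R285.Free

open Filter Topology C2

noncomputable section

/-! ## 1. Basics -/

theorem mem_bd {R : Rc} {e : Bond} : e ∈ R.bd ↔ e.1 ∈ R.set ∧ e.snd ∈ R.set := by
  unfold Rc.bd domBonds
  simp [Finset.mem_filter, Finset.mem_product]

theorem fr_mem_set {R : Rc} {v : ℤ × ℤ} :
    v ∈ R.set ↔ (R.o.1 ≤ v.1 ∧ v.1 < R.o.1 + R.p) ∧ (R.o.2 ≤ v.2 ∧ v.2 < R.o.2 + R.q) := by
  simp [Rc.set, Finset.mem_product]

/-- L-FR-R1.  `HLaw.ok_of_isEmpty` (`(HLaw.plain _ _).O = Empty`). -/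
theorem fr_ok (R : Rc) (b : ℝ) (hb : 0 < b) : (R.sys b).Ok := by
  have : IsEmpty R.law.O := (inferInstance : IsEmpty Empty)
  exact HLaw.ok_of_isEmpty _ b hb

/-- a function whose gradient vanishes on the bonds of a rectangle is constant on it. -/
theorem fr_const {α : Type*} (R : Rc) (H : ℤ × ℤ → α) (hH : ∀ e ∈ R.bd, H e.snd = H e.1) :
    ∀ v ∈ R.set, H v = H R.o := by
  intro v hv
  obtain ⟨⟨hx1, hx2⟩, hy1, hy2⟩ := fr_mem_set.1 hv
  have hcol : ∀ k : ℕ, (k : ℤ) < R.q → H (v.1, R.o.2 + k) = H (v.1, R.o.2) := by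
    intro k
    induction k with
    | zero => intro _; simp
    | succ k ih =>
      intro hk
      have hk' : (k : ℤ) < R.q := by push_cast at hk; omega
      have hb : (((v.1, R.o.2 + k), false) : Bond) ∈ R.bd := by
        rw [mem_bd]
        constructor
        · rw [fr_mem_set]; exact ⟨⟨hx1, hx2⟩, by simp, by simpa using hk'⟩
        · rw [fr_mem_set]
          simp only [Bond.snd]
          push_cast at hk
          exact ⟨⟨hx1, hx2⟩, by simp; omega, by simp; omega⟩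
      have := hH _ hb
      simp only [Bond.snd] at this
      rw [← ih hk', ← this]
      congr 2
      push_cast; ring
  have hrow : ∀ k : ℕ, (k : ℤ) < R.p → H (R.o.1 + k, R.o.2) = H (R.o.1, R.o.2) := by
    intro k
    induction k with
    | zero => intro _; simp
    | succ k ih =>
      intro hk
      have hk' : (k : ℤ) < R.p := by push_cast at hk; omega
      have hb : (((R.o.1 + k, R.o.2), true) : Bond) ∈ R.bd := by
        rw [mem_bd]
        constructor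
        · rw [fr_mem_set]; exact ⟨⟨by simp, by simpa using hk'⟩, le_refl _, by simp; omega⟩
        · rw [fr_mem_set]
          simp only [Bond.snd]
          push_cast at hk
          exact ⟨⟨by simp; omega, by simp; omega⟩, le_refl _, by simp; omega⟩
      have := hH _ hb
      simp only [Bond.snd] at this
      rw [← ih hk', ← this]
      congr 2
      push_cast; ring
  have e1 : v = (v.1, R.o.2 + ((v.2 - R.o.2).toNat : ℤ)) := by
    rw [Int.toNat_of_nonneg (by omega)]; ext <;> simp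
  have e2 : (v.1, R.o.2) = (R.o.1 + ((v.1 - R.o.1).toNat : ℤ), R.o.2) := by
    rw [Int.toNat_of_nonneg (by omega)]; ext <;> simp
  rw [e1, hcol _ (by rw [Int.toNat_of_nonneg (by omega)]; omega), e2,
    hrow _ (by rw [Int.toNat_of_nonneg (by omega)]; omega)]

/-- L-FR-R1. -/
theorem fr_proper (R : Rc) : R.law.Proper := by
  classical
  intro h hh h0
  obtain ⟨H, hHdef⟩ : ∃ H : ℤ × ℤ → ℤ, H = fun v => if hv : v ∈ R.set then h ⟨v, hv⟩ else 0 := ⟨_, rfl⟩
  have hHv : ∀ (v : ℤ × ℤ) (hv : v ∈ R.set), H v = h ⟨v, hv⟩ := fun v hv => by rw [hHdef]; simp [hv]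
  have hgr : ∀ e ∈ R.bd, H e.snd = H e.1 := by
    intro e he
    have h1 := congrFun (congrArg Prod.fst h0) (⟨e, he⟩ : R.G.E)
    have h2 : h (R.G.tgt ⟨e, he⟩) - h (R.G.src ⟨e, he⟩) = 0 := h1
    rw [hHv _ (mem_bd.1 he).2, hHv _ (mem_bd.1 he).1]
    exact sub_eq_zero.1 h2
  funext v
  obtain ⟨v, hv⟩ := v
  have ho : R.o ∈ R.set := by
    obtain ⟨⟨hx1, hx2⟩, hy1, hy2⟩ := fr_mem_set.1 hv
    exact fr_mem_set.2 ⟨⟨le_refl _, by omega⟩, le_refl _, by omega⟩
  have h3 := fr_const R H hgr v hv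
  rw [hHv v hv, hHv _ ho] at h3
  rw [h3]
  exact hh ⟨R.o, ho⟩ rfl

/-- L-FR-R1.  The lattice does not see the pin. -/
theorem fr_mem_L (R : Rc) (b : ℝ) (z : (R.sys b).Amb) :
    z ∈ (R.sys b).L ↔ ∃ h : ℤ × ℤ → ℤ, ∀ e : R.G.E, z.1 e = h (domBond (D := R.set) (cut := ∅) e).snd - h (domBond (D := R.set) (cut := ∅) e).1 := by
  classical
  constructor
  · intro hz
    obtain ⟨h', _, rfl⟩ := AddSubgroup.mem_map.1 hz
    refine ⟨fun v => if hv : v ∈ R.set then h' ⟨v, hv⟩ else 0, fun e => ?_⟩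
    have he := mem_bd.1 e.2
    have h1 : (domBond (D := R.set) (cut := ∅) e).snd ∈ R.set := he.2
    have h2 : (domBond (D := R.set) (cut := ∅) e).1 ∈ R.set := he.1
    simp only [dif_pos h1, dif_pos h2]
    rfl
  · rintro ⟨h, hh⟩
    refine AddSubgroup.mem_map.2 ⟨fun v => h v.1 - h R.o, ?_, ?_⟩
    · intro v hv
      have : v.1 = R.o := hv
      simp [this]
    · refine Prod.ext (funext fun e => ?_) (funext fun o => o.elim)
      rw [hh e]
      show (h (R.G.tgt e).1 - h R.o) - (h (R.G.src e).1 - h R.o) = _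
      have e1 : (R.G.tgt e).1 = (domBond (D := R.set) (cut := ∅) e).snd := rfl
      have e2 : (R.G.src e).1 = (domBond (D := R.set) (cut := ∅) e).1 := rfl
      rw [e1, e2]
      ring

/-- sums over the edges of the rectangle graph. -/
theorem fr_sum_E (R : Rc) (f : Bond → ℝ) :
    ∑ e : R.G.E, f (domBond (D := R.set) (cut := ∅) e) = ∑ e ∈ R.bd, f e :=
  Finset.sum_coe_sort R.bd f

theorem fr_flowX_apply (R : Rc) (b : ℝ) (w : Bond → ℝ) (z : (R.sys b).L) :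
    R.flowX b w z = ∑ e : R.G.E, 2 * Real.pi * w (domBond (D := R.set) (cut := ∅) e) * (((z : (R.sys b).Amb).1 e : ℤ) : ℝ) := rfl

/-- L-FR-R2. -/
theorem flowX_add (R : Rc) (b : ℝ) (w w' : Bond → ℝ) : R.flowX b (fun e => w e + w' e) = R.flowX b w + R.flowX b w' := by
  ext z
  rw [AddMonoidHom.add_apply, fr_flowX_apply, fr_flowX_apply, fr_flowX_apply, ← Finset.sum_add_distrib]
  exact Finset.sum_congr rfl fun e _ => by ring

/-- L-FR-R2. -/
theorem flowX_smul (R : Rc) (b : ℝ) (c : ℝ) (w : Bond → ℝ) : R.flowX b (fun e => c * w e) = c • R.flowX b w := by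
  ext z
  rw [AddMonoidHom.smul_apply, fr_flowX_apply, fr_flowX_apply, smul_eq_mul, Finset.mul_sum]
  exact Finset.sum_congr rfl fun e _ => by ring

/-- L-FR-R2. -/
theorem flowX_congr (R : Rc) (b : ℝ) {w w' : Bond → ℝ} (h : ∀ e ∈ R.bd, w e = w' e) : R.flowX b w = R.flowX b w' := by
  ext z
  rw [fr_flowX_apply, fr_flowX_apply]
  refine Finset.sum_congr rfl fun e _ => ?_
  rw [h (domBond (D := R.set) (cut := ∅) e) e.2]

/-- L-FR-R2.  Only the values of `g` on `R.set` matter, and constants drop out. -/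
theorem gradX_congr (R : Rc) (b : ℝ) {g g' : ℤ × ℤ → ℝ} (c : ℝ) (h : ∀ v ∈ R.set, g v = g' v + c) : R.gradX b g = R.gradX b g' := by
  refine flowX_congr R b fun e he => ?_
  unfold gd
  rw [h _ (mem_bd.1 he).1, h _ (mem_bd.1 he).2]
  ring

/-- L-FR-R2.  Summation by parts for flows. -/
theorem fr_flowX_lift (R : Rc) (b : ℝ) (w : Bond → ℝ) :
    R.law.Lift b (domFn (D := R.set) (cut := ∅) (R.dv w)) (R.flowX b w) := by
  classical
  intro h hh
  have h0 : R.flowX b w (⟨R.law.coordA b h, R.law.coordA_mem b hh⟩ : (R.sys b).L)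
      = ∑ e : R.G.E, 2 * Real.pi * w (domBond (D := R.set) (cut := ∅) e) * ((h (R.G.tgt e) - h (R.G.src e) : ℤ) : ℝ) := rfl
  refine h0.trans ?_
  have hdv : ∀ x : R.G.V, domFn (D := R.set) (cut := ∅) (R.dv w) x
      = ∑ e : R.G.E, w (domBond (D := R.set) (cut := ∅) e) *
        ((if R.G.tgt e = x then 1 else 0) - (if R.G.src e = x then 1 else 0)) := by
    intro x
    show R.dv w x.1 = _
    unfold Rc.dv
    rw [← fr_sum_E R fun e => w e * ((if e.snd = x.1 then 1 else 0) - (if e.1 = x.1 then 1 else 0))]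
    refine Finset.sum_congr rfl fun e _ => ?_
    have e1 : (R.G.tgt e = x) ↔ (domBond (D := R.set) (cut := ∅) e).snd = x.1 := by
      constructor
      · intro hx; rw [← hx]; rfl
      · intro hx; exact Subtype.ext hx
    have e2 : (R.G.src e = x) ↔ (domBond (D := R.set) (cut := ∅) e).1 = x.1 := by
      constructor
      · intro hx; rw [← hx]; rfl
      · intro hx; exact Subtype.ext hx
    simp only [e1, e2]
  simp only [hdv, Finset.sum_mul]
  rw [Finset.sum_comm]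
  refine Finset.sum_congr rfl fun e _ => ?_
  have : ∀ x : R.G.V, w (domBond (D := R.set) (cut := ∅) e) *
        ((if R.G.tgt e = x then 1 else 0) - (if R.G.src e = x then 1 else 0)) * (2 * Real.pi * (h x : ℝ))
      = (if R.G.tgt e = x then w (domBond (D := R.set) (cut := ∅) e) * (2 * Real.pi * (h x : ℝ)) else 0)
        - (if R.G.src e = x then w (domBond (D := R.set) (cut := ∅) e) * (2 * Real.pi * (h x : ℝ)) else 0) := by
    intro x
    split_ifs <;> ring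
  simp only [this, Finset.sum_sub_distrib, Finset.sum_ite_eq, Finset.mem_univ, if_true]
  push_cast
  ring

/-- Summation by parts (= `C2.gradX_lift`). -/
theorem fr_gradX_lift (R : Rc) (b : ℝ) (g : ℤ × ℤ → ℝ) :
    R.law.Lift b (domFn (D := R.set) (cut := ∅) (R.lap g)) (R.gradX b g) := fr_flowX_lift R b (gd g)

/-- L-FR-R2. -/
theorem cost_add_le (R : Rc) (w w' : Bond → ℝ) : R.cost (fun e => w e + w' e) ≤ 2 * R.cost w + 2 * R.cost w' := by
  unfold Rc.cost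
  rw [Finset.mul_sum, Finset.mul_sum, ← Finset.sum_add_distrib]
  exact Finset.sum_le_sum fun e _ => by nlinarith [sq_nonneg (w e - w' e)]

/-- L-FR-R2.  Minkowski for the finite sum. -/
theorem sqrt_cost_add_le (R : Rc) (w w' : Bond → ℝ) :
    Real.sqrt (R.cost fun e => w e + w' e) ≤ Real.sqrt (R.cost w) + Real.sqrt (R.cost w') := by
  unfold Rc.cost
  have hA : 0 ≤ ∑ e ∈ R.bd, w e ^ 2 := Finset.sum_nonneg fun e _ => sq_nonneg _
  have hB : 0 ≤ ∑ e ∈ R.bd, w' e ^ 2 := Finset.sum_nonneg fun e _ => sq_nonneg _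
  have hC := Finset.sum_mul_sq_le_sq_mul_sq R.bd w w'
  have hC' : ∑ e ∈ R.bd, w e * w' e ≤ Real.sqrt (∑ e ∈ R.bd, w e ^ 2) * Real.sqrt (∑ e ∈ R.bd, w' e ^ 2) := by
    rw [← Real.sqrt_mul hA]
    exact Real.le_sqrt_of_sq_le hC
  rw [Real.sqrt_le_iff]
  refine ⟨by positivity, ?_⟩
  have e : ∑ e ∈ R.bd, (w e + w' e) ^ 2 = ∑ e ∈ R.bd, w e ^ 2 + 2 * ∑ e ∈ R.bd, w e * w' e + ∑ e ∈ R.bd, w' e ^ 2 := by
    rw [Finset.mul_sum, ← Finset.sum_add_distrib, ← Finset.sum_add_distrib]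
    exact Finset.sum_congr rfl fun e _ => by ring
  rw [e, add_sq, Real.sq_sqrt hA, Real.sq_sqrt hB]
  linarith

/-! ## 2. Reference bounds, seminorm, Laplace rules -/

theorem fr_sum_sq (R : Rc) (w : Bond → ℝ) :
    ∑ e : R.G.E, (2 * Real.pi * w (domBond (D := R.set) (cut := ∅) e)) ^ 2 = 4 * Real.pi ^ 2 * R.cost w := by
  rw [fr_sum_E R fun e => (2 * Real.pi * w e) ^ 2]
  unfold Rc.cost
  rw [Finset.mul_sum]
  exact Finset.sum_congr rfl fun e _ => by ring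

/-- L-FR-R3. -/
theorem fr_var_ref (R : Rc) (b : ℝ) (hb : 0 < b) (w : Bond → ℝ) : R.var b w ≤ 4 * Real.pi ^ 2 * b * R.cost w := by
  have h := fr_ref_var (R.sys b) (fr_ok R b hb) b (fun _ => le_rfl)
    (fun e => 2 * Real.pi * w (domBond (D := R.set) (cut := ∅) e))
  have h2 := fr_sum_sq R w
  have h3 : ∑ e : (R.sys b).E, (2 * Real.pi * w (domBond (D := R.set) (cut := ∅) e)) ^ 2 = 4 * Real.pi ^ 2 * R.cost w := h2
  rw [h3] at h
  calc R.var b w ≤ b * (4 * Real.pi ^ 2 * R.cost w) := h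
    _ = _ := by ring

theorem fr_mgf_pos (R : Rc) (b : ℝ) (hb : 0 < b) (X : (R.sys b).L →+ ℝ) : 0 < (R.sys b).E0 fun z => Real.exp (X z) := by
  rw [rd_E0_exp]
  exact div_pos (lsys_pos _ (fr_ok R b hb) 0 X) (rd_w_pos (fr_ok R b hb) 0)

/-- L-FR-R3.  `lsys_reference`. -/
theorem fr_lmgf_ref (R : Rc) (b : ℝ) (hb : 0 < b) (w : Bond → ℝ) :
    R.lmgf b w ≤ ∑ e ∈ R.bd, b * (Real.cosh (2 * Real.pi * w e) - 1) := by
  have h := lsys_reference (R.sys b) (fr_ok R b hb) (fun e => 2 * Real.pi * w (domBond (D := R.set) (cut := ∅) e))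
  have h2 : ∑ e : (R.sys b).E, (R.sys b).b e * (Real.cosh (2 * Real.pi * w (domBond (D := R.set) (cut := ∅) e)) - 1)
      = ∑ e ∈ R.bd, b * (Real.cosh (2 * Real.pi * w e) - 1) :=
    fr_sum_E R fun e => b * (Real.cosh (2 * Real.pi * w e) - 1)
  rw [h2] at h
  unfold Rc.lmgf
  rw [Real.log_le_iff_le_exp (fr_mgf_pos R b hb _)]
  exact h

theorem fr_var_nonneg (R : Rc) (b : ℝ) (hb : 0 < b) (w : Bond → ℝ) : 0 ≤ R.var b w := rd_V0_nonneg (fr_ok R b hb) _

/-- L-FR-R3.  `sqrt_var_add_le`, `flowX_add`. -/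
theorem fr_sqrt_var_add (R : Rc) (b : ℝ) (hb : 0 < b) (w w' : Bond → ℝ) :
    Real.sqrt (R.var b fun e => w e + w' e) ≤ Real.sqrt (R.var b w) + Real.sqrt (R.var b w') := by
  unfold Rc.var
  rw [flowX_add]
  exact sqrt_var_add_le _ (fr_ok R b hb) _ _

/-- L-FR-R3.  `rd_V0_smul`, `flowX_smul`. -/
theorem fr_var_smul (R : Rc) (b : ℝ) (c : ℝ) (w : Bond → ℝ) : R.var b (fun e => c * w e) = c ^ 2 * R.var b w := by
  unfold Rc.var
  rw [flowX_smul, rd_V0_smul]

/-- L-FR-R3.  `lsys_laplace_lower`. -/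
theorem fr_lmgf_lower (R : Rc) (b : ℝ) (hb : 0 < b) (w : Bond → ℝ) : R.var b w / 2 ≤ R.lmgf b w :=
  lsys_laplace_lower _ (fr_ok R b hb) _

/-- L-FR-R3.  `mgf_holder`, `flowX_add`, `flowX_smul`. -/
theorem fr_holder (R : Rc) (b : ℝ) (hb : 0 < b) (w w' : Bond → ℝ) (p q : ℝ) (hpq : p.HolderConjugate q) :
    R.lmgf b (fun e => w e + w' e) ≤ p⁻¹ * R.lmgf b (fun e => p * w e) + q⁻¹ * R.lmgf b (fun e => q * w' e) := by
  unfold Rc.lmgf
  rw [flowX_add, flowX_smul, flowX_smul]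
  exact mgf_holder _ (fr_ok R b hb) _ _ p q hpq

/-- L-FR-R3.  `lmgf_quartic` (`t_e = 2π w_e`). -/
theorem fr_lmgf_quartic (β B : ℝ) : ∃ C : ℝ, ∀ (R : Rc) (b : ℝ), 0 < b → b ≤ β → ∀ w : Bond → ℝ, R.cost w ≤ B →
    R.lmgf b w ≤ R.var b w / 2 + C * R.cost w ^ 2 := by
  obtain ⟨C, hC⟩ := lmgf_quartic β (4 * Real.pi ^ 2 * B)
  refine ⟨C * (4 * Real.pi ^ 2) ^ 2, fun R b hb hbβ w hw => ?_⟩
  have h3 : ∑ e : (R.sys b).E, (2 * Real.pi * w (domBond (D := R.set) (cut := ∅) e)) ^ 2 = 4 * Real.pi ^ 2 * R.cost w :=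
    fr_sum_sq R w
  have h := hC (R.sys b) (fr_ok R b hb) (fun _ => hbβ) (fun e => 2 * Real.pi * w (domBond (D := R.set) (cut := ∅) e))
    (by rw [h3]; exact mul_le_mul_of_nonneg_left hw (by positivity))
  rw [h3] at h
  calc R.lmgf b w ≤ R.var b w / 2 + C * (4 * Real.pi ^ 2 * R.cost w) ^ 2 := h
    _ = _ := by ring

/-! ## 3. Cutting -/

theorem fr_bd_mono {Q R : Rc} (h : Q.set ⊆ R.set) : Q.bd ⊆ R.bd := fun _ he =>
  mem_bd.2 ⟨h (mem_bd.1 he).1, h (mem_bd.1 he).2⟩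

/-- the embedding of the bonds of the pieces. -/
def frCutE (R : Rc) {ι : Type} (Q : ι → Rc) (hsub : ∀ i, (Q i).set ⊆ R.set)
    (hdis : ∀ i j, i ≠ j → Disjoint (Q i).bd (Q j).bd) : (Σ i, (Q i).G.E) ↪ R.G.E where
  toFun x := ⟨domBond (D := (Q x.1).set) (cut := ∅) x.2, fr_bd_mono (hsub x.1) x.2.2⟩
  inj' := by
    rintro ⟨i, e⟩ ⟨j, e'⟩ h
    have h1 : domBond (D := (Q i).set) (cut := ∅) e = domBond (D := (Q j).set) (cut := ∅) e' := congrArg Subtype.val h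
    have hij : i = j := by
      by_contra hne
      have h2 : domBond (D := (Q i).set) (cut := ∅) e ∈ (Q j).bd := h1 ▸ e'.2
      exact Finset.disjoint_left.1 (hdis i j hne) e.2 h2
    subst hij
    have : e = e' := Subtype.ext h1
    rw [this]

/-- the refinement "pieces → rectangle". -/
def frCutRef (R : Rc) (b : ℝ) {ι : Type} [Fintype ι] (Q : ι → Rc) (hsub : ∀ i, (Q i).set ⊆ R.set)
    (hdis : ∀ i j, i ≠ j → Disjoint (Q i).bd (Q j).bd) : LSys.Ref (pi fun i => (Q i).sys b) (R.sys b) where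
  iE := frCutE R Q hsub hdis
  iO := ⟨fun x => x.2.elim, fun x => x.2.elim⟩
  hb := fun _ => rfl
  map_mem := by
    intro z hz i
    obtain ⟨h, hh⟩ := (fr_mem_L R b z).1 hz
    exact (fr_mem_L (Q i) b _).2 ⟨h, fun e => hh (frCutE R Q hsub hdis ⟨i, e⟩)⟩

/-- L-FR-R4.  **The refinement "cells → rectangle"**, for BOND-disjoint pieces (helper200: seam bonds are two-site rectangles, so a partition of ALL bonds of `R` is allowed).
`iE ⟨i, e⟩ := e` as a bond of `R` (`mem_bd`, `hsub`; injective by `hdis`), `iO` from the empty type, `hb` by `rfl`,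
`map_mem`: the restriction of a gradient is a gradient (`fr_mem_L`).  The identity of the tests: `Finset.sum` over `R.G.E` split by `hw` (`Fintype.sum_sigma`, `Finset.sum_subtype`). -/
theorem fr_cut_ref' (R : Rc) (b : ℝ) {ι : Type} [Fintype ι] (Q : ι → Rc) (hsub : ∀ i, (Q i).set ⊆ R.set)
    (hdis : ∀ i j, i ≠ j → Disjoint (Q i).bd (Q j).bd) :
    ∃ r : LSys.Ref (pi fun i => (Q i).sys b) (R.sys b), ∀ w : Bond → ℝ, (∀ e ∈ R.bd, (∀ i, e ∉ (Q i).bd) → w e = 0) →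
      (∑ i, ((Q i).flowX b w).comp (piPr (fun i => (Q i).sys b) i)).comp r.psi = R.flowX b w := by
  classical
  refine ⟨frCutRef R b Q hsub hdis, ?_⟩
  intro w hw
  ext z
  rw [fr_flowX_apply]
  simp only [AddMonoidHom.comp_apply, AddMonoidHom.finsetSum_apply]
  have h1 : ∀ i, (Q i).flowX b w (piPr (fun i => (Q i).sys b) i ((frCutRef R b Q hsub hdis).psi z))
      = ∑ e : (Q i).G.E, 2 * Real.pi * w (domBond (D := R.set) (cut := ∅) (frCutE R Q hsub hdis ⟨i, e⟩)) *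
        (((z : (R.sys b).Amb).1 (frCutE R Q hsub hdis ⟨i, e⟩) : ℤ) : ℝ) := fun i => rfl
  simp only [h1]
  rw [← Fintype.sum_sigma' (fun i (e : (Q i).G.E) => 2 * Real.pi * w (domBond (D := R.set) (cut := ∅) (frCutE R Q hsub hdis ⟨i, e⟩)) *
        (((z : (R.sys b).Amb).1 (frCutE R Q hsub hdis ⟨i, e⟩) : ℤ) : ℝ))]
  refine Fintype.sum_of_injective (frCutE R Q hsub hdis) (frCutE R Q hsub hdis).injective _ _ ?_ fun _ => rfl
  intro e he
  have : w (domBond (D := R.set) (cut := ∅) e) = 0 := by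
    refine hw _ e.2 fun i hi => he ⟨⟨i, ⟨_, hi⟩⟩, ?_⟩
    exact Subtype.ext rfl
  rw [this]
  ring

/-- vertex-disjoint pieces -/
theorem fr_cut_ref (R : Rc) (b : ℝ) {ι : Type} [Fintype ι] (Q : ι → Rc) (hsub : ∀ i, (Q i).set ⊆ R.set)
    (hdis : ∀ i j, i ≠ j → Disjoint (Q i).set (Q j).set) :
    ∃ r : LSys.Ref (pi fun i => (Q i).sys b) (R.sys b), ∀ w : Bond → ℝ, (∀ e ∈ R.bd, (∀ i, e ∉ (Q i).bd) → w e = 0) →
      (∑ i, ((Q i).flowX b w).comp (piPr (fun i => (Q i).sys b) i)).comp r.psi = R.flowX b w :=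
  fr_cut_ref' R b Q hsub fun i j hij => Finset.disjoint_left.2 fun _ h1 h2 =>
    Finset.disjoint_left.1 (hdis i j hij) (mem_bd.1 h1).1 (mem_bd.1 h2).1

/-- L-FR-R5.  **Cutting increases variances** ([B]L2.1 + independence of the cells): `fr_cut_ref`, `lsys_var_mono`, `pi_var`, `pi_ok`, `fr_ok`. -/
theorem fr_cut_var (R : Rc) (b : ℝ) (hb : 0 < b) {ι : Type} [Fintype ι] (Q : ι → Rc) (hsub : ∀ i, (Q i).set ⊆ R.set)
    (hdis : ∀ i j, i ≠ j → Disjoint (Q i).set (Q j).set) (w : Bond → ℝ) (hw : ∀ e ∈ R.bd, (∀ i, e ∉ (Q i).bd) → w e = 0) :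
    R.var b w ≤ ∑ i, (Q i).var b w := by
  obtain ⟨r, hr⟩ := fr_cut_ref R b Q hsub hdis
  have hok : ∀ i, ((Q i).sys b).Ok := fun i => fr_ok (Q i) b hb
  have h := lsys_var_mono r (pi_ok _ hok) (fr_ok R b hb)
    (∑ i, ((Q i).flowX b w).comp (piPr (fun i => (Q i).sys b) i))
  rw [hr w hw, pi_var _ hok] at h
  exact h

/-- L-FR-R5.  `fr_cut_ref`, `lsys_mgf_mono`, `pi_mgf`, `Real.log_prod`, positivity of the transforms (`lsys_pos`, `rd_E0_exp`). -/
theorem fr_cut_lmgf (R : Rc) (b : ℝ) (hb : 0 < b) {ι : Type} [Fintype ι] (Q : ι → Rc) (hsub : ∀ i, (Q i).set ⊆ R.set)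
    (hdis : ∀ i j, i ≠ j → Disjoint (Q i).set (Q j).set) (w : Bond → ℝ) (hw : ∀ e ∈ R.bd, (∀ i, e ∉ (Q i).bd) → w e = 0) :
    R.lmgf b w ≤ ∑ i, (Q i).lmgf b w := by
  obtain ⟨r, hr⟩ := fr_cut_ref R b Q hsub hdis
  have hok : ∀ i, ((Q i).sys b).Ok := fun i => fr_ok (Q i) b hb
  have h := lsys_mgf_mono r (pi_ok _ hok) (fr_ok R b hb)
    (∑ i, ((Q i).flowX b w).comp (piPr (fun i => (Q i).sys b) i))
  have e1 : (fun z : (R.sys b).L => Real.exp ((∑ i, ((Q i).flowX b w).comp (piPr (fun i => (Q i).sys b) i)) (r.psi z)))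
      = fun z => Real.exp (R.flowX b w z) := by
    funext z
    rw [← hr w hw]
    rfl
  have e2 : (fun z : (pi fun i => (Q i).sys b).L =>
      Real.exp ((∑ i, ((Q i).flowX b w).comp (piPr (fun i => (Q i).sys b) i)) z))
      = fun z => Real.exp (∑ i, (Q i).flowX b w (piPr (fun i => (Q i).sys b) i z)) := by
    funext z
    simp only [AddMonoidHom.finsetSum_apply, AddMonoidHom.comp_apply]
  rw [e1, e2, pi_mgf _ hok] at h
  unfold Rc.lmgf
  rw [← Real.log_prod (fun i _ => (fr_mgf_pos (Q i) b hb _).ne')]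
  exact Real.log_le_log (fr_mgf_pos R b hb _) h

/-- L-FR-R5.  `fr_cut_ref`, `lsys_phi_mono`, `pi_phi`. -/
theorem fr_cut_phi (R : Rc) (b : ℝ) (hb : 0 < b) {ι : Type} [Fintype ι] (Q : ι → Rc) (hsub : ∀ i, (Q i).set ⊆ R.set)
    (hdis : ∀ i j, i ≠ j → Disjoint (Q i).set (Q j).set) (w : Bond → ℝ) (hw : ∀ e ∈ R.bd, (∀ i, e ∉ (Q i).bd) → w e = 0) :
    ∏ i, ((Q i).sys b).phi ((Q i).flowX b w) ≤ (R.sys b).phi (R.flowX b w) := by
  obtain ⟨r, hr⟩ := fr_cut_ref R b Q hsub hdis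
  have hok : ∀ i, ((Q i).sys b).Ok := fun i => fr_ok (Q i) b hb
  have h := lsys_phi_mono r (pi_ok _ hok) (fr_ok R b hb)
    (∑ i, ((Q i).flowX b w).comp (piPr (fun i => (Q i).sys b) i))
  rw [hr w hw, pi_phi _ hok] at h
  exact h

/-- **cut + seam**: the form in which cutting is used.  `w = w 1_{∪ bd (Q i)} + w 1_{rest}`: `fr_sqrt_var_add`, `fr_cut_var`, `fr_var_ref`, `flowX_congr`.   L-FR-R5. -/
theorem fr_cut_seam (R : Rc) (b : ℝ) (hb : 0 < b) {ι : Type} [Fintype ι] (Q : ι → Rc) (hsub : ∀ i, (Q i).set ⊆ R.set)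
    (hdis : ∀ i j, i ≠ j → Disjoint (Q i).set (Q j).set) (w : Bond → ℝ) :
    Real.sqrt (R.var b w) ≤ Real.sqrt (∑ i, (Q i).var b w)
      + Real.sqrt (4 * Real.pi ^ 2 * b * ∑ e ∈ R.bd.filter (fun e => ∀ i, e ∉ (Q i).bd), w e ^ 2) := by
  classical
  obtain ⟨w1, hw1⟩ : ∃ w1 : Bond → ℝ, w1 = fun e => if ∀ i, e ∉ (Q i).bd then 0 else w e := ⟨_, rfl⟩
  obtain ⟨w2, hw2⟩ : ∃ w2 : Bond → ℝ, w2 = fun e => if ∀ i, e ∉ (Q i).bd then w e else 0 := ⟨_, rfl⟩
  have hsum : w = fun e => w1 e + w2 e := by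
    funext e
    rw [hw1, hw2]
    by_cases h : ∀ i, e ∉ (Q i).bd <;> simp [h]
  have h1 : R.var b w1 ≤ ∑ i, (Q i).var b w := by
    refine (fr_cut_var R b hb Q hsub hdis w1 fun e _ he => by rw [hw1]; simp [he]).trans (le_of_eq ?_)
    refine Finset.sum_congr rfl fun i _ => ?_
    unfold Rc.var
    rw [flowX_congr (Q i) b (w := w1) (w' := w)]
    intro e he
    rw [hw1]
    have : ¬ ∀ i, e ∉ (Q i).bd := fun h => h i he
    simp [this]
  have h2 : R.var b w2 ≤ 4 * Real.pi ^ 2 * b * ∑ e ∈ R.bd.filter (fun e => ∀ i, e ∉ (Q i).bd), w e ^ 2 := by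
    refine (fr_var_ref R b hb w2).trans (le_of_eq ?_)
    congr 1
    unfold Rc.cost
    rw [Finset.sum_filter]
    refine Finset.sum_congr rfl fun e _ => ?_
    rw [hw2]
    by_cases h : ∀ i, e ∉ (Q i).bd <;> simp [h]
  calc Real.sqrt (R.var b w) = Real.sqrt (R.var b fun e => w1 e + w2 e) := by rw [← hsum]
    _ ≤ Real.sqrt (R.var b w1) + Real.sqrt (R.var b w2) := fr_sqrt_var_add R b hb w1 w2
    _ ≤ _ := add_le_add (Real.sqrt_le_sqrt h1) (Real.sqrt_le_sqrt h2)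

/-! ## 4. Symmetries -/

/-- nearest neighbours -/
def Adj (x y : ℤ × ℤ) : Prop := |x.1 - y.1| + |x.2 - y.2| = 1

/-- automorphisms of the lattice -/
def LatIso (σ : ℤ × ℤ ≃ ℤ × ℤ) : Prop := ∀ x y, Adj x y ↔ Adj (σ x) (σ y)

/-- the bond with end points `x`, `y` -/
def frMk (x y : ℤ × ℤ) : Bond :=
  if y = (x.1 + 1, x.2) then (x, true) else if y = (x.1, x.2 + 1) then (x, false)
  else if x = (y.1 + 1, y.2) then (y, true) else (y, false)

/-- its orientation -/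
def frSg (x y : ℤ × ℤ) : ℤ := if y = (x.1 + 1, x.2) ∨ y = (x.1, x.2 + 1) then 1 else -1

theorem fr_adj_cases {x y : ℤ × ℤ} (h : Adj x y) :
    y = (x.1 + 1, x.2) ∨ y = (x.1, x.2 + 1) ∨ x = (y.1 + 1, y.2) ∨ x = (y.1, y.2 + 1) := by
  obtain ⟨x1, x2⟩ := x
  obtain ⟨y1, y2⟩ := y
  simp only [Adj, Prod.mk.injEq] at *
  rcases abs_cases (x1 - y1) with ⟨h1, _⟩ | ⟨h1, _⟩ <;> rcases abs_cases (x2 - y2) with ⟨h2, _⟩ | ⟨h2, _⟩ <;> omega

theorem fr_adj_bond (e : Bond) : Adj e.1 e.snd := by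
  obtain ⟨⟨a, c⟩, d⟩ := e
  cases d <;> simp [Adj, Bond.snd]

theorem frMk_spec {x y : ℤ × ℤ} (h : Adj x y) :
    (frSg x y = 1 ∧ (frMk x y).1 = x ∧ (frMk x y).snd = y) ∨ (frSg x y = -1 ∧ (frMk x y).1 = y ∧ (frMk x y).snd = x) := by
  obtain ⟨x1, x2⟩ := x
  obtain ⟨y1, y2⟩ := y
  have h' := fr_adj_cases h
  simp only [Prod.mk.injEq] at h'
  unfold frSg frMk
  simp only [Prod.mk.injEq]
  by_cases c1 : y1 = x1 + 1 ∧ y2 = x2
  · left
    rw [if_pos (Or.inl c1), if_pos c1]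
    simp [Bond.snd, c1.1, c1.2]
  by_cases c2 : y1 = x1 ∧ y2 = x2 + 1
  · left
    rw [if_pos (Or.inr c2), if_neg c1, if_pos c2]
    simp [Bond.snd, c2.1, c2.2]
  right
  rw [if_neg (by tauto), if_neg c1, if_neg c2]
  by_cases c3 : x1 = y1 + 1 ∧ x2 = y2
  · rw [if_pos c3]
    simp [Bond.snd, c3.1, c3.2]
  · have c4 : x1 = y1 ∧ x2 = y2 + 1 := by tauto
    rw [if_neg c3]
    simp [Bond.snd, c4.1, c4.2]

theorem frMk_bond (e : Bond) : frMk e.1 e.snd = e := by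
  obtain ⟨⟨a, c⟩, d⟩ := e
  cases d <;> simp [frMk, Bond.snd]

theorem frMk_bond' (e : Bond) : frMk e.snd e.1 = e := by
  obtain ⟨⟨a, c⟩, d⟩ := e
  cases d <;> simp [frMk, Bond.snd] <;> omega

theorem frSg_bond (e : Bond) : frSg e.1 e.snd = 1 := by
  obtain ⟨⟨a, c⟩, d⟩ := e
  cases d <;> simp [frSg, Bond.snd]

theorem frSg_cases (x y : ℤ × ℤ) : frSg x y = 1 ∨ frSg x y = -1 := by
  unfold frSg
  split_ifs
  · exact Or.inl rfl
  · exact Or.inr rfl

/-- sign times reversed gradient = gradient -/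
theorem frMk_grad {α : Type*} [Ring α] {x y : ℤ × ℤ} (h : Adj x y) (f : ℤ × ℤ → α) :
    (frSg x y : α) * (f (frMk x y).snd - f (frMk x y).1) = f y - f x := by
  rcases frMk_spec h with ⟨h1, h2, h3⟩ | ⟨h1, h2, h3⟩
  · rw [h1, h2, h3]; simp
  · rw [h1, h2, h3]; simp

/-- the image of a bond under a lattice symmetry -/
def frB (σ : ℤ × ℤ ≃ ℤ × ℤ) (e : Bond) : Bond := frMk (σ e.1) (σ e.snd)

theorem frB_adj {σ : ℤ × ℤ ≃ ℤ × ℤ} (hσ : LatIso σ) (e : Bond) : Adj (σ e.1) (σ e.snd) := (hσ _ _).1 (fr_adj_bond e)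

theorem latIso_symm {σ : ℤ × ℤ ≃ ℤ × ℤ} (hσ : LatIso σ) : LatIso σ.symm := by
  intro x y
  rw [hσ (σ.symm x) (σ.symm y), Equiv.apply_symm_apply, Equiv.apply_symm_apply]

theorem frB_symm {σ : ℤ × ℤ ≃ ℤ × ℤ} (hσ : LatIso σ) (e : Bond) : frB σ.symm (frB σ e) = e := by
  unfold frB
  rcases frMk_spec (frB_adj hσ e) with ⟨_, h2, h3⟩ | ⟨_, h2, h3⟩
  · rw [h2, h3, Equiv.symm_apply_apply, Equiv.symm_apply_apply, frMk_bond]
  · rw [h2, h3, Equiv.symm_apply_apply, Equiv.symm_apply_apply, frMk_bond']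

theorem frB_mem {σ : ℤ × ℤ ≃ ℤ × ℤ} (hσ : LatIso σ) {R R' : Rc} (hR : ∀ v, v ∈ R'.set ↔ σ.symm v ∈ R.set) {e : Bond}
    (he : e ∈ R.bd) : frB σ e ∈ R'.bd := by
  rw [mem_bd] at he ⊢
  have a1 : σ e.1 ∈ R'.set := by rw [hR, Equiv.symm_apply_apply]; exact he.1
  have a2 : σ e.snd ∈ R'.set := by rw [hR, Equiv.symm_apply_apply]; exact he.2
  unfold frB
  rcases frMk_spec (frB_adj hσ e) with ⟨_, h2, h3⟩ | ⟨_, h2, h3⟩
  · rw [h2, h3]; exact ⟨a1, a2⟩
  · rw [h2, h3]; exact ⟨a2, a1⟩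

theorem fr_hR_symm {σ : ℤ × ℤ ≃ ℤ × ℤ} {R R' : Rc} (hR : ∀ v, v ∈ R'.set ↔ σ.symm v ∈ R.set) :
    ∀ v, v ∈ R.set ↔ σ.symm.symm v ∈ R'.set := by
  intro v
  rw [hR, Equiv.symm_symm, Equiv.symm_apply_apply]

theorem fr_domBond_mem {R : Rc} (e : R.G.E) : domBond (D := R.set) (cut := ∅) e ∈ R.bd := e.2

/-- a bond of `R` as an edge -/
def frEd {R : Rc} (e : Bond) (he : e ∈ R.bd) : R.G.E := ⟨e, he⟩

theorem fr_domBond_ed {R : Rc} (e : Bond) (he : e ∈ R.bd) : domBond (D := R.set) (cut := ∅) (frEd e he) = e := rfl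

theorem fr_domBond_inj {R : Rc} {e e' : R.G.E} (h : domBond (D := R.set) (cut := ∅) e = domBond (D := R.set) (cut := ∅) e') :
    e = e' := Subtype.ext h

/-- the bijection of the bonds -/
def frE (σ : ℤ × ℤ ≃ ℤ × ℤ) (hσ : LatIso σ) (R R' : Rc) (hR : ∀ v, v ∈ R'.set ↔ σ.symm v ∈ R.set) :
    R.G.E ≃ R'.G.E where
  toFun e := frEd (frB σ (domBond (D := R.set) (cut := ∅) e)) (frB_mem hσ hR (fr_domBond_mem e))
  invFun e := frEd (frB σ.symm (domBond (D := R'.set) (cut := ∅) e)) (frB_mem (latIso_symm hσ) (fr_hR_symm hR) (fr_domBond_mem e))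
  left_inv e := fr_domBond_inj (by
    rw [fr_domBond_ed, fr_domBond_ed]
    exact frB_symm hσ _)
  right_inv e := fr_domBond_inj (by
    rw [fr_domBond_ed, fr_domBond_ed]
    have := frB_symm (latIso_symm hσ) (domBond (D := R'.set) (cut := ∅) e)
    rwa [Equiv.symm_symm] at this)

theorem frE_bond (σ : ℤ × ℤ ≃ ℤ × ℤ) (hσ : LatIso σ) (R R' : Rc) (hR : ∀ v, v ∈ R'.set ↔ σ.symm v ∈ R.set) (e : R.G.E) :
    domBond (D := R'.set) (cut := ∅) (frE σ hσ R R' hR e) = frB σ (domBond (D := R.set) (cut := ∅) e) := rfl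

theorem frB_grad {α : Type*} [Ring α] {σ : ℤ × ℤ ≃ ℤ × ℤ} (hσ : LatIso σ) (e : Bond) (f : ℤ × ℤ → α) :
    (frSg (σ e.1) (σ e.snd) : α) * (f (σ.symm (frB σ e).snd) - f (σ.symm (frB σ e).1)) = f e.snd - f e.1 := by
  have := frMk_grad (frB_adj hσ e) (fun v => f (σ.symm v))
  simpa [frB] using this

theorem frB_grad' {α : Type*} [Ring α] {σ : ℤ × ℤ ≃ ℤ × ℤ} (hσ : LatIso σ) (e : Bond) (f : ℤ × ℤ → α) :
    (frSg (σ e.1) (σ e.snd) : α) * (f e.snd - f e.1) = f (σ.symm (frB σ e).snd) - f (σ.symm (frB σ e).1) := by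
  rw [← frB_grad hσ e f, ← mul_assoc]
  rcases frSg_cases (σ e.1) (σ e.snd) with h | h <;> simp [h]

/-- the relabelling of a lattice symmetry -/
def frI (σ : ℤ × ℤ ≃ ℤ × ℤ) (hσ : LatIso σ) (R R' : Rc) (hR : ∀ v, v ∈ R'.set ↔ σ.symm v ∈ R.set) (b : ℝ) :
    SIso (R.sys b) (R'.sys b) where
  eE := frE σ hσ R R' hR
  eO := Equiv.refl Empty
  sE := fun e => frSg (σ (domBond (D := R.set) (cut := ∅) e).1) (σ (domBond (D := R.set) (cut := ∅) e).snd)
  sO := fun _ => 1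
  hsE := fun e => frSg_cases _ _
  hsO := fun _ => Or.inl rfl
  hb := fun _ => rfl
  mem := by
    intro z
    rw [fr_mem_L, fr_mem_L]
    constructor
    · rintro ⟨h, hh⟩
      refine ⟨fun v => h (σ.symm v), fun e' => ?_⟩
      obtain ⟨e, rfl⟩ := (frE σ hσ R R' hR).surjective e'
      have h1 := frB_grad' hσ (domBond (D := R.set) (cut := ∅) e) h
      rw [Int.cast_id] at h1
      have e1 : (frE σ hσ R R' hR).symm ((frE σ hσ R R' hR) e) = e := Equiv.symm_apply_apply _ _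
      simp only [frE_bond]
      erw [e1, hh e]
      exact h1
    · rintro ⟨h, hh⟩
      refine ⟨fun v => h (σ v), fun e => ?_⟩
      have h1 := hh (frE σ hσ R R' hR e)
      have e1 : (frE σ hσ R R' hR).symm ((frE σ hσ R R' hR) e) = e := Equiv.symm_apply_apply _ _
      simp only [frE_bond] at h1
      erw [e1] at h1
      have h2 := frMk_grad (frB_adj hσ (domBond (D := R.set) (cut := ∅) e)) h
      rw [Int.cast_id] at h2
      unfold frB at h1
      rw [← h1, ← mul_assoc] at h2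
      rcases frSg_cases (σ (domBond (D := R.set) (cut := ∅) e).1) (σ (domBond (D := R.set) (cut := ∅) e).snd) with h4 | h4
      · rw [h4] at h2
        simpa using h2
      · rw [h4] at h2
        simpa using h2

theorem frI_map (σ : ℤ × ℤ ≃ ℤ × ℤ) (hσ : LatIso σ) (R R' : Rc) (hR : ∀ v, v ∈ R'.set ↔ σ.symm v ∈ R.set) (b : ℝ)
    (z : (R.sys b).Amb) (e : R.G.E) :
    ((frI σ hσ R R' hR b).map z).1 (frE σ hσ R R' hR e)
      = frSg (σ (domBond (D := R.set) (cut := ∅) e).1) (σ (domBond (D := R.set) (cut := ∅) e).snd) * z.1 e := by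
  have e1 : (frE σ hσ R R' hR).symm ((frE σ hσ R R' hR) e) = e := Equiv.symm_apply_apply _ _
  show frSg (σ (domBond (D := R.set) (cut := ∅) ((frE σ hσ R R' hR).symm ((frE σ hσ R R' hR) e))).1)
      (σ (domBond (D := R.set) (cut := ∅) ((frE σ hσ R R' hR).symm ((frE σ hσ R R' hR) e))).snd)
      * z.1 ((frE σ hσ R R' hR).symm ((frE σ hσ R R' hR) e)) = _
  rw [e1]

/-- L-FR-R6.  **The relabelling of a lattice symmetry** (exposed for `R285/Phase`, helper200).  The bond `e` of `R` goes to the bond of `R'` with end points `{σ e.1, σ e.snd}`, sign `+1` if `σ e.1` is its first end point and `-1` otherwise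
(`Adj x y ↔ ∃ d, y = (x,d).snd ∨ x = (y,d).snd`); `mem` by `fr_mem_L` (`h ↦ h ∘ σ.symm`).  The gradient of `h` goes to the gradient of `h ∘ σ.symm`. -/
theorem fr_siso (σ : ℤ × ℤ ≃ ℤ × ℤ) (hσ : LatIso σ) (R R' : Rc) (hR : ∀ v, v ∈ R'.set ↔ σ.symm v ∈ R.set) (b : ℝ) :
    ∃ i : SIso (R.sys b) (R'.sys b), ∀ (z : (R.sys b).Amb) (h : ℤ × ℤ → ℤ),
      (∀ e : R.G.E, z.1 e = h (domBond (D := R.set) (cut := ∅) e).snd - h (domBond (D := R.set) (cut := ∅) e).1) →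
      ∀ e' : R'.G.E, (i.map z).1 e' =
        h (σ.symm (domBond (D := R'.set) (cut := ∅) e').snd) - h (σ.symm (domBond (D := R'.set) (cut := ∅) e').1) := by
  refine ⟨frI σ hσ R R' hR b, fun z h hh e' => ?_⟩
  obtain ⟨e, rfl⟩ := (frE σ hσ R R' hR).surjective e'
  have h1 := frB_grad' hσ (domBond (D := R.set) (cut := ∅) e) h
  rw [Int.cast_id] at h1
  rw [frI_map, hh e, frE_bond]
  exact h1

/-- flow tests under the relabelling -/
theorem frI_flowX (σ : ℤ × ℤ ≃ ℤ × ℤ) (hσ : LatIso σ) (R R' : Rc) (hR : ∀ v, v ∈ R'.set ↔ σ.symm v ∈ R.set) (b : ℝ)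
    (w w' : Bond → ℝ) (hw : ∀ e ∈ R.bd, (frSg (σ e.1) (σ e.snd) : ℝ) * w' (frB σ e) = w e) (z : (R.sys b).L) :
    R'.flowX b w' ((frI σ hσ R R' hR b).mapL z) = R.flowX b w z := by
  show ∑ e' : R'.G.E, 2 * Real.pi * w' (domBond (D := R'.set) (cut := ∅) e') * ((((frI σ hσ R R' hR b).map z).1 e' : ℤ) : ℝ)
    = ∑ e : R.G.E, 2 * Real.pi * w (domBond (D := R.set) (cut := ∅) e) * (((z : (R.sys b).Amb).1 e : ℤ) : ℝ)
  refine (Fintype.sum_equiv (frE σ hσ R R' hR) _ _ fun e => ?_).symm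
  rw [frI_map, frE_bond, ← hw _ (fr_domBond_mem e)]
  push_cast
  ring

/-- L-FR-R6.  **Invariance of the law.**  `fr_siso`, `siso_E0`; the gradient test is transported because both sides are the vertex test of `h` against `R.lap g` (`fr_gradX_lift`, `fr_mem_L`), or directly: sign × reversed gradient = gradient. -/
theorem fr_sym (σ : ℤ × ℤ ≃ ℤ × ℤ) (hσ : LatIso σ) (R R' : Rc) (hR : ∀ v, v ∈ R'.set ↔ σ.symm v ∈ R.set) (b : ℝ)
    (g : ℤ × ℤ → ℝ) (F : ℝ → ℝ) :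
    (R'.sys b).E0 (fun z => F (R'.gradX b (fun v => g (σ.symm v)) z)) = (R.sys b).E0 fun z => F (R.gradX b g z) := by
  rw [siso_E0 (frI σ hσ R R' hR b)]
  congr 1
  funext z
  congr 1
  exact frI_flowX σ hσ R R' hR b (gd g) (gd fun v => g (σ.symm v)) (fun e _ => frB_grad hσ e g) z

/-- L-FR-R6.  `fr_sym` with `F = (·)²`, `rd_V0_eq`. -/
theorem fr_sym_var (σ : ℤ × ℤ ≃ ℤ × ℤ) (hσ : LatIso σ) (R R' : Rc) (hR : ∀ v, v ∈ R'.set ↔ σ.symm v ∈ R.set) (b : ℝ)
    (g : ℤ × ℤ → ℝ) : R'.var b (gd fun v => g (σ.symm v)) = R.var b (gd g) := by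
  unfold Rc.var
  rw [rd_V0_eq, rd_V0_eq]
  exact fr_sym σ hσ R R' hR b g (fun t => t ^ 2)

theorem latIso_addRight (u : ℤ × ℤ) : LatIso (Equiv.addRight u) := by
  intro x y
  simp [Adj]

/-- L-FR-R7.  Translations, for flows (= `C2.rc_translate`).  `SIso` with all signs `+1`. -/
theorem fr_translate (R : Rc) (u : ℤ × ℤ) (b : ℝ) (w : Bond → ℝ) (F : ℝ → ℝ) :
    ((Rc.mk (R.o + u) R.p R.q).sys b).E0 (fun z => F ((Rc.mk (R.o + u) R.p R.q).flowX b (fun e => w (e.1 - u, e.2)) z))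
      = (R.sys b).E0 fun z => F (R.flowX b w z) := by
  have hR : ∀ v, v ∈ (Rc.mk (R.o + u) R.p R.q).set ↔ (Equiv.addRight u).symm v ∈ R.set := by
    intro v
    simp only [Rc.set, Finset.mem_product, Finset.mem_Ico, Equiv.addRight_symm, Equiv.coe_addRight, Prod.fst_add,
      Prod.snd_add, Prod.fst_neg, Prod.snd_neg]
    constructor <;> intro h <;> refine ⟨⟨?_, ?_⟩, ?_, ?_⟩ <;> omega
  rw [siso_E0 (frI (Equiv.addRight u) (latIso_addRight u) R _ hR b)]
  congr 1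
  funext z
  congr 1
  refine frI_flowX (Equiv.addRight u) (latIso_addRight u) R _ hR b w _ (fun e _ => ?_) z
  have h1 : (Equiv.addRight u) e.snd = Bond.snd ((Equiv.addRight u) e.1, e.2) := by
    obtain ⟨⟨a, c⟩, d⟩ := e
    obtain ⟨u1, u2⟩ := u
    cases d <;> simp [Bond.snd] <;> ring
  have h2 : frB (Equiv.addRight u) e = ((Equiv.addRight u) e.1, e.2) := by
    unfold frB
    rw [h1]
    exact frMk_bond ((Equiv.addRight u) e.1, e.2)
  have h3 : frSg ((Equiv.addRight u) e.1) ((Equiv.addRight u) e.snd) = 1 := by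
    rw [h1]
    exact frSg_bond ((Equiv.addRight u) e.1, e.2)
  rw [h2, h3]
  simp

/-- the reflection `x ↦ c - x` -/
def reflX (c : ℤ) : ℤ × ℤ ≃ ℤ × ℤ where
  toFun v := (c - v.1, v.2)
  invFun v := (c - v.1, v.2)
  left_inv v := by simp
  right_inv v := by simp

/-- the reflection `y ↦ c - y` -/
def reflY (c : ℤ) : ℤ × ℤ ≃ ℤ × ℤ where
  toFun v := (v.1, c - v.2)
  invFun v := (v.1, c - v.2)
  left_inv v := by simp
  right_inv v := by simp

/-- the reflection in the diagonal `x - y = t` -/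
def reflD (t : ℤ) : ℤ × ℤ ≃ ℤ × ℤ where
  toFun v := (v.2 + t, v.1 - t)
  invFun v := (v.2 + t, v.1 - t)
  left_inv v := by simp
  right_inv v := by simp

/-- L-FR-R7. -/
theorem latIso_reflX (c : ℤ) : LatIso (reflX c) := by
  intro x y
  have e : c - x.1 - (c - y.1) = -(x.1 - y.1) := by ring
  simp only [Adj, reflX, Equiv.coe_fn_mk, e, abs_neg]
/-- L-FR-R7. -/
theorem latIso_reflY (c : ℤ) : LatIso (reflY c) := by
  intro x y
  have e : c - x.2 - (c - y.2) = -(x.2 - y.2) := by ring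
  simp only [Adj, reflY, Equiv.coe_fn_mk, e, abs_neg]
/-- L-FR-R7. -/
theorem latIso_reflD (t : ℤ) : LatIso (reflD t) := by
  intro x y
  have e1 : x.2 + t - (y.2 + t) = x.2 - y.2 := by ring
  have e2 : x.1 - t - (y.1 - t) = x.1 - y.1 := by ring
  simp only [Adj, reflD, Equiv.coe_fn_mk, e1, e2]
  rw [add_comm]

/-! ## 5. Reflection positivity and the fold inequalities -/

/-! ### reflection positivity: bonds -/

theorem frp_adj_iff (x y : ℤ × ℤ) : Adj x y ↔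
    y = (x.1 + 1, x.2) ∨ y = (x.1, x.2 + 1) ∨ x = (y.1 + 1, y.2) ∨ x = (y.1, y.2 + 1) := by
  obtain ⟨x1, x2⟩ := x
  obtain ⟨y1, y2⟩ := y
  simp only [Adj, Prod.mk.injEq]
  constructor
  · intro h
    rcases abs_cases (x1 - y1) with ⟨h1, _⟩ | ⟨h1, _⟩ <;> rcases abs_cases (x2 - y2) with ⟨h2, _⟩ | ⟨h2, _⟩ <;>
      rw [h1, h2] at h <;> omega
  · intro h
    rcases abs_cases (x1 - y1) with ⟨h1, _⟩ | ⟨h1, _⟩ <;> rcases abs_cases (x2 - y2) with ⟨h2, _⟩ | ⟨h2, _⟩ <;>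
      rw [h1, h2] <;> omega

theorem frp_adj_bond (e : Bond) : Adj e.1 e.snd := by
  rw [frp_adj_iff]
  obtain ⟨x, d⟩ := e
  cases d
  · right; left; rfl
  · left; rfl

theorem frp_adj_symm {x y : ℤ × ℤ} (h : Adj x y) : Adj y x := by
  rw [frp_adj_iff] at h ⊢
  tauto

open Classical in
/-- the bond with end points `x`, `y`. -/
def frpBond (x y : ℤ × ℤ) : Bond :=
  if y = (x.1 + 1, x.2) then (x, true) else if y = (x.1, x.2 + 1) then (x, false)
  else if x = (y.1 + 1, y.2) then (y, true) else (y, false)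

theorem frp_bond_ends {x y : ℤ × ℤ} (h : Adj x y) :
    ((frpBond x y).1 = x ∧ (frpBond x y).snd = y) ∨ ((frpBond x y).1 = y ∧ (frpBond x y).snd = x) := by
  unfold frpBond
  rw [frp_adj_iff] at h
  by_cases h1 : y = (x.1 + 1, x.2)
  · left; rw [if_pos h1]; exact ⟨rfl, by simp [Bond.snd, h1]⟩
  rw [if_neg h1]
  by_cases h2 : y = (x.1, x.2 + 1)
  · left; rw [if_pos h2]; exact ⟨rfl, by simp [Bond.snd, h2]⟩
  rw [if_neg h2]
  by_cases h3 : x = (y.1 + 1, y.2)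
  · right; rw [if_pos h3]; exact ⟨rfl, by simp [Bond.snd, ← h3]⟩
  rw [if_neg h3]
  have h4 : x = (y.1, y.2 + 1) := by tauto
  right; exact ⟨rfl, by simp [Bond.snd, ← h4]⟩

theorem frp_bond_self (e : Bond) : frpBond e.1 e.snd = e := by
  obtain ⟨⟨x1, x2⟩, d⟩ := e
  cases d
  · simp [frpBond, Bond.snd]
  · simp [frpBond, Bond.snd]

theorem frp_bond_self' (e : Bond) : frpBond e.snd e.1 = e := by
  obtain ⟨⟨x1, x2⟩, d⟩ := e
  cases d
  · simp [frpBond, Bond.snd]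
    omega
  · simp [frpBond, Bond.snd]
    omega

section RP

variable (σ : ℤ × ℤ ≃ ℤ × ℤ) (hσ : LatIso σ) (hinv : ∀ v, σ (σ v) = v) (R : Rc) (hR : ∀ v ∈ R.set, σ v ∈ R.set)
    (P : Set (ℤ × ℤ)) (hP1 : ∀ v ∈ P, σ v ∉ P) (hP2 : ∀ v, v ∈ P ∨ σ v ∈ P ∨ σ v = v) (hP3 : ∀ x y, Adj x y → x ∈ P → σ y ∉ P)

/-- the image of a bond. -/
def frpMap (e : Bond) : Bond := frpBond (σ e.1) (σ e.snd)

include hσ in
theorem frp_map_ends (e : Bond) :
    ((frpMap σ e).1 = σ e.1 ∧ (frpMap σ e).snd = σ e.snd) ∨ ((frpMap σ e).1 = σ e.snd ∧ (frpMap σ e).snd = σ e.1) :=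
  frp_bond_ends ((hσ _ _).1 (frp_adj_bond e))

include hσ hinv in
theorem frp_map_map (e : Bond) : frpMap σ (frpMap σ e) = e := by
  rcases frp_map_ends σ hσ e with ⟨h1, h2⟩ | ⟨h1, h2⟩
  · show frpBond (σ (frpMap σ e).1) (σ (frpMap σ e).snd) = e
    rw [h1, h2, hinv, hinv, frp_bond_self]
  · show frpBond (σ (frpMap σ e).1) (σ (frpMap σ e).snd) = e
    rw [h1, h2, hinv, hinv, frp_bond_self']

open Classical in
/-- the bonds which touch the open side. -/
def frpB1 : Finset Bond := R.bd.filter fun e => e.1 ∈ P ∨ e.snd ∈ P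

open Classical in
/-- the bonds which touch the mirror image of the open side. -/
def frpB2 : Finset Bond := R.bd.filter fun e => σ e.1 ∈ P ∨ σ e.snd ∈ P

open Classical in
/-- the bonds between fixed points. -/
def frpB3 : Finset Bond := R.bd.filter fun e => ¬ (e.1 ∈ P ∨ e.snd ∈ P) ∧ ¬ (σ e.1 ∈ P ∨ σ e.snd ∈ P)

include hσ hR in
theorem frp_map_B2 {e : Bond} (he : e ∈ frpB2 σ R P) : frpMap σ e ∈ frpB1 R P := by
  classical
  obtain ⟨h1, h2⟩ := Finset.mem_filter.1 he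
  have hb := mem_bd.1 h1
  refine Finset.mem_filter.2 ?_
  rcases frp_map_ends σ hσ e with ⟨e1, e2⟩ | ⟨e1, e2⟩
  · rw [mem_bd, e1, e2]; exact ⟨⟨hR _ hb.1, hR _ hb.2⟩, h2⟩
  · rw [mem_bd, e1, e2]; exact ⟨⟨hR _ hb.2, hR _ hb.1⟩, h2.symm⟩

include hσ hinv hR in
theorem frp_map_B1 {e : Bond} (he : e ∈ frpB1 R P) : frpMap σ e ∈ frpB2 σ R P := by
  classical
  obtain ⟨h1, h2⟩ := Finset.mem_filter.1 he
  have hb := mem_bd.1 h1
  refine Finset.mem_filter.2 ?_
  rcases frp_map_ends σ hσ e with ⟨e1, e2⟩ | ⟨e1, e2⟩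
  · rw [mem_bd, e1, e2, hinv, hinv]; exact ⟨⟨hR _ hb.1, hR _ hb.2⟩, h2⟩
  · rw [mem_bd, e1, e2, hinv, hinv]; exact ⟨⟨hR _ hb.2, hR _ hb.1⟩, h2.symm⟩

include hσ hinv hR in
/-- transport of sums of symmetric bond functions. -/
theorem frp_sum_B2 (φ : ℤ × ℤ → ℤ × ℤ → ℝ) (hφ : ∀ x y, φ x y = φ y x) :
    ∑ e ∈ frpB2 σ R P, φ (σ e.1) (σ e.snd) = ∑ e ∈ frpB1 R P, φ e.1 e.snd := by
  refine Finset.sum_nbij' (frpMap σ) (frpMap σ) (fun e he => frp_map_B2 σ hσ R hR P he)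
    (fun e he => frp_map_B1 σ hσ hinv R hR P he) (fun e _ => frp_map_map σ hσ hinv e)
    (fun e _ => frp_map_map σ hσ hinv e) fun e _ => ?_
  rcases frp_map_ends σ hσ e with ⟨e1, e2⟩ | ⟨e1, e2⟩
  · rw [e1, e2]
  · rw [e1, e2, hφ]

include hσ hinv hR in
theorem frp_prod_B2 (φ : ℤ × ℤ → ℤ × ℤ → ℝ) (hφ : ∀ x y, φ x y = φ y x) :
    ∏ e ∈ frpB2 σ R P, φ (σ e.1) (σ e.snd) = ∏ e ∈ frpB1 R P, φ e.1 e.snd := by
  refine Finset.prod_nbij' (frpMap σ) (frpMap σ) (fun e he => frp_map_B2 σ hσ R hR P he)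
    (fun e he => frp_map_B1 σ hσ hinv R hR P he) (fun e _ => frp_map_map σ hσ hinv e)
    (fun e _ => frp_map_map σ hσ hinv e) fun e _ => ?_
  rcases frp_map_ends σ hσ e with ⟨e1, e2⟩ | ⟨e1, e2⟩
  · rw [e1, e2]
  · rw [e1, e2, hφ]

include hP1 hP3 in
theorem frp_B1_not_B2 {e : Bond} (h : e.1 ∈ P ∨ e.snd ∈ P) : ¬ (σ e.1 ∈ P ∨ σ e.snd ∈ P) := by
  rcases h with h | h
  · rintro (h' | h')
    · exact hP1 _ h h'
    · exact hP3 _ _ (frp_adj_bond e) h h'
  · rintro (h' | h')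
    · exact hP3 _ _ (frp_adj_symm (frp_adj_bond e)) h h'
    · exact hP1 _ h h'

include hP1 hP3 in
/-- the product over all bonds splits. -/
theorem frp_prod_split (f : Bond → ℝ) :
    ∏ e ∈ R.bd, f e = (∏ e ∈ frpB3 σ R P, f e) * ((∏ e ∈ frpB1 R P, f e) * ∏ e ∈ frpB2 σ R P, f e) := by
  classical
  unfold frpB1 frpB2 frpB3
  rw [← Finset.prod_filter_mul_prod_filter_not R.bd (fun e => e.1 ∈ P ∨ e.snd ∈ P) f,
    ← Finset.prod_filter_mul_prod_filter_not (R.bd.filter fun e => ¬ (e.1 ∈ P ∨ e.snd ∈ P))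
      (fun e => σ e.1 ∈ P ∨ σ e.snd ∈ P) f, Finset.filter_filter, Finset.filter_filter]
  have e1 : (R.bd.filter fun e => ¬ (e.1 ∈ P ∨ e.snd ∈ P) ∧ (σ e.1 ∈ P ∨ σ e.snd ∈ P))
      = R.bd.filter fun e => σ e.1 ∈ P ∨ σ e.snd ∈ P := by
    refine Finset.filter_congr fun e _ => ⟨fun h => h.2, fun h => ⟨fun h' => frp_B1_not_B2 σ P hP1 hP3 h' h, h⟩⟩
  rw [e1]
  ring

/-! ### reflection positivity: configurations -/

/-- integer functions supported in `S`. -/
abbrev FrpS (S : Set (ℤ × ℤ)) : Type := {h : ℤ × ℤ → ℤ // ∀ v, v ∉ S → h v = 0}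

include hP1 in
theorem frp_not_fix {v : ℤ × ℤ} (hv : v ∈ P) : σ v ≠ v := fun h => hP1 v hv (h.symm ▸ hv)

include hinv hR in
theorem frp_not_set {v : ℤ × ℤ} (hv : v ∉ R.set) : σ v ∉ R.set := fun h => hv (hinv v ▸ hR _ h)

open Classical in
/-- `(τ, x, y) ↦ τ + x + y ∘ σ`. -/
def frpE : FrpS {v | v ∈ R.set ∧ σ v = v} × FrpS {v | v ∈ R.set ∧ v ∈ P} × FrpS {v | v ∈ R.set ∧ v ∈ P} ≃
    FrpS {v | v ∈ R.set} where
  toFun t := ⟨fun v => t.1.1 v + t.2.1.1 v + t.2.2.1 (σ v), fun v hv => by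
    have hv' : v ∉ R.set := hv
    dsimp only
    rw [t.1.2 v (fun h => hv' h.1), t.2.1.2 v (fun h => hv' h.1),
      t.2.2.2 (σ v) (fun h => frp_not_set σ hinv R hR hv' h.1)]
    rfl⟩
  invFun h := (⟨fun v => if σ v = v then h.1 v else 0, fun v hv => by
      dsimp only
      by_cases h1 : σ v = v
      · rw [if_pos h1]; exact h.2 v fun h2 => hv ⟨h2, h1⟩
      · rw [if_neg h1]⟩,
    ⟨fun v => if v ∈ P then h.1 v else 0, fun v hv => by
      dsimp only
      by_cases h1 : v ∈ P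
      · rw [if_pos h1]; exact h.2 v fun h2 => hv ⟨h2, h1⟩
      · rw [if_neg h1]⟩,
    ⟨fun v => if v ∈ P then h.1 (σ v) else 0, fun v hv => by
      dsimp only
      by_cases h1 : v ∈ P
      · rw [if_pos h1]; exact h.2 (σ v) (frp_not_set σ hinv R hR fun h2 => hv ⟨h2, h1⟩)
      · rw [if_neg h1]⟩)
  left_inv := by
    rintro ⟨τ, x, y⟩
    refine Prod.ext (Subtype.ext (funext fun v => ?_)) (Prod.ext (Subtype.ext (funext fun v => ?_))
      (Subtype.ext (funext fun v => ?_)))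
    · show (if σ v = v then τ.1 v + x.1 v + y.1 (σ v) else 0) = τ.1 v
      by_cases h1 : σ v = v
      · have h2 : v ∉ P := fun h => frp_not_fix σ P hP1 h h1
        rw [if_pos h1, h1, x.2 v (fun h => h2 h.2), y.2 v (fun h => h2 h.2)]
        ring
      · rw [if_neg h1, τ.2 v (fun h => h1 h.2)]
    · show (if v ∈ P then τ.1 v + x.1 v + y.1 (σ v) else 0) = x.1 v
      by_cases h1 : v ∈ P
      · rw [if_pos h1, τ.2 v (fun h => frp_not_fix σ P hP1 h1 h.2), y.2 (σ v) (fun h => hP1 v h1 h.2)]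
        ring
      · rw [if_neg h1, x.2 v (fun h => h1 h.2)]
    · show (if v ∈ P then τ.1 (σ v) + x.1 (σ v) + y.1 (σ (σ v)) else 0) = y.1 v
      by_cases h1 : v ∈ P
      · rw [if_pos h1, hinv, τ.2 (σ v) (fun h => frp_not_fix σ P hP1 h1 (h.2.symm.trans (hinv v))),
          x.2 (σ v) (fun h => hP1 v h1 h.2)]
        ring
      · rw [if_neg h1, y.2 v (fun h => h1 h.2)]
  right_inv := by
    intro h
    refine Subtype.ext (funext fun v => ?_)
    show (if σ v = v then h.1 v else 0) + (if v ∈ P then h.1 v else 0) + (if σ v ∈ P then h.1 (σ (σ v)) else 0) = h.1 v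
    rw [hinv]
    rcases hP2 v with h1 | h1 | h1
    · rw [if_neg (frp_not_fix σ P hP1 h1), if_pos h1, if_neg (hP1 v h1)]; ring
    · have h2 : v ∉ P := fun h => hP1 v h h1
      have h3 : σ v ≠ v := fun h => h2 (h ▸ h1)
      rw [if_neg h3, if_neg h2, if_pos h1]; ring
    · have h2 : v ∉ P := fun h => frp_not_fix σ P hP1 h h1
      rw [if_pos h1, if_neg h2, h1, if_neg h2]; ring

/-- the gradient of an integer function as a point of the lattice. -/
def frpGr (b : ℝ) (h : ℤ × ℤ → ℤ) : (R.sys b).L :=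
  ⟨(show (R.sys b).Amb from
    (fun e : R.G.E => h (domBond (D := R.set) (cut := ∅) e).snd - h (domBond (D := R.set) (cut := ∅) e).1,
      fun o : Empty => o.elim)), (fr_mem_L R b _).2 ⟨h, fun _ => rfl⟩⟩

theorem frp_W (b : ℝ) (h : ℤ × ℤ → ℤ) :
    (R.sys b).W ((frpGr R b h : (R.sys b).Amb) + 0) = ∏ e ∈ R.bd, bes b (h e.snd - h e.1) := by
  rw [add_zero]
  have h1 : (R.sys b).W (frpGr R b h : (R.sys b).Amb)
      = (∏ e : R.G.E, bes b (h (domBond (D := R.set) (cut := ∅) e).snd - h (domBond (D := R.set) (cut := ∅) e).1))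
        * Real.exp (-(∑ o : Empty, (o.elim : ℝ) ^ 2) / 2) := rfl
  rw [h1]
  simp only [Finset.univ_eq_empty, Finset.sum_empty, neg_zero, zero_div, Real.exp_zero, mul_one]
  exact Finset.prod_coe_sort R.bd fun e => bes b (h e.snd - h e.1)

theorem frp_X (b : ℝ) (g : ℤ × ℤ → ℝ) (h : ℤ × ℤ → ℤ) :
    R.gradX b g (frpGr R b h) = ∑ e ∈ R.bd, 2 * Real.pi * gd g e * ((h e.snd - h e.1 : ℤ) : ℝ) := by
  have h1 : R.gradX b g (frpGr R b h) = ∑ e : R.G.E, 2 * Real.pi * gd g (domBond (D := R.set) (cut := ∅) e) *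
      ((h (domBond (D := R.set) (cut := ∅) e).snd - h (domBond (D := R.set) (cut := ∅) e).1 : ℤ) : ℝ) := rfl
  rw [h1]
  exact fr_sum_E R fun e => 2 * Real.pi * gd g e * ((h e.snd - h e.1 : ℤ) : ℝ)

theorem frp_gr_bij (b : ℝ) (o : ℤ × ℤ) (ho : o ∈ R.set) :
    Function.Bijective fun h : ({h : FrpS {v | v ∈ R.set} | h.1 o = 0} : Set _) => frpGr R b h.1.1 := by
  classical
  constructor
  · rintro ⟨h, hh⟩ ⟨h', hh'⟩ heq
    have hh0 : h.1 o = 0 := hh
    have hh0' : h'.1 o = 0 := hh'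
    have h1 : ∀ e ∈ R.bd, (fun v => h.1 v - h'.1 v) e.snd = (fun v => h.1 v - h'.1 v) e.1 := by
      intro e he
      have h2 := congrFun (congrArg Prod.fst (congrArg Subtype.val heq)) (⟨e, he⟩ : R.G.E)
      have h3 : h.1 e.snd - h.1 e.1 = h'.1 e.snd - h'.1 e.1 := h2
      dsimp only
      omega
    have h2 := fr_const R (fun v => h.1 v - h'.1 v) h1
    refine Subtype.ext (Subtype.ext (funext fun v => ?_))
    by_cases hv : v ∈ R.set
    · have h3 : h.1 v - h'.1 v = h.1 R.o - h'.1 R.o := h2 v hv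
      have h4 : h.1 o - h'.1 o = h.1 R.o - h'.1 R.o := h2 o ho
      show h.1 v = h'.1 v
      omega
    · rw [h.2 v hv, h'.2 v hv]
  · intro z
    obtain ⟨h0, hh0⟩ := (fr_mem_L R b z).1 z.2
    refine ⟨⟨⟨fun v => if v ∈ R.set then h0 v - h0 o else 0, fun v hv => if_neg hv⟩, ?_⟩, ?_⟩
    · show (if o ∈ R.set then h0 o - h0 o else 0) = 0
      simp
    · refine Subtype.ext (Prod.ext (funext fun e => ?_) (funext fun o => o.elim))
      have he := mem_bd.1 e.2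
      have h1 : (domBond (D := R.set) (cut := ∅) e).snd ∈ R.set := he.2
      have h2 : (domBond (D := R.set) (cut := ∅) e).1 ∈ R.set := he.1
      show (if (domBond (D := R.set) (cut := ∅) e).snd ∈ R.set then h0 (domBond (D := R.set) (cut := ∅) e).snd - h0 o else 0)
        - (if (domBond (D := R.set) (cut := ∅) e).1 ∈ R.set then h0 (domBond (D := R.set) (cut := ∅) e).1 - h0 o else 0) = _
      rw [if_pos h1, if_pos h2, hh0 e]
      ring

include hP2 hP3 in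
theorem frp_B1_ends {e : Bond} (he : e ∈ frpB1 R P) : (e.1 ∈ P ∨ σ e.1 = e.1) ∧ (e.snd ∈ P ∨ σ e.snd = e.snd) := by
  classical
  rcases (Finset.mem_filter.1 he).2 with h | h
  · refine ⟨Or.inl h, ?_⟩
    rcases hP2 e.snd with h1 | h1 | h1
    · exact Or.inl h1
    · exact absurd h1 (hP3 _ _ (frp_adj_bond e) h)
    · exact Or.inr h1
  · refine ⟨?_, Or.inl h⟩
    rcases hP2 e.1 with h1 | h1 | h1
    · exact Or.inl h1
    · exact absurd h1 (hP3 _ _ (frp_adj_symm (frp_adj_bond e)) h)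
    · exact Or.inr h1

include hP2 in
theorem frp_B3_ends {e : Bond} (he : e ∈ frpB3 σ R P) : σ e.1 = e.1 ∧ σ e.snd = e.snd := by
  classical
  obtain ⟨h1, h2⟩ := (Finset.mem_filter.1 he).2
  push Not at h1 h2
  exact ⟨((hP2 e.1).resolve_left h1.1).resolve_left h2.1, ((hP2 e.snd).resolve_left h1.2).resolve_left h2.2⟩

/-- weight of the bonds touching the open side. -/
def frpU (b : ℝ) (k : ℤ × ℤ → ℤ) : ℝ := ∏ e ∈ frpB1 R P, bes b (k e.snd - k e.1)

/-- weight of the bonds in the mirror. -/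
def frpC (b : ℝ) (k : ℤ × ℤ → ℤ) : ℝ := ∏ e ∈ frpB3 σ R P, bes b (k e.snd - k e.1)

/-- the test on the bonds touching the open side. -/
def frpF (g : ℤ × ℤ → ℝ) (k : ℤ × ℤ → ℤ) : ℝ := ∑ e ∈ frpB1 R P, 2 * Real.pi * gd g e * ((k e.snd - k e.1 : ℤ) : ℝ)

include hP2 hP3 in
theorem frp_U_congr (b : ℝ) {k k' : ℤ × ℤ → ℤ} (h : ∀ v, (v ∈ P ∨ σ v = v) → k v = k' v) : frpU R P b k = frpU R P b k' := by
  refine Finset.prod_congr rfl fun e he => ?_
  obtain ⟨h1, h2⟩ := frp_B1_ends σ R P hP2 hP3 he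
  rw [h _ h1, h _ h2]

include hP2 hP3 in
theorem frp_F_congr (g : ℤ × ℤ → ℝ) {k k' : ℤ × ℤ → ℤ} (h : ∀ v, (v ∈ P ∨ σ v = v) → k v = k' v) :
    frpF R P g k = frpF R P g k' := by
  refine Finset.sum_congr rfl fun e he => ?_
  obtain ⟨h1, h2⟩ := frp_B1_ends σ R P hP2 hP3 he
  rw [h _ h1, h _ h2]

include hP2 in
theorem frp_C_congr (b : ℝ) {k k' : ℤ × ℤ → ℤ} (h : ∀ v, σ v = v → k v = k' v) : frpC σ R P b k = frpC σ R P b k' := by
  refine Finset.prod_congr rfl fun e he => ?_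
  obtain ⟨h1, h2⟩ := frp_B3_ends σ R P hP2 he
  rw [h _ h1, h _ h2]

include hσ hinv hR hP1 hP3 in
theorem frp_W_split (b : ℝ) (k : ℤ × ℤ → ℤ) :
    ∏ e ∈ R.bd, bes b (k e.snd - k e.1) = frpC σ R P b k * (frpU R P b k * frpU R P b fun v => k (σ v)) := by
  rw [frp_prod_split σ R P hP1 hP3]
  have h := frp_prod_B2 σ hσ hinv R hR P (fun x y => bes b (k (σ y) - k (σ x)))
    (fun x y => by rw [← bes_neg]; congr 1; ring)
  simp only [hinv] at h
  rw [h]
  rfl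

theorem frp_X_one (g : ℤ × ℤ → ℝ) (hg : ∀ v, v ∉ P → g v = 0) (k : ℤ × ℤ → ℤ) :
    ∑ e ∈ R.bd, 2 * Real.pi * gd g e * ((k e.snd - k e.1 : ℤ) : ℝ) = frpF R P g k := by
  classical
  unfold frpF frpB1
  refine (Finset.sum_filter_of_ne fun e _ hne => ?_).symm
  by_contra hcon
  push Not at hcon
  apply hne
  unfold gd
  rw [hg _ hcon.1, hg _ hcon.2]
  ring

include hσ hinv hR in
theorem frp_X_two (g : ℤ × ℤ → ℝ) (hg : ∀ v, v ∉ P → g v = 0) (k : ℤ × ℤ → ℤ) :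
    ∑ e ∈ R.bd, 2 * Real.pi * gd (fun v => g (σ v)) e * ((k e.snd - k e.1 : ℤ) : ℝ) = frpF R P g fun v => k (σ v) := by
  classical
  have h1 : ∑ e ∈ R.bd, 2 * Real.pi * gd (fun v => g (σ v)) e * ((k e.snd - k e.1 : ℤ) : ℝ)
      = ∑ e ∈ frpB2 σ R P, 2 * Real.pi * gd (fun v => g (σ v)) e * ((k e.snd - k e.1 : ℤ) : ℝ) := by
    unfold frpB2
    refine (Finset.sum_filter_of_ne fun e _ hne => ?_).symm
    by_contra hcon
    push Not at hcon
    apply hne
    unfold gd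
    dsimp only
    rw [hg _ hcon.1, hg _ hcon.2]
    ring
  rw [h1]
  have h := frp_sum_B2 σ hσ hinv R hR P (fun x y => 2 * Real.pi * (g y - g x) * ((k (σ y) - k (σ x) : ℤ) : ℝ))
    (fun x y => by push_cast; ring)
  simp only [hinv] at h
  exact h

include hσ hinv hR hP1 hP2 hP3 in
theorem frp_main (o : ℤ × ℤ) (ho : o ∈ R.set) (hfix : σ o = o) (b : ℝ) (hb : 0 < b) (g : ℤ × ℤ → ℝ) (hg : ∀ v, v ∉ P → g v = 0) :
    0 ≤ (R.sys b).Cv 0 0 (R.gradX b g) (R.gradX b fun v => g (σ v)) := by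
  classical
  have hS := fr_ok R b hb
  rw [rd_Cv0_eq, rd_E0_eq]
  refine div_nonneg ?_ (rd_w_pos hS 0).le
  have hsum := rd_dom_summable hS (rd_dom_mul (rd_dom_test (R.gradX b g)) (rd_dom_test (R.gradX b fun v => g (σ v)))) 0
  obtain ⟨G, hG⟩ : ∃ G : (R.sys b).L → ℝ, G = fun z => R.gradX b g z * R.gradX b (fun v => g (σ v)) z *
    (R.sys b).W ((z : (R.sys b).Amb) + 0) := ⟨_, rfl⟩
  have hsum' : Summable G := by rw [hG]; exact hsum
  have hZ : (R.sys b).Zf 0 (fun z => R.gradX b g z * R.gradX b (fun v => g (σ v)) z) = ∑' z, G z := by rw [hG]; rfl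
  rw [hZ]
  -- heights pinned at `o`
  obtain ⟨e1, he1⟩ : ∃ e1 : ({h : FrpS {v | v ∈ R.set} | h.1 o = 0} : Set _) ≃ (R.sys b).L,
      ∀ h, e1 h = frpGr R b h.1.1 := ⟨Equiv.ofBijective _ (frp_gr_bij R b o ho), fun _ => rfl⟩
  obtain ⟨Gh, hGh⟩ : ∃ Gh : FrpS {v | v ∈ R.set} → ℝ, Gh = fun h => G (frpGr R b h.1) := ⟨_, rfl⟩
  have hc1 : (fun h : ({h : FrpS {v | v ∈ R.set} | h.1 o = 0} : Set _) => G (e1 h)) = Gh ∘ (↑) := by
    funext h
    rw [he1, hGh]
    rfl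
  have s1 : Summable (Gh ∘ ((↑) : ({h : FrpS {v | v ∈ R.set} | h.1 o = 0} : Set _) → FrpS {v | v ∈ R.set})) := by
    rw [← hc1]
    exact e1.summable_iff.2 hsum'
  have s2 := summable_subtype_iff_indicator.1 s1
  have s3 := (frpE σ hinv R hR P hP1 hP2).summable_iff.2 s2
  have t1 : ∑' z, G z = ∑' t, ({h : FrpS {v | v ∈ R.set} | h.1 o = 0} : Set _).indicator Gh (frpE σ hinv R hR P hP1 hP2 t) := by
    rw [(frpE σ hinv R hR P hP1 hP2).tsum_eq, ← tsum_subtype, ← e1.tsum_eq]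
    exact tsum_congr fun h => congrFun hc1 h
  -- the product form
  have key : ∀ t, ({h : FrpS {v | v ∈ R.set} | h.1 o = 0} : Set _).indicator Gh (frpE σ hinv R hR P hP1 hP2 t)
      = ((if t.1.1 o = 0 then 1 else 0) * frpC σ R P b t.1.1)
        * (frpU R P b (fun v => t.1.1 v + t.2.1.1 v) * frpF R P g (fun v => t.1.1 v + t.2.1.1 v))
        * (frpU R P b (fun v => t.1.1 v + t.2.2.1 v) * frpF R P g (fun v => t.1.1 v + t.2.2.1 v)) := by
    rintro ⟨τ, x, y⟩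
    obtain ⟨K, hK⟩ : ∃ K : ℤ × ℤ → ℤ, K = fun v => τ.1 v + x.1 v + y.1 (σ v) := ⟨_, rfl⟩
    have hEK : (frpE σ hinv R hR P hP1 hP2 (τ, x, y)).1 = K := by rw [hK]; rfl
    have hnP : ∀ v, σ v = v → v ∉ P := fun v h1 h2 => frp_not_fix σ P hP1 h2 h1
    have a1 : ∀ v, (v ∈ P ∨ σ v = v) → K v = τ.1 v + x.1 v := by
      intro v hv
      rw [hK]
      have : y.1 (σ v) = 0 := by
        rcases hv with h | h
        · exact y.2 _ fun h' => hP1 v h h'.2
        · rw [h]; exact y.2 _ fun h' => hnP v h h'.2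
      dsimp only
      rw [this, add_zero]
    have a2 : ∀ v, (v ∈ P ∨ σ v = v) → K (σ v) = τ.1 v + y.1 v := by
      intro v hv
      rw [hK]
      dsimp only
      rw [hinv]
      rcases hv with h | h
      · rw [τ.2 (σ v) (fun h' => frp_not_fix σ P hP1 h (h'.2.symm.trans (hinv v))), x.2 (σ v) (fun h' => hP1 v h h'.2),
          τ.2 v (fun h' => frp_not_fix σ P hP1 h h'.2)]
        ring
      · rw [h, x.2 v (fun h' => hnP v h h'.2)]
        ring
    have a3 : ∀ v, σ v = v → K v = τ.1 v := by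
      intro v hv
      rw [a1 v (Or.inr hv), x.2 v (fun h' => hnP v hv h'.2), add_zero]
    have hval : Gh (frpE σ hinv R hR P hP1 hP2 (τ, x, y)) = frpC σ R P b τ.1
        * (frpU R P b (fun v => τ.1 v + x.1 v) * frpF R P g (fun v => τ.1 v + x.1 v))
        * (frpU R P b (fun v => τ.1 v + y.1 v) * frpF R P g (fun v => τ.1 v + y.1 v)) := by
      rw [hGh, hG]
      dsimp only
      rw [hEK, frp_W, frp_X, frp_X, frp_X_one R P g hg, frp_X_two σ hσ hinv R hR P g hg,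
        frp_W_split σ hσ hinv R hR P hP1 hP3, frp_C_congr σ R P hP2 b a3, frp_U_congr σ R P hP2 hP3 b a1,
        frp_U_congr σ R P hP2 hP3 b (k := fun v => K (σ v)) a2, frp_F_congr σ R P hP2 hP3 g a1,
        frp_F_congr σ R P hP2 hP3 g (k := fun v => K (σ v)) a2]
      ring
    have ho' : (frpE σ hinv R hR P hP1 hP2 (τ, x, y)).1 o = τ.1 o := by rw [hEK, a3 o hfix]
    by_cases h0 : τ.1 o = 0
    · rw [Set.indicator_of_mem (show frpE σ hinv R hR P hP1 hP2 (τ, x, y) ∈ {h : FrpS {v | v ∈ R.set} | h.1 o = 0} from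
        ho'.trans h0), hval]
      dsimp only
      rw [if_pos h0]
      ring
    · rw [Set.indicator_of_notMem (show frpE σ hinv R hR P hP1 hP2 (τ, x, y) ∉ {h : FrpS {v | v ∈ R.set} | h.1 o = 0} from
        fun h => h0 (ho'.symm.trans h))]
      dsimp only
      rw [if_neg h0]
      ring
  rw [t1, tsum_congr key]
  refine rp_sum (fun τ : FrpS {v | v ∈ R.set ∧ σ v = v} => (if τ.1 o = 0 then 1 else 0) * frpC σ R P b τ.1)
    (fun τ (x : FrpS {v | v ∈ R.set ∧ v ∈ P}) => frpU R P b (fun v => τ.1 v + x.1 v))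
    (fun τ x => frpF R P g (fun v => τ.1 v + x.1 v)) (fun τ => ?_) ?_
  · refine mul_nonneg (by split_ifs <;> norm_num) (Finset.prod_nonneg fun e _ => (bes_pos b hb _).le)
  · refine (summable_congr key).1 s3

end RP

theorem frp_eqns_cite : True := by
  have := @frpBond.eq_1
  have := @frpMap.eq_1
  have := @frpB1.eq_1
  have := @frpB2.eq_1
  have := @frpB3.eq_1
  have := @frpE.eq_1
  have := @frpGr.eq_1
  have := @frpU.eq_1
  have := @frpC.eq_1
  have := @frpF.eq_1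
  have := @frCutE.eq_1
  have := @frCutRef.eq_1
  trivial

/-- L-FR-R8.  **Reflection positivity through sites** (replaces association in [B]T2.2, [C]T2.4, [E]L5.2).
`P` = the open side, `σ P` the other side, the fixed points of `σ` separate them (`hP3`).  PROOF.  `H := HLaw.plain R.G (domSet {o})` has the same system as `R.law` (`fr_mem_L`: the lattice does not see the pin; `LSys` equal field by field) and is proper.
`rd_Cv0_eq`, `E0_heights`: numerator `= (2π)² ∑_{h, h o = 0} ⟨f,h⟩ ⟨f∘σ,h⟩ ∏_e p_b(∇_e h)`, `f = R.lap g` supported on `P ∪ Fix` (`hg`, `hP3`).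
Write `h ↔ (τ, x, y)`: `τ = h` on `Fix ∩ R` (`τ o = 0`), `x = h` on `P ∩ R`, `y = h ∘ σ` on `P ∩ R` (explicit `Equiv`, `hP1`, `hP2`, `hR`).  Bonds of `R`: with an end point in `P` / in `σ P` / both end points fixed (disjoint by `hP3`);
the second class is the `σ`-image of the first (`hσ`, orientation: `bes_neg`).  So the weight is `c(τ) u(τ,x) u(τ,y)` and `⟨f,h⟩ = F(τ,x)`, `⟨f∘σ,h⟩ = F(τ,y)`: `rp_sum`.  Summability: `rd_dom_summable` transported by the same bijections. -/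
theorem fr_rp (σ : ℤ × ℤ ≃ ℤ × ℤ) (hσ : LatIso σ) (hinv : ∀ v, σ (σ v) = v) (R : Rc) (hR : ∀ v ∈ R.set, σ v ∈ R.set)
    (P : Set (ℤ × ℤ)) (hP1 : ∀ v ∈ P, σ v ∉ P) (hP2 : ∀ v, v ∈ P ∨ σ v ∈ P ∨ σ v = v) (hP3 : ∀ x y, Adj x y → x ∈ P → σ y ∉ P)
    (o : ℤ × ℤ) (ho : o ∈ R.set) (hfix : σ o = o) (b : ℝ) (hb : 0 < b) (g : ℤ × ℤ → ℝ) (hg : ∀ v, v ∉ P → g v = 0) :
    0 ≤ (R.sys b).Cv 0 0 (R.gradX b g) (R.gradX b fun v => g (σ v)) :=
  frp_main σ hσ hinv R hR P hP1 hP2 hP3 o ho hfix b hb g hg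

/-- bilinearity of the centred covariance -/
theorem fr_Cv_smul (S : LSys) (s t : ℝ) (X Y : S.L →+ ℝ) : S.Cv 0 0 (s • X) (t • Y) = s * t * S.Cv 0 0 X Y := by
  rw [rd_Cv0_eq, rd_Cv0_eq, ← rd_E0_smul]
  congr 1
  funext z
  simp only [AddMonoidHom.smul_apply, smul_eq_mul]
  ring

/-- the variance of a linear combination -/
theorem fr_V0_comb (S : LSys) (hS : S.Ok) (s t : ℝ) (X Y : S.L →+ ℝ) :
    S.V0 (s • X + t • Y) = s ^ 2 * S.V0 X + 2 * (s * t * S.Cv 0 0 X Y) + t ^ 2 * S.V0 Y := by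
  rw [var_add S hS, rd_V0_smul, rd_V0_smul, fr_Cv_smul]

/-- linear combinations of flows -/
theorem fr_flowX_comb (R : Rc) (b s t : ℝ) (w w' : Bond → ℝ) :
    R.flowX b (fun e => s * w e + t * w' e) = s • R.flowX b w + t • R.flowX b w' := by
  rw [flowX_add R b (fun e => s * w e) (fun e => t * w' e), flowX_smul, flowX_smul]

/-- on a rectangle without bonds all variances coincide -/
theorem fr_var_empty (R : Rc) (b : ℝ) (h : R.set = ∅) (w w' : Bond → ℝ) : R.var b w = R.var b w' := by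
  unfold Rc.var
  rw [flowX_congr R b (w := w) (w' := w') fun e he => by
    have := (mem_bd.1 he).1
    rw [h] at this
    exact absurd this (Finset.notMem_empty _)]

theorem fr_var_empty_zero (R : Rc) (b : ℝ) (h : R.set = ∅) (w : Bond → ℝ) : R.var b w = 0 := by
  rw [fr_var_empty R b h w (fun e => 0 * w e), fr_var_smul]
  ring

/-- L-FR-R9.  **The abstract fold inequality.**  `g = g₊ - g₊ ∘ σ` on `R.set` (`g` vanishes on the fixed points by oddness), so `var g = var g₊ - 2 Cov(g₊, g₊∘σ) + var (g₊∘σ)` (`var_add`, `rd_V0_smul`), `var (g₊∘σ) = var g₊` (`fr_sym_var`, `R' = R`), `fr_rp`. -/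
theorem fr_fold (σ : ℤ × ℤ ≃ ℤ × ℤ) (hσ : LatIso σ) (hinv : ∀ v, σ (σ v) = v) (R : Rc) (hR : ∀ v ∈ R.set, σ v ∈ R.set)
    (P : Set (ℤ × ℤ)) [DecidablePred (· ∈ P)] (hP1 : ∀ v ∈ P, σ v ∉ P) (hP2 : ∀ v, v ∈ P ∨ σ v ∈ P ∨ σ v = v)
    (hP3 : ∀ x y, Adj x y → x ∈ P → σ y ∉ P) (o : ℤ × ℤ) (ho : o ∈ R.set) (hfix : σ o = o) (b : ℝ) (hb : 0 < b)
    (g : ℤ × ℤ → ℝ) (hodd : ∀ v, g (σ v) = - g v) :
    R.var b (gd g) ≤ 2 * R.var b (gd fun v => if v ∈ P then g v else 0) := by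
  obtain ⟨gp, hgp⟩ : ∃ gp : ℤ × ℤ → ℝ, gp = fun v => if v ∈ P then g v else 0 := ⟨_, rfl⟩
  rw [← hgp]
  have hsymm : ∀ v, σ.symm v = σ v := fun v => by
    rw [Equiv.symm_apply_eq, hinv]
  have hdec : ∀ v, g v = gp v - gp (σ v) := by
    intro v
    rw [hgp]
    by_cases h1 : v ∈ P
    · simp only [if_pos h1, if_neg (hP1 v h1), sub_zero]
    · by_cases h2 : σ v ∈ P
      · simp only [if_neg h1, if_pos h2, hodd]; ring
      · have h3 : σ v = v := ((hP2 v).resolve_left h1).resolve_left h2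
        have h4 := hodd v
        rw [h3] at h4
        simp only [if_neg h1, if_neg h2]
        linarith
  have e1 : gd g = fun e => 1 * gd gp e + (-1) * gd (fun v => gp (σ v)) e := by
    funext e
    unfold gd
    rw [hdec e.snd, hdec e.1]
    ring
  have hrp := fr_rp σ hσ hinv R hR P hP1 hP2 hP3 o ho hfix b hb gp (fun v hv => by rw [hgp]; simp only [if_neg hv])
  have hsv := fr_sym_var σ hσ R R (fun v => by
    rw [hsymm]
    exact ⟨fun h => hR v h, fun h => by have := hR _ h; rwa [hinv] at this⟩) b gp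
  simp only [hsymm] at hsv
  unfold Rc.var at hsv ⊢
  unfold Rc.gradX at hrp
  rw [e1, fr_flowX_comb, fr_V0_comb _ (fr_ok R b hb), hsv]
  nlinarith

theorem fr_adj_fst {x y : ℤ × ℤ} (h : Adj x y) : x.1 - 1 ≤ y.1 ∧ x.1 - x.2 - 1 ≤ y.1 - y.2 := by
  unfold Adj at h
  rcases abs_cases (x.1 - y.1) with ⟨h1, _⟩ | ⟨h1, _⟩ <;> rcases abs_cases (x.2 - y.2) with ⟨h2, _⟩ | ⟨h2, _⟩ <;>
    constructor <;> omega

/-- L-FR-R10 (= `C2.fold_axis`).  `fr_fold` with `σ = reflX (2 t)`, `P = {v | t < v.1}`, `o = (t, R.o.2)`; if `R.q = 0` there is no bond and both sides vanish. -/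
theorem fr_fold_axis (R : Rc) (b : ℝ) (hb : 0 < b) (t : ℤ) (hsym : 2 * t + 1 = 2 * R.o.1 + R.p) (g : ℤ × ℤ → ℝ)
    (hodd : ∀ v, g (2 * t - v.1, v.2) = - g v) :
    R.var b (gd g) ≤ 2 * R.var b (gd fun v => if t < v.1 then g v else 0) := by
  by_cases hq : R.q = 0
  · have hset : R.set = ∅ := by
      unfold Rc.set
      rw [hq]
      simp
    rw [fr_var_empty_zero R b hset, fr_var_empty_zero R b hset]
    norm_num
  · have hq' : 0 < R.q := Nat.pos_of_ne_zero hq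
    exact fr_fold (reflX (2 * t)) (latIso_reflX _) (fun v => by simp [reflX]) R
      (fun v hv => by
        rw [fr_mem_set] at hv ⊢
        obtain ⟨⟨h1, h2⟩, h3⟩ := hv
        refine ⟨⟨?_, ?_⟩, h3⟩
        · show R.o.1 ≤ 2 * t - v.1
          omega
        · show 2 * t - v.1 < R.o.1 + R.p
          omega)
      {v | t < v.1}
      (fun v hv => by
        have hv' : t < v.1 := hv
        show ¬ (t < 2 * t - v.1)
        omega)
      (fun v => by
        by_cases h1 : t < v.1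
        · exact Or.inl h1
        · by_cases h2 : t < 2 * t - v.1
          · exact Or.inr (Or.inl h2)
          · refine Or.inr (Or.inr (Prod.ext ?_ rfl))
            show 2 * t - v.1 = v.1
            omega)
      (fun x y hxy hx => by
        have hx' : t < x.1 := hx
        have := (fr_adj_fst hxy).1
        show ¬ (t < 2 * t - y.1)
        omega)
      (t, R.o.2)
      (by
        rw [fr_mem_set]
        refine ⟨⟨?_, ?_⟩, le_refl _, ?_⟩
        · show R.o.1 ≤ t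
          omega
        · show t < R.o.1 + R.p
          omega
        · show R.o.2 < R.o.2 + R.q
          omega)
      (Prod.ext (by show 2 * t - t = t; omega) rfl) b hb g hodd

/-- L-FR-R10 (= `C2.fold_diag`).  `fr_fold` with `σ = reflD t`, `P = {v | t < v.1 - v.2}`, `o = R.o`; `R.p = 0`: trivial. -/
theorem fr_fold_diag (R : Rc) (b : ℝ) (hb : 0 < b) (hsq : R.p = R.q) (t : ℤ) (ht : t = R.o.1 - R.o.2) (g : ℤ × ℤ → ℝ)
    (hodd : ∀ v, g (v.2 + t, v.1 - t) = - g v) :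
    R.var b (gd g) ≤ 2 * R.var b (gd fun v => if t < v.1 - v.2 then g v else 0) := by
  by_cases hp : R.p = 0
  · have hset : R.set = ∅ := by
      unfold Rc.set
      rw [hp]
      simp
    rw [fr_var_empty_zero R b hset, fr_var_empty_zero R b hset]
    norm_num
  · have hp' : 0 < R.p := Nat.pos_of_ne_zero hp
    exact fr_fold (reflD t) (latIso_reflD _) (fun v => by simp [reflD]) R
      (fun v hv => by
        rw [fr_mem_set] at hv ⊢
        obtain ⟨⟨h1, h2⟩, h3, h4⟩ := hv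
        refine ⟨⟨?_, ?_⟩, ?_, ?_⟩
        · show R.o.1 ≤ v.2 + t
          omega
        · show v.2 + t < R.o.1 + R.p
          omega
        · show R.o.2 ≤ v.1 - t
          omega
        · show v.1 - t < R.o.2 + R.q
          omega)
      {v | t < v.1 - v.2}
      (fun v hv => by
        have hv' : t < v.1 - v.2 := hv
        show ¬ (t < (v.2 + t) - (v.1 - t))
        omega)
      (fun v => by
        by_cases h1 : t < v.1 - v.2
        · exact Or.inl h1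
        · by_cases h2 : t < (v.2 + t) - (v.1 - t)
          · exact Or.inr (Or.inl h2)
          · refine Or.inr (Or.inr (Prod.ext ?_ ?_))
            · show v.2 + t = v.1
              omega
            · show v.1 - t = v.2
              omega)
      (fun x y hxy hx => by
        have hx' : t < x.1 - x.2 := hx
        have := (fr_adj_fst hxy).2
        show ¬ (t < (y.2 + t) - (y.1 - t))
        omega)
      R.o
      (by
        rw [fr_mem_set]
        refine ⟨⟨le_refl _, ?_⟩, le_refl _, ?_⟩ <;> omega)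
      (Prod.ext (by show R.o.2 + t = R.o.1; omega) (by show R.o.1 - t = R.o.2; omega)) b hb g hodd

/-! ## 6. The coefficient on squares -/

theorem fr_mem_sq {m : ℕ} {v : ℤ × ℤ} : v ∈ (C2.sq m).set ↔ (0 ≤ v.1 ∧ v.1 < m) ∧ (0 ≤ v.2 ∧ v.2 < m) := by
  rw [fr_mem_set]
  simp [C2.sq]

/-- a site of `R` as a vertex -/
def frVx {R : Rc} (v : ℤ × ℤ) (hv : v ∈ R.set) : R.G.V := ⟨v, hv⟩

theorem fr_domPos_vx {R : Rc} (v : ℤ × ℤ) (hv : v ∈ R.set) : domPos (D := R.set) (cut := ∅) (frVx v hv) = v := rfl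

theorem fr_domPos_mem {R : Rc} (v : R.G.V) : domPos (D := R.set) (cut := ∅) v ∈ R.set := v.2

theorem fr_domPos_inj {R : Rc} {v v' : R.G.V} (h : domPos (D := R.set) (cut := ∅) v = domPos (D := R.set) (cut := ∅) v') :
    v = v' := Subtype.ext h

theorem fr_domPos_src {R : Rc} (e : R.G.E) :
    domPos (D := R.set) (cut := ∅) (R.G.src e) = (domBond (D := R.set) (cut := ∅) e).1 := rfl

theorem fr_domPos_tgt {R : Rc} (e : R.G.E) :
    domPos (D := R.set) (cut := ∅) (R.G.tgt e) = (domBond (D := R.set) (cut := ∅) e).snd := rfl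

/-- the vertices of the square -/
def frSqV (m : ℕ) : (square m).V ≃ (C2.sq m).G.V where
  toFun u := frVx (((show Fin m × Fin m from u).1.1 : ℤ), ((show Fin m × Fin m from u).2.1 : ℤ)) (by
    have h1 := (show Fin m × Fin m from u).1.2
    have h2 := (show Fin m × Fin m from u).2.2
    rw [fr_mem_sq]
    simp only
    omega)
  invFun v := show Fin m × Fin m from
    (⟨(domPos (D := (C2.sq m).set) (cut := ∅) v).1.toNat, by
        have := fr_mem_sq.1 (fr_domPos_mem v)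
        omega⟩,
     ⟨(domPos (D := (C2.sq m).set) (cut := ∅) v).2.toNat, by
        have := fr_mem_sq.1 (fr_domPos_mem v)
        omega⟩)
  left_inv u := by
    apply Prod.ext
    · apply Fin.ext
      show (((show Fin m × Fin m from u).1.1 : ℤ)).toNat = _
      simp
    · apply Fin.ext
      show (((show Fin m × Fin m from u).2.1 : ℤ)).toNat = _
      simp
  right_inv v := by
    apply fr_domPos_inj
    rw [fr_domPos_vx]
    have := fr_mem_sq.1 (fr_domPos_mem v)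
    apply Prod.ext
    · show (((domPos (D := (C2.sq m).set) (cut := ∅) v).1.toNat : ℕ) : ℤ) = _
      omega
    · show (((domPos (D := (C2.sq m).set) (cut := ∅) v).2.toNat : ℕ) : ℤ) = _
      omega

theorem frSqV_pos (m : ℕ) (u : Fin m × Fin m) :
    domPos (D := (C2.sq m).set) (cut := ∅) (frSqV m u) = ((u.1.1 : ℤ), (u.2.1 : ℤ)) := rfl

/-- the bond of an edge of the square -/
def frSqB (m : ℕ) (e : (square m).E) : Bond := (((e.1.1.1.1 : ℤ), (e.1.1.2.1 : ℤ)), e.1.2)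

theorem frSqB_fst (m : ℕ) (e : (square m).E) :
    (frSqB m e).1 = domPos (D := (C2.sq m).set) (cut := ∅) (frSqV m ((square m).src e)) := rfl

theorem frSqB_snd (m : ℕ) (e : (square m).E) :
    (frSqB m e).snd = domPos (D := (C2.sq m).set) (cut := ∅) (frSqV m ((square m).tgt e)) := by
  obtain ⟨⟨⟨i, j⟩, d⟩, he⟩ := e
  cases d
  · rfl
  · rfl

theorem frSqB_mem (m : ℕ) (e : (square m).E) : frSqB m e ∈ (C2.sq m).bd := by
  rw [mem_bd, frSqB_fst, frSqB_snd]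
  exact ⟨fr_domPos_mem _, fr_domPos_mem _⟩

theorem frSqB_inj (m : ℕ) : Function.Injective (frSqB m) := by
  rintro ⟨⟨⟨i, j⟩, d⟩, he⟩ ⟨⟨⟨i', j'⟩, d'⟩, he'⟩ h
  simp only [frSqB, Prod.mk.injEq, Nat.cast_inj] at h
  apply Subtype.ext
  simp only [Prod.mk.injEq]
  exact ⟨⟨Fin.ext h.1.1, Fin.ext h.1.2⟩, h.2⟩

theorem frSqB_surj (m : ℕ) (e : Bond) (he : e ∈ (C2.sq m).bd) : ∃ e' : (square m).E, frSqB m e' = e := by
  obtain ⟨⟨a, c⟩, d⟩ := e
  rw [mem_bd, fr_mem_sq, fr_mem_sq] at he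
  cases d
  · simp only [Bond.snd, Bool.false_eq_true, if_false] at he
    refine ⟨⟨((⟨a.toNat, by omega⟩, ⟨c.toNat, by omega⟩), false), ?_⟩, ?_⟩
    · simp only [Bool.false_eq_true, if_false]
      omega
    · have h1 : ((a.toNat : ℕ) : ℤ) = a := Int.toNat_of_nonneg he.1.1.1
      have h2 : ((c.toNat : ℕ) : ℤ) = c := Int.toNat_of_nonneg he.1.2.1
      simp only [frSqB, h1, h2]
  · simp only [Bond.snd, if_true] at he
    refine ⟨⟨((⟨a.toNat, by omega⟩, ⟨c.toNat, by omega⟩), true), ?_⟩, ?_⟩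
    · simp only [if_true]
      omega
    · have h1 : ((a.toNat : ℕ) : ℤ) = a := Int.toNat_of_nonneg he.1.1.1
      have h2 : ((c.toNat : ℕ) : ℤ) = c := Int.toNat_of_nonneg he.1.2.1
      simp only [frSqB, h1, h2]

/-- the edges of the square -/
def frSqE (m : ℕ) : (square m).E ≃ (C2.sq m).G.E :=
  Equiv.ofBijective (fun e => frEd (frSqB m e) (frSqB_mem m e))
    ⟨fun e e' h => frSqB_inj m (congrArg (domBond (D := (C2.sq m).set) (cut := ∅)) h),
     fun e => by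
      obtain ⟨e', he'⟩ := frSqB_surj m _ (fr_domBond_mem e)
      exact ⟨e', fr_domBond_inj he'⟩⟩

theorem frSqE_src (m : ℕ) (e : (square m).E) : (C2.sq m).G.src (frSqE m e) = frSqV m ((square m).src e) :=
  fr_domPos_inj (frSqB_fst m e)

theorem frSqE_tgt (m : ℕ) (e : (square m).E) : (C2.sq m).G.tgt (frSqE m e) = frSqV m ((square m).tgt e) :=
  fr_domPos_inj (frSqB_snd m e)

/-- the heights of the square -/
def frSqT (m : ℕ) (c : (square m).V) (hc : domPos (D := (C2.sq m).set) (cut := ∅) (frSqV m c) = (0, 0)) :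
    (square m).Conf {c} ≃ (C2.sq m).law.Λ where
  toFun h := ⟨fun v => h.1 ((frSqV m).symm v), by
    intro v hv
    have h1 : domPos (D := (C2.sq m).set) (cut := ∅) v = (0, 0) := hv
    have h2 : v = frSqV m c := fr_domPos_inj (h1.trans hc.symm)
    show h.1 ((frSqV m).symm v) = 0
    rw [h2, Equiv.symm_apply_apply]
    exact h.2 c rfl⟩
  invFun k := ⟨fun u => k.1 (frSqV m u), by
    intro u hu
    rw [Set.mem_singleton_iff.1 hu]
    exact k.2 _ hc⟩
  left_inv h := by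
    apply Subtype.ext
    funext u
    show h.1 ((frSqV m).symm (frSqV m u)) = h.1 u
    rw [Equiv.symm_apply_apply]
  right_inv k := by
    apply Subtype.ext
    funext v
    show k.1 (frSqV m ((frSqV m).symm v)) = k.1 v
    rw [Equiv.apply_symm_apply]

theorem frSqT_apply (m : ℕ) (c : (square m).V) (hc : domPos (D := (C2.sq m).set) (cut := ∅) (frSqV m c) = (0, 0))
    (h : (square m).Conf {c}) (u : (square m).V) : (frSqT m c hc h : (C2.sq m).G.V → ℤ) (frSqV m u) = h.1 u := by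
  show h.1 ((frSqV m).symm (frSqV m u)) = h.1 u
  rw [Equiv.symm_apply_apply]

/-- the weights agree -/
theorem frSq_wt (b : ℝ) (m : ℕ) (c : (square m).V) (hc : domPos (D := (C2.sq m).set) (cut := ∅) (frSqV m c) = (0, 0))
    (h : (square m).Conf {c}) :
    ((C2.sq m).sys b).W ((C2.sq m).law.coordA b (frSqT m c hc h : (C2.sq m).G.V → ℤ)) = (square m).wt b 0 h.1 := by
  unfold LSys.W HGraph.wt
  have h1 : Real.exp (-(∑ o : ((C2.sq m).sys b).O, ((C2.sq m).law.coordA b (frSqT m c hc h : (C2.sq m).G.V → ℤ)).2 o ^ 2) / 2) = 1 := by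
    have : ∑ o : ((C2.sq m).sys b).O, ((C2.sq m).law.coordA b (frSqT m c hc h : (C2.sq m).G.V → ℤ)).2 o ^ 2 = 0 :=
      Finset.sum_eq_zero fun o _ => (o : Empty).elim
    rw [this]
    simp
  rw [h1, mul_one]
  refine (Fintype.prod_equiv (frSqE m) _ _ fun e => ?_).symm
  show bes b (h.1 ((square m).tgt e) - h.1 ((square m).src e) + 0)
    = bes b ((frSqT m c hc h : (C2.sq m).G.V → ℤ) ((C2.sq m).G.tgt (frSqE m e))
        - (frSqT m c hc h : (C2.sq m).G.V → ℤ) ((C2.sq m).G.src (frSqE m e)))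
  rw [frSqE_src, frSqE_tgt, frSqT_apply, frSqT_apply, add_zero]

theorem frSq_lap (m : ℕ) (v : ℤ × ℤ) (hv : v ∈ (C2.sq m).set) :
    (C2.sq m).lap (fun v => (v.1 : ℝ) / m) v
      = (m : ℝ)⁻¹ * ((if v.1 + 1 = m then 1 else 0) - (if v.1 = 0 then 1 else 0)) := by
  unfold Rc.lap
  have e1 : ∀ e : Bond, gd (fun v : ℤ × ℤ => (v.1 : ℝ) / m) e * ((if e.snd = v then 1 else 0) - (if e.1 = v then 1 else 0))
      = (if e = ((v.1 - 1, v.2), true) then (m : ℝ)⁻¹ else 0) - (if e = (v, true) then (m : ℝ)⁻¹ else 0) := by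
    rintro ⟨⟨a, c⟩, d⟩
    obtain ⟨v1, v2⟩ := v
    cases d
    · simp [gd, Bond.snd]
    · have h1 : (a + 1 = v1 ∧ c = v2) ↔ (a = v1 - 1 ∧ c = v2) := by constructor <;> intro h <;> constructor <;> omega
      simp only [gd, Bond.snd, if_true, Prod.mk.injEq, and_true, h1]
      push_cast
      split_ifs <;> ring
  simp_rw [e1]
  rw [Finset.sum_sub_distrib, Finset.sum_ite_eq', Finset.sum_ite_eq']
  have hv' := fr_mem_sq.1 hv
  have c1 : (((v.1 - 1, v.2), true) : Bond) ∈ (C2.sq m).bd ↔ 1 ≤ v.1 := by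
    rw [mem_bd, fr_mem_sq, fr_mem_sq]
    simp only [Bond.snd, if_true]
    omega
  have c2 : ((v, true) : Bond) ∈ (C2.sq m).bd ↔ v.1 + 1 < m := by
    rw [mem_bd, fr_mem_sq, fr_mem_sq]
    simp only [Bond.snd, if_true]
    omega
  simp only [c1, c2]
  split_ifs <;> first | (exfalso; omega) | ring

theorem fr_sum_two {ι : Type*} [Fintype ι] [DecidableEq ι] (c : ℝ) (a z : ι) (F : ι → ℝ) :
    ∑ i, c * ((if i = a then 1 else 0) - (if i = z then 1 else 0)) * F i = c * (F a - F z) := by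
  have : ∀ i, c * ((if i = a then 1 else 0) - (if i = z then 1 else 0)) * F i
      = (if i = a then c * F i else 0) - (if i = z then c * F i else 0) := by
    intro i
    split_ifs <;> ring
  simp_rw [this]
  rw [Finset.sum_sub_distrib, Finset.sum_ite_eq', Finset.sum_ite_eq']
  simp
  ring

/-- the tests agree -/
theorem frSq_test (b : ℝ) (m : ℕ) (hm : m ≠ 0) (c : (square m).V)
    (hc : domPos (D := (C2.sq m).set) (cut := ∅) (frSqV m c) = (0, 0)) (h : (square m).Conf {c}) :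
    (C2.sq m).flowX b (gd fun v => (v.1 : ℝ) / m)
        ⟨(C2.sq m).law.coordA b (frSqT m c hc h : (C2.sq m).G.V → ℤ), (C2.sq m).law.coordA_mem b (frSqT m c hc h).2⟩
      = (m : ℝ)⁻¹ * ∑ y : Fin m, (2 * Real.pi * (h.1 ((⟨m - 1, by omega⟩, y) : Fin m × Fin m) : ℝ)
          - 2 * Real.pi * (h.1 ((⟨0, Nat.pos_of_ne_zero hm⟩, y) : Fin m × Fin m) : ℝ)) := by
  have h1 := fr_gradX_lift (C2.sq m) b (fun v => (v.1 : ℝ) / m) (frSqT m c hc h : (C2.sq m).G.V → ℤ) (frSqT m c hc h).2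
  refine h1.trans ?_
  rw [← Equiv.sum_comp (frSqV m)]
  simp_rw [frSqT_apply]
  show ∑ u : Fin m × Fin m, (C2.sq m).lap (fun v => (v.1 : ℝ) / m) ((u.1.1 : ℤ), (u.2.1 : ℤ)) * (2 * Real.pi * (h.1 u : ℝ)) = _
  rw [Fintype.sum_prod_type, Finset.sum_comm, Finset.mul_sum]
  apply Finset.sum_congr rfl
  intro y _
  rw [← fr_sum_two (m : ℝ)⁻¹ (⟨m - 1, by omega⟩ : Fin m) ⟨0, Nat.pos_of_ne_zero hm⟩
    (fun i => 2 * Real.pi * (h.1 ((i, y) : Fin m × Fin m) : ℝ))]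
  apply Finset.sum_congr rfl
  intro i _
  rw [frSq_lap m _ (by rw [fr_mem_sq]; simp only; have := i.2; have := y.2; omega)]
  have c1 : ((i.1 : ℤ) + 1 = m) ↔ i = ⟨m - 1, by omega⟩ := by
    rw [Fin.ext_iff]
    simp only
    omega
  have c2 : ((i.1 : ℤ) = 0) ↔ i = ⟨0, Nat.pos_of_ne_zero hm⟩ := by
    rw [Fin.ext_iff]
    simp only
    omega
  simp only [c1, c2]

/-- sums over the heights of `square m` are sums over the heights of the rectangle -/
theorem frSq_Zs (b : ℝ) (m : ℕ) (hm : m ≠ 0) (Φ : ℝ → ℝ) :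
    (square m).Zs b {((⟨0, Nat.pos_of_ne_zero hm⟩, ⟨0, Nat.pos_of_ne_zero hm⟩) : Fin m × Fin m)} 0 0
        (fun h => Φ ((m : ℝ)⁻¹ * ∑ y : Fin m, (h ((⟨m - 1, by omega⟩, y) : Fin m × Fin m)
          - h ((⟨0, Nat.pos_of_ne_zero hm⟩, y) : Fin m × Fin m))))
      = ∑' k : (C2.sq m).law.Λ, Φ ((C2.sq m).flowX b (gd fun v => (v.1 : ℝ) / m)
          ⟨(C2.sq m).law.coordA b (k : (C2.sq m).G.V → ℤ), (C2.sq m).law.coordA_mem b k.2⟩)
          * ((C2.sq m).sys b).W ((C2.sq m).law.coordA b (k : (C2.sq m).G.V → ℤ)) := by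
  have hc : domPos (D := (C2.sq m).set) (cut := ∅)
      (frSqV m ((⟨0, Nat.pos_of_ne_zero hm⟩, ⟨0, Nat.pos_of_ne_zero hm⟩) : Fin m × Fin m)) = (0, 0) := rfl
  rw [← (frSqT m _ hc).tsum_eq]
  unfold HGraph.Zs
  apply tsum_congr
  intro h
  have w := frSq_wt b m _ hc h
  have t := frSq_test b m hm _ hc h
  rw [w, t]
  have e0 : Real.exp (-((0 : ((square m).V → ℝ) → ℝ) fun v => 2 * Real.pi * (h.1 v : ℝ)) / 2) = 1 := by simp
  rw [e0, mul_one]

/-- L-FR-R11 (= `C2.aCoef_eq`).  `m = 0`: both sides vanish.  Otherwise `aCoef` = `HGraph.Vr` on `square m` with the corner pinned; `hgraph_Zs_eq` + `E0_heights` on both graphs; the graphs are isomorphic by `(i,j) ↦ ((i:ℤ),(j:ℤ))`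
(vertices: `Fin m × Fin m ≃ (sq m).set`; edges likewise, orientation preserved); reindex the sums.  The test: right minus left face average `= ∑_{horizontal bonds} (1/m) ∇_e` (telescoping along each row). -/
theorem fr_aCoef_eq (b : ℝ) (m : ℕ) : aCoef b m = (C2.sq m).var b (gd fun v => (v.1 : ℝ) / m) := by
  unfold Rc.var
  rw [rd_V0_eq]
  by_cases hm : m = 0
  · subst hm
    unfold aCoef
    rw [dif_pos rfl]
    have h0 : ∀ z : ((C2.sq 0).sys b).L, (C2.sq 0).flowX b (gd fun v => (v.1 : ℝ) / (0 : ℕ)) z ^ 2 = 0 * 1 := by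
      intro z
      rw [fr_flowX_apply]
      simp [gd]
    simp_rw [h0]
    rw [rd_E0_smul, zero_mul]
  · unfold aCoef
    rw [dif_neg hm]
    unfold HGraph.Vr HGraph.Ex
    have h1 := frSq_Zs b m hm (fun t => t ^ 2)
    have h2 := frSq_Zs b m hm (fun t => t)
    have h3 := frSq_Zs b m hm (fun _ => 1)
    have e1 : ((C2.sq m).sys b).E0 (fun z => (C2.sq m).flowX b (gd fun v => (v.1 : ℝ) / m) z ^ 2)
        = (∑' k : (C2.sq m).law.Λ, (C2.sq m).flowX b (gd fun v => (v.1 : ℝ) / m)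
          ⟨(C2.sq m).law.coordA b (k : (C2.sq m).G.V → ℤ), (C2.sq m).law.coordA_mem b k.2⟩ ^ 2
          * ((C2.sq m).sys b).W ((C2.sq m).law.coordA b (k : (C2.sq m).G.V → ℤ)))
          / ∑' k : (C2.sq m).law.Λ, ((C2.sq m).sys b).W ((C2.sq m).law.coordA b (k : (C2.sq m).G.V → ℤ)) :=
      E0_heights (C2.sq m).law (fr_proper _) b (fun z => (C2.sq m).flowX b (gd fun v => (v.1 : ℝ) / m) z ^ 2)
    have e2 : ((C2.sq m).sys b).E0 (fun z => (C2.sq m).flowX b (gd fun v => (v.1 : ℝ) / m) z)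
        = (∑' k : (C2.sq m).law.Λ, (C2.sq m).flowX b (gd fun v => (v.1 : ℝ) / m)
          ⟨(C2.sq m).law.coordA b (k : (C2.sq m).G.V → ℤ), (C2.sq m).law.coordA_mem b k.2⟩
          * ((C2.sq m).sys b).W ((C2.sq m).law.coordA b (k : (C2.sq m).G.V → ℤ)))
          / ∑' k : (C2.sq m).law.Λ, ((C2.sq m).sys b).W ((C2.sq m).law.coordA b (k : (C2.sq m).G.V → ℤ)) :=
      E0_heights (C2.sq m).law (fr_proper _) b (fun z => (C2.sq m).flowX b (gd fun v => (v.1 : ℝ) / m) z)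
    have e3 : ((C2.sq m).sys b).E0 (fun z => (C2.sq m).flowX b (gd fun v => (v.1 : ℝ) / m) z) = 0 := rd_E0_test _
    simp only [one_mul] at h3
    rw [h1, h2, h3, ← e1, ← e2, e3]
    ring

theorem fr_translate_var (R : Rc) (u : ℤ × ℤ) (b : ℝ) (w : Bond → ℝ) :
    (Rc.mk (R.o + u) R.p R.q).var b (fun e => w (e.1 - u, e.2)) = R.var b w := by
  unfold Rc.var
  rw [rd_V0_eq, rd_V0_eq]
  exact fr_translate R u b w (fun x => x ^ 2)

theorem fr_gd_affine (p₁ p₂ c : ℝ) (e : Bond) :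
    gd (fun v : ℤ × ℤ => p₁ * v.1 + p₂ * v.2 + c) e = if e.2 then p₁ else p₂ := by
  obtain ⟨x, d⟩ := e
  unfold gd Bond.snd
  cases d
  · simp only [Bool.false_eq_true, if_false]; push_cast; ring
  · simp only [if_true]; push_cast; ring

/-- L-FR-R12.  **Affine tests on squares.**  Translate to `sq m` (`fr_translate`, `gradX_congr`).  `X = p₁ m X₁ + p₂ m X₂`, `X₁, X₂` the tests of `x/m`, `y/m`.  `var X₁ = aCoef` (`fr_aCoef_eq`), `var X₂ = var X₁` (`fr_sym_var`, `reflD 0`),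
`Cov(X₁,X₂) = 0`: `var (X₁ + X₂) = var (-X₁ + X₂)` by `fr_sym_var` with `reflX (m-1)`, then `var_add`. -/
theorem fr_affine_sq (o : ℤ × ℤ) (m : ℕ) (b : ℝ) (hb : 0 < b) (p₁ p₂ c : ℝ) :
    (Rc.mk o m m).var b (gd fun v => p₁ * v.1 + p₂ * v.2 + c) = (p₁ ^ 2 + p₂ ^ 2) * (m : ℝ) ^ 2 * aCoef b m := by
  have h1 : (Rc.mk o m m).var b (gd fun v => p₁ * v.1 + p₂ * v.2 + c)
      = (C2.sq m).var b (gd fun v => p₁ * v.1 + p₂ * v.2 + c) := by
    have h := fr_translate_var (C2.sq m) o b (gd fun v => p₁ * v.1 + p₂ * v.2 + c)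
    have e : (fun e : Bond => gd (fun v : ℤ × ℤ => p₁ * v.1 + p₂ * v.2 + c) (e.1 - o, e.2))
        = gd fun v => p₁ * v.1 + p₂ * v.2 + c := by
      funext e; rw [fr_gd_affine, fr_gd_affine]
    have e2 : (C2.sq m).o + o = o := by simp [C2.sq]
    rw [e, e2] at h
    exact h
  rw [h1]
  by_cases hm : m = 0
  · have hset : (C2.sq m).set = ∅ := by
      unfold Rc.set C2.sq
      rw [hm]
      simp
    rw [fr_var_empty_zero _ b hset, hm]
    simp
  have hm' : (m : ℝ) ≠ 0 := Nat.cast_ne_zero.2 hm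
  obtain ⟨w₁, hw₁⟩ : ∃ w₁ : Bond → ℝ, w₁ = gd fun v : ℤ × ℤ => (v.1 : ℝ) / m := ⟨_, rfl⟩
  obtain ⟨w₂, hw₂⟩ : ∃ w₂ : Bond → ℝ, w₂ = gd fun v : ℤ × ℤ => (v.2 : ℝ) / m := ⟨_, rfl⟩
  have a1 : ∀ e : Bond, w₁ e = if e.2 then 1 / (m : ℝ) else 0 := by
    intro e
    rw [hw₁, ← fr_gd_affine (1 / (m : ℝ)) 0 0 e]
    congr 1
    funext v
    ring
  have a2 : ∀ e : Bond, w₂ e = if e.2 then 0 else 1 / (m : ℝ) := by
    intro e
    rw [hw₂, ← fr_gd_affine 0 (1 / (m : ℝ)) 0 e]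
    congr 1
    funext v
    ring
  have comb : ∀ q₁ q₂ c' : ℝ, gd (fun v : ℤ × ℤ => q₁ * v.1 + q₂ * v.2 + c') = fun e => (q₁ * m) * w₁ e + (q₂ * m) * w₂ e := by
    intro q₁ q₂ c'
    funext e
    rw [fr_gd_affine, a1, a2]
    by_cases he : e.2 = true
    · simp only [he, if_true]; field_simp; ring
    · simp only [he, Bool.false_eq_true, if_false]; field_simp; ring
  have hS := fr_ok (C2.sq m) b hb
  have V1 : ((C2.sq m).sys b).V0 ((C2.sq m).flowX b w₁) = aCoef b m := by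
    rw [hw₁]; exact (fr_aCoef_eq b m).symm
  have V2 : ((C2.sq m).sys b).V0 ((C2.sq m).flowX b w₂) = aCoef b m := by
    have h := fr_sym_var (reflD 0) (latIso_reflD 0) (C2.sq m) (C2.sq m) (fun v => by
      rw [fr_mem_set, fr_mem_set]
      show _ ↔ ((C2.sq m).o.1 ≤ v.2 + 0 ∧ v.2 + 0 < (C2.sq m).o.1 + (C2.sq m).p) ∧
        ((C2.sq m).o.2 ≤ v.1 - 0 ∧ v.1 - 0 < (C2.sq m).o.2 + (C2.sq m).q)
      simp only [C2.sq]
      constructor <;> intro h <;> omega) b (fun v => (v.1 : ℝ) / m)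
    have e : (fun v : ℤ × ℤ => ((((reflD 0).symm v).1 : ℤ) : ℝ) / m) = fun v : ℤ × ℤ => (v.2 : ℝ) / m := by
      funext v
      show (((v.2 + 0 : ℤ)) : ℝ) / m = _
      rw [add_zero]
    rw [e, ← hw₂, ← hw₁] at h
    unfold Rc.var at h
    rw [h, V1]
  have C0 : ((C2.sq m).sys b).Cv 0 0 ((C2.sq m).flowX b w₁) ((C2.sq m).flowX b w₂) = 0 := by
    have h := fr_sym_var (reflX ((m : ℤ) - 1)) (latIso_reflX _) (C2.sq m) (C2.sq m) (fun v => by
      rw [fr_mem_set, fr_mem_set]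
      show _ ↔ ((C2.sq m).o.1 ≤ ((m : ℤ) - 1) - v.1 ∧ ((m : ℤ) - 1) - v.1 < (C2.sq m).o.1 + (C2.sq m).p) ∧
        ((C2.sq m).o.2 ≤ v.2 ∧ v.2 < (C2.sq m).o.2 + (C2.sq m).q)
      simp only [C2.sq]
      constructor <;> intro h <;> omega) b (fun v => (1 / (m : ℝ)) * v.1 + (1 / (m : ℝ)) * v.2 + 0)
    have e : (fun v : ℤ × ℤ => (1 / (m : ℝ)) * ((((reflX ((m : ℤ) - 1)).symm v).1 : ℤ) : ℝ)
          + (1 / (m : ℝ)) * ((((reflX ((m : ℤ) - 1)).symm v).2 : ℤ) : ℝ) + 0)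
        = fun v : ℤ × ℤ => (-(1 / (m : ℝ))) * v.1 + (1 / (m : ℝ)) * v.2 + (1 / (m : ℝ)) * ((m : ℝ) - 1) := by
      funext v
      show (1 / (m : ℝ)) * (((((m : ℤ) - 1) - v.1 : ℤ)) : ℝ) + (1 / (m : ℝ)) * (v.2 : ℝ) + 0 = _
      push_cast
      ring
    rw [e, comb, comb] at h
    unfold Rc.var at h
    rw [fr_flowX_comb, fr_flowX_comb, fr_V0_comb _ hS, fr_V0_comb _ hS, V1, V2] at h
    have e3 : (1 / (m : ℝ)) * m = 1 := by field_simp
    have e4 : (-(1 / (m : ℝ))) * m = -1 := by field_simp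
    rw [e3, e4] at h
    linarith
  rw [comb]
  unfold Rc.var
  rw [fr_flowX_comb, fr_V0_comb _ hS, V1, V2, C0]
  ring

end

end Claimed.Agent.R285.Free
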