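import Claimed.Agent.R285.Free.Sat

/-!
# ROW 285, unit FREE, file 5: `P1` interpolation on the three-direction mesh, the class `Reg`, the variance limit [C](2.4) (architect helper60).   Paper-free.

Exports for `Read/C2.lean` s3: `reg_c2`, `reg_trg`, `reg_pol`, `reg_cos`, `reg_add`, `reg_smul`, `reg_bdd`, `free_var`, `free_cov`, `free_partial_upper` (names `fr_*`).

## Why `P1`
`Free/Sat.lean` gives the linear class `TS` with the generators `hV τ / n` (hinge `(x-τ)₊`), `hH τ / n`, `fD t τ / n` (`= (min (x-τ) (x-y-t))₊`).  With `τ, t` on a coarse grid of mesh `ℓ` these span ALL continuous functions which are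
affine on the triangles of the mesh obtained from the squares of side `ℓ` by drawing the diagonals of direction `(1,1)`.  A discrete `C²` function is within `O(ℓ/n)` in energy of its nodal interpolant.
All identities and the error bound of this file were checked numerically (exact rational arithmetic).

## Chain
 s1 (coarse lattice, Mathlib only): `hinge_rep`, `mix_zero`, `mix_cF` → `coarse_rep`.
 s2 (the interpolant): `p1_sum`, `p1_congr`, `p1_hV/hH/fD`, `p1_gd` ; `nod_lip`, `gd_osc`, `p1_err` → `p1_fin` (the finite approximation theorem).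
 s3: `ts_comb`, `p1_approx`.     s4: `Reg`.     s5: `fr_free_var`, `fr_free_cov`, `fr_free_partial_upper`.

LEAVES `L-FR-P*`: every `sorry`.
-/

set_option autoImplicit false

namespace Claimed.Agent.R285.Free

open Filter Topology C2
open scoped Classical

noncomputable section

/-! ## 1. The coarse lattice (Mathlib only) -/

/-- positive part of an integer, as a real -/
def pp (i : ℤ) : ℝ := max (i : ℝ) 0

/-- nodal values of the diagonal fold -/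
def cF (l j : ℤ) (i : ℤ × ℤ) : ℝ := pp (min (i.1 - j) (i.1 - i.2 - l))

/-- mixed difference on the cell with lower left corner `i` -/
def mix (c : ℤ × ℤ → ℝ) (i : ℤ × ℤ) : ℝ := c (i.1 + 1, i.2 + 1) - c (i.1 + 1, i.2) - c (i.1, i.2 + 1) + c i

theorem pp_eq_cast (i : ℤ) : pp i = ((max i 0 : ℤ) : ℝ) := by
  unfold pp; push_cast; rfl

theorem pp_of_nonneg {i : ℤ} (h : 0 ≤ i) : pp i = i := by
  rw [pp_eq_cast, max_eq_left h]

theorem pp_of_nonpos {i : ℤ} (h : i ≤ 0) : pp i = 0 := by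
  rw [pp_eq_cast, max_eq_right h, Int.cast_zero]

theorem hinge_aux (U : ℤ → ℝ) (N : ℕ) (i : ℤ) (h0 : 0 ≤ i) :
    U 0 + ∑ j ∈ Finset.range N, (U ((j : ℤ) + 1) - U (j : ℤ) - (if j = 0 then 0 else U (j : ℤ) - U ((j : ℤ) - 1)))
        * pp (i - (j : ℤ))
      = if i ≤ N then U i else U N + ((i : ℝ) - N) * (if N = 0 then 0 else U (N : ℤ) - U ((N : ℤ) - 1)) := by
  induction N with
  | zero =>
    simp only [Finset.range_zero, Finset.sum_empty, add_zero, Nat.cast_zero, if_true, mul_zero]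
    split_ifs with h
    · rw [le_antisymm h h0]
    · rfl
  | succ N ih =>
    rw [Finset.sum_range_succ, ← add_assoc, ih]
    have hN1 : ((N + 1 : ℕ) : ℤ) = (N : ℤ) + 1 := by push_cast; rfl
    by_cases h1 : i ≤ N
    · have h1' : i ≤ ((N + 1 : ℕ) : ℤ) := by rw [hN1]; omega
      rw [if_pos h1, if_pos h1', pp_of_nonpos (by omega), mul_zero, add_zero]
    · rw [if_neg h1, pp_of_nonneg (by omega)]
      by_cases h2 : i ≤ ((N + 1 : ℕ) : ℤ)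
      · have h3 : i = (N : ℤ) + 1 := by omega
        rw [if_pos h2, h3]
        push_cast
        ring
      · rw [if_neg h2, if_neg (Nat.succ_ne_zero N), hN1]
        push_cast
        rw [add_sub_cancel_right]
        ring

/-- L-FR-P1 (Mathlib only).  One-dimensional hinges.  Induction on `i` (as a natural number `≤ N`): with `D j = U (j+1) - U j` the sum telescopes, `∑_{j<i} (D j - D (j-1)) (i - j) = ∑_{j<i} D j`. -/
theorem hinge_rep (N : ℕ) (U : ℤ → ℝ) (i : ℤ) (h0 : 0 ≤ i) (hN : i ≤ N) :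
    U i = U 0 + ∑ j : Fin N, (U ((j : ℕ) + 1) - U (j : ℕ) - (if (j : ℕ) = 0 then 0 else U (j : ℕ) - U ((j : ℕ) - 1))) * pp (i - (j : ℕ)) := by
  have h := hinge_aux U N i h0
  rw [if_pos hN] at h
  rw [← h, Fin.sum_univ_eq_sum_range (fun j : ℕ => (U ((j : ℤ) + 1) - U (j : ℤ)
    - (if j = 0 then 0 else U (j : ℤ) - U ((j : ℤ) - 1))) * pp (i - (j : ℤ))) N]

theorem mix_zero_aux (N : ℕ) (c : ℤ × ℤ → ℝ) (h : ∀ i : ℤ × ℤ, 0 ≤ i.1 → i.1 < N → 0 ≤ i.2 → i.2 < N → mix c i = 0)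
    (a b : ℕ) (ha : a < N) (hb : b ≤ N) :
    c ((a : ℤ) + 1, (b : ℤ)) - c ((a : ℤ), (b : ℤ)) = c ((a : ℤ) + 1, 0) - c ((a : ℤ), 0) := by
  induction b with
  | zero => simp
  | succ b ih =>
    have h1 := h ((a : ℤ), (b : ℤ)) (by simp) (by simpa using ha) (by simp) (by simp only; omega)
    have h2 := ih (by omega)
    unfold mix at h1
    simp only at h1
    push_cast
    linarith

/-- L-FR-P1 (Mathlib only).  Zero mixed differences: induction on `i.1`, then on `i.2`. -/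
theorem mix_zero (N : ℕ) (c : ℤ × ℤ → ℝ) (h : ∀ i : ℤ × ℤ, 0 ≤ i.1 → i.1 < N → 0 ≤ i.2 → i.2 < N → mix c i = 0)
    (i : ℤ × ℤ) (h1 : 0 ≤ i.1) (h1' : i.1 ≤ N) (h2 : 0 ≤ i.2) (h2' : i.2 ≤ N) : c i = c (i.1, 0) + c (0, i.2) - c (0, 0) := by
  obtain ⟨x, y⟩ := i
  simp only at h1 h1' h2 h2' ⊢
  obtain ⟨a, rfl⟩ := Int.eq_ofNat_of_zero_le h1
  obtain ⟨b, rfl⟩ := Int.eq_ofNat_of_zero_le h2
  have hb : b ≤ N := by omega
  have ha : a ≤ N := by omega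
  clear h1 h1' h2 h2'
  induction a with
  | zero => simp
  | succ a ih =>
    have e1 := mix_zero_aux N c h a b (by omega) hb
    have e2 := ih (by omega)
    push_cast
    linarith

/-- L-FR-P1 (Mathlib only).  With `p = i.1 - j`, `d = i.1 - i.2 - l`: `mix = (min (p+1) d)₊ - (min (p+1) (d+1))₊ - (min p (d-1))₊ + (min p d)₊`; cases `d < 0`, `d = 0`, `d ≥ 1` and `p ≥ d`, `p = d - 1`, `p ≤ d - 2` (`omega` after `max_def`, `min_def`, casts). -/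
theorem mix_cF (l j : ℤ) (i : ℤ × ℤ) : mix (cF l j) i = if i.1 - i.2 = l ∧ j ≤ i.1 then -1 else 0 := by
  obtain ⟨x, y⟩ := i
  unfold mix cF
  simp only [pp_eq_cast]
  have key : (max (min (x + 1 - j) (x + 1 - (y + 1) - l)) 0 : ℤ) - max (min (x + 1 - j) (x + 1 - y - l)) 0
      - max (min (x - j) (x - (y + 1) - l)) 0 + max (min (x - j) (x - y - l)) 0
      = if x - y = l ∧ j ≤ x then -1 else 0 := by
    split_ifs with h <;> omega
  have key' := congrArg (fun k : ℤ => (k : ℝ)) key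
  rw [apply_ite (fun k : ℤ => (k : ℝ))] at key'
  push_cast at key' ⊢
  exact key'

theorem mix_sum2 {α β : Type} [Fintype α] [Fintype β] (γ : α → β → ℝ) (F : α → β → ℤ × ℤ → ℝ) (i : ℤ × ℤ) :
    mix (fun i => ∑ l, ∑ j, γ l j * F l j i) i = ∑ l, ∑ j, γ l j * mix (F l j) i := by
  unfold mix
  simp only [mul_add, mul_sub, Finset.sum_add_distrib, Finset.sum_sub_distrib]

theorem cF_lip1 (l j x y : ℤ) : |cF l j (x + 1, y) - cF l j (x, y)| ≤ 1 := by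
  unfold cF
  simp only [pp_eq_cast]
  rw [← Int.cast_sub, ← Int.cast_abs]
  refine (Int.cast_le (R := ℝ)).2 (?_ : _ ≤ (1 : ℤ)) |>.trans_eq Int.cast_one
  rw [abs_le]
  constructor <;> omega

theorem cF_lip2 (l j x y : ℤ) : |cF l j (x, y + 1) - cF l j (x, y)| ≤ 1 := by
  unfold cF
  simp only [pp_eq_cast]
  rw [← Int.cast_sub, ← Int.cast_abs]
  refine (Int.cast_le (R := ℝ)).2 (?_ : _ ≤ (1 : ℤ)) |>.trans_eq Int.cast_one
  rw [abs_le]
  constructor <;> omega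

/-- the mixed differences of the sum of diagonal folds -/
theorem coarse_mix (N : ℕ) (μ : ℤ × ℤ → ℝ) (hμ : ∀ i : ℤ × ℤ, i.1 < 0 → μ i = 0) (i : ℤ × ℤ)
    (h1 : 0 ≤ i.1) (h1' : i.1 < N) (h2 : 0 ≤ i.2) (h2' : i.2 < N) :
    mix (fun i => ∑ l : Fin (2 * N), ∑ j : Fin N,
      (-(μ (((j : ℕ) : ℤ), ((j : ℕ) : ℤ) - (((l : ℕ) : ℤ) - (N : ℤ)))
        - μ (((j : ℕ) : ℤ) - 1, ((j : ℕ) : ℤ) - 1 - (((l : ℕ) : ℤ) - (N : ℤ)))))
        * cF (((l : ℕ) : ℤ) - (N : ℤ)) ((j : ℕ) : ℤ) i) i = μ i := by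
  rw [mix_sum2]
  simp only [mix_cF]
  obtain ⟨x, y⟩ := i
  simp only at h1 h1' h2 h2' ⊢
  obtain ⟨a, rfl⟩ := Int.eq_ofNat_of_zero_le h1
  obtain ⟨b, rfl⟩ := Int.eq_ofNat_of_zero_le h2
  have ha : a < N := by omega
  have hb : b < N := by omega
  have hl : a + N - b < 2 * N := by omega
  rw [Finset.sum_eq_single (⟨a + N - b, hl⟩ : Fin (2 * N))]
  · have hd : (((a + N - b : ℕ) : ℤ)) - (N : ℤ) = (a : ℤ) - b := by omega
    simp only [hd, true_and]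
    rw [Fin.sum_univ_eq_sum_range (fun j : ℕ => (-(μ ((j : ℤ), (j : ℤ) - ((a : ℤ) - b))
        - μ ((j : ℤ) - 1, (j : ℤ) - 1 - ((a : ℤ) - b)))) * (if (j : ℤ) ≤ (a : ℤ) then (-1 : ℝ) else 0)) N]
    rw [← Finset.sum_subset (Finset.range_subset_range.2 (Nat.succ_le_of_lt ha))]
    · have hf : ∀ j ∈ Finset.range (a + 1), (-(μ ((j : ℤ), (j : ℤ) - ((a : ℤ) - b))
          - μ ((j : ℤ) - 1, (j : ℤ) - 1 - ((a : ℤ) - b)))) * (if (j : ℤ) ≤ (a : ℤ) then (-1 : ℝ) else 0)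
          = (fun k : ℕ => μ ((k : ℤ) - 1, (k : ℤ) - 1 - ((a : ℤ) - b))) (j + 1)
            - (fun k : ℕ => μ ((k : ℤ) - 1, (k : ℤ) - 1 - ((a : ℤ) - b))) j := by
        intro j hj
        have hj' : (j : ℤ) ≤ a := by have := Finset.mem_range.1 hj; omega
        rw [if_pos hj']
        simp only
        push_cast
        rw [add_sub_cancel_right]
        ring
      rw [Finset.sum_congr rfl hf,
        Finset.sum_range_sub (fun k : ℕ => μ ((k : ℤ) - 1, (k : ℤ) - 1 - ((a : ℤ) - b))) (a + 1)]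
      rw [hμ (((0 : ℕ) : ℤ) - 1, _) (by simp), sub_zero]
      congr 1
      ext <;> simp
    · intro j _ hj
      have hj' : ¬ (j : ℤ) ≤ a := by
        intro h
        exact hj (Finset.mem_range.2 (by omega))
      rw [if_neg hj', mul_zero]
  · intro l _ hl'
    refine Finset.sum_eq_zero fun j _ => ?_
    have : ¬ ((a : ℤ) - b = ((l : ℕ) : ℤ) - (N : ℤ) ∧ ((j : ℕ) : ℤ) ≤ a) := by
      rintro ⟨h, -⟩
      apply hl'
      apply Fin.ext
      simp only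
      omega
    rw [if_neg this, mul_zero]
  · intro h
    exact absurd (Finset.mem_univ _) h

theorem coarse_S_lip (N : ℕ) (γ : Fin (2 * N) → Fin N → ℝ) (K : ℝ) (hγ : ∀ l j, |γ l j| ≤ K) (i i' : ℤ × ℤ)
    (h : ∀ l j : ℤ, |cF l j i - cF l j i'| ≤ 1) :
    |(∑ l : Fin (2 * N), ∑ j : Fin N, γ l j * cF (((l : ℕ) : ℤ) - (N : ℤ)) ((j : ℕ) : ℤ) i)
      - ∑ l : Fin (2 * N), ∑ j : Fin N, γ l j * cF (((l : ℕ) : ℤ) - (N : ℤ)) ((j : ℕ) : ℤ) i'| ≤ 2 * (N : ℝ) ^ 2 * K := by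
  rw [← Finset.sum_sub_distrib]
  simp only [← Finset.sum_sub_distrib, ← mul_sub]
  calc |∑ l : Fin (2 * N), ∑ j : Fin N, γ l j * (cF (((l : ℕ) : ℤ) - (N : ℤ)) ((j : ℕ) : ℤ) i
        - cF (((l : ℕ) : ℤ) - (N : ℤ)) ((j : ℕ) : ℤ) i')|
      ≤ ∑ l : Fin (2 * N), ∑ j : Fin N, K := by
        refine (Finset.abs_sum_le_sum_abs _ _).trans (Finset.sum_le_sum fun l _ => ?_)
        refine (Finset.abs_sum_le_sum_abs _ _).trans (Finset.sum_le_sum fun j _ => ?_)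
        rw [abs_mul]
        calc |γ l j| * _ ≤ K * 1 :=
              mul_le_mul (hγ l j) (h _ _) (abs_nonneg _) ((abs_nonneg _).trans (hγ l j))
          _ = K := mul_one K
    _ = 2 * (N : ℝ) ^ 2 * K := by
        simp only [Finset.sum_const, Finset.card_univ, Fintype.card_fin, nsmul_eq_mul]
        push_cast
        ring

/-- L-FR-P2 (Mathlib only).  **Every function on `[0,N]²` is a combination of hinges and diagonal folds, with coefficients bounded by the Lipschitz constant.**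
`μ i := mix c i` on `[0,N)²`, `0` elsewhere (`|μ| ≤ 2L`).   `γ l j := -(μ (j, j - (l-N)) - μ (j-1, j-1-(l-N)))` (`|γ| ≤ 4L`).   By `mix_cF` the sum `∑ γ l j cF (l-N) j` has the mixed differences `μ` on `[0,N)²`
(on the diagonal `i.1 - i.2 = l - N` the sum over `j ≤ i.1` telescopes).   `c' = c - ∑ γ cF` has zero mixed differences: `mix_zero`; `hinge_rep` for `c' (·, 0)` and `c' (0, ·)`; `c₀ = c' (0,0)`.
`cF` is `1`-Lipschitz in each variable, so `c'` is `(1 + 8 N²) L`-Lipschitz and `|u|, |v| ≤ 2 (1 + 8N²) L`. -/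
theorem coarse_rep (N : ℕ) : ∃ C : ℝ, ∀ (c : ℤ × ℤ → ℝ) (L : ℝ),
    (∀ i : ℤ × ℤ, 0 ≤ i.1 → i.1 ≤ N → 0 ≤ i.2 → i.2 ≤ N →
      (i.1 < N → |c (i.1 + 1, i.2) - c i| ≤ L) ∧ (i.2 < N → |c (i.1, i.2 + 1) - c i| ≤ L)) →
    ∃ (c₀ : ℝ) (u v : Fin N → ℝ) (γ : Fin (2 * N) → Fin N → ℝ), (∀ j, |u j| ≤ C * L) ∧ (∀ j, |v j| ≤ C * L) ∧ (∀ l j, |γ l j| ≤ C * L) ∧
      ∀ i : ℤ × ℤ, 0 ≤ i.1 → i.1 ≤ N → 0 ≤ i.2 → i.2 ≤ N →
        c i = c₀ + ∑ j : Fin N, u j * pp (i.1 - (j : ℕ)) + ∑ j : Fin N, v j * pp (i.2 - (j : ℕ))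
          + ∑ l : Fin (2 * N), ∑ j : Fin N, γ l j * cF ((l : ℕ) - (N : ℤ)) (j : ℕ) i := by
  refine ⟨2 * (1 + 8 * (N : ℝ) ^ 2), fun c L hc => ?_⟩
  rcases Nat.eq_zero_or_pos N with rfl | hN
  · refine ⟨c (0, 0), fun j => j.elim0, fun j => j.elim0, fun l => l.elim0, fun j => j.elim0, fun j => j.elim0,
      fun l => l.elim0, fun i h1 h1' h2 h2' => ?_⟩
    have e1 : i.1 = 0 := le_antisymm (by simpa using h1') h1
    have e2 : i.2 = 0 := le_antisymm (by simpa using h2') h2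
    have : i = (0, 0) := Prod.ext e1 e2
    simp [this]
  have hN' : (0 : ℤ) < N := by exact_mod_cast hN
  have hL : 0 ≤ L := (abs_nonneg _).trans ((hc (0, 0) le_rfl hN'.le le_rfl hN'.le).1 hN')
  -- the mixed differences
  set μ : ℤ × ℤ → ℝ := fun i => if 0 ≤ i.1 ∧ i.1 < N ∧ 0 ≤ i.2 ∧ i.2 < N then mix c i else 0 with hμdef
  have hμ0 : ∀ i : ℤ × ℤ, i.1 < 0 → μ i = 0 := by
    intro i hi
    rw [hμdef]
    simp only
    rw [if_neg (by omega)]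
  have hμb : ∀ i, |μ i| ≤ 2 * L := by
    intro i
    rw [hμdef]
    simp only
    split_ifs with h
    · obtain ⟨a1, a2, a3, a4⟩ := h
      have b1 := (hc (i.1 + 1, i.2) (by simp only; omega) (by simp only; omega) a3 a4.le).2 a4
      have b2 := (hc i a1 a2.le a3 a4.le).2 a4
      simp only at b1
      unfold mix
      rw [abs_le] at b1 b2 ⊢
      constructor <;> linarith [b1.1, b1.2, b2.1, b2.2]
    · rw [abs_zero]; positivity
  set γ : Fin (2 * N) → Fin N → ℝ := fun l j =>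
    -(μ (((j : ℕ) : ℤ), ((j : ℕ) : ℤ) - (((l : ℕ) : ℤ) - (N : ℤ)))
        - μ (((j : ℕ) : ℤ) - 1, ((j : ℕ) : ℤ) - 1 - (((l : ℕ) : ℤ) - (N : ℤ)))) with hγdef
  have hγb : ∀ l j, |γ l j| ≤ 4 * L := by
    intro l j
    rw [hγdef]
    simp only
    rw [abs_neg]
    refine (abs_sub _ _).trans ?_
    linarith [hμb (((j : ℕ) : ℤ), ((j : ℕ) : ℤ) - (((l : ℕ) : ℤ) - (N : ℤ))),
      hμb (((j : ℕ) : ℤ) - 1, ((j : ℕ) : ℤ) - 1 - (((l : ℕ) : ℤ) - (N : ℤ)))]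
  set S : ℤ × ℤ → ℝ := fun i => ∑ l : Fin (2 * N), ∑ j : Fin N,
    γ l j * cF (((l : ℕ) : ℤ) - (N : ℤ)) ((j : ℕ) : ℤ) i with hSdef
  have hSmix : ∀ i : ℤ × ℤ, 0 ≤ i.1 → i.1 < N → 0 ≤ i.2 → i.2 < N → mix S i = mix c i := by
    intro i a1 a2 a3 a4
    have := coarse_mix N μ hμ0 i a1 a2 a3 a4
    rw [hSdef, hγdef, this, hμdef]
    simp only
    rw [if_pos ⟨a1, a2, a3, a4⟩]
  set c' : ℤ × ℤ → ℝ := fun i => c i - S i with hc'def
  have hc'mix : ∀ i : ℤ × ℤ, 0 ≤ i.1 → i.1 < N → 0 ≤ i.2 → i.2 < N → mix c' i = 0 := by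
    intro i a1 a2 a3 a4
    have := hSmix i a1 a2 a3 a4
    unfold mix at this ⊢
    rw [hc'def]
    simp only
    linarith
  have hK : ∀ x : ℤ, 0 ≤ x → x < N → |c' (x + 1, 0) - c' (x, 0)| ≤ (1 + 8 * (N : ℝ) ^ 2) * L := by
    intro x a1 a2
    have b1 := (hc (x, 0) a1 a2.le le_rfl hN'.le).1 a2
    have b2 := coarse_S_lip N γ (4 * L) hγb (x + 1, 0) (x, 0) (fun l j => cF_lip1 l j x 0)
    simp only at b1
    rw [hc'def]
    simp only
    rw [show c (x + 1, 0) - S (x + 1, 0) - (c (x, 0) - S (x, 0))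
      = (c (x + 1, 0) - c (x, 0)) - (S (x + 1, 0) - S (x, 0)) by ring]
    refine (abs_sub _ _).trans ?_
    have b2' : |S (x + 1, 0) - S (x, 0)| ≤ 2 * (N : ℝ) ^ 2 * (4 * L) := b2
    linarith
  have hK' : ∀ y : ℤ, 0 ≤ y → y < N → |c' (0, y + 1) - c' (0, y)| ≤ (1 + 8 * (N : ℝ) ^ 2) * L := by
    intro y a1 a2
    have b1 := (hc (0, y) le_rfl hN'.le a1 a2.le).2 a2
    have b2 := coarse_S_lip N γ (4 * L) hγb (0, y + 1) (0, y) (fun l j => cF_lip2 l j 0 y)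
    simp only at b1
    rw [hc'def]
    simp only
    rw [show c (0, y + 1) - S (0, y + 1) - (c (0, y) - S (0, y))
      = (c (0, y + 1) - c (0, y)) - (S (0, y + 1) - S (0, y)) by ring]
    refine (abs_sub _ _).trans ?_
    have b2' : |S (0, y + 1) - S (0, y)| ≤ 2 * (N : ℝ) ^ 2 * (4 * L) := b2
    linarith
  have hKnn : 0 ≤ (1 + 8 * (N : ℝ) ^ 2) * L := by positivity
  -- bound for the hinge coefficients
  have hcoef : ∀ (U : ℤ → ℝ), (∀ x : ℤ, 0 ≤ x → x < N → |U (x + 1) - U x| ≤ (1 + 8 * (N : ℝ) ^ 2) * L) →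
      ∀ j : Fin N, |U (((j : ℕ) : ℤ) + 1) - U ((j : ℕ) : ℤ)
        - (if (j : ℕ) = 0 then 0 else U ((j : ℕ) : ℤ) - U (((j : ℕ) : ℤ) - 1))| ≤ 2 * (1 + 8 * (N : ℝ) ^ 2) * L := by
    intro U hU j
    have hj := j.2
    have b1 := hU ((j : ℕ) : ℤ) (by omega) (by omega)
    refine (abs_sub _ _).trans ?_
    split_ifs with h0
    · rw [abs_zero]; linarith
    · have b2 := hU (((j : ℕ) : ℤ) - 1) (by omega) (by omega)
      rw [sub_add_cancel] at b2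
      linarith
  refine ⟨c' (0, 0),
    fun j => c' (((j : ℕ) : ℤ) + 1, 0) - c' (((j : ℕ) : ℤ), 0)
      - (if (j : ℕ) = 0 then 0 else c' (((j : ℕ) : ℤ), 0) - c' (((j : ℕ) : ℤ) - 1, 0)),
    fun j => c' (0, ((j : ℕ) : ℤ) + 1) - c' (0, ((j : ℕ) : ℤ))
      - (if (j : ℕ) = 0 then 0 else c' (0, ((j : ℕ) : ℤ)) - c' (0, ((j : ℕ) : ℤ) - 1)),
    γ, hcoef (fun x => c' (x, 0)) hK, hcoef (fun y => c' (0, y)) hK', ?_, ?_⟩
  · intro l j
    refine (hγb l j).trans ?_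
    have : (0 : ℝ) ≤ (N : ℝ) ^ 2 * L := by positivity
    have h1N : (1 : ℝ) ≤ (N : ℝ) ^ 2 := by
      have : (1 : ℝ) ≤ N := by exact_mod_cast hN
      nlinarith
    nlinarith
  · intro i a1 a2 a3 a4
    have e1 := mix_zero N c' hc'mix i a1 a2 a3 a4
    have e2 := hinge_rep N (fun x => c' (x, 0)) i.1 a1 a2
    have e3 := hinge_rep N (fun y => c' (0, y)) i.2 a3 a4
    have e4 : c i = c' i + S i := by rw [hc'def]; ring
    rw [e4, e1, e2, e3]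
    ring

/-! ## 2. The interpolant -/

/-- the `P1` interpolant of the nodal values `c` on the grid `(o, ℓ)`; lower triangles `η ≤ ξ`, upper triangles `η > ξ` -/
def p1 (o : ℤ × ℤ) (ℓ : ℕ) (c : ℤ × ℤ → ℝ) (v : ℤ × ℤ) : ℝ :=
  if (v.2 - o.2) % (ℓ : ℤ) ≤ (v.1 - o.1) % (ℓ : ℤ) then
    c (cidx o ℓ v) + (((v.1 - o.1) % (ℓ : ℤ) : ℤ) : ℝ) / ℓ * (c (cidx o ℓ v + (1, 0)) - c (cidx o ℓ v))
      + (((v.2 - o.2) % (ℓ : ℤ) : ℤ) : ℝ) / ℓ * (c (cidx o ℓ v + (1, 1)) - c (cidx o ℓ v + (1, 0)))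
  else
    c (cidx o ℓ v) + (((v.2 - o.2) % (ℓ : ℤ) : ℤ) : ℝ) / ℓ * (c (cidx o ℓ v + (0, 1)) - c (cidx o ℓ v))
      + (((v.1 - o.1) % (ℓ : ℤ) : ℤ) : ℝ) / ℓ * (c (cidx o ℓ v + (1, 1)) - c (cidx o ℓ v + (0, 1)))

theorem p1_sum_aux {ι : Type} [Fintype ι] (t a b d : ι → ℝ) (c₀ α β : ℝ) :
    (c₀ + ∑ s, t s * a s) + α * ((c₀ + ∑ s, t s * b s) - (c₀ + ∑ s, t s * a s))
        + β * ((c₀ + ∑ s, t s * d s) - (c₀ + ∑ s, t s * b s))
      = c₀ + ∑ s, t s * (a s + α * (b s - a s) + β * (d s - b s)) := by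
  have h : ∀ s, t s * (a s + α * (b s - a s) + β * (d s - b s))
      = t s * a s + α * (t s * b s - t s * a s) + β * (t s * d s - t s * b s) := fun s => by ring
  simp only [h, Finset.sum_add_distrib, ← Finset.mul_sum, Finset.sum_sub_distrib]
  ring

/-- L-FR-P3.  Linear in the nodal values (`unfold p1; split_ifs`, `Finset.sum_add_distrib`, `Finset.mul_sum`, `ring`). -/
theorem p1_sum (o : ℤ × ℤ) (ℓ : ℕ) {ι : Type} [Fintype ι] (t : ι → ℝ) (c : ι → ℤ × ℤ → ℝ) (c₀ : ℝ) (v : ℤ × ℤ) :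
    p1 o ℓ (fun i => c₀ + ∑ s, t s * c s i) v = c₀ + ∑ s, t s * p1 o ℓ (c s) v := by
  unfold p1
  split_ifs with h
  · exact p1_sum_aux t _ _ _ c₀ _ _
  · exact p1_sum_aux t _ _ _ c₀ _ _

/-- L-FR-P3.  Only the four corners of the cell matter. -/
theorem p1_congr (o : ℤ × ℤ) (ℓ : ℕ) {c c' : ℤ × ℤ → ℝ} (v : ℤ × ℤ)
    (h : ∀ u : ℤ × ℤ, (u = (0, 0) ∨ u = (1, 0) ∨ u = (0, 1) ∨ u = (1, 1)) → c (cidx o ℓ v + u) = c' (cidx o ℓ v + u)) :
    p1 o ℓ c v = p1 o ℓ c' v := by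
  have h00 : c (cidx o ℓ v) = c' (cidx o ℓ v) := by
    have := h (0, 0) (Or.inl rfl)
    rwa [show ((0, 0) : ℤ × ℤ) = 0 from rfl, add_zero] at this
  have h10 := h (1, 0) (Or.inr (Or.inl rfl))
  have h01 := h (0, 1) (Or.inr (Or.inr (Or.inl rfl)))
  have h11 := h (1, 1) (Or.inr (Or.inr (Or.inr rfl)))
  unfold p1
  rw [h00, h10, h01, h11]

/-- the interpolant in local coordinates -/
def p1loc (ℓ : ℕ) (c : ℤ × ℤ → ℝ) (I J ξ η : ℤ) : ℝ :=
  if η ≤ ξ then c (I, J) + (ξ : ℝ) / ℓ * (c (I + 1, J) - c (I, J)) + (η : ℝ) / ℓ * (c (I + 1, J + 1) - c (I + 1, J))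
  else c (I, J) + (η : ℝ) / ℓ * (c (I, J + 1) - c (I, J)) + (ξ : ℝ) / ℓ * (c (I + 1, J + 1) - c (I, J + 1))

theorem p1_eq_loc (o : ℤ × ℤ) (ℓ : ℕ) (c : ℤ × ℤ → ℝ) (v : ℤ × ℤ) {I J ξ η : ℤ}
    (hx : ξ + ℓ * I = v.1 - o.1) (h0 : 0 ≤ ξ) (h1 : ξ < ℓ) (hy : η + ℓ * J = v.2 - o.2) (h2 : 0 ≤ η) (h3 : η < ℓ) :
    p1 o ℓ c v = p1loc ℓ c I J ξ η := by
  have hℓ : (0 : ℤ) < ℓ := lt_of_le_of_lt h0 h1
  obtain ⟨e1, e2⟩ := (Int.ediv_emod_unique hℓ).2 ⟨hx, h0, h1⟩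
  obtain ⟨e3, e4⟩ := (Int.ediv_emod_unique hℓ).2 ⟨hy, h2, h3⟩
  unfold p1 p1loc cidx
  simp only [e1, e2, e3, e4, Prod.mk_add_mk, add_zero]

/-- the local coordinates of a point -/
theorem p1_coords (o : ℤ × ℤ) {ℓ : ℕ} (hℓ : 0 < ℓ) (v : ℤ × ℤ) :
    ((v.1 - o.1) % (ℓ : ℤ) + ℓ * ((v.1 - o.1) / (ℓ : ℤ)) = v.1 - o.1 ∧ 0 ≤ (v.1 - o.1) % (ℓ : ℤ) ∧
      (v.1 - o.1) % (ℓ : ℤ) < ℓ) ∧
    ((v.2 - o.2) % (ℓ : ℤ) + ℓ * ((v.2 - o.2) / (ℓ : ℤ)) = v.2 - o.2 ∧ 0 ≤ (v.2 - o.2) % (ℓ : ℤ) ∧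
      (v.2 - o.2) % (ℓ : ℤ) < ℓ) := by
  have h : (0 : ℤ) < ℓ := by exact_mod_cast hℓ
  exact ⟨⟨Int.emod_add_mul_ediv _ _, Int.emod_nonneg _ h.ne', Int.emod_lt_of_pos _ h⟩,
    ⟨Int.emod_add_mul_ediv _ _, Int.emod_nonneg _ h.ne', Int.emod_lt_of_pos _ h⟩⟩

/-- integer nodal values times `ℓ` -/
theorem p1loc_int {ℓ : ℕ} (hℓ : 0 < ℓ) (F : ℤ × ℤ → ℤ) (I J ξ η : ℤ) :
    p1loc ℓ (fun i => ℓ * (F i : ℝ)) I J ξ η =
      ((if η ≤ ξ then ℓ * F (I, J) + ξ * (F (I + 1, J) - F (I, J)) + η * (F (I + 1, J + 1) - F (I + 1, J))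
        else ℓ * F (I, J) + η * (F (I, J + 1) - F (I, J)) + ξ * (F (I + 1, J + 1) - F (I, J + 1)) : ℤ) : ℝ) := by
  have h : (ℓ : ℝ) ≠ 0 := by positivity
  unfold p1loc
  split_ifs
  · push_cast; field_simp
  · push_cast; field_simp

theorem hinge_int_id (ℓ k ξ a b : ℤ) (hℓ : 0 < ℓ) (h0 : 0 ≤ ξ) (h1 : ξ < ℓ) :
    ℓ * max k 0 + ξ * (max (k + 1) 0 - max k 0) + a * (max (k + 1) 0 - max (k + 1) 0) + b * (max k 0 - max k 0)
      = max (ξ + ℓ * k) 0 := by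
  rcases le_or_gt 0 k with hk | hk
  · have e1 : max k 0 = k := max_eq_left hk
    have e2 : max (k + 1) 0 = k + 1 := max_eq_left (by omega)
    have e3 : 0 ≤ ℓ * k := mul_nonneg hℓ.le hk
    rw [e1, e2, max_eq_left (by omega)]
    ring
  · have e1 : max k 0 = 0 := max_eq_right hk.le
    have e2 : max (k + 1) 0 = 0 := max_eq_right (by omega)
    have e3 : ℓ * k ≤ ℓ * (-1) := mul_le_mul_of_nonneg_left (by omega) hℓ.le
    rw [e1, e2, max_eq_right (by omega)]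
    ring

/-- L-FR-P4.  Write `v.1 - o.1 = ℓ i + ξ`, `0 ≤ ξ < ℓ` (`Int.emod_add_ediv`, `Int.emod_nonneg`, `Int.emod_lt_of_pos`): `(ℓ (i - j) + ξ)₊ = ℓ (i-j)₊ + ξ ((i+1-j)₊ - (i-j)₊)`; cases `i ≥ j`, `i < j`. -/
theorem p1_hV (o : ℤ × ℤ) (ℓ : ℕ) (hℓ : 0 < ℓ) (j : ℤ) (v : ℤ × ℤ) :
    p1 o ℓ (fun i => ℓ * pp (i.1 - j)) v = hV (o.1 + ℓ * j) v := by
  obtain ⟨⟨hx, h0, h1⟩, ⟨hy, h2, h3⟩⟩ := p1_coords o hℓ v
  have hℓ' : (0 : ℤ) < ℓ := by exact_mod_cast hℓ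
  rw [p1_eq_loc o ℓ _ v hx h0 h1 hy h2 h3]
  generalize (v.1 - o.1) % (ℓ : ℤ) = ξ at *
  generalize (v.1 - o.1) / (ℓ : ℤ) = I at *
  generalize (v.2 - o.2) % (ℓ : ℤ) = η at *
  generalize (v.2 - o.2) / (ℓ : ℤ) = J at *
  simp only [pp_eq_cast]
  rw [p1loc_int hℓ (fun i => max (i.1 - j) 0)]
  show _ = pp (v.1 - (o.1 + ℓ * j))
  rw [pp_eq_cast]
  congr 1
  have e : v.1 - (o.1 + ℓ * j) = ξ + ℓ * (I - j) := by linear_combination -hx
  rw [e, ← hinge_int_id ℓ (I - j) ξ η η hℓ' h0 h1]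
  have e' : I + 1 - j = I - j + 1 := by ring
  simp only [e']
  split_ifs <;> ring

/-- L-FR-P4. -/
theorem p1_hH (o : ℤ × ℤ) (ℓ : ℕ) (hℓ : 0 < ℓ) (j : ℤ) (v : ℤ × ℤ) :
    p1 o ℓ (fun i => ℓ * pp (i.2 - j)) v = hH (o.2 + ℓ * j) v := by
  obtain ⟨⟨hx, h0, h1⟩, ⟨hy, h2, h3⟩⟩ := p1_coords o hℓ v
  have hℓ' : (0 : ℤ) < ℓ := by exact_mod_cast hℓ
  rw [p1_eq_loc o ℓ _ v hx h0 h1 hy h2 h3]
  generalize (v.1 - o.1) % (ℓ : ℤ) = ξ at *
  generalize (v.1 - o.1) / (ℓ : ℤ) = I at *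
  generalize (v.2 - o.2) % (ℓ : ℤ) = η at *
  generalize (v.2 - o.2) / (ℓ : ℤ) = J at *
  simp only [pp_eq_cast]
  rw [p1loc_int hℓ (fun i => max (i.2 - j) 0)]
  show _ = pp (v.2 - (o.2 + ℓ * j))
  rw [pp_eq_cast]
  congr 1
  have e : v.2 - (o.2 + ℓ * j) = η + ℓ * (J - j) := by linear_combination -hy
  rw [e, ← hinge_int_id ℓ (J - j) η ξ ξ hℓ' h2 h3]
  have e' : J + 1 - j = J - j + 1 := by ring
  simp only [e']
  split_ifs <;> ring

/-- L-FR-P5.  `A = x - τ`, `B = y + t - τ`: if `A > B` then `A₊ - B₊ = (min A (A - B))₊`; if `A ≤ B` then `min A (A-B) ≤ 0`. -/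
theorem fD_eq (t τ : ℤ) (v : ℤ × ℤ) : fD t τ v = pp (min (v.1 - τ) (v.1 - v.2 - t)) := by
  have e1 : hV τ v = pp (v.1 - τ) := rfl
  have e2 : hH (τ - t) v = pp (v.2 - (τ - t)) := rfl
  unfold fD
  rw [e1, e2, pp_eq_cast, pp_eq_cast, pp_eq_cast]
  split_ifs with h
  · rw [← Int.cast_sub]
    congr 1
    omega
  · rw [← Int.cast_zero]
    congr 1
    omega

theorem fD_int_id (ℓ p d ξ η : ℤ) (hℓ : 0 < ℓ) (h0 : 0 ≤ ξ) (h1 : ξ < ℓ) (h2 : 0 ≤ η) (h3 : η < ℓ) :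
    (if η ≤ ξ then ℓ * max (min p d) 0 + ξ * (max (min (p + 1) (d + 1)) 0 - max (min p d) 0)
        + η * (max (min (p + 1) d) 0 - max (min (p + 1) (d + 1)) 0)
      else ℓ * max (min p d) 0 + η * (max (min p (d - 1)) 0 - max (min p d) 0)
        + ξ * (max (min (p + 1) d) 0 - max (min p (d - 1)) 0))
      = max (min (ξ + ℓ * p) (ξ - η + ℓ * d)) 0 := by
  rcases lt_or_ge p 0 with hp | hp
  · -- p < 0
    have e1 : max (min p d) 0 = 0 := by omega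
    have e2 : max (min (p + 1) (d + 1)) 0 = 0 := by omega
    have e3 : max (min (p + 1) d) 0 = 0 := by omega
    have e4 : max (min p (d - 1)) 0 = 0 := by omega
    have f1 : ℓ * p ≤ ℓ * (-1) := mul_le_mul_of_nonneg_left (by omega) hℓ.le
    rw [e1, e2, e3, e4]
    split_ifs <;> omega
  rcases lt_or_ge d 0 with hd | hd
  · have e1 : max (min p d) 0 = 0 := by omega
    have e2 : max (min (p + 1) (d + 1)) 0 = 0 := by omega
    have e3 : max (min (p + 1) d) 0 = 0 := by omega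
    have e4 : max (min p (d - 1)) 0 = 0 := by omega
    have f1 : ℓ * d ≤ ℓ * (-1) := mul_le_mul_of_nonneg_left (by omega) hℓ.le
    rw [e1, e2, e3, e4]
    split_ifs <;> omega
  rcases lt_or_ge p d with hpd | hpd
  · have e1 : max (min p d) 0 = p := by omega
    have e2 : max (min (p + 1) (d + 1)) 0 = p + 1 := by omega
    have e3 : max (min (p + 1) d) 0 = p + 1 := by omega
    have e4 : max (min p (d - 1)) 0 = p := by omega
    have f1 : ℓ * (p + 1) ≤ ℓ * d := mul_le_mul_of_nonneg_left (by omega) hℓ.le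
    have f2 : 0 ≤ ℓ * p := mul_nonneg hℓ.le hp
    rw [mul_add, mul_one] at f1
    rw [e1, e2, e3, e4]
    split_ifs <;> omega
  · rcases eq_or_lt_of_le hd with rfl | hd'
    · have e1 : max (min p 0) 0 = 0 := by omega
      have e2 : max (min (p + 1) (0 + 1)) 0 = 1 := by omega
      have e3 : max (min (p + 1) 0) 0 = 0 := by omega
      have e4 : max (min p (0 - 1)) 0 = 0 := by omega
      have f2 : 0 ≤ ℓ * p := mul_nonneg hℓ.le hp
      rw [e1, e2, e3, e4]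
      split_ifs <;> omega
    · have e1 : max (min p d) 0 = d := by omega
      have e2 : max (min (p + 1) (d + 1)) 0 = d + 1 := by omega
      have e3 : max (min (p + 1) d) 0 = d := by omega
      have e4 : max (min p (d - 1)) 0 = d - 1 := by omega
      have f1 : ℓ * d ≤ ℓ * p := mul_le_mul_of_nonneg_left hpd hℓ.le
      have f2 : ℓ * 1 ≤ ℓ * d := mul_le_mul_of_nonneg_left (by omega) hℓ.le
      rw [mul_one] at f2
      rw [e1, e2, e3, e4]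
      split_ifs <;> omega

/-- L-FR-P5.  `fD_eq`.  With `p = i.1 - j`, `d = i.1 - i.2 - l` the left side is `(min (ℓ p + ξ) (ℓ d + ξ - η))₊`.  Lower triangle `η ≤ ξ`: if `min p d ≥ 0` both sides are `ℓ min p d + ξ - η 1_{d ≤ p}`; if `min p d ≤ -1` both vanish.
Upper triangle `ξ < η`: if `d ≥ 1`, `p ≥ 0`: `ℓ min p d + ξ - η 1_{d ≤ p}` again (nodes `i`, `i + (0,1)`, `i + (1,1)` have `(p,d)`, `(p, d-1)`, `(p+1, d)`); if `d ≤ 0` or `p ≤ -1` both vanish. -/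
theorem p1_fD (o : ℤ × ℤ) (ℓ : ℕ) (hℓ : 0 < ℓ) (l j : ℤ) (v : ℤ × ℤ) :
    p1 o ℓ (fun i => ℓ * cF l j i) v = fD (ℓ * l + o.1 - o.2) (o.1 + ℓ * j) v := by
  obtain ⟨⟨hx, h0, h1⟩, ⟨hy, h2, h3⟩⟩ := p1_coords o hℓ v
  have hℓ' : (0 : ℤ) < ℓ := by exact_mod_cast hℓ
  rw [p1_eq_loc o ℓ _ v hx h0 h1 hy h2 h3, fD_eq]
  generalize (v.1 - o.1) % (ℓ : ℤ) = ξ at *
  generalize (v.1 - o.1) / (ℓ : ℤ) = I at *
  generalize (v.2 - o.2) % (ℓ : ℤ) = η at *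
  generalize (v.2 - o.2) / (ℓ : ℤ) = J at *
  simp only [cF, pp_eq_cast]
  rw [p1loc_int hℓ (fun i => max (min (i.1 - j) (i.1 - i.2 - l)) 0)]
  congr 1
  have e1 : v.1 - (o.1 + ℓ * j) = ξ + ℓ * (I - j) := by linear_combination -hx
  have e2 : v.1 - v.2 - (ℓ * l + o.1 - o.2) = ξ - η + ℓ * (I - J - l) := by linear_combination -hx + hy
  rw [e1, e2, ← fD_int_id ℓ (I - j) (I - J - l) ξ η hℓ' h0 h1 h2 h3]
  have a1 : I + 1 - j = I - j + 1 := by ring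
  have a2 : I + 1 - J - l = I - J - l + 1 := by ring
  have a3 : I + 1 - (J + 1) - l = I - J - l := by ring
  have a4 : I - (J + 1) - l = I - J - l - 1 := by ring
  simp only [a1, a2, a3, a4]

/-- L-FR-P6.  **Gradients of the interpolant** (every bond lies in one closed triangle).  If `ξ + 1 < ℓ` the two end points are in the same cell and (as `η ≤ ξ` or `η ≥ ξ + 1`) in the same branch.
If `ξ + 1 = ℓ` then `η ≤ ξ`, the end point has `cidx + (1,0)`, `ξ' = 0`, and both branches there give `c (i+(1,0)) + η/ℓ (c (i+(1,1)) - c (i+(1,0)))`. -/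
theorem p1_gd_h (o : ℤ × ℤ) (ℓ : ℕ) (hℓ : 0 < ℓ) (c : ℤ × ℤ → ℝ) (v : ℤ × ℤ) :
    gd (p1 o ℓ c) (v, true) = (if (v.2 - o.2) % (ℓ : ℤ) ≤ (v.1 - o.1) % (ℓ : ℤ) then c (cidx o ℓ v + (1, 0)) - c (cidx o ℓ v)
      else c (cidx o ℓ v + (1, 1)) - c (cidx o ℓ v + (0, 1))) / ℓ := by
  obtain ⟨⟨hx, h0, h1⟩, ⟨hy, h2, h3⟩⟩ := p1_coords o hℓ v
  have hL : (ℓ : ℝ) ≠ 0 := by positivity
  have e0 : gd (p1 o ℓ c) (v, true) = p1 o ℓ c (v.1 + 1, v.2) - p1 o ℓ c v := rfl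
  rw [e0, p1_eq_loc o ℓ c v hx h0 h1 hy h2 h3]
  unfold cidx
  simp only [Prod.mk_add_mk, add_zero]
  generalize (v.1 - o.1) % (ℓ : ℤ) = ξ at *
  generalize (v.1 - o.1) / (ℓ : ℤ) = I at *
  generalize (v.2 - o.2) % (ℓ : ℤ) = η at *
  generalize (v.2 - o.2) / (ℓ : ℤ) = J at *
  by_cases hc : ξ + 1 < ℓ
  · rw [p1_eq_loc o ℓ c (v.1 + 1, v.2) (I := I) (J := J) (ξ := ξ + 1) (η := η) (by simp only; omega) (by omega) hc
      hy h2 h3]
    unfold p1loc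
    by_cases h : η ≤ ξ
    · rw [if_pos h, if_pos h, if_pos (by omega)]
      push_cast
      field_simp
      ring
    · rw [if_neg h, if_neg h]
      by_cases h' : η ≤ ξ + 1
      · have : η = ξ + 1 := by omega
        subst this
        rw [if_pos le_rfl]
        push_cast
        field_simp
        ring
      · rw [if_neg h']
        push_cast
        field_simp
        ring
  · have hξ : ξ = ℓ - 1 := by omega
    rw [p1_eq_loc o ℓ c (v.1 + 1, v.2) (I := I + 1) (J := J) (ξ := 0) (η := η)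
      (by simp only; linear_combination hx - hξ) le_rfl (by omega) hy h2 h3]
    unfold p1loc
    have h : η ≤ ξ := by omega
    rw [if_pos h, if_pos h]
    have hξ' : (ξ : ℝ) = ℓ - 1 := by rw [hξ]; push_cast; ring
    by_cases h' : η ≤ 0
    · have : η = 0 := by omega
      subst this
      rw [if_pos le_rfl, hξ']
      push_cast
      field_simp
      ring
    · rw [if_neg h', hξ']
      push_cast
      field_simp
      ring

/-- L-FR-P6. -/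
theorem p1_gd_v (o : ℤ × ℤ) (ℓ : ℕ) (hℓ : 0 < ℓ) (c : ℤ × ℤ → ℝ) (v : ℤ × ℤ) :
    gd (p1 o ℓ c) (v, false) = (if (v.2 - o.2) % (ℓ : ℤ) < (v.1 - o.1) % (ℓ : ℤ) then c (cidx o ℓ v + (1, 1)) - c (cidx o ℓ v + (1, 0))
      else c (cidx o ℓ v + (0, 1)) - c (cidx o ℓ v)) / ℓ := by
  obtain ⟨⟨hx, h0, h1⟩, ⟨hy, h2, h3⟩⟩ := p1_coords o hℓ v
  have hL : (ℓ : ℝ) ≠ 0 := by positivity
  have e0 : gd (p1 o ℓ c) (v, false) = p1 o ℓ c (v.1, v.2 + 1) - p1 o ℓ c v := rfl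
  rw [e0, p1_eq_loc o ℓ c v hx h0 h1 hy h2 h3]
  unfold cidx
  simp only [Prod.mk_add_mk, add_zero]
  generalize (v.1 - o.1) % (ℓ : ℤ) = ξ at *
  generalize (v.1 - o.1) / (ℓ : ℤ) = I at *
  generalize (v.2 - o.2) % (ℓ : ℤ) = η at *
  generalize (v.2 - o.2) / (ℓ : ℤ) = J at *
  by_cases hc : η + 1 < ℓ
  · rw [p1_eq_loc o ℓ c (v.1, v.2 + 1) (I := I) (J := J) (ξ := ξ) (η := η + 1) hx h0 h1 (by simp only; omega)
      (by omega) hc]
    unfold p1loc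
    by_cases h : η < ξ
    · rw [if_pos h, if_pos (by omega), if_pos (by omega)]
      push_cast
      field_simp
      ring
    · rw [if_neg h, if_neg (by omega)]
      by_cases h' : η ≤ ξ
      · have : η = ξ := by omega
        subst this
        rw [if_pos le_rfl]
        push_cast
        field_simp
        ring
      · rw [if_neg h']
        push_cast
        field_simp
        ring
  · have hη : η = ℓ - 1 := by omega
    rw [p1_eq_loc o ℓ c (v.1, v.2 + 1) (I := I) (J := J + 1) (ξ := ξ) (η := 0) hx h0 h1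
      (by simp only; linear_combination hy - hη) le_rfl (by omega)]
    unfold p1loc
    have h : ¬ η < ξ := by omega
    rw [if_neg h, if_pos h0]
    have hη' : (η : ℝ) = ℓ - 1 := by rw [hη]; push_cast; ring
    by_cases h' : η ≤ ξ
    · have : ξ = η := by omega
      subst this
      rw [if_pos le_rfl, hη']
      push_cast
      field_simp
      ring
    · rw [if_neg h', hη']
      push_cast
      field_simp
      ring

/-- nearest point of the rectangle -/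
def clampR (R : Rc) (v : ℤ × ℤ) : ℤ × ℤ := (max R.o.1 (min v.1 (R.o.1 + R.p - 1)), max R.o.2 (min v.2 (R.o.2 + R.q - 1)))

/-- nodal values of `g` on the grid `(R.o, ℓ)`; nodes outside `R` are clamped -/
def nod (R : Rc) (ℓ : ℕ) (g : ℤ × ℤ → ℝ) (i : ℤ × ℤ) : ℝ := g (clampR R (R.o.1 + ℓ * i.1, R.o.2 + ℓ * i.2))

theorem box_lip_row (G : ℤ × ℤ → ℝ) (B : ℝ) (a t : ℤ) (k : ℕ)
    (h : ∀ j : ℕ, j < k → |G (a + j + 1, t) - G (a + j, t)| ≤ B) : |G (a + k, t) - G (a, t)| ≤ B * k := by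
  induction k with
  | zero => simp
  | succ k ih =>
    have h1 := ih fun j hj => h j (by omega)
    have h2 := h k (by omega)
    push_cast
    rw [← add_assoc]
    calc |G (a + k + 1, t) - G (a, t)| = |(G (a + k + 1, t) - G (a + k, t)) + (G (a + k, t) - G (a, t))| := by
          congr 1; ring
      _ ≤ B + B * k := (abs_add_le _ _).trans (add_le_add h2 h1)
      _ = B * (k + 1) := by ring

theorem box_lip_col (G : ℤ × ℤ → ℝ) (B : ℝ) (s a : ℤ) (k : ℕ)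
    (h : ∀ j : ℕ, j < k → |G (s, a + j + 1) - G (s, a + j)| ≤ B) : |G (s, a + k) - G (s, a)| ≤ B * k :=
  box_lip_row (fun v => G v.swap) B a s k h

/-- Lipschitz bound on a box from bounds along the bonds of the box -/
theorem box_lip (a1 b1 a2 b2 : ℤ) (G : ℤ × ℤ → ℝ) (B : ℝ)
    (h1 : ∀ v : ℤ × ℤ, a1 ≤ v.1 → v.1 + 1 < b1 → a2 ≤ v.2 → v.2 < b2 → |G (v.1 + 1, v.2) - G v| ≤ B)
    (h2 : ∀ v : ℤ × ℤ, a1 ≤ v.1 → v.1 < b1 → a2 ≤ v.2 → v.2 + 1 < b2 → |G (v.1, v.2 + 1) - G v| ≤ B)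
    (x y : ℤ × ℤ) (hx : a1 ≤ x.1 ∧ x.1 < b1 ∧ a2 ≤ x.2 ∧ x.2 < b2) (hy : a1 ≤ y.1 ∧ y.1 < b1 ∧ a2 ≤ y.2 ∧ y.2 < b2) :
    |G x - G y| ≤ B * ((|x.1 - y.1| + |x.2 - y.2| : ℤ) : ℝ) := by
  obtain ⟨x1, x2⟩ := x
  obtain ⟨y1, y2⟩ := y
  simp only at hx hy ⊢
  -- rows
  have hrow : |G (x1, x2) - G (y1, x2)| ≤ B * ((|x1 - y1| : ℤ) : ℝ) := by
    rcases le_total x1 y1 with h | h
    · obtain ⟨k, hk⟩ := Int.eq_ofNat_of_zero_le (sub_nonneg.2 h)
      have e : y1 = x1 + k := by omega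
      have e2 : |x1 - y1| = (k : ℤ) := by rw [abs_sub_comm, abs_of_nonneg (by omega)]; omega
      have := box_lip_row G B x1 x2 k fun j hj => h1 (x1 + j, x2) (by simp only; omega) (by simp only; omega) hx.2.2.1
        hx.2.2.2
      rw [e2, abs_sub_comm, e]
      exact_mod_cast this
    · obtain ⟨k, hk⟩ := Int.eq_ofNat_of_zero_le (sub_nonneg.2 h)
      have e : x1 = y1 + k := by omega
      have e2 : |x1 - y1| = (k : ℤ) := by rw [abs_of_nonneg (by omega)]; omega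
      have := box_lip_row G B y1 x2 k fun j hj => h1 (y1 + j, x2) (by simp only; omega) (by simp only; omega) hx.2.2.1
        hx.2.2.2
      rw [e2, e]
      exact_mod_cast this
  have hcol : |G (y1, x2) - G (y1, y2)| ≤ B * ((|x2 - y2| : ℤ) : ℝ) := by
    rcases le_total x2 y2 with h | h
    · obtain ⟨k, hk⟩ := Int.eq_ofNat_of_zero_le (sub_nonneg.2 h)
      have e : y2 = x2 + k := by omega
      have e2 : |x2 - y2| = (k : ℤ) := by rw [abs_sub_comm, abs_of_nonneg (by omega)]; omega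
      have := box_lip_col G B y1 x2 k fun j hj => h2 (y1, x2 + j) hy.1 hy.2.1 (by simp only; omega) (by simp only; omega)
      rw [e2, abs_sub_comm, e]
      exact_mod_cast this
    · obtain ⟨k, hk⟩ := Int.eq_ofNat_of_zero_le (sub_nonneg.2 h)
      have e : x2 = y2 + k := by omega
      have e2 : |x2 - y2| = (k : ℤ) := by rw [abs_of_nonneg (by omega)]; omega
      have := box_lip_col G B y1 y2 k fun j hj => h2 (y1, y2 + j) hy.1 hy.2.1 (by simp only; omega) (by simp only; omega)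
      rw [e2, e]
      exact_mod_cast this
  calc |G (x1, x2) - G (y1, y2)| = |(G (x1, x2) - G (y1, x2)) + (G (y1, x2) - G (y1, y2))| := by congr 1; ring
    _ ≤ B * ((|x1 - y1| : ℤ) : ℝ) + B * ((|x2 - y2| : ℤ) : ℝ) := (abs_add_le _ _).trans (add_le_add hrow hcol)
    _ = _ := by push_cast; ring

theorem mem_bd_h {R : Rc} {v : ℤ × ℤ} :
    ((v, true) : Bond) ∈ R.bd ↔ (R.o.1 ≤ v.1 ∧ v.1 + 1 < R.o.1 + R.p) ∧ (R.o.2 ≤ v.2 ∧ v.2 < R.o.2 + R.q) := by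
  rw [mem_bd, fr_mem_set, fr_mem_set]
  simp only [Bond.snd, if_true]
  constructor
  · rintro ⟨⟨⟨a, b⟩, c, d⟩, ⟨e, f⟩, _⟩; exact ⟨⟨a, f⟩, c, d⟩
  · rintro ⟨⟨a, b⟩, c, d⟩; exact ⟨⟨⟨a, by omega⟩, c, d⟩, ⟨by omega, b⟩, c, d⟩

theorem mem_bd_v {R : Rc} {v : ℤ × ℤ} :
    ((v, false) : Bond) ∈ R.bd ↔ (R.o.1 ≤ v.1 ∧ v.1 < R.o.1 + R.p) ∧ (R.o.2 ≤ v.2 ∧ v.2 + 1 < R.o.2 + R.q) := by
  rw [mem_bd, fr_mem_set, fr_mem_set]
  simp only [Bond.snd, Bool.false_eq_true, if_false]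
  constructor
  · rintro ⟨⟨⟨a, b⟩, c, d⟩, _, ⟨e, f⟩⟩; exact ⟨⟨a, b⟩, c, f⟩
  · rintro ⟨⟨a, b⟩, c, d⟩; exact ⟨⟨⟨a, b⟩, c, by omega⟩, ⟨a, b⟩, by omega, d⟩

/-- L-FR-P7.  Along a row (column) of `R` the function changes by at most `A` per step (induction on the distance). -/
theorem g_lip (R : Rc) (g : ℤ × ℤ → ℝ) (A : ℝ) (hA : ∀ e ∈ R.bd, |gd g e| ≤ A) (x y : ℤ × ℤ) (hx : x ∈ R.set) (hy : y ∈ R.set) :
    |g x - g y| ≤ A * ((|x.1 - y.1| + |x.2 - y.2| : ℤ) : ℝ) := by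
  obtain ⟨⟨a1, a2⟩, a3, a4⟩ := fr_mem_set.1 hx
  obtain ⟨⟨b1, b2⟩, b3, b4⟩ := fr_mem_set.1 hy
  refine box_lip R.o.1 (R.o.1 + R.p) R.o.2 (R.o.2 + R.q) g A ?_ ?_ x y ⟨a1, a2, a3, a4⟩ ⟨b1, b2, b3, b4⟩
  · intro v c1 c2 c3 c4
    exact hA (v, true) (mem_bd_h.2 ⟨⟨c1, c2⟩, c3, c4⟩)
  · intro v c1 c2 c3 c4
    exact hA (v, false) (mem_bd_v.2 ⟨⟨c1, c2⟩, c3, c4⟩)

theorem clampR_mem (R : Rc) (hp : 0 < R.p) (hq : 0 < R.q) (v : ℤ × ℤ) : clampR R v ∈ R.set := by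
  rw [fr_mem_set]
  unfold clampR
  simp only
  omega

theorem clampR_of_mem {R : Rc} {v : ℤ × ℤ} (hv : v ∈ R.set) : clampR R v = v := by
  obtain ⟨⟨a1, a2⟩, a3, a4⟩ := fr_mem_set.1 hv
  unfold clampR
  ext <;> simp only <;> omega

/-- L-FR-P7.  `clampR` maps into `R.set` and is `1`-Lipschitz in each coordinate; `g_lip`. -/
theorem nod_lip (R : Rc) (hp : 0 < R.p) (hq : 0 < R.q) (ℓ : ℕ) (g : ℤ × ℤ → ℝ) (A : ℝ) (hA0 : 0 ≤ A) (hA : ∀ e ∈ R.bd, |gd g e| ≤ A) (i : ℤ × ℤ) :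
    |nod R ℓ g (i + (1, 0)) - nod R ℓ g i| ≤ ℓ * A ∧ |nod R ℓ g (i + (0, 1)) - nod R ℓ g i| ≤ ℓ * A := by
  obtain ⟨i1, i2⟩ := i
  unfold nod
  simp only [Prod.mk_add_mk, add_zero]
  constructor
  · refine (g_lip R g A hA _ _ (clampR_mem R hp hq _) (clampR_mem R hp hq _)).trans ?_
    rw [mul_comm (ℓ : ℝ) A]
    refine mul_le_mul_of_nonneg_left ?_ hA0
    have : |(clampR R (R.o.1 + ℓ * (i1 + 1), R.o.2 + ℓ * i2)).1 - (clampR R (R.o.1 + ℓ * i1, R.o.2 + ℓ * i2)).1|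
        + |(clampR R (R.o.1 + ℓ * (i1 + 1), R.o.2 + ℓ * i2)).2 - (clampR R (R.o.1 + ℓ * i1, R.o.2 + ℓ * i2)).2|
        ≤ (ℓ : ℤ) := by
      unfold clampR
      simp only [sub_self, abs_zero, add_zero]
      rw [mul_add, mul_one, abs_le]
      constructor <;> omega
    exact_mod_cast this
  · refine (g_lip R g A hA _ _ (clampR_mem R hp hq _) (clampR_mem R hp hq _)).trans ?_
    rw [mul_comm (ℓ : ℝ) A]
    refine mul_le_mul_of_nonneg_left ?_ hA0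
    have : |(clampR R (R.o.1 + ℓ * i1, R.o.2 + ℓ * (i2 + 1))).1 - (clampR R (R.o.1 + ℓ * i1, R.o.2 + ℓ * i2)).1|
        + |(clampR R (R.o.1 + ℓ * i1, R.o.2 + ℓ * (i2 + 1))).2 - (clampR R (R.o.1 + ℓ * i1, R.o.2 + ℓ * i2)).2|
        ≤ (ℓ : ℤ) := by
      unfold clampR
      simp only [sub_self, abs_zero, zero_add]
      rw [mul_add, mul_one, abs_le]
      constructor <;> omega
    exact_mod_cast this

/-- L-FR-P7.  Oscillation of the gradient: two parallel bonds of `R` are joined by a path of parallel bonds of `R` (first move the first coordinate, then the second). -/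
theorem gd_osc (R : Rc) (g : ℤ × ℤ → ℝ) (B : ℝ)
    (hB : ∀ e ∈ R.bd, ∀ u : ℤ × ℤ, (u = (1, 0) ∨ u = (0, 1)) → (e.1 + u, e.2) ∈ R.bd → |gd g (e.1 + u, e.2) - gd g e| ≤ B)
    (e e' : Bond) (he : e ∈ R.bd) (he' : e' ∈ R.bd) (hd : e.2 = e'.2) :
    |gd g e - gd g e'| ≤ B * ((|e.1.1 - e'.1.1| + |e.1.2 - e'.1.2| : ℤ) : ℝ) := by
  obtain ⟨x, s⟩ := e
  obtain ⟨y, s'⟩ := e'
  simp only at hd
  subst hd
  simp only
  have hB1 : ∀ (v : ℤ × ℤ) (s : Bool), ((v, s) : Bond) ∈ R.bd → (((v.1 + 1, v.2), s) : Bond) ∈ R.bd →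
      |gd g ((v.1 + 1, v.2), s) - gd g (v, s)| ≤ B := by
    intro v s m1 m2
    have e : v + (1, 0) = (v.1 + 1, v.2) := by ext <;> simp
    have := hB (v, s) m1 (1, 0) (Or.inl rfl) (by simp only [e]; exact m2)
    simpa only [e] using this
  have hB2 : ∀ (v : ℤ × ℤ) (s : Bool), ((v, s) : Bond) ∈ R.bd → (((v.1, v.2 + 1), s) : Bond) ∈ R.bd →
      |gd g ((v.1, v.2 + 1), s) - gd g (v, s)| ≤ B := by
    intro v s m1 m2
    have e : v + (0, 1) = (v.1, v.2 + 1) := by ext <;> simp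
    have := hB (v, s) m1 (0, 1) (Or.inr rfl) (by simp only [e]; exact m2)
    simpa only [e] using this
  cases s with
  | true =>
    obtain ⟨⟨a1, a2⟩, a3, a4⟩ := mem_bd_h.1 he
    obtain ⟨⟨b1, b2⟩, b3, b4⟩ := mem_bd_h.1 he'
    refine box_lip R.o.1 (R.o.1 + R.p - 1) R.o.2 (R.o.2 + R.q) (fun v => gd g (v, true)) B ?_ ?_ x y
      ⟨a1, by omega, a3, a4⟩ ⟨b1, by omega, b3, b4⟩
    · intro v c1 c2 c3 c4
      exact hB1 v true (mem_bd_h.2 ⟨⟨c1, by omega⟩, c3, c4⟩)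
        (mem_bd_h.2 ⟨⟨by simp only; omega, by simp only; omega⟩, c3, c4⟩)
    · intro v c1 c2 c3 c4
      exact hB2 v true (mem_bd_h.2 ⟨⟨c1, by omega⟩, c3, by omega⟩)
        (mem_bd_h.2 ⟨⟨c1, by simp only; omega⟩, by simp only; omega, c4⟩)
  | false =>
    obtain ⟨⟨a1, a2⟩, a3, a4⟩ := mem_bd_v.1 he
    obtain ⟨⟨b1, b2⟩, b3, b4⟩ := mem_bd_v.1 he'
    refine box_lip R.o.1 (R.o.1 + R.p) R.o.2 (R.o.2 + R.q - 1) (fun v => gd g (v, false)) B ?_ ?_ x y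
      ⟨a1, a2, a3, by omega⟩ ⟨b1, b2, b3, by omega⟩
    · intro v c1 c2 c3 c4
      exact hB1 v false (mem_bd_v.2 ⟨⟨c1, by omega⟩, c3, by omega⟩)
        (mem_bd_v.2 ⟨⟨by simp only; omega, c2⟩, c3, by simp only; omega⟩)
    · intro v c1 c2 c3 c4
      exact hB2 v false (mem_bd_v.2 ⟨⟨c1, c2⟩, c3, by omega⟩)
        (mem_bd_v.2 ⟨⟨c1, c2⟩, by simp only; omega, by simp only; omega⟩)

theorem nod_of_mem {R : Rc} {ℓ : ℕ} {g : ℤ × ℤ → ℝ} {i : ℤ × ℤ} (h : (R.o.1 + ℓ * i.1, R.o.2 + ℓ * i.2) ∈ R.set) :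
    nod R ℓ g i = g (R.o.1 + ℓ * i.1, R.o.2 + ℓ * i.2) := by
  unfold nod
  rw [clampR_of_mem h]

theorem p1_err_mean (R : Rc) (g : ℤ × ℤ → ℝ) (B : ℝ)
    (hB : ∀ e ∈ R.bd, ∀ u : ℤ × ℤ, (u = (1, 0) ∨ u = (0, 1)) → (e.1 + u, e.2) ∈ R.bd → |gd g (e.1 + u, e.2) - gd g e| ≤ B)
    (hB0 : 0 ≤ B) (ℓ : ℕ) (hℓ : 0 < ℓ) (e : Bond) (he : e ∈ R.bd) (E : ℕ → Bond)
    (hE : ∀ k < ℓ, E k ∈ R.bd ∧ e.2 = (E k).2 ∧ |e.1.1 - (E k).1.1| + |e.1.2 - (E k).1.2| ≤ 2 * (ℓ : ℤ)) :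
    |gd g e - (∑ k ∈ Finset.range ℓ, gd g (E k)) / ℓ| ≤ 2 * ℓ * B := by
  have hL : (0 : ℝ) < ℓ := by exact_mod_cast hℓ
  have e1 : gd g e - (∑ k ∈ Finset.range ℓ, gd g (E k)) / ℓ = (∑ k ∈ Finset.range ℓ, (gd g e - gd g (E k))) / ℓ := by
    rw [Finset.sum_sub_distrib, Finset.sum_const, Finset.card_range, nsmul_eq_mul]
    field_simp
  rw [e1, abs_div, abs_of_pos hL, div_le_iff₀ hL]
  calc |∑ k ∈ Finset.range ℓ, (gd g e - gd g (E k))| ≤ ∑ k ∈ Finset.range ℓ, 2 * ℓ * B := by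
        refine (Finset.abs_sum_le_sum_abs _ _).trans (Finset.sum_le_sum fun k hk => ?_)
        obtain ⟨m1, m2, m3⟩ := hE k (Finset.mem_range.1 hk)
        refine (gd_osc R g B hB e (E k) he m1 m2).trans ?_
        rw [mul_comm (2 * (ℓ : ℝ)) B]
        refine mul_le_mul_of_nonneg_left ?_ hB0
        exact_mod_cast m3
    _ = 2 * ℓ * B * ℓ := by rw [Finset.sum_const, Finset.card_range, nsmul_eq_mul]; ring

theorem tele_h (g : ℤ × ℤ → ℝ) (x t : ℤ) (ℓ : ℕ) :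
    g (x + ℓ, t) - g (x, t) = ∑ k ∈ Finset.range ℓ, gd g ((x + k, t), true) := by
  have h := Finset.sum_range_sub (fun k : ℕ => g (x + k, t)) ℓ
  simp only [Nat.cast_zero, add_zero] at h
  rw [← h]
  refine Finset.sum_congr rfl fun k _ => ?_
  simp only [gd, Bond.snd, if_true]
  push_cast
  rw [add_assoc]

theorem tele_v (g : ℤ × ℤ → ℝ) (s y : ℤ) (ℓ : ℕ) :
    g (s, y + ℓ) - g (s, y) = ∑ k ∈ Finset.range ℓ, gd g ((s, y + k), false) := by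
  have h := Finset.sum_range_sub (fun k : ℕ => g (s, y + k)) ℓ
  simp only [Nat.cast_zero, add_zero] at h
  rw [← h]
  refine Finset.sum_congr rfl fun k _ => ?_
  simp only [gd, Bond.snd, Bool.false_eq_true, if_false]
  push_cast
  rw [add_assoc]

/-- L-FR-P8.  **Interior cells**: if the four corners of the cell of `e.1` are in `R` (no clamping), the gradient of the interpolant (`p1_gd_h`, `p1_gd_v`) is the mean of `ℓ` gradients of `g` along an edge of the cell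
(telescoping), each within `2 ℓ B` of `gd g e` (`gd_osc`; distances `≤ ℓ` and `≤ ℓ - 1`). -/
theorem p1_err_in (R : Rc) (ℓ : ℕ) (hℓ : 0 < ℓ) (g : ℤ × ℤ → ℝ) (B : ℝ)
    (hB : ∀ e ∈ R.bd, ∀ u : ℤ × ℤ, (u = (1, 0) ∨ u = (0, 1)) → (e.1 + u, e.2) ∈ R.bd → |gd g (e.1 + u, e.2) - gd g e| ≤ B)
    (e : Bond) (he : e ∈ R.bd)
    (hin : (R.o.1 + ℓ * ((cidx R.o ℓ e.1).1 + 1), R.o.2 + ℓ * ((cidx R.o ℓ e.1).2 + 1)) ∈ R.set) :
    |gd g e - gd (p1 R.o ℓ (nod R ℓ g)) e| ≤ 2 * ℓ * B := by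
  obtain ⟨v, s⟩ := e
  simp only at hin
  obtain ⟨⟨hx, h0, h1⟩, ⟨hy, h2, h3⟩⟩ := p1_coords R.o hℓ v
  have hℓ' : (0 : ℤ) < ℓ := by exact_mod_cast hℓ
  obtain ⟨⟨v1, v2⟩, v3, v4⟩ := fr_mem_set.1 (mem_bd.1 he).1
  simp only at v1 v2 v3 v4
  have hI : 0 ≤ (ℓ : ℤ) * ((v.1 - R.o.1) / (ℓ : ℤ)) := mul_nonneg hℓ'.le (Int.ediv_nonneg (by omega) hℓ'.le)
  have hJ : 0 ≤ (ℓ : ℤ) * ((v.2 - R.o.2) / (ℓ : ℤ)) := mul_nonneg hℓ'.le (Int.ediv_nonneg (by omega) hℓ'.le)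
  have hgh := p1_gd_h R.o ℓ hℓ (nod R ℓ g) v
  have hgv := p1_gd_v R.o ℓ hℓ (nod R ℓ g) v
  unfold cidx at hin hgh hgv
  simp only [Prod.mk_add_mk, add_zero] at hin hgh hgv
  generalize (v.1 - R.o.1) % (ℓ : ℤ) = ξ at *
  generalize (v.1 - R.o.1) / (ℓ : ℤ) = I at *
  generalize (v.2 - R.o.2) % (ℓ : ℤ) = η at *
  generalize (v.2 - R.o.2) / (ℓ : ℤ) = J at *
  obtain ⟨⟨w1, w2⟩, w3, w4⟩ := fr_mem_set.1 hin
  simp only at w1 w2 w3 w4
  rw [mul_add, mul_one] at w1 w2 w3 w4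
  -- the four corners
  have n00 : nod R ℓ g (I, J) = g (R.o.1 + ℓ * I, R.o.2 + ℓ * J) :=
    nod_of_mem (fr_mem_set.2 ⟨⟨by simp only; omega, by simp only; omega⟩, by simp only; omega, by simp only; omega⟩)
  have n10 : nod R ℓ g (I + 1, J) = g (R.o.1 + ℓ * I + ℓ, R.o.2 + ℓ * J) := by
    rw [nod_of_mem (fr_mem_set.2 ⟨⟨by simp only; rw [mul_add, mul_one]; omega, by simp only; rw [mul_add, mul_one]; omega⟩,
      by simp only; omega, by simp only; omega⟩)]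
    simp only [mul_add, mul_one, add_assoc]
  have n01 : nod R ℓ g (I, J + 1) = g (R.o.1 + ℓ * I, R.o.2 + ℓ * J + ℓ) := by
    rw [nod_of_mem (fr_mem_set.2 ⟨⟨by simp only; omega, by simp only; omega⟩,
      by simp only; rw [mul_add, mul_one]; omega, by simp only; rw [mul_add, mul_one]; omega⟩)]
    simp only [mul_add, mul_one, add_assoc]
  have n11 : nod R ℓ g (I + 1, J + 1) = g (R.o.1 + ℓ * I + ℓ, R.o.2 + ℓ * J + ℓ) := by
    rw [nod_of_mem (fr_mem_set.2 ⟨⟨by simp only; rw [mul_add, mul_one]; omega, by simp only; rw [mul_add, mul_one]; omega⟩,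
      by simp only; rw [mul_add, mul_one]; omega, by simp only; rw [mul_add, mul_one]; omega⟩)]
    simp only [mul_add, mul_one, add_assoc]
  rw [n00, n10, n01, n11] at hgh hgv
  generalize (ℓ : ℤ) * I = X at *
  generalize (ℓ : ℤ) * J = Y at *
  have hB0 : 0 ≤ B := by
    have m1 : (((R.o.1 + X, R.o.2 + Y), true) : Bond) ∈ R.bd :=
      mem_bd_h.2 ⟨⟨by simp only; omega, by simp only; omega⟩, by simp only; omega, by simp only; omega⟩
    have m2 : ((((R.o.1 + X, R.o.2 + Y), true) : Bond).1 + (0, 1), (((R.o.1 + X, R.o.2 + Y), true) : Bond).2) ∈ R.bd := by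
      simp only [Prod.mk_add_mk, add_zero]
      exact mem_bd_h.2 ⟨⟨by simp only; omega, by simp only; omega⟩, by simp only; omega, by simp only; omega⟩
    exact (abs_nonneg _).trans (hB _ m1 (0, 1) (Or.inr rfl) m2)
  cases s with
  | true =>
    rw [hgh]
    split_ifs with hc
    · rw [tele_h]
      refine p1_err_mean R g B hB hB0 ℓ hℓ _ he _ fun k hk => ⟨?_, rfl, ?_⟩
      · exact mem_bd_h.2 ⟨⟨by simp only; omega, by simp only; omega⟩, by simp only; omega, by simp only; omega⟩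
      · simp only
        have a1 : |v.1 - (R.o.1 + X + k)| ≤ ℓ := by rw [abs_le]; constructor <;> omega
        have a2 : |v.2 - (R.o.2 + Y)| ≤ ℓ := by rw [abs_le]; constructor <;> omega
        omega
    · rw [tele_h]
      refine p1_err_mean R g B hB hB0 ℓ hℓ _ he _ fun k hk => ⟨?_, rfl, ?_⟩
      · exact mem_bd_h.2 ⟨⟨by simp only; omega, by simp only; omega⟩, by simp only; omega, by simp only; omega⟩
      · simp only
        have a1 : |v.1 - (R.o.1 + X + k)| ≤ ℓ := by rw [abs_le]; constructor <;> omega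
        have a2 : |v.2 - (R.o.2 + Y + ℓ)| ≤ ℓ := by rw [abs_le]; constructor <;> omega
        omega
  | false =>
    rw [hgv]
    split_ifs with hc
    · rw [tele_v]
      refine p1_err_mean R g B hB hB0 ℓ hℓ _ he _ fun k hk => ⟨?_, rfl, ?_⟩
      · exact mem_bd_v.2 ⟨⟨by simp only; omega, by simp only; omega⟩, by simp only; omega, by simp only; omega⟩
      · simp only
        have a1 : |v.1 - (R.o.1 + X + ℓ)| ≤ ℓ := by rw [abs_le]; constructor <;> omega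
        have a2 : |v.2 - (R.o.2 + Y + k)| ≤ ℓ := by rw [abs_le]; constructor <;> omega
        omega
    · rw [tele_v]
      refine p1_err_mean R g B hB hB0 ℓ hℓ _ he _ fun k hk => ⟨?_, rfl, ?_⟩
      · exact mem_bd_v.2 ⟨⟨by simp only; omega, by simp only; omega⟩, by simp only; omega, by simp only; omega⟩
      · simp only
        have a1 : |v.1 - (R.o.1 + X)| ≤ ℓ := by rw [abs_le]; constructor <;> omega
        have a2 : |v.2 - (R.o.2 + Y + k)| ≤ ℓ := by rw [abs_le]; constructor <;> omega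
        omega

/-- L-FR-P8.  **All cells**: `p1_gd_*`, `nod_lip`. -/
theorem p1_err_bd (R : Rc) (ℓ : ℕ) (hℓ : 0 < ℓ) (g : ℤ × ℤ → ℝ) (A : ℝ) (hA : ∀ e ∈ R.bd, |gd g e| ≤ A) (e : Bond) (he : e ∈ R.bd) :
    |gd g e - gd (p1 R.o ℓ (nod R ℓ g)) e| ≤ 2 * A := by
  have hA0 : 0 ≤ A := (abs_nonneg _).trans (hA e he)
  have hL : (0 : ℝ) < ℓ := by exact_mod_cast hℓ
  obtain ⟨⟨v1, v2⟩, v3, v4⟩ := fr_mem_set.1 (mem_bd.1 he).1
  have hp : 0 < R.p := by omega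
  have hq : 0 < R.q := by omega
  have key : |gd (p1 R.o ℓ (nod R ℓ g)) e| ≤ A := by
    obtain ⟨v, s⟩ := e
    cases s with
    | true =>
      rw [p1_gd_h R.o ℓ hℓ, abs_div, abs_of_pos hL, div_le_iff₀ hL, mul_comm A]
      split_ifs
      · exact (nod_lip R hp hq ℓ g A hA0 hA _).1
      · have := (nod_lip R hp hq ℓ g A hA0 hA (cidx R.o ℓ v + (0, 1))).1
        rwa [add_assoc, show ((0, 1) : ℤ × ℤ) + (1, 0) = (1, 1) from rfl] at this
    | false =>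
      rw [p1_gd_v R.o ℓ hℓ, abs_div, abs_of_pos hL, div_le_iff₀ hL, mul_comm A]
      split_ifs
      · have := (nod_lip R hp hq ℓ g A hA0 hA (cidx R.o ℓ v + (1, 0))).2
        rwa [add_assoc, show ((1, 0) : ℤ × ℤ) + (0, 1) = (1, 1) from rfl] at this
      · exact (nod_lip R hp hq ℓ g A hA0 hA _).2
  calc |gd g e - gd (p1 R.o ℓ (nod R ℓ g)) e| ≤ |gd g e| + |gd (p1 R.o ℓ (nod R ℓ g)) e| := abs_sub _ _
    _ ≤ A + A := add_le_add (hA e he) key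
    _ = 2 * A := by ring

theorem gd_sub (g h : ℤ × ℤ → ℝ) (e : Bond) : gd (fun v => g v - h v) e = gd g e - gd h e := by
  unfold gd; ring

/-- number of bonds whose cell is not contained in the rectangle -/
theorem p1_bad_card (R : Rc) (ℓ : ℕ) (hℓ : 0 < ℓ) :
    ((R.bd.filter fun e : Bond => ¬ (R.o.1 + ℓ * ((cidx R.o ℓ e.1).1 + 1), R.o.2 + ℓ * ((cidx R.o ℓ e.1).2 + 1)) ∈ R.set).card : ℝ)
      ≤ 2 * ℓ * ((R.p : ℝ) + R.q) := by
  have hℓ' : (0 : ℤ) < ℓ := by exact_mod_cast hℓ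
  set T1 : Finset Bond := (Finset.Ico (R.o.1 + R.p - ℓ) (R.o.1 + R.p) ×ˢ Finset.Ico R.o.2 (R.o.2 + R.q)) ×ˢ
    (Finset.univ : Finset Bool) with hT1
  set T2 : Finset Bond := (Finset.Ico R.o.1 (R.o.1 + R.p) ×ˢ Finset.Ico (R.o.2 + R.q - ℓ) (R.o.2 + R.q)) ×ˢ
    (Finset.univ : Finset Bool) with hT2
  have hsub : (R.bd.filter fun e : Bond =>
      ¬ (R.o.1 + ℓ * ((cidx R.o ℓ e.1).1 + 1), R.o.2 + ℓ * ((cidx R.o ℓ e.1).2 + 1)) ∈ R.set) ⊆ T1 ∪ T2 := by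
    intro e he
    obtain ⟨he1, he2⟩ := Finset.mem_filter.1 he
    obtain ⟨v, s⟩ := e
    simp only at he2
    obtain ⟨⟨hx, h0, h1⟩, ⟨hy, h2, h3⟩⟩ := p1_coords R.o hℓ v
    obtain ⟨⟨v1, v2⟩, v3, v4⟩ := fr_mem_set.1 (mem_bd.1 he1).1
    simp only at v1 v2 v3 v4
    have hI : 0 ≤ (ℓ : ℤ) * ((v.1 - R.o.1) / (ℓ : ℤ)) := mul_nonneg hℓ'.le (Int.ediv_nonneg (by omega) hℓ'.le)
    have hJ : 0 ≤ (ℓ : ℤ) * ((v.2 - R.o.2) / (ℓ : ℤ)) := mul_nonneg hℓ'.le (Int.ediv_nonneg (by omega) hℓ'.le)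
    unfold cidx at he2
    rw [fr_mem_set] at he2
    simp only [mul_add, mul_one] at he2
    generalize (ℓ : ℤ) * ((v.1 - R.o.1) / (ℓ : ℤ)) = X at *
    generalize (ℓ : ℤ) * ((v.2 - R.o.2) / (ℓ : ℤ)) = Y at *
    rw [Finset.mem_union, hT1, hT2]
    simp only [Finset.mem_product, Finset.mem_Ico, Finset.mem_univ, and_true]
    omega
  have c1 : T1.card = ℓ * R.q * 2 := by
    rw [hT1, Finset.card_product, Finset.card_product, Int.card_Ico, Int.card_Ico, Finset.card_univ, Fintype.card_bool]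
    congr 2 <;> omega
  have c2 : T2.card = R.p * ℓ * 2 := by
    rw [hT2, Finset.card_product, Finset.card_product, Int.card_Ico, Int.card_Ico, Finset.card_univ, Fintype.card_bool]
    congr 2 <;> omega
  have := (Finset.card_le_card hsub).trans (Finset.card_union_le T1 T2)
  rw [c1, c2] at this
  calc ((R.bd.filter fun e : Bond =>
      ¬ (R.o.1 + ℓ * ((cidx R.o ℓ e.1).1 + 1), R.o.2 + ℓ * ((cidx R.o ℓ e.1).2 + 1)) ∈ R.set).card : ℝ)
      ≤ ((ℓ * R.q * 2 + R.p * ℓ * 2 : ℕ) : ℝ) := by exact_mod_cast this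
    _ = 2 * ℓ * ((R.p : ℝ) + R.q) := by push_cast; ring

/-- L-FR-P9.  **The error of the interpolant.**  Bonds with `hin`: at most `2 p q` (`fr_bd_card`), error `(2ℓB)²` each.  Bonds without `hin`: `e.1.1 - o₁ ≥ p - ℓ` or `e.1.2 - o₂ ≥ q - ℓ`: at most `2 ℓ (p + q)`, error `(2A)²` each. -/
theorem p1_err (R : Rc) (ℓ : ℕ) (hℓ : 0 < ℓ) (g : ℤ × ℤ → ℝ) (A B : ℝ) (hA : ∀ e ∈ R.bd, |gd g e| ≤ A)
    (hB : ∀ e ∈ R.bd, ∀ u : ℤ × ℤ, (u = (1, 0) ∨ u = (0, 1)) → (e.1 + u, e.2) ∈ R.bd → |gd g (e.1 + u, e.2) - gd g e| ≤ B) :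
    R.dir (fun v => g v - p1 R.o ℓ (nod R ℓ g) v) ≤ 8 * (ℓ : ℝ) ^ 2 * B ^ 2 * R.p * R.q + 8 * A ^ 2 * ℓ * ((R.p : ℝ) + R.q) := by
  unfold Rc.dir Rc.cost
  simp only [gd_sub]
  rw [← Finset.sum_filter_add_sum_filter_not R.bd
    (fun e : Bond => (R.o.1 + ℓ * ((cidx R.o ℓ e.1).1 + 1), R.o.2 + ℓ * ((cidx R.o ℓ e.1).2 + 1)) ∈ R.set)]
  refine add_le_add ?_ ?_
  · calc ∑ e ∈ R.bd.filter (fun e : Bond =>
          (R.o.1 + ℓ * ((cidx R.o ℓ e.1).1 + 1), R.o.2 + ℓ * ((cidx R.o ℓ e.1).2 + 1)) ∈ R.set),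
          (gd g e - gd (p1 R.o ℓ (nod R ℓ g)) e) ^ 2
        ≤ ∑ e ∈ R.bd.filter (fun e : Bond =>
          (R.o.1 + ℓ * ((cidx R.o ℓ e.1).1 + 1), R.o.2 + ℓ * ((cidx R.o ℓ e.1).2 + 1)) ∈ R.set), (2 * ℓ * B) ^ 2 := by
          refine Finset.sum_le_sum fun e he => ?_
          obtain ⟨he1, he2⟩ := Finset.mem_filter.1 he
          rw [← sq_abs]
          exact pow_le_pow_left₀ (abs_nonneg _) (p1_err_in R ℓ hℓ g B hB e he1 he2) 2
      _ = ((R.bd.filter (fun e : Bond =>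
          (R.o.1 + ℓ * ((cidx R.o ℓ e.1).1 + 1), R.o.2 + ℓ * ((cidx R.o ℓ e.1).2 + 1)) ∈ R.set)).card : ℝ)
            * (2 * ℓ * B) ^ 2 := by rw [Finset.sum_const, nsmul_eq_mul]
      _ ≤ (2 * (R.p : ℝ) * R.q) * (2 * ℓ * B) ^ 2 := by
          refine mul_le_mul_of_nonneg_right ?_ (sq_nonneg _)
          refine le_trans ?_ (fr_bd_card R)
          exact_mod_cast Finset.card_le_card (Finset.filter_subset _ _)
      _ = _ := by ring
  · calc ∑ e ∈ R.bd.filter (fun e : Bond =>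
          ¬ (R.o.1 + ℓ * ((cidx R.o ℓ e.1).1 + 1), R.o.2 + ℓ * ((cidx R.o ℓ e.1).2 + 1)) ∈ R.set),
          (gd g e - gd (p1 R.o ℓ (nod R ℓ g)) e) ^ 2
        ≤ ∑ e ∈ R.bd.filter (fun e : Bond =>
          ¬ (R.o.1 + ℓ * ((cidx R.o ℓ e.1).1 + 1), R.o.2 + ℓ * ((cidx R.o ℓ e.1).2 + 1)) ∈ R.set), (2 * A) ^ 2 := by
          refine Finset.sum_le_sum fun e he => ?_
          obtain ⟨he1, he2⟩ := Finset.mem_filter.1 he
          rw [← sq_abs]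
          exact pow_le_pow_left₀ (abs_nonneg _) (p1_err_bd R ℓ hℓ g A hA e he1) 2
      _ = ((R.bd.filter (fun e : Bond =>
          ¬ (R.o.1 + ℓ * ((cidx R.o ℓ e.1).1 + 1), R.o.2 + ℓ * ((cidx R.o ℓ e.1).2 + 1)) ∈ R.set)).card : ℝ)
            * (2 * A) ^ 2 := by rw [Finset.sum_const, nsmul_eq_mul]
      _ ≤ (2 * ℓ * ((R.p : ℝ) + R.q)) * (2 * A) ^ 2 :=
          mul_le_mul_of_nonneg_right (p1_bad_card R ℓ hℓ) (sq_nonneg _)
      _ = _ := by ring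

/-- the combinations of generators on the grid `(o, ℓ)`, `N × N` cells -/
def comb (o : ℤ × ℤ) (ℓ N : ℕ) (u v : Fin N → ℝ) (γ : Fin (2 * N) → Fin N → ℝ) (x : ℤ × ℤ) : ℝ :=
  ∑ j : Fin N, u j * hV (o.1 + ℓ * (j : ℕ)) x + ∑ j : Fin N, v j * hH (o.2 + ℓ * (j : ℕ)) x
    + ∑ l : Fin (2 * N), ∑ j : Fin N, γ l j * fD (ℓ * ((l : ℕ) - (N : ℤ)) + o.1 - o.2) (o.1 + ℓ * (j : ℕ)) x

/-- L-FR-P10.  The energy depends on the values in `R` only, up to a constant. -/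
theorem dir_congr (R : Rc) {g g' : ℤ × ℤ → ℝ} (c : ℝ) (h : ∀ v ∈ R.set, g v = g' v + c) : R.dir g = R.dir g' := by
  unfold Rc.dir Rc.cost
  refine Finset.sum_congr rfl fun e he => ?_
  unfold gd
  rw [h _ (mem_bd.1 he).1, h _ (mem_bd.1 he).2]
  ring

/-- L-FR-P10.  **The finite approximation theorem.**  `C` of `coarse_rep N`.  If `R.set = ∅` take zero coefficients (`R.bd = ∅`).  Otherwise `coarse_rep` for `c = nod R ℓ g`, `L = ℓ |A|` (`nod_lip` with `|A|`); divide the coefficients by `ℓ`.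
For `x ∈ R.set` the cell index lies in `[0,N)²` (as `p, q ≤ ℓ N`), so by `p1_congr`, `p1_sum`, `p1_hV`, `p1_hH`, `p1_fD`:  `p1 R.o ℓ (nod R ℓ g) x = c₀ + comb … x`.   `dir_congr`, `p1_err`. -/
theorem p1_fin (N : ℕ) : ∃ C : ℝ, ∀ (R : Rc) (ℓ : ℕ), 0 < ℓ → R.p ≤ ℓ * N → R.q ≤ ℓ * N → ∀ (g : ℤ × ℤ → ℝ) (A B : ℝ),
    (∀ e ∈ R.bd, |gd g e| ≤ A) →
    (∀ e ∈ R.bd, ∀ u : ℤ × ℤ, (u = (1, 0) ∨ u = (0, 1)) → (e.1 + u, e.2) ∈ R.bd → |gd g (e.1 + u, e.2) - gd g e| ≤ B) →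
    ∃ (u v : Fin N → ℝ) (γ : Fin (2 * N) → Fin N → ℝ), (∀ j, |u j| ≤ C * |A|) ∧ (∀ j, |v j| ≤ C * |A|) ∧ (∀ l j, |γ l j| ≤ C * |A|) ∧
      R.dir (fun x => g x - comb R.o ℓ N u v γ x) ≤ 8 * (ℓ : ℝ) ^ 2 * B ^ 2 * R.p * R.q + 8 * A ^ 2 * ℓ * ((R.p : ℝ) + R.q) := by
  obtain ⟨C, hC⟩ := coarse_rep N
  refine ⟨|C|, fun R ℓ hℓ hpN hqN g A B hA hB => ?_⟩
  have hL : (0 : ℝ) < ℓ := by exact_mod_cast hℓ
  have hℓ' : (0 : ℤ) < ℓ := by exact_mod_cast hℓ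
  have hCA : 0 ≤ |C| * |A| := by positivity
  by_cases hemp : 0 < R.p ∧ 0 < R.q
  swap
  · have hbd : R.bd = ∅ := by
      rw [Finset.eq_empty_iff_forall_notMem]
      intro e he
      obtain ⟨⟨v1, v2⟩, v3, v4⟩ := fr_mem_set.1 (mem_bd.1 he).1
      exact hemp ⟨by omega, by omega⟩
    refine ⟨fun _ => 0, fun _ => 0, fun _ _ => 0, fun _ => by simpa using hCA, fun _ => by simpa using hCA,
      fun _ _ => by simpa using hCA, ?_⟩
    unfold Rc.dir Rc.cost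
    rw [hbd, Finset.sum_empty]
    positivity
  obtain ⟨hp, hq⟩ := hemp
  have hA' : ∀ e ∈ R.bd, |gd g e| ≤ |A| := fun e he => (hA e he).trans (le_abs_self A)
  obtain ⟨c₀, u, v, γ, hu, hv, hγ, hrep⟩ := hC (nod R ℓ g) (ℓ * |A|) (by
    intro i _ _ _ _
    have h := nod_lip R hp hq ℓ g |A| (abs_nonneg A) hA' i
    have e1 : i + (1, 0) = (i.1 + 1, i.2) := by ext <;> simp
    have e2 : i + (0, 1) = (i.1, i.2 + 1) := by ext <;> simp
    rw [e1, e2] at h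
    exact ⟨fun _ => h.1, fun _ => h.2⟩)
  have hbound : ∀ a : ℝ, |a| ≤ C * (ℓ * |A|) → |a / ℓ| ≤ |C| * |A| := by
    intro a ha
    rw [abs_div, abs_of_pos hL, div_le_iff₀ hL]
    calc |a| ≤ C * (ℓ * |A|) := ha
      _ ≤ |C| * (ℓ * |A|) := mul_le_mul_of_nonneg_right (le_abs_self C) (by positivity)
      _ = |C| * |A| * ℓ := by ring
  refine ⟨fun j => u j / ℓ, fun j => v j / ℓ, fun l j => γ l j / ℓ, fun j => hbound _ (hu j), fun j => hbound _ (hv j),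
    fun l j => hbound _ (hγ l j), ?_⟩
  -- the representation as one sum
  set t : Fin N ⊕ (Fin N ⊕ (Fin (2 * N) × Fin N)) → ℝ :=
    Sum.elim (fun j => u j / ℓ) (Sum.elim (fun j => v j / ℓ) (fun lj => γ lj.1 lj.2 / ℓ)) with ht
  set cs : Fin N ⊕ (Fin N ⊕ (Fin (2 * N) × Fin N)) → ℤ × ℤ → ℝ :=
    Sum.elim (fun j i => ℓ * pp (i.1 - ((j : ℕ) : ℤ))) (Sum.elim (fun j i => ℓ * pp (i.2 - ((j : ℕ) : ℤ)))
      (fun lj i => ℓ * cF (((lj.1 : ℕ) : ℤ) - (N : ℤ)) ((lj.2 : ℕ) : ℤ) i)) with hcs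
  have hrep' : ∀ i : ℤ × ℤ, 0 ≤ i.1 → i.1 ≤ N → 0 ≤ i.2 → i.2 ≤ N → nod R ℓ g i = c₀ + ∑ s, t s * cs s i := by
    intro i a1 a2 a3 a4
    rw [hrep i a1 a2 a3 a4, ht, hcs]
    simp only [Fintype.sum_sum_type, Fintype.sum_prod_type, Sum.elim_inl, Sum.elim_inr]
    have e : ∀ a b : ℝ, a / ℓ * (ℓ * b) = a * b := fun a b => by field_simp
    simp only [e]
    ring
  have hp1 : ∀ x ∈ R.set, p1 R.o ℓ (nod R ℓ g) x
      = c₀ + comb R.o ℓ N (fun j => u j / ℓ) (fun j => v j / ℓ) (fun l j => γ l j / ℓ) x := by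
    intro x hx
    obtain ⟨⟨x1, x2⟩, x3, x4⟩ := fr_mem_set.1 hx
    obtain ⟨⟨hx', h0, h1⟩, ⟨hy', h2, h3⟩⟩ := p1_coords R.o hℓ x
    have hI0 : 0 ≤ (x.1 - R.o.1) / (ℓ : ℤ) := Int.ediv_nonneg (by omega) hℓ'.le
    have hJ0 : 0 ≤ (x.2 - R.o.2) / (ℓ : ℤ) := Int.ediv_nonneg (by omega) hℓ'.le
    have hpN' : (R.p : ℤ) ≤ ℓ * N := by exact_mod_cast hpN
    have hqN' : (R.q : ℤ) ≤ ℓ * N := by exact_mod_cast hqN
    have hI1 : (x.1 - R.o.1) / (ℓ : ℤ) < N := by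
      refine lt_of_mul_lt_mul_left (a := (ℓ : ℤ)) ?_ hℓ'.le
      omega
    have hJ1 : (x.2 - R.o.2) / (ℓ : ℤ) < N := by
      refine lt_of_mul_lt_mul_left (a := (ℓ : ℤ)) ?_ hℓ'.le
      omega
    rw [p1_congr R.o ℓ (c' := fun i => c₀ + ∑ s, t s * cs s i) x, p1_sum]
    · congr 1
      rw [ht, hcs]
      simp only [Fintype.sum_sum_type, Fintype.sum_prod_type, Sum.elim_inl, Sum.elim_inr]
      unfold comb
      simp only [p1_hV R.o ℓ hℓ, p1_hH R.o ℓ hℓ, p1_fD R.o ℓ hℓ]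
      ring
    · intro w hw
      refine hrep' _ ?_ ?_ ?_ ?_ <;> unfold cidx <;>
        rcases hw with rfl | rfl | rfl | rfl <;> simp only [Prod.mk_add_mk] <;> omega
  rw [dir_congr R (g' := fun x => g x - p1 R.o ℓ (nod R ℓ g) x) c₀ (fun x hx => by rw [hp1 x hx]; ring)]
  exact p1_err R ℓ hℓ g A B hA hB

/-! ## 3. Density of `TS` in the discrete `C²` class -/

theorem frp_scaled (c T : ℝ) (n : ℕ) (h : |c| ≤ T / n) : |c * n| ≤ |T| ∧ ∀ x y : ℝ, (c * n) * (x / n - y / n) = c * (x - y) := by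
  rcases Nat.eq_zero_or_pos n with h0 | h0
  · subst h0
    simp only [Nat.cast_zero, div_zero] at h
    have hc : c = 0 := abs_eq_zero.1 (le_antisymm h (abs_nonneg c))
    subst hc
    simp
  · have hn : (0 : ℝ) < n := by exact_mod_cast h0
    refine ⟨?_, fun x y => by field_simp⟩
    rw [abs_mul, abs_of_pos hn]
    calc |c| * n ≤ T / n * n := mul_le_mul_of_nonneg_right h hn.le
      _ = T := by field_simp
      _ ≤ |T| := le_abs_self T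

/-- L-FR-P11.  `gd` is linear; `u hV = (u n) (hV / n)` (if `n k = 0` then `u = 0` by `hu`); `ts_sum` over `Fin N ⊕ Fin N ⊕ (Fin (2N) × Fin N)` (or `ts_add` of three `ts_sum`), `ts_hV`, `ts_hH`, `ts_fD`;
positions: `|o + ℓ j| ≤ (K + K N) n`, `|ℓ (l - N) + o₁ - o₂| ≤ (K N + 2K) n`. -/
theorem ts_comb {b : ℕ → ℝ} {n : ℕ → ℕ} {a : ℝ} (hS : ScaleCoef b n a) (N : ℕ) (o : ℕ → ℤ × ℤ) (ℓ : ℕ → ℕ) (K T : ℝ)
    (ho : ∀ k, |((o k).1 : ℝ)| ≤ K * n k ∧ |((o k).2 : ℝ)| ≤ K * n k) (hℓ : ∀ k, (ℓ k : ℝ) ≤ K * n k)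
    (u v : ℕ → Fin N → ℝ) (γ : ℕ → Fin (2 * N) → Fin N → ℝ) (hu : ∀ k j, |u k j| ≤ T / n k) (hv : ∀ k j, |v k j| ≤ T / n k)
    (hγ : ∀ k l j, |γ k l j| ≤ T / n k) : TS b n a fun k => gd (comb (o k) (ℓ k) N (u k) (v k) (γ k)) := by
  have hKn : ∀ k, 0 ≤ K * n k := fun k => (Nat.cast_nonneg _).trans (hℓ k)
  have hpos : ∀ (k : ℕ) (j : Fin N), |(((ℓ k : ℤ) * ((j : ℕ) : ℤ) : ℤ) : ℝ)| ≤ K * N * n k := by
    intro k j
    push_cast
    rw [abs_of_nonneg (by positivity)]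
    have hj : ((j : ℕ) : ℝ) ≤ N := by exact_mod_cast j.2.le
    calc (ℓ k : ℝ) * (j : ℕ) ≤ (K * n k) * N := mul_le_mul (hℓ k) hj (Nat.cast_nonneg _) (hKn k)
      _ = K * N * n k := by ring
  have hA : ∀ j : Fin N, TS b n a fun k => gd fun x => hV ((o k).1 + ℓ k * (j : ℕ)) x / n k := fun j =>
    ts_hV hS _ (K + K * N) fun k => by
      have h1 := hpos k j
      push_cast at h1 ⊢
      calc |((o k).1 : ℝ) + (ℓ k : ℝ) * (j : ℕ)| ≤ |((o k).1 : ℝ)| + |(ℓ k : ℝ) * (j : ℕ)| := abs_add_le _ _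
        _ ≤ K * n k + K * N * n k := add_le_add (ho k).1 h1
        _ = (K + K * N) * n k := by ring
  have hB : ∀ j : Fin N, TS b n a fun k => gd fun x => hH ((o k).2 + ℓ k * (j : ℕ)) x / n k := fun j =>
    ts_hH hS _ (K + K * N) fun k => by
      have h1 := hpos k j
      push_cast at h1 ⊢
      calc |((o k).2 : ℝ) + (ℓ k : ℝ) * (j : ℕ)| ≤ |((o k).2 : ℝ)| + |(ℓ k : ℝ) * (j : ℕ)| := abs_add_le _ _
        _ ≤ K * n k + K * N * n k := add_le_add (ho k).2 h1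
        _ = (K + K * N) * n k := by ring
  have hC : ∀ i : Fin (2 * N) × Fin N, TS b n a fun k =>
      gd fun x => fD (ℓ k * (((i.1 : ℕ) : ℤ) - (N : ℤ)) + (o k).1 - (o k).2) ((o k).1 + ℓ k * (i.2 : ℕ)) x / n k := fun i =>
    ts_fD hS _ _ (K * N + 2 * K) (fun k => by
      have hl : |(((i.1 : ℕ) : ℝ) - (N : ℝ))| ≤ N := by
        have h1 : ((i.1 : ℕ) : ℝ) < 2 * N := by exact_mod_cast i.1.2
        have h2 : (0 : ℝ) ≤ ((i.1 : ℕ) : ℝ) := Nat.cast_nonneg _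
        rw [abs_le]; constructor <;> linarith
      push_cast
      have h3 : |(ℓ k : ℝ) * (((i.1 : ℕ) : ℝ) - (N : ℝ))| ≤ (K * n k) * N := by
        rw [abs_mul, abs_of_nonneg (Nat.cast_nonneg (ℓ k))]
        exact mul_le_mul (hℓ k) hl (abs_nonneg _) (hKn k)
      calc |(ℓ k : ℝ) * (((i.1 : ℕ) : ℝ) - (N : ℝ)) + ((o k).1 : ℝ) - ((o k).2 : ℝ)|
          ≤ |(ℓ k : ℝ) * (((i.1 : ℕ) : ℝ) - (N : ℝ))| + |((o k).1 : ℝ)| + |((o k).2 : ℝ)| := by
            refine (abs_sub _ _).trans (add_le_add (abs_add_le _ _) le_rfl)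
        _ ≤ (K * n k) * N + K * n k + K * n k := add_le_add (add_le_add h3 (ho k).1) (ho k).2
        _ = (K * N + 2 * K) * n k := by ring) (fun k => by
      have h1 := hpos k i.2
      push_cast at h1 ⊢
      calc |((o k).1 : ℝ) + (ℓ k : ℝ) * (i.2 : ℕ)| ≤ |((o k).1 : ℝ)| + |(ℓ k : ℝ) * (i.2 : ℕ)| := abs_add_le _ _
        _ ≤ K * n k + K * N * n k := add_le_add (ho k).1 h1
        _ ≤ (K * N + 2 * K) * n k := by nlinarith [hKn k])
  have sA := ts_sum hS _ hA (fun j k => u k j * n k) |T| fun j k => (frp_scaled _ T _ (hu k j)).1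
  have sB := ts_sum hS _ hB (fun j k => v k j * n k) |T| fun j k => (frp_scaled _ T _ (hv k j)).1
  have sC := ts_sum hS _ hC (fun i k => γ k i.1 i.2 * n k) |T| fun i k => (frp_scaled _ T _ (hγ k i.1 i.2)).1
  have sAll := ts_add hS (ts_add hS sA sB) sC
  have heq : (fun k => gd (comb (o k) (ℓ k) N (u k) (v k) (γ k))) = fun k e =>
      (∑ j : Fin N, u k j * n k * gd (fun x => hV ((o k).1 + ℓ k * (j : ℕ)) x / n k) e
        + ∑ j : Fin N, v k j * n k * gd (fun x => hH ((o k).2 + ℓ k * (j : ℕ)) x / n k) e)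
      + ∑ i : Fin (2 * N) × Fin N, γ k i.1 i.2 * n k *
          gd (fun x => fD (ℓ k * (((i.1 : ℕ) : ℤ) - (N : ℤ)) + (o k).1 - (o k).2) ((o k).1 + ℓ k * (i.2 : ℕ)) x / n k) e := by
    funext k e
    unfold gd comb
    simp only [(frp_scaled _ T _ (hu k _)).2, (frp_scaled _ T _ (hv k _)).2, (frp_scaled _ T _ (hγ k _ _)).2]
    rw [Fintype.sum_prod_type]
    simp only [mul_sub, Finset.sum_sub_distrib]
    ring
  rw [heq]
  exact sAll

/-- L-FR-P12.  **Density.**  `K ≥ 1` from `Adm`; `r ∈ (0,1]` with `32 r² M² K² + 32 r M² K ≤ ε`; `ℓ k = ⌈r n k⌉₊` (`> 0` and `≤ 2 r n k` as soon as `r n k ≥ 1`; for the other `k` put `ℓ k = 1`… or take zero coefficients), `N = ⌈K / r⌉₊`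
(`p ≤ K n ≤ ℓ N`).   `p1_fin` with `A = M / n k`, `B = M / (n k)²` for every good `k` (choice), `ts_comb` with `T = C |M|`. -/
theorem p1_approx {b : ℕ → ℝ} {n : ℕ → ℕ} {a : ℝ} (hS : ScaleCoef b n a) {R : ℕ → Rc} (hR : Adm n R) (M : ℝ) (γ : ℕ → ℤ × ℤ → ℝ)
    (h : ∀ k, C2bd M (n k) (R k) (γ k)) (ε : ℝ) (hε : 0 < ε) :
    ∃ π : ℕ → ℤ × ℤ → ℝ, TS b n a (fun k => gd (π k)) ∧ ∀ᶠ k in atTop, (R k).dir (fun v => γ k v - π k v) ≤ ε := by
  obtain ⟨K₀, hK₀⟩ := hR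
  set K : ℝ := max K₀ 1 with hKdef
  have hK1 : 1 ≤ K := le_max_right _ _
  have hK : ∀ k, |((R k).o.1 : ℝ)| ≤ K * n k ∧ |((R k).o.2 : ℝ)| ≤ K * n k ∧ ((R k).p : ℝ) ≤ K * n k ∧ ((R k).q : ℝ) ≤ K * n k := by
    intro k
    have h1 : K₀ * n k ≤ K * n k := mul_le_mul_of_nonneg_right (le_max_left _ _) (Nat.cast_nonneg _)
    obtain ⟨a1, a2, a3, a4⟩ := hK₀ k
    exact ⟨a1.trans h1, a2.trans h1, a3.trans h1, a4.trans h1⟩
  set D : ℝ := 32 * M ^ 2 * K ^ 2 + 32 * M ^ 2 * K + 1 with hD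
  have hDpos : 0 < D := by positivity
  set r : ℝ := min 1 (ε / D) with hr
  have hr0 : 0 < r := lt_min one_pos (by positivity)
  have hr1 : r ≤ 1 := min_le_left _ _
  have hrD : r * D ≤ ε := by
    have : r ≤ ε / D := min_le_right _ _
    calc r * D ≤ ε / D * D := mul_le_mul_of_nonneg_right this hDpos.le
      _ = ε := by field_simp
  set ℓ : ℕ → ℕ := fun k => ⌈r * n k⌉₊ with hℓdef
  set N : ℕ := ⌈K / r⌉₊ with hN
  obtain ⟨C, hC⟩ := p1_fin N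
  have hℓlow : ∀ k, r * n k ≤ ℓ k := fun k => Nat.le_ceil _
  have hNlow : K / r ≤ N := Nat.le_ceil _
  have hcover : ∀ k, K * n k ≤ (ℓ k : ℝ) * N := by
    intro k
    calc K * n k = (r * n k) * (K / r) := by field_simp
      _ ≤ (ℓ k : ℝ) * N := mul_le_mul (hℓlow k) hNlow (by positivity) (Nat.cast_nonneg _)
  have hex : ∀ k, ∃ (u v : Fin N → ℝ) (c : Fin (2 * N) → Fin N → ℝ), (∀ j, |u j| ≤ C * |M / n k|) ∧ (∀ j, |v j| ≤ C * |M / n k|) ∧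
      (∀ l j, |c l j| ≤ C * |M / n k|) ∧ (0 < n k →
      (R k).dir (fun x => γ k x - comb (R k).o (ℓ k) N u v c x)
        ≤ 8 * (ℓ k : ℝ) ^ 2 * (M / (n k : ℝ) ^ 2) ^ 2 * (R k).p * (R k).q + 8 * (M / n k) ^ 2 * ℓ k * (((R k).p : ℝ) + (R k).q)) := by
    intro k
    rcases Nat.eq_zero_or_pos (n k) with h0 | h0
    · refine ⟨0, 0, 0, ?_, ?_, ?_, fun hh => absurd hh (by omega)⟩ <;> simp [h0]
    · have hn : (0 : ℝ) < n k := by exact_mod_cast h0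
      have hℓpos : 0 < ℓ k := Nat.ceil_pos.2 (by positivity)
      have hp : (R k).p ≤ ℓ k * N := by
        have : ((R k).p : ℝ) ≤ ((ℓ k * N : ℕ) : ℝ) := by push_cast; exact (hK k).2.2.1.trans (hcover k)
        exact_mod_cast this
      have hq : (R k).q ≤ ℓ k * N := by
        have : ((R k).q : ℝ) ≤ ((ℓ k * N : ℕ) : ℝ) := by push_cast; exact (hK k).2.2.2.trans (hcover k)
        exact_mod_cast this
      obtain ⟨u, v, c, h1, h2, h3, h4⟩ := hC (R k) (ℓ k) hℓpos hp hq (γ k) (M / n k) (M / (n k : ℝ) ^ 2) (h k).1 (h k).2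
      exact ⟨u, v, c, h1, h2, h3, fun _ => h4⟩
  choose u v c hu hv hc hdir using hex
  have hT : ∀ k, C * |M / n k| ≤ (|C| * |M|) / n k := by
    intro k
    rw [abs_div, abs_of_nonneg (Nat.cast_nonneg (n k) : (0 : ℝ) ≤ n k), mul_div_assoc]
    exact mul_le_mul_of_nonneg_right (le_abs_self C) (by positivity)
  have hℓup : ∀ k, (ℓ k : ℝ) ≤ (K + 2) * n k := by
    intro k
    rcases Nat.eq_zero_or_pos (n k) with h0 | h0
    · simp [hℓdef, h0]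
    · have hn : (1 : ℝ) ≤ n k := by exact_mod_cast h0
      have h1 : (ℓ k : ℝ) < r * n k + 1 := Nat.ceil_lt_add_one (by positivity)
      nlinarith
  refine ⟨fun k => comb (R k).o (ℓ k) N (u k) (v k) (c k), ?_, ?_⟩
  · refine ts_comb hS N (fun k => (R k).o) ℓ (K + 2) (|C| * |M|) (fun k => ?_) hℓup u v c
      (fun k j => (hu k j).trans (hT k)) (fun k j => (hv k j).trans (hT k)) (fun k l j => (hc k l j).trans (hT k))
    have h1 : K * n k ≤ (K + 2) * n k := mul_le_mul_of_nonneg_right (by linarith) (Nat.cast_nonneg _)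
    exact ⟨(hK k).1.trans h1, (hK k).2.1.trans h1⟩
  · filter_upwards [hS.2.1.eventually_ge_atTop ⌈1 / r⌉₊, hS.2.1.eventually_ge_atTop 1] with k hk1 hk2
    have hn : (1 : ℝ) ≤ n k := by exact_mod_cast hk2
    have hn0 : (0 : ℝ) < n k := by linarith
    have hrn : 1 ≤ r * n k := by
      have h1 : 1 / r ≤ n k := (Nat.le_ceil _).trans (by exact_mod_cast hk1)
      calc (1 : ℝ) = r * (1 / r) := by field_simp
        _ ≤ r * n k := mul_le_mul_of_nonneg_left h1 hr0.le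
    have hℓ2 : (ℓ k : ℝ) ≤ 2 * r * n k := by
      have h1 : (ℓ k : ℝ) < r * n k + 1 := Nat.ceil_lt_add_one (by positivity)
      linarith
    refine (hdir k (by omega)).trans ?_
    obtain ⟨-, -, hp, hq⟩ := hK k
    have hp0 : (0 : ℝ) ≤ (R k).p := Nat.cast_nonneg _
    have hq0 : (0 : ℝ) ≤ (R k).q := Nat.cast_nonneg _
    have hℓ0 : (0 : ℝ) ≤ ℓ k := Nat.cast_nonneg _
    have t1 : 8 * (ℓ k : ℝ) ^ 2 * (M / (n k : ℝ) ^ 2) ^ 2 * (R k).p * (R k).q ≤ 32 * r ^ 2 * M ^ 2 * K ^ 2 := by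
      have e1 : (ℓ k : ℝ) ^ 2 ≤ (2 * r * n k) ^ 2 := pow_le_pow_left₀ hℓ0 hℓ2 2
      have e2 : ((R k).p : ℝ) * (R k).q ≤ (K * n k) * (K * n k) := mul_le_mul hp hq hq0 (by positivity)
      calc 8 * (ℓ k : ℝ) ^ 2 * (M / (n k : ℝ) ^ 2) ^ 2 * (R k).p * (R k).q
          = 8 * (M / (n k : ℝ) ^ 2) ^ 2 * ((ℓ k : ℝ) ^ 2 * (((R k).p : ℝ) * (R k).q)) := by ring
        _ ≤ 8 * (M / (n k : ℝ) ^ 2) ^ 2 * ((2 * r * n k) ^ 2 * ((K * n k) * (K * n k))) :=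
            mul_le_mul_of_nonneg_left (mul_le_mul e1 e2 (by positivity) (by positivity)) (by positivity)
        _ = 32 * r ^ 2 * M ^ 2 * K ^ 2 := by field_simp; ring
    have t2 : 8 * (M / n k) ^ 2 * ℓ k * (((R k).p : ℝ) + (R k).q) ≤ 32 * r * M ^ 2 * K := by
      calc 8 * (M / n k) ^ 2 * ℓ k * (((R k).p : ℝ) + (R k).q)
          = 8 * (M / n k) ^ 2 * ((ℓ k : ℝ) * (((R k).p : ℝ) + (R k).q)) := by ring
        _ ≤ 8 * (M / n k) ^ 2 * ((2 * r * n k) * (K * n k + K * n k)) :=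
            mul_le_mul_of_nonneg_left (mul_le_mul hℓ2 (add_le_add hp hq) (by positivity) (by positivity)) (by positivity)
        _ = 32 * r * M ^ 2 * K := by field_simp; ring
    have t3 : 32 * r ^ 2 * M ^ 2 * K ^ 2 ≤ r * (32 * M ^ 2 * K ^ 2) := by
      have : r ^ 2 ≤ r := by nlinarith
      have h0 : 0 ≤ 32 * M ^ 2 * K ^ 2 := by positivity
      nlinarith
    have t4 : r * D = r * (32 * M ^ 2 * K ^ 2) + 32 * r * M ^ 2 * K + r := by rw [hD]; ring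
    linarith

/-! ## 4. The class `Reg` -/

theorem frp_gd_sub (g g' : ℤ × ℤ → ℝ) (e : Bond) : gd (fun v => g v - g' v) e = gd g e - gd g' e := by
  unfold gd; ring

theorem frp_gd_add (g g' : ℤ × ℤ → ℝ) (e : Bond) : gd (fun v => g v + g' v) e = gd g e + gd g' e := by
  unfold gd; ring

theorem frp_gd_smul (t : ℝ) (g : ℤ × ℤ → ℝ) (e : Bond) : gd (fun v => t * g v) e = t * gd g e := by
  unfold gd; ring

theorem frp_dir_nonneg (R : Rc) (g : ℤ × ℤ → ℝ) : 0 ≤ R.dir g := Finset.sum_nonneg fun _ _ => sq_nonneg _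

theorem frp_dir_add_le (R : Rc) (g g' : ℤ × ℤ → ℝ) : R.dir (fun v => g v + g' v) ≤ 2 * R.dir g + 2 * R.dir g' := by
  have h := cost_add_le R (gd g) (gd g')
  unfold Rc.dir
  have : gd (fun v => g v + g' v) = fun e => gd g e + gd g' e := funext fun e => frp_gd_add g g' e
  rw [this]; exact h

theorem frp_dir_smul (R : Rc) (t : ℝ) (g : ℤ × ℤ → ℝ) : R.dir (fun v => t * g v) = t ^ 2 * R.dir g := by
  unfold Rc.dir Rc.cost
  rw [Finset.mul_sum]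
  exact Finset.sum_congr rfl fun e _ => by rw [frp_gd_smul]; ring

theorem frp_dir_zero (R : Rc) (g : ℤ × ℤ → ℝ) : R.dir (fun v => g v - g v) = 0 := by
  unfold Rc.dir Rc.cost
  exact Finset.sum_eq_zero fun e _ => by rw [frp_gd_sub]; simp

/-- by definition (`γ = g`, the energy of `0` is `0`).   L-FR-P13. -/
theorem fr_reg_c2 {n : ℕ → ℕ} {R : ℕ → Rc} (g : ℕ → ℤ × ℤ → ℝ) (M : ℝ) (h : ∀ k, C2bd M (n k) (R k) (g k)) : Reg n R g := by
  intro ε hε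
  exact ⟨M, g, h, Eventually.of_forall fun k => by rw [frp_dir_zero]; exact hε.le⟩

theorem frp_c2bd_add {M M' : ℝ} {n : ℕ} {R : Rc} {g g' : ℤ × ℤ → ℝ} (h : C2bd M n R g) (h' : C2bd M' n R g') :
    C2bd (M + M') n R fun v => g v + g' v := by
  refine ⟨fun e he => ?_, fun e he u hu he' => ?_⟩
  · rw [frp_gd_add, add_div]
    exact (abs_add_le _ _).trans (add_le_add (h.1 e he) (h'.1 e he))
  · rw [frp_gd_add, frp_gd_add, add_div]
    have h1 := h.2 e he u hu he'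
    have h2 := h'.2 e he u hu he'
    calc |gd g (e.1 + u, e.2) + gd g' (e.1 + u, e.2) - (gd g e + gd g' e)|
        = |(gd g (e.1 + u, e.2) - gd g e) + (gd g' (e.1 + u, e.2) - gd g' e)| := by congr 1; ring
      _ ≤ _ := (abs_add_le _ _).trans (add_le_add h1 h2)

theorem frp_c2bd_smul {M T t : ℝ} {n : ℕ} {R : Rc} {g : ℤ × ℤ → ℝ} (h : C2bd M n R g) (ht : |t| ≤ T) :
    C2bd (T * |M|) n R fun v => t * g v := by
  have hT : 0 ≤ T := (abs_nonneg t).trans ht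
  have hn : (0 : ℝ) ≤ n := Nat.cast_nonneg n
  refine ⟨fun e he => ?_, fun e he u hu he' => ?_⟩
  · rw [frp_gd_smul, abs_mul, mul_div_assoc]
    have h1 : |gd g e| ≤ |M| / n := (h.1 e he).trans (div_le_div_of_nonneg_right (le_abs_self M) hn)
    exact mul_le_mul ht h1 (abs_nonneg _) hT
  · rw [frp_gd_smul, frp_gd_smul, ← mul_sub, abs_mul, mul_div_assoc]
    have h1 : |gd g (e.1 + u, e.2) - gd g e| ≤ |M| / (n : ℝ) ^ 2 :=
      (h.2 e he u hu he').trans (div_le_div_of_nonneg_right (le_abs_self M) (by positivity))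
    exact mul_le_mul ht h1 (abs_nonneg _) hT

/-- L-FR-P13.  `C2bd` is additive in `(M, g)`; `ε/4` each, `cost_add_le`. -/
theorem fr_reg_add {n : ℕ → ℕ} {R : ℕ → Rc} {g g' : ℕ → ℤ × ℤ → ℝ} (h : Reg n R g) (h' : Reg n R g') :
    Reg n R fun k v => g k v + g' k v := by
  intro ε hε
  obtain ⟨M, γ, hγ, h1⟩ := h (ε / 4) (by positivity)
  obtain ⟨M', γ', hγ', h2⟩ := h' (ε / 4) (by positivity)
  refine ⟨M + M', fun k v => γ k v + γ' k v, fun k => frp_c2bd_add (hγ k) (hγ' k), ?_⟩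
  filter_upwards [h1, h2] with k a1 a2
  have h3 := frp_dir_add_le (R k) (fun v => g k v - γ k v) (fun v => g' k v - γ' k v)
  have h4 : (fun v => g k v + g' k v - (γ k v + γ' k v)) = fun v => (g k v - γ k v) + (g' k v - γ' k v) :=
    funext fun v => by ring
  rw [h4]
  linarith

/-- L-FR-P13. -/
theorem fr_reg_smul {n : ℕ → ℕ} {R : ℕ → Rc} {g : ℕ → ℤ × ℤ → ℝ} (h : Reg n R g) (t : ℕ → ℝ) (M : ℝ) (ht : ∀ k, |t k| ≤ M) :
    Reg n R fun k v => t k * g k v := by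
  intro ε hε
  have hM : 0 ≤ M := (abs_nonneg _).trans (ht 0)
  obtain ⟨M', γ, hγ, h1⟩ := h (ε / (M ^ 2 + 1)) (by positivity)
  refine ⟨M * |M'|, fun k v => t k * γ k v, fun k => frp_c2bd_smul (hγ k) (ht k), ?_⟩
  filter_upwards [h1] with k a1
  have h4 : (fun v => t k * g k v - t k * γ k v) = fun v => t k * (g k v - γ k v) := funext fun v => by ring
  rw [h4, frp_dir_smul]
  have h5 : t k ^ 2 ≤ M ^ 2 := by
    rw [← sq_abs]; exact pow_le_pow_left₀ (abs_nonneg _) (ht k) 2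
  have h6 := frp_dir_nonneg (R k) fun v => g k v - γ k v
  calc t k ^ 2 * (R k).dir (fun v => g k v - γ k v) ≤ (M ^ 2 + 1) * (ε / (M ^ 2 + 1)) :=
        mul_le_mul (by linarith) a1 h6 (by positivity)
    _ = ε := by field_simp

theorem frp_c2bd_dir {M : ℝ} {n : ℕ} {R : Rc} {g : ℤ × ℤ → ℝ} (h : C2bd M n R g) :
    R.dir g ≤ 2 * (R.p : ℝ) * R.q * (M / n) ^ 2 := by
  unfold Rc.dir Rc.cost
  calc ∑ e ∈ R.bd, gd g e ^ 2 ≤ ∑ _e ∈ R.bd, (M / n) ^ 2 :=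
        Finset.sum_le_sum fun e he => by
          rw [← sq_abs (gd g e)]; exact pow_le_pow_left₀ (abs_nonneg _) (h.1 e he) 2
    _ = (R.bd.card : ℝ) * (M / n) ^ 2 := by rw [Finset.sum_const, nsmul_eq_mul]
    _ ≤ _ := mul_le_mul_of_nonneg_right (fr_bd_card R) (sq_nonneg _)

/-- L-FR-P13.  `ε = 1`: `dir g ≤ 2 dir γ + 2`, `dir γ ≤ 2 p q M²/n² ≤ 2 K² M²` (`fr_bd_card`). -/
theorem fr_reg_bdd {n : ℕ → ℕ} {R : ℕ → Rc} {g : ℕ → ℤ × ℤ → ℝ} (hn : Tendsto n atTop atTop) (hR : Adm n R) (h : Reg n R g) :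
    ∃ C : ℝ, ∀ᶠ k in atTop, (R k).dir (g k) ≤ C := by
  obtain ⟨M, γ, hγ, h1⟩ := h 1 one_pos
  obtain ⟨K, hK⟩ := hR
  refine ⟨2 * (2 * K ^ 2 * M ^ 2) + 2, ?_⟩
  filter_upwards [h1, hn.eventually_ge_atTop 1] with k a1 a2
  have hn0 : (0 : ℝ) < n k := by exact_mod_cast a2
  have h2 := frp_c2bd_dir (hγ k)
  obtain ⟨-, -, hp, hq⟩ := hK k
  have h3 : 2 * ((R k).p : ℝ) * (R k).q * (M / n k) ^ 2 ≤ 2 * K ^ 2 * M ^ 2 := by
    have hpq : ((R k).p : ℝ) * (R k).q ≤ (K * n k) * (K * n k) :=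
      mul_le_mul hp hq (Nat.cast_nonneg _) ((Nat.cast_nonneg _).trans hp)
    have : 2 * ((R k).p : ℝ) * (R k).q * (M / n k) ^ 2 ≤ 2 * ((K * n k) * (K * n k)) * (M / n k) ^ 2 := by
      have := mul_le_mul_of_nonneg_right hpq (sq_nonneg (M / n k))
      nlinarith
    refine this.trans (le_of_eq ?_)
    field_simp
  have h4 := frp_dir_add_le (R k) (fun v => g k v - γ k v) (γ k)
  have h5 : (fun v => g k v - γ k v + γ k v) = g k := funext fun v => by ring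
  rw [h5] at h4
  linarith

theorem frp_bd_mono {R R' : Rc} (h : R'.set ⊆ R.set) : R'.bd ⊆ R.bd := fun e he =>
  mem_bd.2 ⟨h (mem_bd.1 he).1, h (mem_bd.1 he).2⟩

theorem frp_c2bd_restrict {M : ℝ} {n : ℕ} {R R' : Rc} {g : ℤ × ℤ → ℝ} (hs : R'.set ⊆ R.set) (h : C2bd M n R g) : C2bd M n R' g :=
  ⟨fun e he => h.1 e (frp_bd_mono hs he), fun e he u hu he' => h.2 e (frp_bd_mono hs he) u hu (frp_bd_mono hs he')⟩

theorem frp_dir_mono {R R' : Rc} (hs : R'.set ⊆ R.set) (g : ℤ × ℤ → ℝ) : R'.dir g ≤ R.dir g :=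
  Finset.sum_le_sum_of_subset_of_nonneg (frp_bd_mono hs) fun _ _ _ => sq_nonneg _

/-- L-FR-P13.  Restriction to sub-rectangles: `R'.bd ⊆ R.bd` (`mem_bd`). -/
theorem fr_reg_restrict {n : ℕ → ℕ} {R R' : ℕ → Rc} {g : ℕ → ℤ × ℤ → ℝ} (hsub : ∀ k, (R' k).set ⊆ (R k).set) (h : Reg n R g) : Reg n R' g := by
  intro ε hε
  obtain ⟨M, γ, hγ, h1⟩ := h ε hε
  refine ⟨M, γ, fun k => frp_c2bd_restrict (hsub k) (hγ k), ?_⟩
  filter_upwards [h1] with k a1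
  exact (frp_dir_mono (hsub k) _).trans a1

/-- L-FR-P14 (Mathlib only).  Taylor for a function of a linear phase: `f` with `|f'| ≤ 1`, `|f''| ≤ 1` in the form of difference bounds: `|cos (x + s) - cos x| ≤ |s|`, `|cos (x + s + t) - cos (x + s) - cos (x + t) + cos x| ≤ |s| |t|`; same for `sin`.
(`cos (x+s) - cos x = -2 sin (s/2) sin (x + s/2)`; the second difference is `-2 sin (s/2) (sin (x + t + s/2) - sin (x + s/2))`.) -/
theorem cos_diff2 (x s t : ℝ) : |Real.cos (x + s) - Real.cos x| ≤ |s| ∧ |Real.cos (x + s + t) - Real.cos (x + s) - Real.cos (x + t) + Real.cos x| ≤ |s| * |t| ∧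
    |Real.sin (x + s) - Real.sin x| ≤ |s| ∧ |Real.sin (x + s + t) - Real.sin (x + s) - Real.sin (x + t) + Real.sin x| ≤ |s| * |t| := by
  have hs2 : 2 * |Real.sin (s / 2)| ≤ |s| := by
    have h := Real.abs_sin_le_abs (x := s / 2)
    rw [abs_div, abs_two] at h
    linarith
  refine ⟨?_, ?_, ?_, ?_⟩
  · have h := Real.abs_cos_sub_cos_le (x + s) x
    rwa [add_sub_cancel_left] at h
  · have e : Real.cos (x + s + t) - Real.cos (x + s) - Real.cos (x + t) + Real.cos x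
        = -2 * Real.sin (s / 2) * (Real.sin (x + t + s / 2) - Real.sin (x + s / 2)) := by
      have e1 := Real.cos_sub_cos (x + s + t) (x + t)
      have e2 := Real.cos_sub_cos (x + s) x
      have a1 : (x + s + t + (x + t)) / 2 = x + t + s / 2 := by ring
      have a2 : (x + s + t - (x + t)) / 2 = s / 2 := by ring
      have a3 : (x + s + x) / 2 = x + s / 2 := by ring
      have a4 : (x + s - x) / 2 = s / 2 := by ring
      rw [a1, a2] at e1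
      rw [a3, a4] at e2
      linear_combination e1 - e2
    rw [e, abs_mul, abs_mul, abs_neg, abs_two]
    have h := Real.abs_sin_sub_sin_le (x + t + s / 2) (x + s / 2)
    have a5 : x + t + s / 2 - (x + s / 2) = t := by ring
    rw [a5] at h
    exact mul_le_mul hs2 h (abs_nonneg _) (abs_nonneg _)
  · have h := Real.abs_sin_sub_sin_le (x + s) x
    rwa [add_sub_cancel_left] at h
  · have e : Real.sin (x + s + t) - Real.sin (x + s) - Real.sin (x + t) + Real.sin x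
        = 2 * Real.sin (s / 2) * (Real.cos (x + t + s / 2) - Real.cos (x + s / 2)) := by
      have e1 := Real.sin_sub_sin (x + s + t) (x + t)
      have e2 := Real.sin_sub_sin (x + s) x
      have a1 : (x + s + t + (x + t)) / 2 = x + t + s / 2 := by ring
      have a2 : (x + s + t - (x + t)) / 2 = s / 2 := by ring
      have a3 : (x + s + x) / 2 = x + s / 2 := by ring
      have a4 : (x + s - x) / 2 = s / 2 := by ring
      rw [a1, a2] at e1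
      rw [a3, a4] at e2
      linear_combination e1 - e2
    rw [e, abs_mul, abs_mul, abs_two]
    have h := Real.abs_cos_sub_cos_le (x + t + s / 2) (x + s / 2)
    have a5 : x + t + s / 2 - (x + s / 2) = t := by ring
    rw [a5] at h
    exact mul_le_mul hs2 h (abs_nonneg _) (abs_nonneg _)

/-- `C2bd` in terms of sites -/
theorem fr_c2bd_of {M : ℝ} {n : ℕ} {R : Rc} {g : ℤ × ℤ → ℝ}
    (h1 : ∀ x : ℤ × ℤ, x ∈ R.set → (x.1 + 1, x.2) ∈ R.set → |g (x.1 + 1, x.2) - g x| ≤ M / n)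
    (h2 : ∀ x : ℤ × ℤ, x ∈ R.set → (x.1, x.2 + 1) ∈ R.set → |g (x.1, x.2 + 1) - g x| ≤ M / n)
    (h11 : ∀ x : ℤ × ℤ, x ∈ R.set → (x.1 + 1, x.2) ∈ R.set → (x.1 + 1 + 1, x.2) ∈ R.set →
      |(g (x.1 + 1 + 1, x.2) - g (x.1 + 1, x.2)) - (g (x.1 + 1, x.2) - g x)| ≤ M / (n : ℝ) ^ 2)
    (h22 : ∀ x : ℤ × ℤ, x ∈ R.set → (x.1, x.2 + 1) ∈ R.set → (x.1, x.2 + 1 + 1) ∈ R.set →
      |(g (x.1, x.2 + 1 + 1) - g (x.1, x.2 + 1)) - (g (x.1, x.2 + 1) - g x)| ≤ M / (n : ℝ) ^ 2)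
    (h12 : ∀ x : ℤ × ℤ, x ∈ R.set → (x.1 + 1, x.2) ∈ R.set → (x.1, x.2 + 1) ∈ R.set → (x.1 + 1, x.2 + 1) ∈ R.set →
      |g (x.1 + 1, x.2 + 1) - g (x.1 + 1, x.2) - g (x.1, x.2 + 1) + g x| ≤ M / (n : ℝ) ^ 2) :
    C2bd M n R g := by
  constructor
  · rintro ⟨x, d⟩ he
    obtain ⟨ha, hb⟩ := mem_bd.1 he
    cases d
    · exact h2 x ha hb
    · exact h1 x ha hb
  · rintro ⟨x, d⟩ he u hu he'
    obtain ⟨ha, hb⟩ := mem_bd.1 he
    obtain ⟨ha', hb'⟩ := mem_bd.1 he'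
    have u1 : x + ((1 : ℤ), (0 : ℤ)) = (x.1 + 1, x.2) := by ext <;> simp
    have u2 : x + ((0 : ℤ), (1 : ℤ)) = (x.1, x.2 + 1) := by ext <;> simp
    rcases hu with rfl | rfl
    · simp only [u1] at ha' hb' ⊢
      cases d
      · have h := h12 x ha ha' hb hb'
        have e : gd g ((x.1 + 1, x.2), false) - gd g (x, false)
            = g (x.1 + 1, x.2 + 1) - g (x.1 + 1, x.2) - g (x.1, x.2 + 1) + g x := by
          simp only [gd, Bond.snd, Bool.false_eq_true, if_false]; ring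
        rw [e]; exact h
      · exact h11 x ha hb hb'
    · simp only [u2] at ha' hb' ⊢
      cases d
      · exact h22 x ha hb hb'
      · have h := h12 x ha hb ha' hb'
        have e : gd g ((x.1, x.2 + 1), true) - gd g (x, true)
            = g (x.1 + 1, x.2 + 1) - g (x.1 + 1, x.2) - g (x.1, x.2 + 1) + g x := by
          simp only [gd, Bond.snd, if_true]; ring
        rw [e]; exact h

/-- L-FR-P14.  `fr_reg_c2` with the constant `M + M²`: `cos_diff2` with `s, t ∈ {α/n, β/n}`.  (`n k = 0`: the function is constant.) -/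
theorem fr_reg_cos {n : ℕ → ℕ} {R : ℕ → Rc} (α β γ : ℕ → ℝ) (M : ℝ)
    (hα : ∀ k, |α k| ≤ M) (hβ : ∀ k, |β k| ≤ M) :
    Reg n R fun k v => Real.cos (α k * ((v.1 : ℝ) / n k) + β k * ((v.2 : ℝ) / n k) + γ k) := by
  have hM : 0 ≤ M := (abs_nonneg _).trans (hα 0)
  refine fr_reg_c2 _ (M + M ^ 2) fun k => ?_
  obtain ⟨N, hN⟩ : ∃ N : ℝ, N = (n k : ℝ) := ⟨_, rfl⟩
  have hN0 : 0 ≤ N := by rw [hN]; positivity
  obtain ⟨φ, hφ⟩ : ∃ φ : ℤ × ℤ → ℝ, φ = fun v => α k * ((v.1 : ℝ) / N) + β k * ((v.2 : ℝ) / N) + γ k := ⟨_, rfl⟩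
  have p1 : ∀ a c : ℤ, φ (a + 1, c) = φ (a, c) + α k / N := by
    intro a c; rw [hφ]; simp only; push_cast; ring
  have p2 : ∀ a c : ℤ, φ (a, c + 1) = φ (a, c) + β k / N := by
    intro a c; rw [hφ]; simp only; push_cast; ring
  have bα : |α k / N| ≤ M / N := by
    rw [abs_div, abs_of_nonneg hN0]; exact div_le_div_of_nonneg_right (hα k) hN0
  have bβ : |β k / N| ≤ M / N := by
    rw [abs_div, abs_of_nonneg hN0]; exact div_le_div_of_nonneg_right (hβ k) hN0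
  have hMN : 0 ≤ M / N := div_nonneg hM hN0
  have c1 : M / N ≤ (M + M ^ 2) / N := div_le_div_of_nonneg_right (by nlinarith [sq_nonneg M]) hN0
  have c2 : M / N * (M / N) ≤ (M + M ^ 2) / N ^ 2 := by
    have : M / N * (M / N) = M ^ 2 / N ^ 2 := by rw [div_mul_div_comm]; ring_nf
    rw [this]
    exact div_le_div_of_nonneg_right (by linarith) (by positivity)
  have e : (fun v : ℤ × ℤ => Real.cos (α k * ((v.1 : ℝ) / n k) + β k * ((v.2 : ℝ) / n k) + γ k)) = fun v => Real.cos (φ v) := by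
    rw [hφ, hN]
  rw [e]
  refine fr_c2bd_of ?_ ?_ ?_ ?_ ?_ <;> rw [← hN]
  · rintro ⟨a, c⟩ - -
    simp only [p1]
    exact ((cos_diff2 (φ (a, c)) (α k / N) 0).1.trans bα).trans c1
  · rintro ⟨a, c⟩ - -
    simp only [p2]
    exact ((cos_diff2 (φ (a, c)) (β k / N) 0).1.trans bβ).trans c1
  · rintro ⟨a, c⟩ - - -
    simp only [p1]
    have h := (cos_diff2 (φ (a, c)) (α k / N) (α k / N)).2.1
    have e2 : Real.cos (φ (a, c) + α k / N + α k / N) - Real.cos (φ (a, c) + α k / N) - (Real.cos (φ (a, c) + α k / N) - Real.cos (φ (a, c)))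
        = Real.cos (φ (a, c) + α k / N + α k / N) - Real.cos (φ (a, c) + α k / N) - Real.cos (φ (a, c) + α k / N) + Real.cos (φ (a, c)) := by ring
    rw [e2]
    exact (h.trans (mul_le_mul bα bα (abs_nonneg _) hMN)).trans c2
  · rintro ⟨a, c⟩ - - -
    simp only [p2]
    have h := (cos_diff2 (φ (a, c)) (β k / N) (β k / N)).2.1
    have e2 : Real.cos (φ (a, c) + β k / N + β k / N) - Real.cos (φ (a, c) + β k / N) - (Real.cos (φ (a, c) + β k / N) - Real.cos (φ (a, c)))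
        = Real.cos (φ (a, c) + β k / N + β k / N) - Real.cos (φ (a, c) + β k / N) - Real.cos (φ (a, c) + β k / N) + Real.cos (φ (a, c)) := by ring
    rw [e2]
    exact (h.trans (mul_le_mul bβ bβ (abs_nonneg _) hMN)).trans c2
  · rintro ⟨a, c⟩ - - - -
    simp only [p1, p2]
    have h := (cos_diff2 (φ (a, c)) (α k / N) (β k / N)).2.1
    have e2 : φ (a, c) + β k / N + α k / N = φ (a, c) + α k / N + β k / N := by ring
    rw [e2]
    exact (h.trans (mul_le_mul bα bβ (abs_nonneg _) hMN)).trans c2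

/-- finite sums -/
theorem fr_reg_finsum {n : ℕ → ℕ} {R : ℕ → Rc} {ι : Type*} (s : Finset ι) (g : ι → ℕ → ℤ × ℤ → ℝ)
    (h : ∀ i ∈ s, Reg n R (g i)) : Reg n R fun k v => ∑ i ∈ s, g i k v := by
  induction s using Finset.induction_on with
  | empty =>
    simp only [Finset.sum_empty]
    refine fr_reg_c2 _ 0 fun k => ⟨fun e _ => ?_, fun e _ u _ _ => ?_⟩ <;> simp [gd]
  | insert a s ha ih =>
    simp only [Finset.sum_insert ha]
    exact fr_reg_add (h a (Finset.mem_insert_self a s)) (ih fun i hi => h i (Finset.mem_insert_of_mem hi))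

/-- L-FR-P14.  Finite sum of `fr_reg_cos` (`sin x = cos (x - π/2)`) with `fr_reg_add`, `fr_reg_smul` (induction on `d`, `Fin.sum_univ_succ`), or directly `fr_reg_c2`. -/
theorem fr_reg_trg {n : ℕ → ℕ} {R : ℕ → Rc} (d : ℕ) (α β : Fin d → ℝ) (M : ℝ) (c s : ℕ → Fin d → ℝ)
    (hc : ∀ k i, |c k i| ≤ M ∧ |s k i| ≤ M) : Reg n R fun k => trg d α β (c k) (s k) (n k) := by
  unfold trg
  refine fr_reg_finsum Finset.univ
    (fun i k v => c k i * Real.cos (α i * ((v.1 : ℝ) / n k) + β i * ((v.2 : ℝ) / n k))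
      + s k i * Real.sin (α i * ((v.1 : ℝ) / n k) + β i * ((v.2 : ℝ) / n k))) fun i _ => ?_
  have h1 := fr_reg_cos (n := n) (R := R) (fun _ => α i) (fun _ => β i) (fun _ => 0) (max |α i| |β i|)
    (fun _ => le_max_left _ _) (fun _ => le_max_right _ _)
  have h2 := fr_reg_cos (n := n) (R := R) (fun _ => α i) (fun _ => β i) (fun _ => -(Real.pi / 2)) (max |α i| |β i|)
    (fun _ => le_max_left _ _) (fun _ => le_max_right _ _)
  simp only [add_zero] at h1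
  simp only [← sub_eq_add_neg, Real.cos_sub_pi_div_two] at h2
  exact fr_reg_add (fr_reg_smul h1 (fun k => c k i) M fun k => (hc k i).1)
    (fr_reg_smul h2 (fun k => s k i) M fun k => (hc k i).2)

/-- first differences of powers -/
theorem fr_pow_d1 {L a₀ a₁ h : ℝ} (hL : 1 ≤ L) (h0 : |a₀| ≤ L) (h1 : |a₁| ≤ L) (hh : a₁ - a₀ = h) (i : ℕ) :
    |a₁ ^ i - a₀ ^ i| ≤ i * |h| * L ^ i := by
  induction i with
  | zero => simp
  | succ i ih =>
    have e : a₁ ^ (i + 1) - a₀ ^ (i + 1) = a₁ * (a₁ ^ i - a₀ ^ i) + h * a₀ ^ i := by rw [← hh]; ring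
    have b0 : |a₀ ^ i| ≤ L ^ i := by rw [abs_pow]; exact pow_le_pow_left₀ (abs_nonneg _) h0 i
    have hLi : 0 < L ^ i := by positivity
    have hh0 := abs_nonneg h
    rw [e]
    calc |a₁ * (a₁ ^ i - a₀ ^ i) + h * a₀ ^ i| ≤ |a₁| * |a₁ ^ i - a₀ ^ i| + |h| * |a₀ ^ i| := by
          rw [← abs_mul, ← abs_mul]; exact abs_add_le _ _
      _ ≤ L * (i * |h| * L ^ i) + |h| * L ^ i := by gcongr
      _ ≤ L * (i * |h| * L ^ i) + |h| * (L * L ^ i) := by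
          have : L ^ i ≤ L * L ^ i := by nlinarith
          gcongr
      _ = ((i + 1 : ℕ) : ℝ) * |h| * L ^ (i + 1) := by push_cast; ring

/-- second differences of powers -/
theorem fr_pow_d2 {L a₀ a₁ a₂ h : ℝ} (hL : 1 ≤ L) (h0 : |a₀| ≤ L) (h1 : |a₁| ≤ L) (h2 : |a₂| ≤ L) (hh : a₁ - a₀ = h)
    (hh' : a₂ - a₁ = h) (i : ℕ) : |(a₂ ^ i - a₁ ^ i) - (a₁ ^ i - a₀ ^ i)| ≤ (i : ℝ) ^ 2 * |h| ^ 2 * L ^ i := by
  induction i with
  | zero => simp
  | succ i ih =>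
    have e : (a₂ ^ (i + 1) - a₁ ^ (i + 1)) - (a₁ ^ (i + 1) - a₀ ^ (i + 1))
        = a₁ * ((a₂ ^ i - a₁ ^ i) - (a₁ ^ i - a₀ ^ i)) + h * ((a₂ ^ i - a₁ ^ i) + (a₁ ^ i - a₀ ^ i)) := by
      have e2 : a₂ = a₁ + h := by linarith
      have e0 : a₀ = a₁ - h := by linarith
      rw [e2, e0]; ring
    have d1 := fr_pow_d1 hL h0 h1 hh i
    have d2 := fr_pow_d1 hL h1 h2 hh' i
    have hLi : 0 < L ^ i := by positivity
    have hh0 := abs_nonneg h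
    rw [e]
    calc |a₁ * ((a₂ ^ i - a₁ ^ i) - (a₁ ^ i - a₀ ^ i)) + h * ((a₂ ^ i - a₁ ^ i) + (a₁ ^ i - a₀ ^ i))|
        ≤ |a₁| * |(a₂ ^ i - a₁ ^ i) - (a₁ ^ i - a₀ ^ i)| + |h| * (|a₂ ^ i - a₁ ^ i| + |a₁ ^ i - a₀ ^ i|) := by
          refine (abs_add_le _ _).trans ?_
          rw [abs_mul, abs_mul]
          gcongr
          exact abs_add_le _ _
      _ ≤ L * ((i : ℝ) ^ 2 * |h| ^ 2 * L ^ i) + |h| * (i * |h| * L ^ i + i * |h| * L ^ i) := by gcongr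
      _ = ((i : ℝ) ^ 2 * L + 2 * i) * (|h| ^ 2 * L ^ i) := by ring
      _ ≤ (((i : ℝ) ^ 2 + 2 * i + 1) * L) * (|h| ^ 2 * L ^ i) := by
          have hi : (0 : ℝ) ≤ i := Nat.cast_nonneg i
          have : (i : ℝ) ^ 2 * L + 2 * i ≤ ((i : ℝ) ^ 2 + 2 * i + 1) * L := by nlinarith
          gcongr
      _ = (((i + 1 : ℕ) : ℝ)) ^ 2 * |h| ^ 2 * L ^ (i + 1) := by push_cast; ring

/-- sampled monomials -/
theorem fr_reg_mono {n : ℕ → ℕ} {R : ℕ → Rc} (hR : Adm n R) (i j : ℕ) :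
    Reg n R fun k v => ((v.1 : ℝ) / n k) ^ i * ((v.2 : ℝ) / n k) ^ j := by
  obtain ⟨K, hK⟩ := hR
  obtain ⟨L, hLdef⟩ : ∃ L : ℝ, L = 2 * |K| + 1 := ⟨_, rfl⟩
  have hL : 1 ≤ L := by rw [hLdef]; linarith [abs_nonneg K]
  obtain ⟨W, hW⟩ : ∃ W : ℝ, W = L ^ i * L ^ j := ⟨_, rfl⟩
  have hW0 : 0 ≤ W := by rw [hW]; positivity
  have hi : (0 : ℝ) ≤ i := Nat.cast_nonneg i
  have hj : (0 : ℝ) ≤ j := Nat.cast_nonneg j
  refine fr_reg_c2 _ (((i : ℝ) + j + 1) ^ 2 * W) fun k => ?_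
  obtain ⟨N, hN⟩ : ∃ N : ℝ, N = (n k : ℝ) := ⟨_, rfl⟩
  have hN0 : 0 ≤ N := by rw [hN]; positivity
  obtain ⟨hk1, hk2, hk3, hk4⟩ := hK k
  rw [← hN] at hk1 hk2 hk3 hk4
  have hKN : K * N ≤ |K| * N := mul_le_mul_of_nonneg_right (le_abs_self K) hN0
  have bx : ∀ v ∈ (R k).set, |(v.1 : ℝ) / N| ≤ L := by
    intro v hv
    obtain ⟨⟨h1, h2⟩, -⟩ := fr_mem_set.1 hv
    have h1' : (((R k).o.1 : ℤ) : ℝ) ≤ v.1 := by exact_mod_cast h1
    have h2' : (v.1 : ℝ) < ((R k).o.1 : ℝ) + (R k).p := by exact_mod_cast h2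
    have h3 : |(v.1 : ℝ)| ≤ 2 * |K| * N := by
      have := abs_le.1 hk1
      rw [abs_le]; constructor <;> linarith
    rw [abs_div, abs_of_nonneg hN0, hLdef]
    exact (div_le_of_le_mul₀ hN0 (by positivity) h3).trans (by linarith)
  have by' : ∀ v ∈ (R k).set, |(v.2 : ℝ) / N| ≤ L := by
    intro v hv
    obtain ⟨-, h1, h2⟩ := fr_mem_set.1 hv
    have h1' : (((R k).o.2 : ℤ) : ℝ) ≤ v.2 := by exact_mod_cast h1
    have h2' : (v.2 : ℝ) < ((R k).o.2 : ℝ) + (R k).q := by exact_mod_cast h2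
    have h3 : |(v.2 : ℝ)| ≤ 2 * |K| * N := by
      have := abs_le.1 hk2
      rw [abs_le]; constructor <;> linarith
    rw [abs_div, abs_of_nonneg hN0, hLdef]
    exact (div_le_of_le_mul₀ hN0 (by positivity) h3).trans (by linarith)
  have st : ∀ a : ℤ, ((a + 1 : ℤ) : ℝ) / N - (a : ℝ) / N = 1 / N := by
    intro a; push_cast; ring
  have hab : |1 / N| = 1 / N := abs_of_nonneg (by positivity)
  have pw : ∀ (y : ℝ) (m : ℕ), |y| ≤ L → |y ^ m| ≤ L ^ m := fun y m hy => by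
    rw [abs_pow]; exact pow_le_pow_left₀ (abs_nonneg _) hy m
  have hLi : 0 ≤ L ^ i := by positivity
  have hLj : 0 ≤ L ^ j := by positivity
  have hN1 : 0 ≤ 1 / N := by positivity
  -- the five numerical comparisons
  have q1 : ∀ t : ℝ, t ≤ ((i : ℝ) + j + 1) ^ 2 → t * (1 / N) * W ≤ ((i : ℝ) + j + 1) ^ 2 * W / N := by
    intro t ht
    have : t * (1 / N) * W = t * W / N := by ring
    rw [this]
    exact div_le_div_of_nonneg_right (mul_le_mul_of_nonneg_right ht hW0) hN0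
  have q2 : ∀ t : ℝ, t ≤ ((i : ℝ) + j + 1) ^ 2 → t * (1 / N) ^ 2 * W ≤ ((i : ℝ) + j + 1) ^ 2 * W / N ^ 2 := by
    intro t ht
    have : t * (1 / N) ^ 2 * W = t * W / N ^ 2 := by rw [div_pow]; ring
    rw [this]
    exact div_le_div_of_nonneg_right (mul_le_mul_of_nonneg_right ht hW0) (by positivity)
  refine fr_c2bd_of ?_ ?_ ?_ ?_ ?_ <;> rw [← hN]
  · rintro ⟨a, c⟩ h0 h1
    have d := fr_pow_d1 hL (bx _ h0) (bx _ h1) (st a) i
    have e : (((a + 1 : ℤ) : ℝ) / N) ^ i * ((c : ℝ) / N) ^ j - ((a : ℝ) / N) ^ i * ((c : ℝ) / N) ^ j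
        = ((((a + 1 : ℤ) : ℝ) / N) ^ i - ((a : ℝ) / N) ^ i) * ((c : ℝ) / N) ^ j := by ring
    show |(((a + 1 : ℤ) : ℝ) / N) ^ i * ((c : ℝ) / N) ^ j - ((a : ℝ) / N) ^ i * ((c : ℝ) / N) ^ j| ≤ _
    rw [e, abs_mul]
    rw [hab] at d
    calc _ ≤ (i * (1 / N) * L ^ i) * L ^ j := mul_le_mul d (pw _ j (by' _ h0)) (abs_nonneg _) (by positivity)
      _ = i * (1 / N) * W := by rw [hW]; ring
      _ ≤ _ := q1 _ (by nlinarith)
  · rintro ⟨a, c⟩ h0 h1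
    have d := fr_pow_d1 hL (by' _ h0) (by' _ h1) (st c) j
    have e : ((a : ℝ) / N) ^ i * (((c + 1 : ℤ) : ℝ) / N) ^ j - ((a : ℝ) / N) ^ i * ((c : ℝ) / N) ^ j
        = ((a : ℝ) / N) ^ i * ((((c + 1 : ℤ) : ℝ) / N) ^ j - ((c : ℝ) / N) ^ j) := by ring
    show |((a : ℝ) / N) ^ i * (((c + 1 : ℤ) : ℝ) / N) ^ j - ((a : ℝ) / N) ^ i * ((c : ℝ) / N) ^ j| ≤ _
    rw [e, abs_mul]
    rw [hab] at d
    calc _ ≤ L ^ i * (j * (1 / N) * L ^ j) := mul_le_mul (pw _ i (bx _ h0)) d (abs_nonneg _) (by positivity)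
      _ = j * (1 / N) * W := by rw [hW]; ring
      _ ≤ _ := q1 _ (by nlinarith)
  · rintro ⟨a, c⟩ h0 h1 h2
    have d := fr_pow_d2 hL (bx _ h0) (bx _ h1) (bx _ h2) (st a) (st (a + 1)) i
    have e : ((((a + 1 + 1 : ℤ) : ℝ) / N) ^ i * ((c : ℝ) / N) ^ j - (((a + 1 : ℤ) : ℝ) / N) ^ i * ((c : ℝ) / N) ^ j)
          - ((((a + 1 : ℤ) : ℝ) / N) ^ i * ((c : ℝ) / N) ^ j - ((a : ℝ) / N) ^ i * ((c : ℝ) / N) ^ j)
        = (((((a + 1 + 1 : ℤ) : ℝ) / N) ^ i - (((a + 1 : ℤ) : ℝ) / N) ^ i) - ((((a + 1 : ℤ) : ℝ) / N) ^ i - ((a : ℝ) / N) ^ i))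
          * ((c : ℝ) / N) ^ j := by ring
    show |((((a + 1 + 1 : ℤ) : ℝ) / N) ^ i * ((c : ℝ) / N) ^ j - (((a + 1 : ℤ) : ℝ) / N) ^ i * ((c : ℝ) / N) ^ j)
          - ((((a + 1 : ℤ) : ℝ) / N) ^ i * ((c : ℝ) / N) ^ j - ((a : ℝ) / N) ^ i * ((c : ℝ) / N) ^ j)| ≤ _
    rw [e, abs_mul]
    rw [hab] at d
    calc _ ≤ ((i : ℝ) ^ 2 * (1 / N) ^ 2 * L ^ i) * L ^ j := mul_le_mul d (pw _ j (by' _ h0)) (abs_nonneg _) (by positivity)
      _ = (i : ℝ) ^ 2 * (1 / N) ^ 2 * W := by rw [hW]; ring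
      _ ≤ _ := q2 _ (by nlinarith)
  · rintro ⟨a, c⟩ h0 h1 h2
    have d := fr_pow_d2 hL (by' _ h0) (by' _ h1) (by' _ h2) (st c) (st (c + 1)) j
    have e : (((a : ℝ) / N) ^ i * (((c + 1 + 1 : ℤ) : ℝ) / N) ^ j - ((a : ℝ) / N) ^ i * (((c + 1 : ℤ) : ℝ) / N) ^ j)
          - (((a : ℝ) / N) ^ i * (((c + 1 : ℤ) : ℝ) / N) ^ j - ((a : ℝ) / N) ^ i * ((c : ℝ) / N) ^ j)
        = ((a : ℝ) / N) ^ i * (((((c + 1 + 1 : ℤ) : ℝ) / N) ^ j - (((c + 1 : ℤ) : ℝ) / N) ^ j)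
          - ((((c + 1 : ℤ) : ℝ) / N) ^ j - ((c : ℝ) / N) ^ j)) := by ring
    show |(((a : ℝ) / N) ^ i * (((c + 1 + 1 : ℤ) : ℝ) / N) ^ j - ((a : ℝ) / N) ^ i * (((c + 1 : ℤ) : ℝ) / N) ^ j)
          - (((a : ℝ) / N) ^ i * (((c + 1 : ℤ) : ℝ) / N) ^ j - ((a : ℝ) / N) ^ i * ((c : ℝ) / N) ^ j)| ≤ _
    rw [e, abs_mul]
    rw [hab] at d
    calc _ ≤ L ^ i * ((j : ℝ) ^ 2 * (1 / N) ^ 2 * L ^ j) := mul_le_mul (pw _ i (bx _ h0)) d (abs_nonneg _) (by positivity)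
      _ = (j : ℝ) ^ 2 * (1 / N) ^ 2 * W := by rw [hW]; ring
      _ ≤ _ := q2 _ (by nlinarith)
  · rintro ⟨a, c⟩ h0 h1 h2 h3
    have d1 := fr_pow_d1 hL (bx _ h0) (bx _ h1) (st a) i
    have d2 := fr_pow_d1 hL (by' _ h0) (by' _ h2) (st c) j
    have e : (((a + 1 : ℤ) : ℝ) / N) ^ i * (((c + 1 : ℤ) : ℝ) / N) ^ j - (((a + 1 : ℤ) : ℝ) / N) ^ i * ((c : ℝ) / N) ^ j
          - ((a : ℝ) / N) ^ i * (((c + 1 : ℤ) : ℝ) / N) ^ j + ((a : ℝ) / N) ^ i * ((c : ℝ) / N) ^ j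
        = ((((a + 1 : ℤ) : ℝ) / N) ^ i - ((a : ℝ) / N) ^ i) * ((((c + 1 : ℤ) : ℝ) / N) ^ j - ((c : ℝ) / N) ^ j) := by ring
    show |(((a + 1 : ℤ) : ℝ) / N) ^ i * (((c + 1 : ℤ) : ℝ) / N) ^ j - (((a + 1 : ℤ) : ℝ) / N) ^ i * ((c : ℝ) / N) ^ j
          - ((a : ℝ) / N) ^ i * (((c + 1 : ℤ) : ℝ) / N) ^ j + ((a : ℝ) / N) ^ i * ((c : ℝ) / N) ^ j| ≤ _
    rw [e, abs_mul]
    rw [hab] at d1 d2
    calc _ ≤ (i * (1 / N) * L ^ i) * (j * (1 / N) * L ^ j) := mul_le_mul d1 d2 (abs_nonneg _) (by positivity)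
      _ = ((i : ℝ) * j) * (1 / N) ^ 2 * W := by rw [hW]; ring
      _ ≤ _ := q2 _ (by nlinarith)

/-- L-FR-P15.  Monomials `(x/n)^i (y/n)^j` on `|x|, |y| ≤ 2 K n`: first differences `≤ (i + j) (2K+1)^{i+j} / n`, second differences `≤ (i+j)² (2K+1)^{i+j} / n²`
(`|(s + h)^i - s^i| ≤ i |h| (|s| + |h|)^{i-1}`, and the analogous bound for the second difference, by induction on `i`); then `fr_reg_c2`, `fr_reg_add`, `fr_reg_smul`. -/
theorem fr_reg_pol {n : ℕ → ℕ} {R : ℕ → Rc} (hR : Adm n R) (d : ℕ) (M : ℝ)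
    (c : ℕ → Fin d → Fin d → ℝ) (hc : ∀ k i j, |c k i j| ≤ M) : Reg n R fun k => pol d (c k) (n k) := by
  unfold pol
  refine fr_reg_finsum Finset.univ
    (fun i k v => ∑ j, c k i j * ((v.1 : ℝ) / n k) ^ (i : ℕ) * ((v.2 : ℝ) / n k) ^ (j : ℕ)) fun i _ => ?_
  refine fr_reg_finsum Finset.univ
    (fun j k v => c k i j * ((v.1 : ℝ) / n k) ^ (i : ℕ) * ((v.2 : ℝ) / n k) ^ (j : ℕ)) fun j _ => ?_
  have h := fr_reg_smul (fr_reg_mono hR (i : ℕ) (j : ℕ)) (fun k => c k i j) M fun k => hc k i j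
  simp only [← mul_assoc] at h
  exact h

/-! ## 5. [C](2.4), variance form -/

/-- L-FR-P16.  **[C](2.4) variance form.**  `satOn_closure` (`β` from `hS`, `B` from `fr_reg_bdd`): given `ε`, `Reg` gives `γ` (`C2bd`) within `ε/4`, `p1_approx` gives `π` (`TS`) within `ε/4` of `γ`; `cost_add_le`; `TS` gives `SatOn b a R (gd π)`. -/
theorem fr_free_var {b : ℕ → ℝ} {n : ℕ → ℕ} {a : ℝ} (hS : ScaleCoef b n a) {R : ℕ → Rc} (hR : Adm n R)
    {g : ℕ → ℤ × ℤ → ℝ} (hg : Reg n R g) :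
    Tendsto (fun k => (R k).var (b k) (gd (g k)) - a * (R k).dir (g k)) atTop (𝓝 0) := by
  obtain ⟨β₀, β₁, hβ0, hb⟩ := hS.1
  obtain ⟨B, hB⟩ := fr_reg_bdd hS.2.1 hR hg
  have key : SatOn b a R (fun k => gd (g k)) := by
    refine satOn_closure β₁ B (fun k => ⟨lt_of_lt_of_le hβ0 (hb k).1, (hb k).2⟩) hB ?_
    intro ε hε
    obtain ⟨M, γ, hγ, h1⟩ := hg (ε / 4) (by positivity)
    obtain ⟨π, hπ, h2⟩ := p1_approx hS hR M γ hγ (ε / 4) (by positivity)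
    refine ⟨fun k => gd (π k), hπ.2 R hR, ?_⟩
    filter_upwards [h1, h2] with k a1 a2
    have h3 := frp_dir_add_le (R k) (fun v => g k v - γ k v) (fun v => γ k v - π k v)
    have h4 : (fun v => g k v - γ k v + (γ k v - π k v)) = fun v => g k v - π k v := funext fun v => by ring
    rw [h4] at h3
    have h5 : (R k).cost (fun e => gd (g k) e - gd (π k) e) = (R k).dir fun v => g k v - π k v := by
      unfold Rc.dir
      congr 1
      exact funext fun e => (frp_gd_sub _ _ e).symm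
    rw [h5]
    linarith
  exact key

theorem frp_cost_add (R : Rc) (w w' : Bond → ℝ) : R.cost (fun e => w e + w' e) = R.cost w + 2 * R.cost2 w w' + R.cost w' := by
  unfold Rc.cost Rc.cost2
  rw [Finset.mul_sum, ← Finset.sum_add_distrib, ← Finset.sum_add_distrib]
  exact Finset.sum_congr rfl fun e _ => by ring

/-- L-FR-P16.  Polarisation: `4 Cv X Y = V (X + Y) - V (X - Y)` (`var_add`, `flowX_add`), `4 cost2 w w' = cost (w + w') - cost (w - w')`; `fr_free_var` for `g ± g'` (`fr_reg_add`, `fr_reg_smul`). -/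
theorem fr_free_cov {b : ℕ → ℝ} {n : ℕ → ℕ} {a : ℝ} (hS : ScaleCoef b n a) {R : ℕ → Rc} (hR : Adm n R)
    {g g' : ℕ → ℤ × ℤ → ℝ} (hg : Reg n R g) (hg' : Reg n R g') :
    Tendsto (fun k => ((R k).sys (b k)).Cv 0 0 ((R k).gradX (b k) (g k)) ((R k).gradX (b k) (g' k))
      - a * (R k).cost2 (gd (g k)) (gd (g' k))) atTop (𝓝 0) := by
  obtain ⟨β₀, β₁, hβ0, hb⟩ := hS.1
  have h1 := fr_free_var hS hR hg
  have h2 := fr_free_var hS hR hg'
  have h3 := fr_free_var hS hR (fr_reg_add hg hg')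
  have h4 := ((h3.sub h1).sub h2).const_mul (1 / 2 : ℝ)
  simp only [sub_zero, mul_zero] at h4
  refine h4.congr fun k => ?_
  have hbk : 0 < b k := lt_of_lt_of_le hβ0 (hb k).1
  have e1 : gd (fun v => g k v + g' k v) = fun e => gd (g k) e + gd (g' k) e := funext fun e => frp_gd_add _ _ e
  have e2 : (R k).var (b k) (gd fun v => g k v + g' k v)
      = (R k).var (b k) (gd (g k)) + 2 * ((R k).sys (b k)).Cv 0 0 ((R k).gradX (b k) (g k)) ((R k).gradX (b k) (g' k))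
        + (R k).var (b k) (gd (g' k)) := by
    unfold Rc.var Rc.gradX
    rw [e1, flowX_add, var_add _ (fr_ok _ _ hbk)]
  have e3 : (R k).dir (fun v => g k v + g' k v) = (R k).dir (g k) + 2 * (R k).cost2 (gd (g k)) (gd (g' k)) + (R k).dir (g' k) := by
    unfold Rc.dir
    rw [e1, frp_cost_add]
  rw [e2, e3]
  ring

theorem frp_var_congr (R : Rc) (b : ℝ) {w w' : Bond → ℝ} (h : ∀ e ∈ R.bd, w e = w' e) : R.var b w = R.var b w' := by
  unfold Rc.var; rw [flowX_congr R b h]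

theorem frp_adm_sub {n : ℕ → ℕ} {R R' : ℕ → Rc} (hR : Adm n R) (hsub : ∀ k, (R' k).set ⊆ (R k).set)
    (hne : ∀ k, (R' k).set.Nonempty ∨ ((R' k).o = (R k).o ∧ (R' k).p = 0 ∧ (R' k).q = 0)) : Adm n R' := by
  obtain ⟨K, hK⟩ := hR
  refine ⟨2 * K, fun k => ?_⟩
  obtain ⟨h1, h2, h3, h4⟩ := hK k
  have hKn : 0 ≤ K * n k := (Nat.cast_nonneg _).trans h3
  rcases hne k with ⟨v, hv⟩ | ⟨ho, hp, hq⟩
  · obtain ⟨⟨a1, a2⟩, a3, a4⟩ := fr_mem_set.1 hv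
    have hp' : 0 < ((R' k).p : ℤ) := by omega
    have hq' : 0 < ((R' k).q : ℤ) := by omega
    have c1 : (R' k).o ∈ (R' k).set := fr_mem_set.2 ⟨⟨le_refl _, by omega⟩, le_refl _, by omega⟩
    have c2 : ((R' k).o.1 + (R' k).p - 1, (R' k).o.2 + (R' k).q - 1) ∈ (R' k).set :=
      fr_mem_set.2 ⟨⟨by simp only []; omega, by simp only []; omega⟩, by simp only []; omega, by simp only []; omega⟩
    obtain ⟨⟨d1, d2⟩, d3, d4⟩ := fr_mem_set.1 (hsub k c1)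
    obtain ⟨⟨f1, f2⟩, f3, f4⟩ := fr_mem_set.1 (hsub k c2)
    simp only [] at f1 f2 f3 f4
    have g1 : ((R' k).p : ℤ) ≤ (R k).p := by omega
    have g2 : ((R' k).q : ℤ) ≤ (R k).q := by omega
    have g1' : ((R' k).p : ℝ) ≤ (R k).p := by exact_mod_cast g1
    have g2' : ((R' k).q : ℝ) ≤ (R k).q := by exact_mod_cast g2
    have d1' : ((R k).o.1 : ℝ) ≤ (R' k).o.1 := by exact_mod_cast d1
    have d2' : ((R' k).o.1 : ℝ) ≤ (R k).o.1 + (R k).p := by exact_mod_cast d2.le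
    have d3' : ((R k).o.2 : ℝ) ≤ (R' k).o.2 := by exact_mod_cast d3
    have d4' : ((R' k).o.2 : ℝ) ≤ (R k).o.2 + (R k).q := by exact_mod_cast d4.le
    rw [abs_le] at h1 h2
    refine ⟨abs_le.2 ⟨by linarith [h1.1], by linarith [h1.2]⟩, abs_le.2 ⟨by linarith [h2.1], by linarith [h2.2]⟩, by linarith, by linarith⟩
  · rw [ho, hp, hq]
    refine ⟨by linarith, by linarith, by simp; linarith, by simp; linarith⟩

/-- L-FR-P16.  `fr_cut_var` with the single piece `R' k`; `fr_free_var` on `R'' k := if (R' k).set = ∅ then ⟨(R k).o, 0, 0⟩ else R' k` (admissible; same bonds), `fr_reg_restrict`. -/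
theorem fr_free_partial_upper {b : ℕ → ℝ} {n : ℕ → ℕ} {a : ℝ} (hS : ScaleCoef b n a) {R R' : ℕ → Rc} (hR : Adm n R)
    (hsub : ∀ k, (R' k).set ⊆ (R k).set) {g : ℕ → ℤ × ℤ → ℝ} (hg : Reg n R g) (ε : ℝ) (hε : 0 < ε) :
    ∀ᶠ k in atTop, (R k).var (b k) (fun e => if e ∈ (R' k).bd then gd (g k) e else 0) ≤ a * (R' k).dir (g k) + ε := by
  obtain ⟨β₀, β₁, hβ0, hb⟩ := hS.1
  set R'' : ℕ → Rc := fun k => if (R' k).set.Nonempty then R' k else ⟨(R k).o, 0, 0⟩ with hR''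
  have hsub'' : ∀ k, (R'' k).set ⊆ (R k).set := by
    intro k
    by_cases h : (R' k).set.Nonempty
    · simp only [hR'', if_pos h]; exact hsub k
    · simp only [hR'', if_neg h]
      intro v hv
      obtain ⟨⟨a1, a2⟩, -⟩ := fr_mem_set.1 hv
      simp only [] at a1 a2
      push_cast at a2
      omega
  have hadm : Adm n R'' := by
    refine frp_adm_sub hR hsub'' fun k => ?_
    by_cases h : (R' k).set.Nonempty
    · left; simp only [hR'', if_pos h]; exact h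
    · right; simp only [hR'', if_neg h]; exact ⟨trivial, trivial, trivial⟩
  have h1 := fr_free_var hS hadm (fr_reg_restrict hsub'' hg)
  have h2 : ∀ᶠ k in atTop, (R'' k).var (b k) (gd (g k)) - a * (R'' k).dir (g k) < ε :=
    h1.eventually (gt_mem_nhds hε)
  filter_upwards [h2] with k hk
  have hbk : 0 < b k := lt_of_lt_of_le hβ0 (hb k).1
  have h3 : (R k).var (b k) (fun e => if e ∈ (R' k).bd then gd (g k) e else 0)
      ≤ ∑ _i : Unit, (R' k).var (b k) (fun e => if e ∈ (R' k).bd then gd (g k) e else 0) :=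
    fr_cut_var (R k) (b k) hbk (fun _ : Unit => R' k) (fun _ => hsub k) (fun i j hij => absurd (Subsingleton.elim i j) hij) _
      (fun e _ he => if_neg (he ()))
  have h4 : (R' k).var (b k) (fun e => if e ∈ (R' k).bd then gd (g k) e else 0) = (R' k).var (b k) (gd (g k)) :=
    frp_var_congr _ _ fun e he => if_pos he
  simp only [Finset.univ_unique, Finset.sum_const, Finset.card_singleton, one_smul] at h3
  rw [h4] at h3
  by_cases h : (R' k).set.Nonempty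
  · simp only [hR'', if_pos h] at hk
    linarith
  · have hbd : (R' k).bd = ∅ := by
      rw [Finset.eq_empty_iff_forall_notMem]
      intro e he
      exact h ⟨e.1, (mem_bd.1 he).1⟩
    have h5 := fr_var_ref (R' k) (b k) hbk (gd (g k))
    have h6 : (R' k).cost (gd (g k)) = 0 := by unfold Rc.cost; rw [hbd]; simp
    have h7 : (R' k).dir (g k) = 0 := h6
    rw [h6] at h5
    rw [h7]
    linarith

end

end Claimed.Agent.R285.Free
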