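import Claimed.Agent.R285.Free.Grid

/-!
# ROW 285, unit FREE, file 4: tame flows, upper bounds, the calculus of saturation (architects helper60, helper200: Free/PlanT24.lean).   Paper-free.

Setting: `hS : ScaleCoef b n a`.  Flows are sequences `w : ℕ → Bond → ℝ` defined on ALL bonds of `ℤ²`; rectangles are sequences `R : ℕ → Rc` with `Adm n R` (NO lower bound on the sides).
`V = (R k).var (b k) (w k)`, `C = (R k).cost (w k)`.   `UBd`: `V ≤ a C + o(1)` on every `R`.   `SatOn R w`: `V - a C → 0`.   `Sat w`: on every admissible `R`.   `TS w` := tame and saturated.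

## Chain
 `tame_*` (closure, criterion) → `ub_of_tame` (T2) → `sat_smul`, `sat_add` (parallelogram), `satOn_closure`, `satOn_restrict` (frame of 4 rectangles), `sat_fold_axis`, `sat_fold_diag`
 → `ts_affine` (A) → `ts_hV`, `ts_hH` (hinges) → `ts_fD` (diagonal folds of hinges) → `ts_sum` (finite combinations with bounded moving coefficients).   `Free/P1.lean` shows that these combinations are energy dense in the discrete `C²` class.

LEAVES `L-FR-T*`: ALL PROVED (helper123); helper lemmas have the prefix `sat_`.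
-/

set_option autoImplicit false

namespace Claimed.Agent.R285.Free

open Filter Topology C2
open scoped Classical

noncomputable section

/-! ## 1. Windows and tame flows -/

/-- the window `[-⌈K n⌉, ⌈K n⌉]²` -/
def win (K : ℝ) (n : ℕ) : Rc := ⟨(-(⌈K * n⌉₊ : ℤ), -(⌈K * n⌉₊ : ℤ)), 2 * ⌈K * n⌉₊ + 1, 2 * ⌈K * n⌉₊ + 1⟩

theorem sat_mem_set {R : Rc} {v : ℤ × ℤ} :
    v ∈ R.set ↔ (R.o.1 ≤ v.1 ∧ v.1 < R.o.1 + R.p) ∧ (R.o.2 ≤ v.2 ∧ v.2 < R.o.2 + R.q) := by
  unfold Rc.set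
  rw [Finset.mem_product, Finset.mem_Ico, Finset.mem_Ico]

theorem sat_mem_win {K : ℝ} {n : ℕ} {v : ℤ × ℤ} :
    v ∈ (win K n).set ↔ (-(⌈K * n⌉₊ : ℤ) ≤ v.1 ∧ v.1 ≤ ⌈K * n⌉₊) ∧ (-(⌈K * n⌉₊ : ℤ) ≤ v.2 ∧ v.2 ≤ ⌈K * n⌉₊) := by
  rw [sat_mem_set]
  simp only [win]
  push_cast
  constructor
  · rintro ⟨⟨h1, h2⟩, h3, h4⟩
    exact ⟨⟨h1, by linarith [Int.lt_iff_add_one_le.1 h2]⟩, h3, by linarith [Int.lt_iff_add_one_le.1 h4]⟩
  · rintro ⟨⟨h1, h2⟩, h3, h4⟩
    exact ⟨⟨h1, by linarith⟩, h3, by linarith⟩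

theorem sat_bd_mono {R R' : Rc} (h : R.set ⊆ R'.set) : R.bd ⊆ R'.bd := by
  intro e he
  rw [mem_bd] at he ⊢
  exact ⟨h he.1, h he.2⟩

/-- L-FR-T1. -/
theorem adm_win {n : ℕ → ℕ} {R : ℕ → Rc} (h : Adm n R) : ∃ K : ℝ, 0 ≤ K ∧ ∀ k, (R k).set ⊆ (win K (n k)).set := by
  obtain ⟨K, hK⟩ := h
  refine ⟨2 * |K|, by positivity, fun k v hv => ?_⟩
  obtain ⟨h1, h2, h3, h4⟩ := hK k
  rw [sat_mem_set] at hv
  obtain ⟨⟨a1, a2⟩, a3, a4⟩ := hv
  rw [sat_mem_win]
  have hn : (0:ℝ) ≤ n k := Nat.cast_nonneg _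
  have hKK : K * n k ≤ |K| * n k := mul_le_mul_of_nonneg_right (le_abs_self K) hn
  have hN : 2 * |K| * n k ≤ (⌈2 * |K| * n k⌉₊ : ℝ) := Nat.le_ceil _
  obtain ⟨N, hNdef⟩ : ∃ N : ℕ, N = ⌈2 * |K| * n k⌉₊ := ⟨_, rfl⟩
  rw [← hNdef] at hN ⊢
  have b1 := abs_le.1 h1
  have b2 := abs_le.1 h2
  have c1 : ((R k).o.1 : ℝ) ≤ v.1 := by exact_mod_cast a1
  have c2 : (v.1 : ℝ) < (R k).o.1 + (R k).p := by exact_mod_cast a2
  have c3 : ((R k).o.2 : ℝ) ≤ v.2 := by exact_mod_cast a3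
  have c4 : (v.2 : ℝ) < (R k).o.2 + (R k).q := by exact_mod_cast a4
  have hK0 : 0 ≤ |K| * n k := by positivity
  refine ⟨⟨?_, ?_⟩, ?_, ?_⟩
  · have : (-(N:ℝ)) ≤ v.1 := by linarith
    exact_mod_cast this
  · have : (v.1 : ℝ) ≤ N := by linarith
    exact_mod_cast this
  · have : (-(N:ℝ)) ≤ v.2 := by linarith
    exact_mod_cast this
  · have : (v.2 : ℝ) ≤ N := by linarith
    exact_mod_cast this

/-- L-FR-T1. -/
theorem adm_of_win {n : ℕ → ℕ} {R : ℕ → Rc} (hn : ∀ k, 1 ≤ n k) (K : ℝ) (h : ∀ k, (R k).set ⊆ (win K (n k)).set)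
    (hne : ∀ k, (R k).set.Nonempty) : Adm n R := by
  refine ⟨2 * |K| + 3, fun k => ?_⟩
  obtain ⟨v, hv⟩ := hne k
  have hv' := sat_mem_set.1 hv
  obtain ⟨⟨a1, a2⟩, a3, a4⟩ := hv'
  have ho : (R k).o ∈ (R k).set := sat_mem_set.2 ⟨⟨le_rfl, by linarith⟩, le_rfl, by linarith⟩
  have hc : ((R k).o.1 + (R k).p - 1, (R k).o.2 + (R k).q - 1) ∈ (R k).set :=
    sat_mem_set.2 ⟨⟨by simp only; linarith, by simp only; linarith⟩, by simp only; linarith, by simp only; linarith⟩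
  have ho' := sat_mem_win.1 (h k ho)
  have hc' := sat_mem_win.1 (h k hc)
  simp only at hc'
  have hn1 : (1:ℝ) ≤ n k := by exact_mod_cast hn k
  have hN : (⌈K * n k⌉₊ : ℝ) ≤ |K| * n k + 1 := by
    have h0 : (0:ℝ) ≤ |K| * n k := by positivity
    have h1 : ⌈K * n k⌉₊ ≤ ⌈|K| * n k⌉₊ := Nat.ceil_mono (mul_le_mul_of_nonneg_right (le_abs_self K) (by linarith))
    have h2 := (Nat.ceil_lt_add_one h0).le
    have h3 : (⌈K * n k⌉₊ : ℝ) ≤ ⌈|K| * n k⌉₊ := by exact_mod_cast h1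
    linarith
  obtain ⟨N, hNdef⟩ : ∃ N : ℕ, N = ⌈K * n k⌉₊ := ⟨_, rfl⟩
  rw [← hNdef] at hN ho' hc'
  obtain ⟨⟨b1, b2⟩, b3, b4⟩ := ho'
  obtain ⟨⟨c1, c2⟩, c3, c4⟩ := hc'
  have B1 : (-(N:ℝ)) ≤ (R k).o.1 := by exact_mod_cast b1
  have B2 : ((R k).o.1 : ℝ) ≤ N := by exact_mod_cast b2
  have B3 : (-(N:ℝ)) ≤ (R k).o.2 := by exact_mod_cast b3
  have B4 : ((R k).o.2 : ℝ) ≤ N := by exact_mod_cast b4
  have C2 : ((R k).o.1 : ℝ) + (R k).p - 1 ≤ N := by exact_mod_cast c2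
  have C4 : ((R k).o.2 : ℝ) + (R k).q - 1 ≤ N := by exact_mod_cast c4
  have hK0 : 0 ≤ |K| * n k := by positivity
  have e : (2 * |K| + 3) * n k = 2 * (|K| * n k) + 3 * n k := by ring
  rw [e]
  refine ⟨abs_le.2 ⟨by linarith, by linarith⟩, abs_le.2 ⟨by linarith, by linarith⟩, by linarith, by linarith⟩

/-- tame flows: sup bound `M/n` on every window, and cellwise constant up to `ε` in energy on EVERY grid of mesh `≤ δ n` -/
def Tame (n : ℕ → ℕ) (w : ℕ → Bond → ℝ) : Prop :=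
  ∀ K : ℝ, (∃ M : ℝ, ∀ k, ∀ e ∈ (win K (n k)).bd, |w k e| ≤ M / n k) ∧
    ∀ ε : ℝ, 0 < ε → ∃ δ : ℝ, 0 < δ ∧ ∀ᶠ k in atTop, ∀ (m : ℕ) (o : ℤ × ℤ), 2 ≤ m → (m : ℝ) ≤ δ * n k →
      ∃ c : ℤ × ℤ → Bool → ℝ,
        ∑ e ∈ (win K (n k)).bd.filter (fun e => cidx o m e.1 = cidx o m e.snd), (w k e - c (cidx o m e.1) e.2) ^ 2 ≤ ε

/-- L-FR-T2.  `ε/4` for each, `δ = min`, `c + c'`, `(x+y)² ≤ 2x² + 2y²`. -/
theorem tame_add {n : ℕ → ℕ} {w w' : ℕ → Bond → ℝ} (h : Tame n w) (h' : Tame n w') : Tame n fun k e => w k e + w' k e := by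
  intro K
  obtain ⟨⟨M, hM⟩, h2⟩ := h K
  obtain ⟨⟨M', hM'⟩, h2'⟩ := h' K
  refine ⟨⟨M + M', fun k e he => ?_⟩, fun ε hε => ?_⟩
  · rw [add_div]
    exact (abs_add_le _ _).trans (add_le_add (hM k e he) (hM' k e he))
  · obtain ⟨δ, hδ, hk⟩ := h2 (ε / 4) (by linarith)
    obtain ⟨δ', hδ', hk'⟩ := h2' (ε / 4) (by linarith)
    refine ⟨min δ δ', lt_min hδ hδ', ?_⟩
    filter_upwards [hk, hk'] with k a a' m o hm hmn
    have hn : (0:ℝ) ≤ n k := Nat.cast_nonneg _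
    obtain ⟨c, hc⟩ := a m o hm (hmn.trans (mul_le_mul_of_nonneg_right (min_le_left _ _) hn))
    obtain ⟨c', hc'⟩ := a' m o hm (hmn.trans (mul_le_mul_of_nonneg_right (min_le_right _ _) hn))
    refine ⟨fun i d => c i d + c' i d, ?_⟩
    calc ∑ e ∈ (win K (n k)).bd.filter (fun e => cidx o m e.1 = cidx o m e.snd),
          (w k e + w' k e - (c (cidx o m e.1) e.2 + c' (cidx o m e.1) e.2)) ^ 2
        ≤ ∑ e ∈ (win K (n k)).bd.filter (fun e => cidx o m e.1 = cidx o m e.snd),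
          (2 * (w k e - c (cidx o m e.1) e.2) ^ 2 + 2 * (w' k e - c' (cidx o m e.1) e.2) ^ 2) := by
          refine Finset.sum_le_sum fun e _ => ?_
          nlinarith [sq_nonneg ((w k e - c (cidx o m e.1) e.2) - (w' k e - c' (cidx o m e.1) e.2))]
      _ ≤ ε := by
          rw [Finset.sum_add_distrib, ← Finset.mul_sum, ← Finset.mul_sum]
          linarith

/-- L-FR-T2. -/
theorem tame_smul {n : ℕ → ℕ} {w : ℕ → Bond → ℝ} (h : Tame n w) (t : ℕ → ℝ) (T : ℝ) (ht : ∀ k, |t k| ≤ T) :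
    Tame n fun k e => t k * w k e := by
  have hT : 0 ≤ T := (abs_nonneg _).trans (ht 0)
  intro K
  obtain ⟨⟨M, hM⟩, h2⟩ := h K
  refine ⟨⟨T * M, fun k e he => ?_⟩, fun ε hε => ?_⟩
  · rw [abs_mul, mul_div_assoc]
    exact mul_le_mul (ht k) (hM k e he) (abs_nonneg _) hT
  · obtain ⟨δ, hδ, hk⟩ := h2 (ε / (T ^ 2 + 1)) (by positivity)
    refine ⟨δ, hδ, ?_⟩
    filter_upwards [hk] with k a m o hm hmn
    obtain ⟨c, hc⟩ := a m o hm hmn
    refine ⟨fun i d => t k * c i d, ?_⟩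
    have e1 : ∑ e ∈ (win K (n k)).bd.filter (fun e => cidx o m e.1 = cidx o m e.snd),
          (t k * w k e - t k * c (cidx o m e.1) e.2) ^ 2
        = t k ^ 2 * ∑ e ∈ (win K (n k)).bd.filter (fun e => cidx o m e.1 = cidx o m e.snd),
          (w k e - c (cidx o m e.1) e.2) ^ 2 := by
      rw [Finset.mul_sum]
      exact Finset.sum_congr rfl fun e _ => by ring
    rw [e1]
    have h3 : t k ^ 2 ≤ T ^ 2 := by
      rw [← sq_abs]
      exact pow_le_pow_left₀ (abs_nonneg _) (ht k) 2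
    have h4 : 0 ≤ ∑ e ∈ (win K (n k)).bd.filter (fun e => cidx o m e.1 = cidx o m e.snd),
          (w k e - c (cidx o m e.1) e.2) ^ 2 := Finset.sum_nonneg fun e _ => sq_nonneg _
    calc t k ^ 2 * _ ≤ (T ^ 2 + 1) * (ε / (T ^ 2 + 1)) :=
          mul_le_mul (by linarith) hc h4 (by positivity)
      _ = ε := by field_simp

/-- a line `{v | λ.1.1 v.1 + λ.1.2 v.2 = λ.2}` -/
def OnLine (l : (ℤ × ℤ) × ℤ) (v : ℤ × ℤ) : Prop := l.1.1 * v.1 + l.1.2 * v.2 = l.2

theorem sat_cell_bounds {o : ℤ × ℤ} {m : ℕ} (hm : 0 < m) {i v : ℤ × ℤ} : cidx o m v = i ↔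
    (o.1 + i.1 * m ≤ v.1 ∧ v.1 < o.1 + i.1 * m + m) ∧ (o.2 + i.2 * m ≤ v.2 ∧ v.2 < o.2 + i.2 * m + m) := by
  rw [← mem_cellRc hm, sat_mem_set]
  rfl

/-- in a cell without a vertex on a line the flow is constant in each direction -/
theorem sat_flat_cell (w : Bond → ℝ) (J : ℕ) (l : Fin J → (ℤ × ℤ) × ℤ)
    (hflat : ∀ (e : Bond) (u : ℤ × ℤ), (u = (1, 0) ∨ u = (0, 1)) →
      (∀ j, ¬ OnLine (l j) e.1 ∧ ¬ OnLine (l j) e.snd ∧ ¬ OnLine (l j) (e.1 + u) ∧ ¬ OnLine (l j) (e.snd + u)) →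
      w (e.1 + u, e.2) = w e) (cx cy : ℤ) (m : ℕ)
    (hgood : ∀ j x y, cx ≤ x → x < cx + m → cy ≤ y → y < cy + m → ¬ OnLine (l j) (x, y)) (d : Bool) (s r : ℕ)
    (h1 : (Bond.snd ((cx + s, cy + r), d)).1 < cx + m) (h2 : (Bond.snd ((cx + s, cy + r), d)).2 < cy + m) :
    w ((cx + s, cy + r), d) = w ((cx, cy), d) := by
  induction s with
  | zero =>
    induction r with
    | zero => simp
    | succ r ih =>
      have h1' : (Bond.snd ((cx + (0:ℕ), cy + r), d)).1 < cx + m := by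
        cases d <;> simp only [Bond.snd, Bool.false_eq_true, if_false, if_true] at h1 ⊢ <;> omega
      have h2' : (Bond.snd ((cx + (0:ℕ), cy + r), d)).2 < cy + m := by
        cases d <;> simp only [Bond.snd, Bool.false_eq_true, if_false, if_true] at h2 ⊢ <;> push_cast at h2 ⊢ <;> omega
      rw [← ih h1' h2']
      have := hflat ((cx + (0:ℕ), cy + r), d) (0, 1) (Or.inr rfl) (fun j => by
        cases d
        · simp only [Bond.snd, Bool.false_eq_true, if_false, Prod.mk_add_mk] at h1 h2 ⊢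
          push_cast at h1 h2 ⊢
          exact ⟨hgood j _ _ (by omega) (by omega) (by omega) (by omega), hgood j _ _ (by omega) (by omega) (by omega) (by omega),
            hgood j _ _ (by omega) (by omega) (by omega) (by omega), hgood j _ _ (by omega) (by omega) (by omega) (by omega)⟩
        · simp only [Bond.snd, if_true, Prod.mk_add_mk] at h1 h2 ⊢
          push_cast at h1 h2 ⊢
          exact ⟨hgood j _ _ (by omega) (by omega) (by omega) (by omega), hgood j _ _ (by omega) (by omega) (by omega) (by omega),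
            hgood j _ _ (by omega) (by omega) (by omega) (by omega), hgood j _ _ (by omega) (by omega) (by omega) (by omega)⟩)
      simp only [Prod.mk_add_mk, add_zero] at this
      rw [← this]
      push_cast
      rw [add_assoc]
  | succ s ih =>
    have h1' : (Bond.snd ((cx + s, cy + r), d)).1 < cx + m := by
      cases d <;> simp only [Bond.snd, Bool.false_eq_true, if_false, if_true] at h1 ⊢ <;> push_cast at h1 ⊢ <;> omega
    have h2' : (Bond.snd ((cx + s, cy + r), d)).2 < cy + m := by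
      cases d <;> simp only [Bond.snd, Bool.false_eq_true, if_false, if_true] at h2 ⊢ <;> omega
    rw [← ih h1' h2']
    have := hflat ((cx + s, cy + r), d) (1, 0) (Or.inl rfl) (fun j => by
      cases d
      · simp only [Bond.snd, Bool.false_eq_true, if_false, Prod.mk_add_mk] at h1 h2 ⊢
        push_cast at h1 h2 ⊢
        exact ⟨hgood j _ _ (by omega) (by omega) (by omega) (by omega), hgood j _ _ (by omega) (by omega) (by omega) (by omega),
          hgood j _ _ (by omega) (by omega) (by omega) (by omega), hgood j _ _ (by omega) (by omega) (by omega) (by omega)⟩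
      · simp only [Bond.snd, if_true, Prod.mk_add_mk] at h1 h2 ⊢
        push_cast at h1 h2 ⊢
        exact ⟨hgood j _ _ (by omega) (by omega) (by omega) (by omega), hgood j _ _ (by omega) (by omega) (by omega) (by omega),
          hgood j _ _ (by omega) (by omega) (by omega) (by omega), hgood j _ _ (by omega) (by omega) (by omega) (by omega)⟩)
    simp only [Prod.mk_add_mk, add_zero] at this
    rw [← this]
    push_cast
    rw [add_assoc]

/-- few bonds start in a strip around a line -/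
theorem sat_strip_card (W : Rc) (lam : ℤ × ℤ) (hlam : lam = (1, 0) ∨ lam = (0, 1) ∨ lam = (1, -1)) (τ : ℤ) (m : ℕ) :
    (W.bd.filter fun e => |lam.1 * e.1.1 + lam.2 * e.1.2 - τ| < 2 * m).card ≤ 2 * ((4 * m) * max W.p W.q) := by
  have hI : ∀ (a : ℤ) (r : ℕ), (Finset.Ico a (a + r)).card = r := by
    intro a r
    rw [Int.card_Ico]
    simp
  have hS : (Finset.Ioo (τ - 2 * m) (τ + 2 * m)).card ≤ 4 * m := by
    rw [Int.card_Ioo]
    omega
  have key : ∀ (f : Bond → (ℤ × ℤ) × Bool) (a : ℤ) (r : ℕ), r ≤ max W.p W.q →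
      (∀ e ∈ W.bd.filter (fun e => |lam.1 * e.1.1 + lam.2 * e.1.2 - τ| < 2 * m),
        f e ∈ (Finset.Ioo (τ - 2 * m) (τ + 2 * m) ×ˢ Finset.Ico a (a + r)) ×ˢ (Finset.univ : Finset Bool)) →
      Function.Injective f →
      (W.bd.filter fun e => |lam.1 * e.1.1 + lam.2 * e.1.2 - τ| < 2 * m).card ≤ 2 * ((4 * m) * max W.p W.q) := by
    intro f a r hr hmaps hinj
    refine (Finset.card_le_card_of_injOn f hmaps hinj.injOn).trans ?_
    rw [Finset.card_product, Finset.card_product, hI, Finset.card_univ, Fintype.card_bool, mul_comm]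
    exact Nat.mul_le_mul_left _ (Nat.mul_le_mul hS hr)
  rcases hlam with rfl | rfl | rfl
  · refine key (fun e => ((e.1.1, e.1.2), e.2)) W.o.2 W.q (le_max_right _ _) (fun e he => ?_) (fun e e' h => ?_)
    · rw [Finset.mem_filter, mem_bd, sat_mem_set, abs_lt] at he
      simp only [Finset.mem_product, Finset.mem_Ioo, Finset.mem_Ico, Finset.mem_univ, and_true]
      omega
    · exact h
  · refine key (fun e => ((e.1.2, e.1.1), e.2)) W.o.1 W.p (le_max_left _ _) (fun e he => ?_) (fun e e' h => ?_)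
    · rw [Finset.mem_filter, mem_bd, sat_mem_set, abs_lt] at he
      simp only [Finset.mem_product, Finset.mem_Ioo, Finset.mem_Ico, Finset.mem_univ, and_true]
      omega
    · simp only [Prod.mk.injEq] at h
      exact Prod.ext (Prod.ext h.1.2 h.1.1) h.2
  · refine key (fun e => ((e.1.1 - e.1.2, e.1.2), e.2)) W.o.2 W.q (le_max_right _ _) (fun e he => ?_) (fun e e' h => ?_)
    · rw [Finset.mem_filter, mem_bd, sat_mem_set, abs_lt] at he
      simp only [Finset.mem_product, Finset.mem_Ioo, Finset.mem_Ico, Finset.mem_univ, and_true]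
      omega
    · simp only [Prod.mk.injEq] at h
      exact Prod.ext (Prod.ext (by omega) h.1.2) h.2

/-- the finite core of the criterion -/
theorem sat_lines_core (w : Bond → ℝ) (B : ℝ) (hB : ∀ e, |w e| ≤ B) (J : ℕ) (l : Fin J → (ℤ × ℤ) × ℤ)
    (hdir : ∀ j, (l j).1 = (1, 0) ∨ (l j).1 = (0, 1) ∨ (l j).1 = (1, -1))
    (hflat : ∀ (e : Bond) (u : ℤ × ℤ), (u = (1, 0) ∨ u = (0, 1)) →
      (∀ j, ¬ OnLine (l j) e.1 ∧ ¬ OnLine (l j) e.snd ∧ ¬ OnLine (l j) (e.1 + u) ∧ ¬ OnLine (l j) (e.snd + u)) →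
      w (e.1 + u, e.2) = w e) (W : Rc) (m : ℕ) (hm : 0 < m) (o : ℤ × ℤ) :
    ∃ c : ℤ × ℤ → Bool → ℝ, ∑ e ∈ W.bd.filter (fun e => cidx o m e.1 = cidx o m e.snd), (w e - c (cidx o m e.1) e.2) ^ 2
      ≤ ((J * (2 * ((4 * m) * max W.p W.q)) : ℕ) : ℝ) * B ^ 2 := by
  obtain ⟨Bad, hBad⟩ : ∃ Bad : ℤ × ℤ → Prop, Bad = fun i => ∃ j v, cidx o m v = i ∧ OnLine (l j) v := ⟨_, rfl⟩
  refine ⟨fun i d => if Bad i then 0 else w ((o.1 + i.1 * m, o.2 + i.2 * m), d), ?_⟩
  have hterm : ∀ e ∈ W.bd.filter (fun e => cidx o m e.1 = cidx o m e.snd),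
      (w e - (if Bad (cidx o m e.1) then 0 else w ((o.1 + (cidx o m e.1).1 * m, o.2 + (cidx o m e.1).2 * m), e.2))) ^ 2
        ≤ if Bad (cidx o m e.1) then B ^ 2 else 0 := by
    intro e he
    rw [Finset.mem_filter] at he
    by_cases hb : Bad (cidx o m e.1)
    · rw [if_pos hb, if_pos hb, sub_zero, ← sq_abs]
      exact pow_le_pow_left₀ (abs_nonneg _) (hB e) 2
    · rw [if_neg hb, if_neg hb]
      obtain ⟨i, hi⟩ : ∃ i, i = cidx o m e.1 := ⟨_, rfl⟩
      rw [← hi] at hb he ⊢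
      have b1 := (sat_cell_bounds hm).1 hi.symm
      have b2 := (sat_cell_bounds hm).1 he.2.symm
      have hgood : ∀ j x y, o.1 + i.1 * m ≤ x → x < o.1 + i.1 * m + m → o.2 + i.2 * m ≤ y → y < o.2 + i.2 * m + m →
          ¬ OnLine (l j) (x, y) := by
        intro j x y h1 h2 h3 h4 hon
        apply hb
        rw [hBad]
        exact ⟨j, (x, y), (sat_cell_bounds hm).2 ⟨⟨h1, h2⟩, h3, h4⟩, hon⟩
      obtain ⟨s, hs⟩ : ∃ s : ℕ, (s : ℤ) = e.1.1 - (o.1 + i.1 * m) := ⟨(e.1.1 - (o.1 + i.1 * m)).toNat, by omega⟩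
      obtain ⟨r, hr⟩ : ∃ r : ℕ, (r : ℤ) = e.1.2 - (o.2 + i.2 * m) := ⟨(e.1.2 - (o.2 + i.2 * m)).toNat, by omega⟩
      have he' : e = ((o.1 + i.1 * m + s, o.2 + i.2 * m + r), e.2) := by
        refine Prod.ext (Prod.ext ?_ ?_) rfl
        · simp only; omega
        · simp only; omega
      have := sat_flat_cell w J l hflat (o.1 + i.1 * m) (o.2 + i.2 * m) m hgood e.2 s r
        (by rw [← he']; exact b2.1.2) (by rw [← he']; exact b2.2.2)
      rw [← he'] at this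
      rw [this]
      simp
  refine (Finset.sum_le_sum hterm).trans ?_
  rw [← Finset.sum_filter, Finset.sum_const, nsmul_eq_mul]
  refine mul_le_mul_of_nonneg_right ?_ (sq_nonneg _)
  have hsub : (W.bd.filter (fun e => cidx o m e.1 = cidx o m e.snd)).filter (fun e => Bad (cidx o m e.1))
      ⊆ Finset.univ.biUnion fun j : Fin J => W.bd.filter fun e => |(l j).1.1 * e.1.1 + (l j).1.2 * e.1.2 - (l j).2| < 2 * m := by
    intro e he
    rw [Finset.mem_filter, Finset.mem_filter, hBad] at he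
    obtain ⟨⟨he1, -⟩, j, v, hv, hon⟩ := he
    rw [Finset.mem_biUnion]
    refine ⟨j, Finset.mem_univ _, ?_⟩
    rw [Finset.mem_filter]
    refine ⟨he1, ?_⟩
    have b1 := (sat_cell_bounds hm).1 hv
    have b2 := (sat_cell_bounds (o := o) (v := e.1) hm).1 rfl
    unfold OnLine at hon
    rw [abs_lt]
    generalize (cidx o m e.1).1 * (m:ℤ) = z1 at *
    generalize (cidx o m e.1).2 * (m:ℤ) = z2 at *
    rcases hdir j with h | h | h <;> rw [h] at hon ⊢ <;> simp only at hon ⊢ <;> omega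
  have hcard := (Finset.card_le_card hsub).trans Finset.card_biUnion_le
  have hcard2 : ∑ j : Fin J, (W.bd.filter fun e => |(l j).1.1 * e.1.1 + (l j).1.2 * e.1.2 - (l j).2| < 2 * m).card
      ≤ J * (2 * ((4 * m) * max W.p W.q)) := by
    refine (Finset.sum_le_card_nsmul _ _ _ fun j _ => sat_strip_card W (l j).1 (hdir j) (l j).2 m).trans ?_
    simp
  exact_mod_cast hcard.trans hcard2

/-- L-FR-T3.  **Criterion**: sup bound + locally constant off `J` lines of the directions `x = τ`, `y = τ`, `x - y = τ`.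
In a cell without a vertex on a line the flow is constant in each direction (`hflat`, induction inside the cell): take `c` = this constant; in the other cells `c = 0`.  A cell of mesh `m` with a vertex on the line `l` lies in the strip
`|l.1.1 v.1 + l.1.2 v.2 - l.2| < 2 m`, which contains at most `2 (4m+1) (2⌈Kn⌉+1)` bonds of the window.  Energy `≤ J · 2 (4m+1)(2⌈Kn⌉+1) M²/n² ≤ C J M² (K+1) δ`. -/
theorem tame_of_lines {n : ℕ → ℕ} (hn : Tendsto n atTop atTop) (w : ℕ → Bond → ℝ) (M : ℝ) (hM : ∀ k e, |w k e| ≤ M / n k) (J : ℕ)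
    (ln : ℕ → Fin J → (ℤ × ℤ) × ℤ) (hdir : ∀ k j, (ln k j).1 = (1, 0) ∨ (ln k j).1 = (0, 1) ∨ (ln k j).1 = (1, -1))
    (hflat : ∀ k (e : Bond) (u : ℤ × ℤ), (u = (1, 0) ∨ u = (0, 1)) →
      (∀ j, ¬ OnLine (ln k j) e.1 ∧ ¬ OnLine (ln k j) e.snd ∧ ¬ OnLine (ln k j) (e.1 + u) ∧ ¬ OnLine (ln k j) (e.snd + u)) →
      w k (e.1 + u, e.2) = w k e) : Tame n w := by
  intro K
  refine ⟨⟨M, fun k e _ => hM k e⟩, fun ε hε => ?_⟩
  obtain ⟨D, hD⟩ : ∃ D : ℝ, D = 8 * J * M ^ 2 * (2 * |K| + 3) := ⟨_, rfl⟩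
  have hD0 : 0 ≤ D := by rw [hD]; positivity
  refine ⟨ε / (D + 1), by positivity, ?_⟩
  filter_upwards [hn.eventually_ge_atTop 1] with k hk m o hm hmn
  obtain ⟨c, hc⟩ := sat_lines_core (w k) (M / n k) (hM k) J (ln k) (hdir k) (hflat k) (win K (n k)) m (by omega) o
  refine ⟨c, hc.trans ?_⟩
  have hn1 : (1:ℝ) ≤ n k := by exact_mod_cast hk
  have hn0 : (0:ℝ) < n k := by linarith
  have hN : (⌈K * n k⌉₊ : ℝ) ≤ |K| * n k + 1 := by
    have h0 : (0:ℝ) ≤ |K| * n k := by positivity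
    have h1 : ⌈K * n k⌉₊ ≤ ⌈|K| * n k⌉₊ := Nat.ceil_mono (mul_le_mul_of_nonneg_right (le_abs_self K) hn0.le)
    have h2 := (Nat.ceil_lt_add_one h0).le
    have h3 : (⌈K * n k⌉₊ : ℝ) ≤ ⌈|K| * n k⌉₊ := by exact_mod_cast h1
    linarith
  have e1 : max (win K (n k)).p (win K (n k)).q = 2 * ⌈K * n k⌉₊ + 1 := max_self _
  rw [e1]
  push_cast
  obtain ⟨N, hNdef⟩ : ∃ N : ℝ, N = (⌈K * n k⌉₊ : ℝ) := ⟨_, rfl⟩
  rw [← hNdef] at hN ⊢
  have hN0 : 0 ≤ N := by rw [hNdef]; positivity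
  have hK0 : 0 ≤ |K| := abs_nonneg _
  have h2 : 2 * N + 1 ≤ (2 * |K| + 3) * n k := by nlinarith
  have hm0 : (0:ℝ) ≤ m := Nat.cast_nonneg _
  have h3 : 4 * (m:ℝ) * (2 * N + 1) ≤ 4 * (ε / (D + 1) * n k) * ((2 * |K| + 3) * n k) :=
    mul_le_mul (by linarith) h2 (by positivity) (by positivity)
  have hJ : (0:ℝ) ≤ J := Nat.cast_nonneg _
  calc (J : ℝ) * (2 * (4 * (m:ℝ) * (2 * N + 1))) * (M / n k) ^ 2
      ≤ (J : ℝ) * (2 * (4 * (ε / (D + 1) * n k) * ((2 * |K| + 3) * n k))) * (M / n k) ^ 2 := by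
        refine mul_le_mul_of_nonneg_right (mul_le_mul_of_nonneg_left (by linarith) hJ) (sq_nonneg _)
    _ = ε / (D + 1) * D := by
        rw [hD]
        field_simp
        ring
    _ ≤ ε := by
        rw [div_mul_eq_mul_div, div_le_iff₀ (by positivity)]
        nlinarith

/-- L-FR-T1.  The cost of a tame flow on admissible rectangles is bounded (`fr_bd_card`). -/
theorem tame_cost_bdd {n : ℕ → ℕ} {w : ℕ → Bond → ℝ} (h : Tame n w) {R : ℕ → Rc} (hR : Adm n R) :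
    ∃ C : ℝ, ∀ k, (R k).cost (w k) ≤ C := by
  obtain ⟨K, hK0, hK⟩ := adm_win hR
  obtain ⟨K₀, hK₀⟩ := hR
  obtain ⟨⟨M, hM⟩, -⟩ := h K
  refine ⟨2 * K₀ ^ 2 * M ^ 2, fun k => ?_⟩
  obtain ⟨-, -, h3, h4⟩ := hK₀ k
  have hp : (0:ℝ) ≤ (R k).p := Nat.cast_nonneg _
  have hq : (0:ℝ) ≤ (R k).q := Nat.cast_nonneg _
  have h1 : (R k).cost (w k) ≤ ((R k).bd.card : ℝ) * (M / n k) ^ 2 := by
    unfold Rc.cost
    rw [← nsmul_eq_mul]
    refine Finset.sum_le_card_nsmul _ _ _ fun e he => ?_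
    rw [← sq_abs]
    exact pow_le_pow_left₀ (abs_nonneg _) (hM k e (sat_bd_mono (hK k) he)) 2
  have h2 := fr_bd_card (R k)
  have h5 : ((R k).bd.card : ℝ) * (M / n k) ^ 2 ≤ 2 * (R k).p * (R k).q * (M / n k) ^ 2 :=
    mul_le_mul_of_nonneg_right h2 (sq_nonneg _)
  have h6 : 2 * ((R k).p : ℝ) * (R k).q * (M / n k) ^ 2 ≤ 2 * K₀ ^ 2 * M ^ 2 := by
    by_cases hn : (n k : ℝ) = 0
    · rw [hn, div_zero]
      have : 0 ≤ 2 * K₀ ^ 2 * M ^ 2 := by positivity
      simpa using this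
    · have hn' : (0:ℝ) < n k := lt_of_le_of_ne (Nat.cast_nonneg _) (Ne.symm hn)
      have h7 : ((R k).p : ℝ) * (R k).q ≤ (K₀ * n k) * (K₀ * n k) := mul_le_mul h3 h4 hq (hp.trans h3)
      have h8 : 2 * ((R k).p : ℝ) * (R k).q * (M / n k) ^ 2 ≤ 2 * ((K₀ * n k) * (K₀ * n k)) * (M / n k) ^ 2 := by
        have := mul_le_mul_of_nonneg_right h7 (sq_nonneg (M / n k))
        nlinarith
      refine h8.trans (le_of_eq ?_)
      field_simp
  linarith

/-! ## 2. Upper bound and saturation -/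

/-- the upper energy bound [B](2.10), [C](2.7), [E](5.6) -/
def UBd (b : ℕ → ℝ) (n : ℕ → ℕ) (a : ℝ) (w : ℕ → Bond → ℝ) : Prop :=
  ∀ R : ℕ → Rc, Adm n R → ∀ ε : ℝ, 0 < ε → ∀ᶠ k in atTop, (R k).var (b k) (w k) ≤ a * (R k).cost (w k) + ε

/-- saturation on a sequence of rectangles -/
def SatOn (b : ℕ → ℝ) (a : ℝ) (R : ℕ → Rc) (w : ℕ → Bond → ℝ) : Prop :=
  Tendsto (fun k => (R k).var (b k) (w k) - a * (R k).cost (w k)) atTop (𝓝 0)

/-- saturation on all admissible rectangles -/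
def Sat (b : ℕ → ℝ) (n : ℕ → ℕ) (a : ℝ) (w : ℕ → Bond → ℝ) : Prop := ∀ R : ℕ → Rc, Adm n R → SatOn b a R w

/-- tame and saturated -/
def TS (b : ℕ → ℝ) (n : ℕ → ℕ) (a : ℝ) (w : ℕ → Bond → ℝ) : Prop := Tame n w ∧ Sat b n a w

/-- L-FR-T4 (Mathlib only).  From `√V ≤ √A + √E` with `A ≤ A₀`: `V ≤ A + 2 √(A₀ E) + E`. -/
theorem sq_of_sqrt_le {V A E A₀ : ℝ} (hA : 0 ≤ A) (hE : 0 ≤ E) (hA₀ : A ≤ A₀) (h : Real.sqrt V ≤ Real.sqrt A + Real.sqrt E) :
    V ≤ A + 2 * Real.sqrt (A₀ * E) + E := by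
  have h0 : 0 ≤ Real.sqrt (A₀ * E) := Real.sqrt_nonneg _
  by_cases hV : V ≤ 0
  · linarith
  · have hV' : 0 ≤ V := (not_le.1 hV).le
    have h1 : V = Real.sqrt V ^ 2 := (Real.sq_sqrt hV').symm
    have h2 : Real.sqrt V ^ 2 ≤ (Real.sqrt A + Real.sqrt E) ^ 2 :=
      pow_le_pow_left₀ (Real.sqrt_nonneg _) h 2
    have h3 : (Real.sqrt A + Real.sqrt E) ^ 2 = A + 2 * Real.sqrt (A * E) + E := by
      rw [add_sq, Real.sq_sqrt hA, Real.sq_sqrt hE, Real.sqrt_mul hA]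
      ring
    have h4 : Real.sqrt (A * E) ≤ Real.sqrt (A₀ * E) := Real.sqrt_le_sqrt (mul_le_mul_of_nonneg_right hA₀ hE)
    linarith

theorem sat_cost_smul (R : Rc) (c : ℝ) (w : Bond → ℝ) : R.cost (fun e => c * w e) = c ^ 2 * R.cost w := by
  unfold Rc.cost
  rw [Finset.mul_sum]
  exact Finset.sum_congr rfl fun e _ => by ring

theorem sat_cost_nonneg (R : Rc) (w : Bond → ℝ) : 0 ≤ R.cost w := Finset.sum_nonneg fun _ _ => sq_nonneg _

/-- the arithmetic of the finite upper bound -/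
theorem sat_ub_num {V α C C' E κ α₁ κ₁ C₀ η : ℝ} (hα : 0 ≤ α) (hα₁ : α ≤ α₁) (hκ : 0 ≤ κ) (hκ₁ : κ ≤ κ₁) (hC : 0 ≤ C)
    (hC₀ : C ≤ C₀) (hE : 0 ≤ E) (hEη : E ≤ η)
    (h1 : Real.sqrt V ≤ Real.sqrt (α * C') + Real.sqrt (κ * E)) (h2 : Real.sqrt C' ≤ Real.sqrt C + Real.sqrt E) :
    V ≤ α * C + 2 * Real.sqrt (α₁ * C₀ * ((Real.sqrt α₁ + Real.sqrt κ₁) ^ 2 * η))
      + (Real.sqrt α₁ + Real.sqrt κ₁) ^ 2 * η := by
  have hη : 0 ≤ η := hE.trans hEη
  have s1 : Real.sqrt α ≤ Real.sqrt α₁ := Real.sqrt_le_sqrt hα₁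
  have s2 : Real.sqrt κ ≤ Real.sqrt κ₁ := Real.sqrt_le_sqrt hκ₁
  have s3 : Real.sqrt E ≤ Real.sqrt η := Real.sqrt_le_sqrt hEη
  have n1 := Real.sqrt_nonneg α
  have n2 := Real.sqrt_nonneg κ
  have n3 := Real.sqrt_nonneg E
  have n4 := Real.sqrt_nonneg α₁
  have n5 := Real.sqrt_nonneg κ₁
  have h3 : Real.sqrt V ≤ Real.sqrt (α * C) + Real.sqrt ((Real.sqrt α₁ + Real.sqrt κ₁) ^ 2 * η) := by
    rw [Real.sqrt_mul hα, Real.sqrt_mul hκ] at h1
    rw [Real.sqrt_mul hα, Real.sqrt_mul (sq_nonneg _), Real.sqrt_sq (by positivity)]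
    have a1 : Real.sqrt α * Real.sqrt C' ≤ Real.sqrt α * (Real.sqrt C + Real.sqrt E) := mul_le_mul_of_nonneg_left h2 n1
    have a2 : (Real.sqrt α + Real.sqrt κ) * Real.sqrt E ≤ (Real.sqrt α₁ + Real.sqrt κ₁) * Real.sqrt η :=
      mul_le_mul (by linarith) s3 n3 (by positivity)
    nlinarith
  exact sq_of_sqrt_le (mul_nonneg hα hC) (by positivity) (mul_le_mul hα₁ hC₀ hC (hα.trans hα₁)) h3

/-- the cost of the difference to the cellwise constant flow -/
theorem sat_err_cost (R W : Rc) (hRW : R.set ⊆ W.set) (m : ℕ) (hm : 0 < m) (w : Bond → ℝ) (c : ℤ × ℤ → Bool → ℝ) (B ε' : ℝ)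
    (hB : ∀ e ∈ W.bd, |w e| ≤ B)
    (hc : ∑ e ∈ W.bd.filter (fun e => cidx R.o m e.1 = cidx R.o m e.snd), (w e - c (cidx R.o m e.1) e.2) ^ 2 ≤ ε') :
    R.cost (fun e => w e - cellF R R.o m c e) ≤ ε' + B ^ 2 * (2 * (R.p : ℝ) * R.q / m + 2 * m * ((R.p : ℝ) + R.q)) := by
  unfold Rc.cost
  rw [← Finset.sum_filter_add_sum_filter_not R.bd (fun e => Inner R R.o m e)]
  refine add_le_add ?_ ?_
  · refine le_trans ?_ hc
    have e1 : ∑ e ∈ R.bd.filter (fun e => Inner R R.o m e), (w e - cellF R R.o m c e) ^ 2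
        = ∑ e ∈ R.bd.filter (fun e => Inner R R.o m e), (w e - c (cidx R.o m e.1) e.2) ^ 2 := by
      refine Finset.sum_congr rfl fun e he => ?_
      rw [cellF, if_pos (Finset.mem_filter.1 he).2]
    rw [e1]
    refine Finset.sum_le_sum_of_subset_of_nonneg ?_ fun e _ _ => sq_nonneg _
    intro e he
    rw [Finset.mem_filter] at he ⊢
    exact ⟨sat_bd_mono hRW he.1, he.2.1⟩
  · have e2 : ∑ e ∈ R.bd.filter (fun e => ¬ Inner R R.o m e), (w e - cellF R R.o m c e) ^ 2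
        ≤ ((R.bd.filter fun e => ¬ Inner R R.o m e).card : ℝ) * B ^ 2 := by
      rw [← nsmul_eq_mul]
      refine Finset.sum_le_card_nsmul _ _ _ fun e he => ?_
      rw [Finset.mem_filter] at he
      rw [cellF, if_neg he.2, sub_zero, ← sq_abs]
      exact pow_le_pow_left₀ (abs_nonneg _) (hB e (sat_bd_mono hRW he.1)) 2
    refine e2.trans ?_
    rw [mul_comm]
    exact mul_le_mul_of_nonneg_left (fr_rest_card R m hm) (sq_nonneg _)

/-- choice of the small parameter -/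
theorem sat_exists_eta (Aa Ss ε : ℝ) (hε : 0 < ε) : ∃ η : ℝ, 0 < η ∧ 2 * Real.sqrt (Aa * (Ss * η)) + Ss * η ≤ ε := by
  have hc : Continuous fun η : ℝ => 2 * Real.sqrt (Aa * (Ss * η)) + Ss * η := by fun_prop
  have ht : Tendsto (fun η : ℝ => 2 * Real.sqrt (Aa * (Ss * η)) + Ss * η) (𝓝 0) (𝓝 0) := by
    have := hc.tendsto 0
    simpa using this
  have h1 : ∀ᶠ η in 𝓝[>] (0:ℝ), 2 * Real.sqrt (Aa * (Ss * η)) + Ss * η < ε :=
    eventually_nhdsWithin_of_eventually_nhds (ht.eventually (gt_mem_nhds hε))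
  obtain ⟨η, h2, h3⟩ := (h1.and self_mem_nhdsWithin).exists
  exact ⟨η, h3, h2.le⟩

theorem sat_ratio_tendsto {m : ℕ → ℕ} (hm : Tendsto m atTop atTop) :
    Tendsto (fun k => (m k : ℝ) / ((m k : ℝ) - 1)) atTop (𝓝 1) := by
  have h1 : Tendsto (fun k => ((m k : ℝ) - 1)) atTop atTop :=
    tendsto_atTop_add_const_right _ _ (tendsto_natCast_atTop_atTop.comp hm)
  have h2 : Tendsto (fun k => 1 + ((m k : ℝ) - 1)⁻¹) atTop (𝓝 (1 + 0)) :=
    tendsto_const_nhds.add (tendsto_inv_atTop_zero.comp h1)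
  rw [add_zero] at h2
  refine h2.congr' ?_
  filter_upwards [h1.eventually_gt_atTop 0] with k hk
  field_simp
  ring

theorem sat_b_pos {b : ℕ → ℝ} {n : ℕ → ℕ} {a : ℝ} (hS : ScaleCoef b n a) (k : ℕ) : 0 < b k := by
  obtain ⟨⟨β₀, β₁, h0, h1⟩, -⟩ := hS
  exact lt_of_lt_of_le h0 (h1 k).1

theorem sat_num_rest {M N p q m K₀ δ η : ℝ} (hN : 0 < N) (hp0 : 0 ≤ p) (hq0 : 0 ≤ q) (hp : p ≤ K₀ * N) (hq : q ≤ K₀ * N)
    (hδ : 0 < δ) (hη : 0 < η) (hm1 : δ / 2 * N ≤ m) (hm2 : m ≤ δ * N) (hN2 : 12 * M ^ 2 * K₀ ^ 2 / (δ * η) ≤ N)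
    (hD : δ * (4 * M ^ 2 * |K₀|) ≤ η / 3) :
    (M / N) ^ 2 * (2 * p * q / m + 2 * m * (p + q)) ≤ η / 3 + η / 3 := by
  have hm0 : 0 < δ / 2 * N := by positivity
  have hm : 0 < m := lt_of_lt_of_le hm0 hm1
  have hKN : 0 ≤ K₀ * N := hp0.trans hp
  have hMN : 0 ≤ (M / N) ^ 2 := sq_nonneg _
  rw [mul_add]
  refine add_le_add ?_ ?_
  · have t1 : 2 * p * q / m ≤ 2 * (K₀ * N) * (K₀ * N) / (δ / 2 * N) := by
      refine div_le_div₀ (by positivity) ?_ hm0 hm1
      have := mul_le_mul hp hq hq0 hKN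
      nlinarith
    refine (mul_le_mul_of_nonneg_left t1 hMN).trans ?_
    have e : (M / N) ^ 2 * (2 * (K₀ * N) * (K₀ * N) / (δ / 2 * N)) = 4 * M ^ 2 * K₀ ^ 2 / (δ * N) := by
      field_simp
      ring
    rw [e, div_le_iff₀ (by positivity)]
    rw [div_le_iff₀ (by positivity)] at hN2
    nlinarith
  · have t2 : 2 * m * (p + q) ≤ 2 * (δ * N) * (2 * (K₀ * N)) := by
      refine mul_le_mul (by linarith) (by linarith) (by positivity) (by positivity)
    refine (mul_le_mul_of_nonneg_left t2 hMN).trans ?_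
    have e : (M / N) ^ 2 * (2 * (δ * N) * (2 * (K₀ * N))) = δ * (4 * M ^ 2 * K₀) := by
      field_simp
      ring
    rw [e]
    refine le_trans ?_ hD
    refine mul_le_mul_of_nonneg_left ?_ hδ.le
    exact mul_le_mul_of_nonneg_left (le_abs_self _) (by positivity)

/-- L-FR-T5.  **T2: tame flows satisfy the upper bound.**  Fix `R`, `K` (`adm_win`), `M`, `ε' > 0`, `δ` from tameness (shrink `δ` so that `4 δ (K'+..) M² ≤ ε'`), `m k = ⌈δ n k⌉₊` (`≥ 2` eventually; use `δ/2` to have `m ≤ δ n`), grid anchored at `(R k).o`.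
`fr_ub`: first term `≤ √(a_m (m/(m-1)) C(cellF))`, `a_{m k}(b k) → a` (`ScaleCoef` with `c = δ/2`), `m/(m-1) → 1`, `√C(cellF) ≤ √C(w) + √C(w - cellF)`;
`C(w - cellF) ≤ ε' + (M/n)² · card(non inner) ≤ ε' + M² (2K'²/(δ' n) + 4 δ K')` (`fr_rest_card`).  Conclude with `sq_of_sqrt_le`, `tame_cost_bdd`. -/
theorem ub_of_tame {b : ℕ → ℝ} {n : ℕ → ℕ} {a : ℝ} (hS : ScaleCoef b n a) {w : ℕ → Bond → ℝ} (h : Tame n w) : UBd b n a w := by
  intro R hR ε hε
  have ha : 0 ≤ a := fr_scaleCoef_nonneg hS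
  have hbpos := sat_b_pos hS
  obtain ⟨⟨β₀, β₁, hβ₀, hβ⟩, hn, hsc⟩ := hS
  obtain ⟨K, hK0, hK⟩ := adm_win hR
  obtain ⟨C₀, hC₀⟩ := tame_cost_bdd h hR
  obtain ⟨K₀, hK₀⟩ := hR
  obtain ⟨⟨M, hM⟩, hT⟩ := h K
  have hC₀0 : 0 ≤ C₀ := (sat_cost_nonneg _ _).trans (hC₀ 0)
  obtain ⟨κ₁, hκ₁⟩ : ∃ κ₁ : ℝ, κ₁ = 4 * Real.pi ^ 2 * β₁ := ⟨_, rfl⟩
  obtain ⟨Ss, hSs⟩ : ∃ Ss : ℝ, Ss = (Real.sqrt (a + 1) + Real.sqrt κ₁) ^ 2 := ⟨_, rfl⟩
  obtain ⟨η, hη, hηε⟩ := sat_exists_eta ((a + 1) * C₀) Ss (ε / 2) (by linarith)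
  obtain ⟨δ, hδ, hkδ⟩ := hT (η / 3) (by linarith)
  obtain ⟨D, hD⟩ : ∃ D : ℝ, D = 4 * M ^ 2 * |K₀| := ⟨_, rfl⟩
  have hD0 : 0 ≤ D := by rw [hD]; positivity
  obtain ⟨δ', hδ'⟩ : ∃ δ' : ℝ, δ' = min δ (η / (3 * D + 1)) := ⟨_, rfl⟩
  have hδ'0 : 0 < δ' := by rw [hδ']; exact lt_min hδ (by positivity)
  have hδ'δ : δ' ≤ δ := by rw [hδ']; exact min_le_left _ _
  have hδ'D : δ' * D ≤ η / 3 := by
    have h1 : δ' ≤ η / (3 * D + 1) := by rw [hδ']; exact min_le_right _ _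
    have h2 : δ' * D ≤ η / (3 * D + 1) * D := mul_le_mul_of_nonneg_right h1 hD0
    refine h2.trans ?_
    rw [div_mul_eq_mul_div, div_le_iff₀ (by positivity)]
    nlinarith
  obtain ⟨m, hm⟩ : ∃ m : ℕ → ℕ, m = fun k => ⌈δ' / 2 * n k⌉₊ := ⟨_, rfl⟩
  have hnR : Tendsto (fun k => (n k : ℝ)) atTop atTop := tendsto_natCast_atTop_atTop.comp hn
  have ev1 : ∀ᶠ k in atTop, 2 / δ' < n k := hnR.eventually_gt_atTop _
  have ev2 : ∀ᶠ k in atTop, 12 * M ^ 2 * K₀ ^ 2 / (δ' * η) ≤ n k := hnR.eventually_ge_atTop _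
  have hmb : ∀ᶠ k in atTop, δ' / 2 * n k ≤ m k ∧ (m k : ℝ) ≤ δ' * n k ∧ 2 ≤ m k := by
    filter_upwards [ev1] with k hk
    have h1 : 1 < δ' / 2 * n k := by
      rw [div_lt_iff₀ hδ'0] at hk
      linarith
    rw [hm]
    refine ⟨Nat.le_ceil _, ?_, ?_⟩
    · have := (Nat.ceil_lt_add_one (by linarith : 0 ≤ δ' / 2 * n k)).le
      linarith
    · have : 1 < ⌈δ' / 2 * n k⌉₊ := Nat.lt_ceil.2 (by exact_mod_cast h1)
      exact this
  have hmt : Tendsto m atTop atTop := by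
    rw [← tendsto_natCast_atTop_iff (R := ℝ)]
    refine tendsto_atTop_mono (fun k => ?_) (hnR.const_mul_atTop (by positivity : 0 < δ' / 2))
    rw [hm]
    exact Nat.le_ceil _
  have hα : Tendsto (fun k => aCoef (b k) (m k) * ((m k : ℝ) / ((m k : ℝ) - 1))) atTop (𝓝 a) := by
    have := (hsc m (δ' / 2) δ' (by positivity) (hmb.mono fun k hk => ⟨hk.1, hk.2.1⟩)).mul (sat_ratio_tendsto hmt)
    rwa [mul_one] at this
  have ev3 : ∀ᶠ k in atTop, |aCoef (b k) (m k) * ((m k : ℝ) / ((m k : ℝ) - 1)) - a| < min 1 (ε / (2 * (C₀ + 1))) := by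
    have := (Metric.tendsto_nhds.1 hα) (min 1 (ε / (2 * (C₀ + 1)))) (lt_min one_pos (by positivity))
    simpa [Real.dist_eq] using this
  filter_upwards [hkδ, ev1, ev2, hmb, ev3] with k t1 t2 t3 t4 t5
  obtain ⟨c, hc⟩ := t1 (m k) (R k).o t4.2.2 (t4.2.1.trans (mul_le_mul_of_nonneg_right hδ'δ (Nat.cast_nonneg _)))
  have hmpos : 0 < m k := by have := t4.2.2; omega
  have hN : (0:ℝ) < n k := lt_trans (by positivity) t2
  obtain ⟨-, -, hp, hq⟩ := hK₀ k
  have hE := sat_err_cost (R k) (win K (n k)) (hK k) (m k) hmpos (w k) c (M / n k) (η / 3) (hM k) hc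
  have hnum := sat_num_rest (M := M) hN (Nat.cast_nonneg (R k).p) (Nat.cast_nonneg (R k).q) hp hq hδ'0 hη t4.1 t4.2.1 t3
    (by rw [← hD]; exact hδ'D)
  have hEη : (R k).cost (fun e => w k e - cellF (R k) (R k).o (m k) c e) ≤ η := by linarith
  obtain ⟨α, hαdef⟩ : ∃ α : ℝ, α = aCoef (b k) (m k) * ((m k : ℝ) / ((m k : ℝ) - 1)) := ⟨_, rfl⟩
  rw [← hαdef] at t5
  have t5' := abs_lt.1 (lt_of_lt_of_le t5 (min_le_left _ _))
  have t5'' := lt_of_lt_of_le t5 (min_le_right _ _)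
  have hm2 : (2:ℝ) ≤ m k := by exact_mod_cast t4.2.2
  have hα0 : 0 ≤ α := by
    rw [hαdef]
    exact mul_nonneg (fr_aCoef_nonneg _ (hbpos k) _) (div_nonneg (by linarith) (by linarith))
  have h1 := fr_ub (R k) (b k) (hbpos k) (R k).o (m k) hmpos c (w k)
  rw [← hαdef] at h1
  have h2 : Real.sqrt ((R k).cost (cellF (R k) (R k).o (m k) c))
      ≤ Real.sqrt ((R k).cost (w k)) + Real.sqrt ((R k).cost fun e => w k e - cellF (R k) (R k).o (m k) c e) := by
    have := sqrt_cost_add_le (R k) (w k) (fun e => (-1) * (w k e - cellF (R k) (R k).o (m k) c e))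
    have e2 : (fun e => w k e + (-1) * (w k e - cellF (R k) (R k).o (m k) c e)) = cellF (R k) (R k).o (m k) c := by
      funext e; ring
    rw [e2, sat_cost_smul] at this
    have e3 : ((-1 : ℝ)) ^ 2 * (R k).cost (fun e => w k e - cellF (R k) (R k).o (m k) c e)
        = (R k).cost (fun e => w k e - cellF (R k) (R k).o (m k) c e) := by ring
    rwa [e3] at this
  have hκ : 4 * Real.pi ^ 2 * b k ≤ κ₁ := by
    rw [hκ₁]
    exact mul_le_mul_of_nonneg_left (hβ k).2 (by positivity)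
  have hV := sat_ub_num (V := (R k).var (b k) (w k)) hα0 (by linarith : α ≤ a + 1)
    (by have := hbpos k; positivity : 0 ≤ 4 * Real.pi ^ 2 * b k) hκ (sat_cost_nonneg (R k) (w k)) (hC₀ k)
    (sat_cost_nonneg _ _) hEη h1 h2
  rw [← hSs] at hV
  have hαC : α * (R k).cost (w k) ≤ a * (R k).cost (w k) + ε / 2 := by
    have h3 : (α - a) * (R k).cost (w k) ≤ ε / (2 * (C₀ + 1)) * C₀ :=
      mul_le_mul ((le_abs_self _).trans t5''.le) (hC₀ k) (sat_cost_nonneg _ _) (by positivity)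
    have h4 : ε / (2 * (C₀ + 1)) * C₀ ≤ ε / 2 := by
      rw [div_mul_eq_mul_div, div_le_iff₀ (by positivity)]
      nlinarith
    have h5 : (α - a) * (R k).cost (w k) = α * (R k).cost (w k) - a * (R k).cost (w k) := by ring
    linarith
  linarith

theorem sat_cost_para (R : Rc) (w w' : Bond → ℝ) :
    R.cost (fun e => w e + w' e) + R.cost (fun e => w e - w' e) = 2 * R.cost w + 2 * R.cost w' := by
  unfold Rc.cost
  rw [Finset.mul_sum, Finset.mul_sum, ← Finset.sum_add_distrib, ← Finset.sum_add_distrib]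
  exact Finset.sum_congr rfl fun e _ => by ring

theorem sat_var_para (R : Rc) (b : ℝ) (hb : 0 < b) (w w' : Bond → ℝ) :
    R.var b (fun e => w e + w' e) + R.var b (fun e => w e - w' e) = 2 * R.var b w + 2 * R.var b w' := by
  have hS := fr_ok R b hb
  have e1 : R.flowX b (fun e => w e - w' e) = R.flowX b w + (-1 : ℝ) • R.flowX b w' := by
    rw [← flowX_smul, ← flowX_add]
    congr 1
    funext e
    ring
  have e2 : (R.sys b).Cv 0 0 (R.flowX b w) ((-1 : ℝ) • R.flowX b w') = - (R.sys b).Cv 0 0 (R.flowX b w) (R.flowX b w') := by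
    rw [rd_Cv0_eq, rd_Cv0_eq]
    have e3 : (fun z => (R.flowX b w) z * ((-1 : ℝ) • R.flowX b w') z)
        = fun z => (-1 : ℝ) * ((R.flowX b w) z * (R.flowX b w') z) := by
      funext z
      simp
    rw [e3, rd_E0_smul]
    ring
  unfold Rc.var
  rw [e1, flowX_add, var_add _ hS, var_add _ hS, e2, rd_V0_smul]
  ring

/-- L-FR-T6.  `fr_var_smul`; `t k²` bounded. -/
theorem satOn_smul {b : ℕ → ℝ} {a : ℝ} {R : ℕ → Rc} {w : ℕ → Bond → ℝ} (h : SatOn b a R w) (t : ℕ → ℝ) (T : ℝ) (ht : ∀ k, |t k| ≤ T) :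
    SatOn b a R fun k e => t k * w k e := by
  unfold SatOn at h ⊢
  have e : (fun k => (R k).var (b k) (fun e => t k * w k e) - a * (R k).cost (fun e => t k * w k e))
      = fun k => t k ^ 2 * ((R k).var (b k) (w k) - a * (R k).cost (w k)) := by
    funext k
    rw [fr_var_smul, sat_cost_smul]
    ring
  rw [e]
  refine bdd_le_mul_tendsto_zero' (T ^ 2) (Eventually.of_forall fun k => ?_) h
  rw [abs_pow]
  exact pow_le_pow_left₀ (abs_nonneg _) (ht k) 2

/-- L-FR-T6.  **S2, parallelogram law**: `δ(w+w') + δ(w-w') = 2δ(w) + 2δ(w') → 0` (`var_add` twice; same for `cost`), and `liminf δ(w ± w') ≥ 0` by `hu`, `hu'`. -/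
theorem satOn_add {b : ℕ → ℝ} {a : ℝ} {R : ℕ → Rc} {w w' : ℕ → Bond → ℝ} (hb : ∀ k, 0 < b k) (h : SatOn b a R w) (h' : SatOn b a R w')
    (hu : ∀ ε : ℝ, 0 < ε → ∀ᶠ k in atTop, (R k).var (b k) (fun e => w k e + w' k e) ≤ a * (R k).cost (fun e => w k e + w' k e) + ε)
    (hu' : ∀ ε : ℝ, 0 < ε → ∀ᶠ k in atTop, (R k).var (b k) (fun e => w k e - w' k e) ≤ a * (R k).cost (fun e => w k e - w' k e) + ε) :
    SatOn b a R fun k e => w k e + w' k e := by
  unfold SatOn at h h' ⊢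
  rw [Metric.tendsto_atTop] at h h' ⊢
  intro ε hε
  obtain ⟨N1, hN1⟩ := h (ε / 8) (by linarith)
  obtain ⟨N2, hN2⟩ := h' (ε / 8) (by linarith)
  obtain ⟨N3, hN3⟩ := eventually_atTop.1 (hu (ε / 4) (by linarith))
  obtain ⟨N4, hN4⟩ := eventually_atTop.1 (hu' (ε / 4) (by linarith))
  refine ⟨max (max N1 N2) (max N3 N4), fun k hk => ?_⟩
  have k1 : N1 ≤ k := le_trans (le_trans (le_max_left _ _) (le_max_left _ _)) hk
  have k2 : N2 ≤ k := le_trans (le_trans (le_max_right _ _) (le_max_left _ _)) hk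
  have k3 : N3 ≤ k := le_trans (le_trans (le_max_left _ _) (le_max_right _ _)) hk
  have k4 : N4 ≤ k := le_trans (le_trans (le_max_right _ _) (le_max_right _ _)) hk
  have a1 := hN1 k k1
  have a2 := hN2 k k2
  have a3 := hN3 k k3
  have a4 := hN4 k k4
  rw [Real.dist_eq, sub_zero, abs_lt] at a1 a2
  rw [Real.dist_eq, sub_zero, abs_lt]
  have p1 := sat_var_para (R k) (b k) (hb k) (w k) (w' k)
  have p2 := sat_cost_para (R k) (w k) (w' k)
  have p3 : a * ((R k).cost (fun e => w k e + w' k e) + (R k).cost (fun e => w k e - w' k e))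
      = a * (2 * (R k).cost (w k) + 2 * (R k).cost (w' k)) := by rw [p2]
  constructor <;> nlinarith

theorem sat_sq_diff {x y d : ℝ} (hx : 0 ≤ x) (hy : 0 ≤ y) (h1 : x ≤ y + d) (h2 : y ≤ x + d) :
    |x ^ 2 - y ^ 2| ≤ d * (2 * x + d) := by
  have hd : 0 ≤ d := by linarith
  have e : x ^ 2 - y ^ 2 = (x - y) * (x + y) := by ring
  rw [e, abs_mul, abs_of_nonneg (by linarith : 0 ≤ x + y)]
  exact mul_le_mul (abs_le.2 ⟨by linarith, by linarith⟩) (by linarith) (by linarith) hd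

/-- stability of the variance in the flow -/
theorem sat_var_diff (R : Rc) (b : ℝ) (hb : 0 < b) (w w' : Bond → ℝ) :
    |R.var b w - R.var b w'| ≤ Real.sqrt (R.var b fun e => w e - w' e)
      * (2 * Real.sqrt (R.var b w) + Real.sqrt (R.var b fun e => w e - w' e)) := by
  have h1 := fr_sqrt_var_add R b hb w' (fun e => w e - w' e)
  have e1 : (fun e => w' e + (w e - w' e)) = w := by funext e; ring
  rw [e1] at h1
  have h2 := fr_sqrt_var_add R b hb w (fun e => (-1) * (w e - w' e))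
  have e2 : (fun e => w e + (-1) * (w e - w' e)) = w' := by funext e; ring
  rw [e2, fr_var_smul] at h2
  have e3 : ((-1 : ℝ)) ^ 2 * R.var b (fun e => w e - w' e) = R.var b (fun e => w e - w' e) := by ring
  rw [e3] at h2
  have h3 := sat_sq_diff (Real.sqrt_nonneg (R.var b w)) (Real.sqrt_nonneg (R.var b w')) h1 h2
  rwa [Real.sq_sqrt (fr_var_nonneg R b hb w), Real.sq_sqrt (fr_var_nonneg R b hb w')] at h3

/-- stability of the cost in the flow -/
theorem sat_cost_diff (R : Rc) (w w' : Bond → ℝ) :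
    |R.cost w - R.cost w'| ≤ Real.sqrt (R.cost fun e => w e - w' e)
      * (2 * Real.sqrt (R.cost w) + Real.sqrt (R.cost fun e => w e - w' e)) := by
  have h1 := sqrt_cost_add_le R w' (fun e => w e - w' e)
  have e1 : (fun e => w' e + (w e - w' e)) = w := by funext e; ring
  rw [e1] at h1
  have h2 := sqrt_cost_add_le R w (fun e => (-1) * (w e - w' e))
  have e2 : (fun e => w e + (-1) * (w e - w' e)) = w' := by funext e; ring
  rw [e2, sat_cost_smul] at h2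
  have e3 : ((-1 : ℝ)) ^ 2 * R.cost (fun e => w e - w' e) = R.cost (fun e => w e - w' e) := by ring
  rw [e3] at h2
  have h3 := sat_sq_diff (Real.sqrt_nonneg (R.cost w)) (Real.sqrt_nonneg (R.cost w')) h1 h2
  rwa [Real.sq_sqrt (sat_cost_nonneg R w), Real.sq_sqrt (sat_cost_nonneg R w')] at h3

/-- L-FR-T7.  **S3, energy limits.**  `|√V(w) - √V(w^ε)| ≤ √(4π² β C(w - w^ε))`, `|√C(w) - √C(w^ε)| ≤ √C(w - w^ε)`; all quantities bounded by `B`. -/
theorem satOn_closure {b : ℕ → ℝ} {a : ℝ} {R : ℕ → Rc} {w : ℕ → Bond → ℝ} (β B : ℝ) (hb : ∀ k, 0 < b k ∧ b k ≤ β)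
    (hB : ∀ᶠ k in atTop, (R k).cost (w k) ≤ B)
    (h : ∀ ε : ℝ, 0 < ε → ∃ w' : ℕ → Bond → ℝ, SatOn b a R w' ∧ ∀ᶠ k in atTop, (R k).cost (fun e => w k e - w' k e) ≤ ε) :
    SatOn b a R w := by
  have hβ : 0 < β := lt_of_lt_of_le (hb 0).1 (hb 0).2
  obtain ⟨κ, hκ⟩ : ∃ κ : ℝ, κ = 4 * Real.pi ^ 2 * β := ⟨_, rfl⟩
  have hκ0 : 0 ≤ κ := by rw [hκ]; positivity
  obtain ⟨L, hL⟩ : ∃ L : ℝ, L = (κ + |a|) * (2 * Real.sqrt B + 1) + 1 := ⟨_, rfl⟩
  have hL0 : 0 < L := by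
    rw [hL]
    have := Real.sqrt_nonneg B
    positivity
  unfold SatOn
  rw [Metric.tendsto_atTop]
  intro η hη
  obtain ⟨s, hs⟩ : ∃ s : ℝ, s = min 1 (η / (2 * L)) := ⟨_, rfl⟩
  have hs0 : 0 < s := by rw [hs]; exact lt_min one_pos (by positivity)
  have hs1 : s ≤ 1 := by rw [hs]; exact min_le_left _ _
  have hs2 : L * s ≤ η / 2 := by
    have : s ≤ η / (2 * L) := by rw [hs]; exact min_le_right _ _
    calc L * s ≤ L * (η / (2 * L)) := mul_le_mul_of_nonneg_left this hL0.le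
      _ = η / 2 := by field_simp
  obtain ⟨w', hw', hc⟩ := h (s ^ 2) (by positivity)
  unfold SatOn at hw'
  rw [Metric.tendsto_atTop] at hw'
  obtain ⟨N1, hN1⟩ := hw' (η / 2) (by linarith)
  obtain ⟨N2, hN2⟩ := eventually_atTop.1 hc
  obtain ⟨N3, hN3⟩ := eventually_atTop.1 hB
  refine ⟨max N1 (max N2 N3), fun k hk => ?_⟩
  have a1 := hN1 k (le_trans (le_max_left _ _) hk)
  have a2 := hN2 k (le_trans (le_trans (le_max_left _ _) (le_max_right _ _)) hk)
  have a3 := hN3 k (le_trans (le_trans (le_max_right _ _) (le_max_right _ _)) hk)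
  rw [Real.dist_eq, sub_zero] at a1 ⊢
  have hbk := hb k
  have hκb : 4 * Real.pi ^ 2 * b k ≤ κ := by
    rw [hκ]
    exact mul_le_mul_of_nonneg_left hbk.2 (by positivity)
  -- costs
  have c1 : Real.sqrt ((R k).cost fun e => w k e - w' k e) ≤ s := by
    rw [← Real.sqrt_sq hs0.le]
    exact Real.sqrt_le_sqrt a2
  have c2 : Real.sqrt ((R k).cost (w k)) ≤ Real.sqrt B := Real.sqrt_le_sqrt a3
  have c3 := sat_cost_diff (R k) (w k) (w' k)
  have c4 : |(R k).cost (w k) - (R k).cost (w' k)| ≤ s * (2 * Real.sqrt B + 1) :=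
    c3.trans (mul_le_mul c1 (by linarith) (by positivity) hs0.le)
  -- variances
  have v1 : Real.sqrt ((R k).var (b k) fun e => w k e - w' k e) ≤ Real.sqrt κ * s := by
    rw [← Real.sqrt_sq hs0.le, ← Real.sqrt_mul hκ0]
    refine Real.sqrt_le_sqrt ((fr_var_ref (R k) (b k) hbk.1 _).trans ?_)
    exact mul_le_mul hκb a2 (sat_cost_nonneg _ _) hκ0
  have v2 : Real.sqrt ((R k).var (b k) (w k)) ≤ Real.sqrt κ * Real.sqrt B := by
    rw [← Real.sqrt_mul hκ0]
    refine Real.sqrt_le_sqrt ((fr_var_ref (R k) (b k) hbk.1 _).trans ?_)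
    exact mul_le_mul hκb a3 (sat_cost_nonneg _ _) hκ0
  have v3 := sat_var_diff (R k) (b k) hbk.1 (w k) (w' k)
  have hsκ : 0 ≤ Real.sqrt κ := Real.sqrt_nonneg _
  have v4 : |(R k).var (b k) (w k) - (R k).var (b k) (w' k)| ≤ κ * (s * (2 * Real.sqrt B + 1)) := by
    refine v3.trans ?_
    have v5 : 2 * Real.sqrt ((R k).var (b k) (w k)) + Real.sqrt ((R k).var (b k) fun e => w k e - w' k e)
        ≤ Real.sqrt κ * (2 * Real.sqrt B + 1) := by nlinarith
    refine (mul_le_mul v1 v5 (by positivity) (by positivity)).trans (le_of_eq ?_)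
    have := Real.mul_self_sqrt hκ0
    calc Real.sqrt κ * s * (Real.sqrt κ * (2 * Real.sqrt B + 1))
        = (Real.sqrt κ * Real.sqrt κ) * (s * (2 * Real.sqrt B + 1)) := by ring
      _ = κ * (s * (2 * Real.sqrt B + 1)) := by rw [this]
  have hfin : |(R k).var (b k) (w k) - a * (R k).cost (w k)|
      ≤ |(R k).var (b k) (w' k) - a * (R k).cost (w' k)| + |(R k).var (b k) (w k) - (R k).var (b k) (w' k)|
        + |a| * |(R k).cost (w k) - (R k).cost (w' k)| := by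
    have e : (R k).var (b k) (w k) - a * (R k).cost (w k)
        = ((R k).var (b k) (w' k) - a * (R k).cost (w' k)) + ((R k).var (b k) (w k) - (R k).var (b k) (w' k))
          + (-(a * ((R k).cost (w k) - (R k).cost (w' k)))) := by ring
    rw [e, ← abs_mul a, ← abs_neg (a * _)]
    exact (abs_add_le _ _).trans (add_le_add (abs_add_le _ _) le_rfl)
  have h5 : |a| * |(R k).cost (w k) - (R k).cost (w' k)| ≤ |a| * (s * (2 * Real.sqrt B + 1)) :=
    mul_le_mul_of_nonneg_left c4 (abs_nonneg _)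
  have h6 : κ * (s * (2 * Real.sqrt B + 1)) + |a| * (s * (2 * Real.sqrt B + 1)) ≤ L * s := by
    rw [hL]
    nlinarith
  linarith

/-- membership of a bond, in coordinates -/
theorem sat_mem_bd_true {R : Rc} {x y : ℤ} :
    (((x, y), true) : Bond) ∈ R.bd ↔ (R.o.1 ≤ x ∧ x + 1 < R.o.1 + R.p) ∧ (R.o.2 ≤ y ∧ y < R.o.2 + R.q) := by
  rw [mem_bd, sat_mem_set, sat_mem_set]
  simp only [Bond.snd, if_true]
  omega

theorem sat_mem_bd_false {R : Rc} {x y : ℤ} :
    (((x, y), false) : Bond) ∈ R.bd ↔ (R.o.1 ≤ x ∧ x < R.o.1 + R.p) ∧ (R.o.2 ≤ y ∧ y + 1 < R.o.2 + R.q) := by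
  rw [mem_bd, sat_mem_set, sat_mem_set]
  simp only [Bond.snd, Bool.false_eq_true, if_false]
  omega

/-- L-FR-T8 (finite, combinatorial).  **The frame**: `R' ⊆ R` nonempty; `R` is the disjoint union of `R'` and four rectangles (left and right of full height, below and above `R'`; possibly empty);
the bonds of `R` in none of the five pieces join two pieces: at most `2 (R.p + R.q)` of them. -/
theorem fr_frame (R R' : Rc) (h : R'.set ⊆ R.set) (hne : R'.set.Nonempty) : ∃ Q : Fin 5 → Rc, Q 0 = R' ∧ (∀ i, (Q i).set ⊆ R.set) ∧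
    (∀ i j, i ≠ j → Disjoint (Q i).set (Q j).set) ∧
    ((R.bd.filter fun e => ∀ i, e ∉ (Q i).bd).card : ℝ) ≤ 2 * ((R.p : ℝ) + R.q) ∧
    (∀ i, (Q i).o.1 ∈ Set.Icc R.o.1 (R.o.1 + R.p) ∧ (Q i).o.2 ∈ Set.Icc R.o.2 (R.o.2 + R.q) ∧ (Q i).p ≤ R.p ∧ (Q i).q ≤ R.q) := by
  obtain ⟨⟨x0, y0⟩, p, q⟩ := R
  obtain ⟨⟨x1, y1⟩, p', q'⟩ := R'
  obtain ⟨v, hv⟩ := hne
  have hv' := sat_mem_set.1 hv
  simp only at hv'
  have ho : ((x1, y1) : ℤ × ℤ) ∈ (Rc.mk (x1, y1) p' q').set := sat_mem_set.2 (by simp only; omega)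
  have hc : ((x1 + p' - 1, y1 + q' - 1) : ℤ × ℤ) ∈ (Rc.mk (x1, y1) p' q').set := sat_mem_set.2 (by simp only; omega)
  have ho' := sat_mem_set.1 (h ho)
  have hc' := sat_mem_set.1 (h hc)
  simp only at ho' hc'
  obtain ⟨Q, hQ⟩ : ∃ Q : Fin 5 → Rc, Q = ![Rc.mk (x1, y1) p' q', Rc.mk (x0, y0) (x1 - x0).toNat q,
      Rc.mk (x1 + p', y0) (x0 + p - x1 - p').toNat q, Rc.mk (x1, y0) p' (y1 - y0).toNat,
      Rc.mk (x1, y1 + q') p' (y0 + q - y1 - q').toNat] := ⟨_, rfl⟩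
  have q0 : Q 0 = Rc.mk (x1, y1) p' q' := by rw [hQ]; rfl
  have q1 : Q 1 = Rc.mk (x0, y0) (x1 - x0).toNat q := by rw [hQ]; rfl
  have q2 : Q 2 = Rc.mk (x1 + p', y0) (x0 + p - x1 - p').toNat q := by rw [hQ]; rfl
  have q3 : Q 3 = Rc.mk (x1, y0) p' (y1 - y0).toNat := by rw [hQ]; rfl
  have q4 : Q 4 = Rc.mk (x1, y1 + q') p' (y0 + q - y1 - q').toNat := by rw [hQ]; rfl
  refine ⟨Q, q0, ?_, ?_, ?_, ?_⟩
  · intro i v hv
    rw [sat_mem_set] at hv ⊢
    fin_cases i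
    · simp only [Fin.zero_eta, q0] at hv ⊢; omega
    · simp only [Fin.mk_one, q1] at hv ⊢; omega
    · simp only [Fin.reduceFinMk, q2] at hv ⊢; omega
    · simp only [Fin.reduceFinMk, q3] at hv ⊢; omega
    · simp only [Fin.reduceFinMk, q4] at hv ⊢; omega
  · intro i j hij
    rw [Finset.disjoint_left]
    intro v hv hv2
    rw [sat_mem_set] at hv hv2
    fin_cases i <;> fin_cases j <;>
      first
        | exact absurd rfl hij
        | (simp only [Fin.zero_eta, Fin.mk_one, Fin.reduceFinMk, q0, q1, q2, q3, q4] at hv hv2; omega)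
  · have hsub : ((Rc.mk (x0, y0) p q).bd.filter fun e => ∀ i, e ∉ (Q i).bd) ⊆
        (((Finset.Ico y0 (y0 + q)).image (fun y => (((x1 - 1, y), true) : Bond))
          ∪ (Finset.Ico y0 (y0 + q)).image (fun y => (((x1 + p' - 1, y), true) : Bond)))
          ∪ ((Finset.Ico x0 (x0 + p)).image (fun x => (((x, y1 - 1), false) : Bond))
          ∪ (Finset.Ico x0 (x0 + p)).image (fun x => (((x, y1 + q' - 1), false) : Bond)))) := by
      rintro ⟨⟨x, y⟩, d⟩ he
      rw [Finset.mem_filter] at he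
      obtain ⟨he1, he2⟩ := he
      have a0 := he2 0
      have a1 := he2 1
      have a2 := he2 2
      have a3 := he2 3
      have a4 := he2 4
      rw [q0] at a0
      rw [q1] at a1
      rw [q2] at a2
      rw [q3] at a3
      rw [q4] at a4
      simp only [Finset.mem_union, Finset.mem_image, Finset.mem_Ico, Prod.mk.injEq]
      cases d
      · rw [sat_mem_bd_false] at he1 a0 a1 a2 a3 a4
        simp only at he1 a0 a1 a2 a3 a4
        right
        by_cases hy : y = y1 - 1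
        · left
          exact ⟨x, by omega, ⟨rfl, hy.symm⟩, rfl⟩
        · right
          exact ⟨x, by omega, ⟨rfl, by omega⟩, rfl⟩
      · rw [sat_mem_bd_true] at he1 a0 a1 a2 a3 a4
        simp only at he1 a0 a1 a2 a3 a4
        left
        by_cases hx : x = x1 - 1
        · left
          exact ⟨y, by omega, ⟨hx.symm, rfl⟩, rfl⟩
        · right
          exact ⟨y, by omega, ⟨by omega, rfl⟩, rfl⟩
    have hcard := Finset.card_le_card hsub
    have c1 : ∀ (f : ℤ → Bond) (a : ℤ) (r : ℕ), ((Finset.Ico a (a + r)).image f).card ≤ r := by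
      intro f a r
      refine Finset.card_image_le.trans ?_
      rw [Int.card_Ico]
      simp
    have hcard2 : ((Rc.mk (x0, y0) p q).bd.filter fun e => ∀ i, e ∉ (Q i).bd).card ≤ (q + q) + (p + p) :=
      hcard.trans ((Finset.card_union_le _ _).trans (add_le_add
        ((Finset.card_union_le _ _).trans (add_le_add (c1 _ _ _) (c1 _ _ _)))
        ((Finset.card_union_le _ _).trans (add_le_add (c1 _ _ _) (c1 _ _ _)))))
    have hcard3 : (((Rc.mk (x0, y0) p q).bd.filter fun e => ∀ i, e ∉ (Q i).bd).card : ℝ) ≤ ((q + q) + (p + p) : ℕ) := by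
      exact_mod_cast hcard2
    push_cast at hcard3
    simp only
    linarith
  · intro i
    simp only [Set.mem_Icc]
    fin_cases i <;>
      (simp only [Fin.zero_eta, Fin.mk_one, Fin.reduceFinMk, q0, q1, q2, q3, q4]; omega)

/-- an empty rectangle carries nothing -/
theorem sat_empty (R : Rc) (h : ¬ R.set.Nonempty) (b : ℝ) (hb : 0 < b) (w : Bond → ℝ) : R.cost w = 0 ∧ R.var b w = 0 := by
  have h1 : R.bd = ∅ := by
    rw [Finset.eq_empty_iff_forall_notMem]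
    intro e he
    exact h ⟨e.1, (mem_bd.1 he).1⟩
  have h2 : R.cost w = 0 := by
    unfold Rc.cost
    rw [h1, Finset.sum_empty]
  refine ⟨h2, le_antisymm ?_ (fr_var_nonneg R b hb w)⟩
  have := fr_var_ref R b hb w
  rwa [h2, mul_zero] at this

/-- the costs of disjoint pieces add up to at most the cost of the whole -/
theorem sat_sum_cost_le (R : Rc) {ι : Type} [Fintype ι] (Q : ι → Rc) (hsub : ∀ i, (Q i).set ⊆ R.set)
    (hdis : ∀ i j, i ≠ j → Disjoint (Q i).set (Q j).set) (w : Bond → ℝ) : ∑ i, (Q i).cost w ≤ R.cost w := by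
  unfold Rc.cost
  rw [← Finset.sum_biUnion]
  · refine Finset.sum_le_sum_of_subset_of_nonneg ?_ fun e _ _ => sq_nonneg _
    intro e he
    rw [Finset.mem_biUnion] at he
    obtain ⟨i, -, hi⟩ := he
    exact sat_bd_mono (hsub i) hi
  · intro i _ j _ hij
    exact Finset.disjoint_left.2 fun e h1 h2 => Finset.disjoint_left.1 (hdis i j hij) (mem_bd.1 h1).1 (mem_bd.1 h2).1

theorem sat_frame_lower (R : Rc) (Q : Fin 5 → Rc) (hsub : ∀ i, (Q i).set ⊆ R.set)
    (hdis : ∀ i j, i ≠ j → Disjoint (Q i).set (Q j).set) (b : ℝ) (hb : 0 < b) (κ₁ : ℝ) (hκ : 4 * Real.pi ^ 2 * b ≤ κ₁)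
    (w : Bond → ℝ) (a : ℝ) (ha : 0 ≤ a) (C₀ ε' η₀ : ℝ) (hC₀ : R.cost w ≤ C₀)
    (hseam : κ₁ * ∑ e ∈ R.bd.filter (fun e => ∀ i, e ∉ (Q i).bd), w e ^ 2 ≤ η₀)
    (hub : ∀ i, i ≠ 0 → (Q i).var b w ≤ a * (Q i).cost w + ε')
    (hlow : a * R.cost w - ε' ≤ R.var b w) :
    a * (Q 0).cost w - (5 * ε' + (2 * Real.sqrt (κ₁ * C₀ * (1 * η₀)) + 1 * η₀)) ≤ (Q 0).var b w := by
  have hκ0 : 0 ≤ 4 * Real.pi ^ 2 * b := by positivity
  have hκ₁0 : 0 ≤ κ₁ := hκ0.trans hκ
  have hs0 : 0 ≤ ∑ e ∈ R.bd.filter (fun e => ∀ i, e ∉ (Q i).bd), w e ^ 2 := Finset.sum_nonneg fun _ _ => sq_nonneg _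
  have h1 := fr_cut_seam R b hb Q hsub hdis w
  rw [Finset.filter_congr_decidable] at h1
  have hsum := sat_sum_cost_le R Q hsub hdis w
  have hA0 : 0 ≤ ∑ i, (Q i).var b w := Finset.sum_nonneg fun i _ => fr_var_nonneg _ _ hb _
  have hA : ∑ i, (Q i).var b w ≤ κ₁ * C₀ := by
    calc ∑ i, (Q i).var b w ≤ ∑ i, κ₁ * (Q i).cost w := Finset.sum_le_sum fun i _ =>
          (fr_var_ref _ _ hb _).trans (mul_le_mul_of_nonneg_right hκ (sat_cost_nonneg _ _))
      _ = κ₁ * ∑ i, (Q i).cost w := by rw [Finset.mul_sum]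
      _ ≤ κ₁ * C₀ := mul_le_mul_of_nonneg_left (hsum.trans hC₀) hκ₁0
  have hE0 : 0 ≤ 4 * Real.pi ^ 2 * b * ∑ e ∈ R.bd.filter (fun e => ∀ i, e ∉ (Q i).bd), w e ^ 2 := mul_nonneg hκ0 hs0
  have hE : 4 * Real.pi ^ 2 * b * ∑ e ∈ R.bd.filter (fun e => ∀ i, e ∉ (Q i).bd), w e ^ 2 ≤ η₀ :=
    (mul_le_mul_of_nonneg_right hκ hs0).trans hseam
  have h2 := sq_of_sqrt_le hA0 hE0 hA h1
  have h3 : Real.sqrt (κ₁ * C₀ * (4 * Real.pi ^ 2 * b * ∑ e ∈ R.bd.filter (fun e => ∀ i, e ∉ (Q i).bd), w e ^ 2))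
      ≤ Real.sqrt (κ₁ * C₀ * (1 * η₀)) := by
    rw [one_mul]
    exact Real.sqrt_le_sqrt (mul_le_mul_of_nonneg_left hE (hA0.trans hA))
  have h4 : ∑ i, (Q i).var b w ≤ (Q 0).var b w + (a * (R.cost w - (Q 0).cost w) + 4 * ε') := by
    rw [Fin.sum_univ_succ]
    rw [Fin.sum_univ_succ] at hsum
    have h5 : ∑ i : Fin 4, (Q i.succ).var b w ≤ ∑ i : Fin 4, (a * (Q i.succ).cost w + ε') :=
      Finset.sum_le_sum fun i _ => hub _ (Fin.succ_ne_zero i)
    rw [Finset.sum_add_distrib, ← Finset.mul_sum] at h5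
    simp only [Finset.sum_const, Finset.card_univ, Fintype.card_fin, nsmul_eq_mul] at h5
    have h6 : a * ∑ i : Fin 4, (Q i.succ).cost w ≤ a * (R.cost w - (Q 0).cost w) :=
      mul_le_mul_of_nonneg_left (by linarith) ha
    push_cast at h5
    generalize ∑ i : Fin 4, (Q i.succ).var b w = x1 at *
    generalize (Q 0).var b w = x2 at *
    generalize a * ∑ i : Fin 4, (Q i.succ).cost w = x3 at *
    generalize a * (R.cost w - (Q 0).cost w) = x4 at *
    linarith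
  have e : a * (R.cost w - (Q 0).cost w) = a * R.cost w - a * (Q 0).cost w := by ring
  rw [e] at h4
  generalize ∑ i, (Q i).var b w = x1 at *
  generalize (Q 0).var b w = x2 at *
  generalize R.var b w = x3 at *
  generalize a * R.cost w = x4 at *
  generalize a * (Q 0).cost w = x5 at *
  generalize Real.sqrt (κ₁ * C₀ * (1 * η₀)) = x6 at *
  generalize Real.sqrt (κ₁ * C₀ * (4 * Real.pi ^ 2 * b * ∑ e ∈ R.bd.filter (fun e => ∀ i, e ∉ (Q i).bd), w e ^ 2)) = x7 at *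
  generalize 4 * Real.pi ^ 2 * b * ∑ e ∈ R.bd.filter (fun e => ∀ i, e ∉ (Q i).bd), w e ^ 2 = x8 at *
  linarith

theorem sat_num_seam {M N p q K₀ κ₁ η₀ : ℝ} (hN : 0 < N) (hp : p ≤ K₀ * N) (hq : q ≤ K₀ * N) (hκ : 0 ≤ κ₁) (hη : 0 < η₀)
    (hN2 : κ₁ * (4 * |K₀| * M ^ 2) / η₀ ≤ N) : κ₁ * (2 * (p + q) * (M / N) ^ 2) ≤ η₀ := by
  have h1 : 2 * (p + q) ≤ 4 * |K₀| * N := by
    have := mul_le_mul_of_nonneg_right (le_abs_self K₀) hN.le
    linarith
  have h2 : κ₁ * (2 * (p + q) * (M / N) ^ 2) ≤ κ₁ * (4 * |K₀| * N * (M / N) ^ 2) :=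
    mul_le_mul_of_nonneg_left (mul_le_mul_of_nonneg_right h1 (sq_nonneg _)) hκ
  refine h2.trans ?_
  have e : κ₁ * (4 * |K₀| * N * (M / N) ^ 2) = κ₁ * (4 * |K₀| * M ^ 2) / N := by
    field_simp
  rw [e, div_le_iff₀ hN]
  rw [div_le_iff₀ hη] at hN2
  linarith

/-- L-FR-T9.  **S4, restriction.**  `fr_frame` for every `k` (if `(R' k).set = ∅` both terms vanish), the five sequences are admissible; `fr_cut_seam`, seam cost `≤ 2 (p+q) M²/n² → 0`; `∑_i C(Q i) ≤ C(R)`;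
`a C(R) - o(1) ≤ V(R) ≤ ∑ V(Q i) + o(1) ≤ V(R') + a ∑_{i ≥ 1} C(Q i) + o(1)` (`ub_of_tame` on the four others), and `V(R') ≤ a C(R') + o(1)`. -/
theorem satOn_restrict {b : ℕ → ℝ} {n : ℕ → ℕ} {a : ℝ} (hS : ScaleCoef b n a) {w : ℕ → Bond → ℝ} (hw : Tame n w) {R R' : ℕ → Rc}
    (hR : Adm n R) (hsub : ∀ k, (R' k).set ⊆ (R k).set) (h : SatOn b a R w) : SatOn b a R' w := by
  have ha : 0 ≤ a := fr_scaleCoef_nonneg hS
  have hbpos := sat_b_pos hS
  have hub := ub_of_tame hS hw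
  obtain ⟨K, hK0, hK⟩ := adm_win hR
  obtain ⟨C₀, hC₀⟩ := tame_cost_bdd hw hR
  obtain ⟨⟨M, hM⟩, -⟩ := hw K
  have hn : Tendsto n atTop atTop := hS.2.1
  obtain ⟨β₀, β₁, hβ₀, hβ⟩ := hS.1
  obtain ⟨K₀, hK₀⟩ := hR
  have hex : ∀ k, ∃ Q : Fin 5 → Rc,
      (∀ i, (Q i).o.1 ∈ Set.Icc (R k).o.1 ((R k).o.1 + (R k).p) ∧ (Q i).o.2 ∈ Set.Icc (R k).o.2 ((R k).o.2 + (R k).q)
        ∧ (Q i).p ≤ (R k).p ∧ (Q i).q ≤ (R k).q) ∧
      ((R' k).set.Nonempty → Q 0 = R' k ∧ (∀ i, (Q i).set ⊆ (R k).set) ∧ (∀ i j, i ≠ j → Disjoint (Q i).set (Q j).set) ∧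
        (((R k).bd.filter fun e => ∀ i, e ∉ (Q i).bd).card : ℝ) ≤ 2 * (((R k).p : ℝ) + (R k).q)) := by
    intro k
    by_cases hne : (R' k).set.Nonempty
    · obtain ⟨Q, h0, h1, h2, h3, h4⟩ := fr_frame (R k) (R' k) (hsub k) hne
      exact ⟨Q, h4, fun _ => ⟨h0, h1, h2, h3⟩⟩
    · exact ⟨fun _ => ⟨(R k).o, 0, 0⟩, fun i => ⟨⟨le_rfl, by simp⟩, ⟨le_rfl, by simp⟩, Nat.zero_le _, Nat.zero_le _⟩,
        fun h => absurd h hne⟩
  choose Q hQ1 hQ2 using hex
  have hadm : ∀ i, Adm n fun k => Q k i := by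
    intro i
    refine ⟨2 * K₀, fun k => ?_⟩
    obtain ⟨a1, a2, a3, a4⟩ := hK₀ k
    obtain ⟨⟨b1, b2⟩, ⟨b3, b4⟩, b5, b6⟩ := hQ1 k i
    have B1 : ((R k).o.1 : ℝ) ≤ (Q k i).o.1 := by exact_mod_cast b1
    have B2 : ((Q k i).o.1 : ℝ) ≤ (R k).o.1 + (R k).p := by exact_mod_cast b2
    have B3 : ((R k).o.2 : ℝ) ≤ (Q k i).o.2 := by exact_mod_cast b3
    have B4 : ((Q k i).o.2 : ℝ) ≤ (R k).o.2 + (R k).q := by exact_mod_cast b4
    have B5 : ((Q k i).p : ℝ) ≤ (R k).p := by exact_mod_cast b5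
    have B6 : ((Q k i).q : ℝ) ≤ (R k).q := by exact_mod_cast b6
    have hp0 : (0:ℝ) ≤ (R k).p := Nat.cast_nonneg _
    have a1' := abs_le.1 a1
    have a2' := abs_le.1 a2
    have e : 2 * K₀ * n k = K₀ * n k + K₀ * n k := by ring
    rw [e]
    refine ⟨abs_le.2 ⟨by linarith, by linarith⟩, abs_le.2 ⟨by linarith, by linarith⟩, by linarith, by linarith⟩
  obtain ⟨κ₁, hκ₁⟩ : ∃ κ₁ : ℝ, κ₁ = 4 * Real.pi ^ 2 * β₁ := ⟨_, rfl⟩
  have hβ₁ : 0 < β₁ := lt_of_lt_of_le hβ₀ ((hβ 0).1.trans (hβ 0).2)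
  have hκ₁0 : 0 ≤ κ₁ := by rw [hκ₁]; positivity
  unfold SatOn at h ⊢
  rw [Metric.tendsto_atTop] at h ⊢
  intro η hη
  obtain ⟨η₀, hη₀, hη₀ε⟩ := sat_exists_eta (κ₁ * C₀) 1 (η / 7) (by linarith)
  have hnR : Tendsto (fun k => (n k : ℝ)) atTop atTop := tendsto_natCast_atTop_atTop.comp hn
  have e1 : ∀ᶠ k in atTop, ∀ i, (Q k i).var (b k) (w k) ≤ a * (Q k i).cost (w k) + η / 7 :=
    eventually_all.2 fun i => hub _ (hadm i) (η / 7) (by linarith)
  obtain ⟨N2, hN2⟩ := h (η / 7) (by linarith)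
  have e3 : ∀ᶠ k in atTop, κ₁ * (4 * |K₀| * M ^ 2) / η₀ ≤ n k := hnR.eventually_ge_atTop _
  have e4 : ∀ᶠ k in atTop, (0:ℝ) < n k := hnR.eventually_gt_atTop _
  obtain ⟨N1, hN1⟩ := eventually_atTop.1 (e1.and (e3.and e4))
  refine ⟨max N1 N2, fun k hk => ?_⟩
  obtain ⟨t1, t3, t4⟩ := hN1 k (le_trans (le_max_left _ _) hk)
  have t2 := hN2 k (le_trans (le_max_right _ _) hk)
  rw [Real.dist_eq, sub_zero] at t2 ⊢
  by_cases hne : (R' k).set.Nonempty
  · obtain ⟨q0, q1, q2, q3⟩ := hQ2 k hne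
    obtain ⟨-, -, hp, hq⟩ := hK₀ k
    have hκ : 4 * Real.pi ^ 2 * b k ≤ κ₁ := by
      rw [hκ₁]
      exact mul_le_mul_of_nonneg_left (hβ k).2 (by positivity)
    have hseam : κ₁ * ∑ e ∈ (R k).bd.filter (fun e => ∀ i, e ∉ (Q k i).bd), w k e ^ 2 ≤ η₀ := by
      refine le_trans (mul_le_mul_of_nonneg_left ?_ hκ₁0) (sat_num_seam (M := M) t4 hp hq hκ₁0 hη₀ t3)
      have s1 : ∑ e ∈ (R k).bd.filter (fun e => ∀ i, e ∉ (Q k i).bd), w k e ^ 2
          ≤ (((R k).bd.filter fun e => ∀ i, e ∉ (Q k i).bd).card : ℝ) * (M / n k) ^ 2 := by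
        rw [← nsmul_eq_mul]
        refine Finset.sum_le_card_nsmul _ _ _ fun e he => ?_
        rw [← sq_abs]
        exact pow_le_pow_left₀ (abs_nonneg _) (hM k e (sat_bd_mono (hK k) (Finset.mem_filter.1 he).1)) 2
      exact s1.trans (mul_le_mul_of_nonneg_right q3 (sq_nonneg _))
    have hlow := sat_frame_lower (R k) (Q k) q1 q2 (b k) (hbpos k) κ₁ hκ (w k) a ha C₀ (η / 7) η₀ (hC₀ k) hseam
      (fun i _ => t1 i) (by have := (abs_lt.1 t2).1; linarith)
    have hup := t1 0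
    rw [q0] at hlow hup
    rw [abs_lt]
    constructor <;> linarith
  · obtain ⟨c1, c2⟩ := sat_empty (R' k) hne (b k) (hbpos k) (w k)
    rw [c1, c2]
    simpa using hη

/-! ## 3. `TS` is a linear class -/

/-- `satOn_smul`, `tame_smul`.   L-FR-T10. -/
theorem ts_smul {b : ℕ → ℝ} {n : ℕ → ℕ} {a : ℝ} {w : ℕ → Bond → ℝ} (h : TS b n a w) (t : ℕ → ℝ) (T : ℝ) (ht : ∀ k, |t k| ≤ T) :
    TS b n a fun k e => t k * w k e :=
  ⟨tame_smul h.1 t T ht, fun R hR => satOn_smul (h.2 R hR) t T ht⟩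

/-- `satOn_add`, `tame_add`, `tame_smul` (`-1`), `ub_of_tame`.   L-FR-T10. -/
theorem ts_add {b : ℕ → ℝ} {n : ℕ → ℕ} {a : ℝ} (hS : ScaleCoef b n a) {w w' : ℕ → Bond → ℝ} (h : TS b n a w) (h' : TS b n a w') :
    TS b n a fun k e => w k e + w' k e := by
  have t1 := tame_add h.1 h'.1
  have t2 : Tame n fun k e => w k e - w' k e := by
    have := tame_add h.1 (tame_smul h'.1 (fun _ => -1) 1 (fun _ => by simp))
    have e : (fun k e => w k e + (-1) * w' k e) = fun k e => w k e - w' k e := by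
      funext k e; ring
    rwa [e] at this
  exact ⟨t1, fun R hR => satOn_add (sat_b_pos hS) (h.2 R hR) (h'.2 R hR) (ub_of_tame hS t1 R hR) (ub_of_tame hS t2 R hR)⟩

theorem ts_zero {b : ℕ → ℝ} {n : ℕ → ℕ} {a : ℝ} : TS b n a fun _ _ => 0 := by
  refine ⟨fun K => ⟨⟨0, fun k e _ => by simp⟩, fun ε hε => ⟨1, one_pos, Eventually.of_forall fun k m o _ _ =>
    ⟨fun _ _ => 0, by simpa using hε.le⟩⟩⟩, fun R _ => ?_⟩
  unfold SatOn
  have e : (fun k => (R k).var (b k) (fun _ => (0:ℝ)) - a * (R k).cost (fun _ => (0:ℝ))) = fun _ => 0 := by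
    funext k
    have h1 := fr_var_smul (R k) (b k) 0 (fun _ => 0)
    simp only [mul_zero] at h1
    have h2 : (R k).cost (fun _ => (0:ℝ)) = 0 := by simp [Rc.cost]
    rw [h1, h2]
    ring
  rw [e]
  exact tendsto_const_nhds

/-- `Finset.induction` with `ts_add`, `ts_smul`; the zero flow is `TS`.   L-FR-T10. -/
theorem ts_sum {b : ℕ → ℝ} {n : ℕ → ℕ} {a : ℝ} (hS : ScaleCoef b n a) {ι : Type} [Fintype ι] (w : ι → ℕ → Bond → ℝ)
    (h : ∀ i, TS b n a (w i)) (t : ι → ℕ → ℝ) (T : ℝ) (ht : ∀ i k, |t i k| ≤ T) :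
    TS b n a fun k e => ∑ i, t i k * w i k e := by
  have key : ∀ s : Finset ι, TS b n a fun k e => ∑ i ∈ s, t i k * w i k e := by
    intro s
    induction s using Finset.induction_on with
    | empty => simpa using ts_zero
    | insert i s hi ih =>
      have := ts_add hS (ts_smul (h i) (t i) T (ht i)) ih
      have e : (fun k e => ∑ j ∈ insert i s, t j k * w j k e) = fun k e => t i k * w i k e + ∑ j ∈ s, t j k * w j k e := by
        funext k e
        rw [Finset.sum_insert hi]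
      rw [e]
      exact this
  exact key Finset.univ

/-! ## 4. Folds -/

theorem sat_adj_iff (x y : ℤ × ℤ) : Adj x y ↔
    (y = (x.1 + 1, x.2) ∨ y = (x.1, x.2 + 1) ∨ x = (y.1 + 1, y.2) ∨ x = (y.1, y.2 + 1)) := by
  obtain ⟨x1, x2⟩ := x
  obtain ⟨y1, y2⟩ := y
  simp only [Adj, Prod.mk.injEq]
  rcases abs_cases (x1 - y1) with ⟨h1, h1'⟩ | ⟨h1, h1'⟩ <;> rcases abs_cases (x2 - y2) with ⟨h2, h2'⟩ | ⟨h2, h2'⟩ <;>
    rw [h1, h2] <;> omega

theorem sat_adj_symm {x y : ℤ × ℤ} (h : Adj x y) : Adj y x := by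
  unfold Adj at h ⊢
  rwa [abs_sub_comm y.1, abs_sub_comm y.2]

theorem sat_adj_ite (x y : ℤ × ℤ) (c : ℝ) : (if Adj x y then c else 0) =
    (if y = (x.1 + 1, x.2) then c else 0) + (if y = (x.1, x.2 + 1) then c else 0)
      + ((if x = (y.1 + 1, y.2) then c else 0) + (if x = (y.1, y.2 + 1) then c else 0)) := by
  rw [sat_adj_iff]
  obtain ⟨x1, x2⟩ := x
  obtain ⟨y1, y2⟩ := y
  simp only [Prod.mk.injEq]
  by_cases h1 : y1 = x1 + 1 ∧ y2 = x2
  · have h2 : ¬ (y1 = x1 ∧ y2 = x2 + 1) := by omega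
    have h3 : ¬ (x1 = y1 + 1 ∧ x2 = y2) := by omega
    have h4 : ¬ (x1 = y1 ∧ x2 = y2 + 1) := by omega
    rw [if_pos (Or.inl h1), if_pos h1, if_neg h2, if_neg h3, if_neg h4]
    ring
  · by_cases h2 : y1 = x1 ∧ y2 = x2 + 1
    · have h3 : ¬ (x1 = y1 + 1 ∧ x2 = y2) := by omega
      have h4 : ¬ (x1 = y1 ∧ x2 = y2 + 1) := by omega
      rw [if_pos (Or.inr (Or.inl h2)), if_neg h1, if_pos h2, if_neg h3, if_neg h4]
      ring
    · by_cases h3 : x1 = y1 + 1 ∧ x2 = y2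
      · have h4 : ¬ (x1 = y1 ∧ x2 = y2 + 1) := by omega
        rw [if_pos (Or.inr (Or.inr (Or.inl h3))), if_neg h1, if_neg h2, if_pos h3, if_neg h4]
        ring
      · by_cases h4 : x1 = y1 ∧ x2 = y2 + 1
        · rw [if_pos (Or.inr (Or.inr (Or.inr h4))), if_neg h1, if_neg h2, if_neg h3, if_pos h4]
          ring
        · rw [if_neg (by tauto), if_neg h1, if_neg h2, if_neg h3, if_neg h4]
          ring

/-- a sum over bonds as a sum over pairs of sites -/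
theorem sat_sum_bd (R : Rc) (F : ℤ × ℤ → ℤ × ℤ → ℝ) : ∑ e ∈ R.bd, F e.1 e.snd =
    ∑ x ∈ R.set, ∑ y ∈ R.set, ((if y = (x.1 + 1, x.2) then F x y else 0) + (if y = (x.1, x.2 + 1) then F x y else 0)) := by
  have e1 : R.bd = (R.set ×ˢ (Finset.univ : Finset Bool)).filter fun e : Bond => e.snd ∈ R.set := by
    unfold Rc.bd domBonds
    simp
  rw [e1, Finset.sum_filter, Finset.sum_product]
  refine Finset.sum_congr rfl fun x _ => ?_
  rw [Finset.sum_add_distrib, Fintype.sum_bool]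
  simp only [Bond.snd, if_true, Bool.false_eq_true, if_false]
  congr 1
  · rw [Finset.sum_ite_eq']
  · rw [Finset.sum_ite_eq']

/-- ordered adjacent pairs = bonds in both orientations -/
theorem sat_pairs (R : Rc) (F : ℤ × ℤ → ℤ × ℤ → ℝ) :
    ∑ x ∈ R.set, ∑ y ∈ R.set, (if Adj x y then F x y else 0) = ∑ e ∈ R.bd, (F e.1 e.snd + F e.snd e.1) := by
  rw [Finset.sum_add_distrib, sat_sum_bd R F, sat_sum_bd R fun x y => F y x]
  conv_rhs => rw [Finset.sum_comm (s := R.set) (t := R.set) (f := fun x y => (if y = (x.1 + 1, x.2) then F y x else 0) + (if y = (x.1, x.2 + 1) then F y x else 0))]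
  rw [← Finset.sum_add_distrib]
  refine Finset.sum_congr rfl fun x _ => ?_
  rw [← Finset.sum_add_distrib]
  exact Finset.sum_congr rfl fun y _ => sat_adj_ite x y _

theorem sat_two_dir (R : Rc) (g : ℤ × ℤ → ℝ) :
    2 * R.dir g = ∑ x ∈ R.set, ∑ y ∈ R.set, (if Adj x y then (g y - g x) ^ 2 else 0) := by
  rw [sat_pairs R fun x y => (g y - g x) ^ 2]
  unfold Rc.dir Rc.cost gd
  rw [Finset.mul_sum]
  exact Finset.sum_congr rfl fun e _ => by ring

/-- L-FR-T11 (finite).  An odd shift has twice the energy of its fold on a symmetric rectangle: every bond of `R` has both end points in `P ∪ Fix` or both in `σ P ∪ Fix`; `σ` maps the first class onto the second, `(gd g)²` is preserved; bonds inside `Fix` carry `0`. -/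
theorem dir_fold (σ : ℤ × ℤ ≃ ℤ × ℤ) (hσ : LatIso σ) (hinv : ∀ v, σ (σ v) = v) (R : Rc) (hR : ∀ v ∈ R.set, σ v ∈ R.set)
    (P : Set (ℤ × ℤ)) (hP1 : ∀ v ∈ P, σ v ∉ P) (hP2 : ∀ v, v ∈ P ∨ σ v ∈ P ∨ σ v = v) (hP3 : ∀ x y, Adj x y → x ∈ P → σ y ∉ P)
    (g : ℤ × ℤ → ℝ) (hodd : ∀ v, g (σ v) = - g v) : R.dir g = 2 * R.dir fun v => if v ∈ P then g v else 0 := by
  obtain ⟨gp, hgp⟩ : ∃ gp : ℤ × ℤ → ℝ, gp = fun v => if v ∈ P then g v else 0 := ⟨_, rfl⟩
  rw [← hgp]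
  have hin : ∀ v ∈ P, gp v = g v := fun v hv => by rw [hgp]; simp [hv]
  have hout : ∀ v, v ∉ P → gp v = 0 := fun v hv => by rw [hgp]; simp [hv]
  have hdec : ∀ v, g v = gp v - gp (σ v) := by
    intro v
    rcases hP2 v with h | h | h
    · rw [hin v h, hout _ (hP1 v h), sub_zero]
    · have h' : v ∉ P := by
        have := hP1 _ h
        rwa [hinv] at this
      rw [hout v h', hin _ h, hodd]
      ring
    · have h' : v ∉ P := fun hv => by
        have := hP1 v hv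
        rw [h] at this
        exact this hv
      have h0 : g v = 0 := by
        have := hodd v
        rw [h] at this
        linarith
      rw [h, hout v h', h0, sub_zero]
  have hcross : ∀ x y, Adj x y → (gp y - gp x) * (gp (σ y) - gp (σ x)) = 0 := by
    intro x y hxy
    by_cases hx : x ∈ P
    · rw [hout _ (hP1 x hx), hout _ (hP3 x y hxy hx)]
      ring
    · by_cases hy : y ∈ P
      · rw [hout _ (hP1 y hy), hout _ (hP3 y x (sat_adj_symm hxy) hy)]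
        ring
      · rw [hout _ hx, hout _ hy]
        ring
  have hmem : ∀ v, v ∈ R.set ↔ σ v ∈ R.set := fun v => ⟨hR v, fun h => by
    have := hR _ h
    rwa [hinv] at this⟩
  have h1 : ∑ x ∈ R.set, ∑ y ∈ R.set, (if Adj x y then (gp (σ y) - gp (σ x)) ^ 2 else 0)
      = ∑ x ∈ R.set, ∑ y ∈ R.set, (if Adj x y then (gp y - gp x) ^ 2 else 0) := by
    refine Finset.sum_equiv σ hmem fun x _ => ?_
    refine Finset.sum_equiv σ hmem fun y _ => ?_
    simp only [hσ x y]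
  have h2 : 2 * R.dir g = 2 * (2 * R.dir gp) := by
    rw [sat_two_dir R g, sat_two_dir R gp, two_mul]
    nth_rewrite 2 [← h1]
    rw [← Finset.sum_add_distrib]
    refine Finset.sum_congr rfl fun x _ => ?_
    rw [← Finset.sum_add_distrib]
    refine Finset.sum_congr rfl fun y _ => ?_
    by_cases hxy : Adj x y
    · simp only [hxy, if_true]
      rw [hdec x, hdec y]
      have := hcross x y hxy
      nlinarith
    · simp [hxy]
  linarith

/-- the common part of the two fold lemmas -/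
theorem sat_fold_core {b : ℕ → ℝ} {n : ℕ → ℕ} {a : ℝ} (hS : ScaleCoef b n a) (g gp : ℕ → ℤ × ℤ → ℝ)
    (hg : Sat b n a fun k => gd (g k)) (hf : Tame n fun k => gd (gp k)) (S : ℕ → Rc) (hSadm : Adm n S)
    (hV : ∀ᶠ k in atTop, (S k).var (b k) (gd (g k)) ≤ 2 * (S k).var (b k) (gd (gp k)))
    (hD : ∀ᶠ k in atTop, (S k).dir (g k) = 2 * (S k).dir (gp k)) :
    SatOn b a S fun k => gd (gp k) := by
  have h1 := hg S hSadm
  have h2 := ub_of_tame hS hf S hSadm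
  unfold SatOn at h1 ⊢
  rw [Metric.tendsto_atTop] at h1 ⊢
  intro η hη
  obtain ⟨N1, hN1⟩ := h1 η hη
  obtain ⟨N2, hN2⟩ := eventually_atTop.1 ((h2 (η / 2) (by linarith)).and (hV.and hD))
  refine ⟨max N1 N2, fun k hk => ?_⟩
  have t1 := hN1 k (le_trans (le_max_left _ _) hk)
  obtain ⟨t2, t3, t4⟩ := hN2 k (le_trans (le_max_right _ _) hk)
  rw [Real.dist_eq, sub_zero, abs_lt] at t1 ⊢
  unfold Rc.dir at t4
  rw [t4] at t1
  generalize (S k).var (b k) (gd (g k)) = x1 at *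
  generalize (S k).var (b k) (gd (gp k)) = x2 at *
  generalize (S k).cost (gd (gp k)) = x3 at *
  have e : a * (2 * x3) = 2 * (a * x3) := by ring
  rw [e] at t1
  constructor <;> linarith

theorem sat_adj_le {x y : ℤ × ℤ} (h : Adj x y) : |x.1 - y.1| ≤ 1 ∧ |x.2 - y.2| ≤ 1 := by
  unfold Adj at h
  have h1 := abs_nonneg (x.1 - y.1)
  have h2 := abs_nonneg (x.2 - y.2)
  constructor <;> omega

/-- L-FR-T12.  **S5 for a vertical site axis `x = t k`.**  Given `R`, let `S k` = the smallest rectangle symmetric about the axis with the same rows containing `R k` (half width `max |o₁ - t|, |o₁ + p - 1 - t|`): admissible.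
`fr_fold_axis` + `dir_fold` on `S`: `V(g₊) ≥ V(g)/2 = a dir(g)/2 - o(1) = a dir(g₊) - o(1)`; `ub_of_tame ht`; so `SatOn S (g₊)`; `satOn_restrict`. -/
theorem sat_fold_axis {b : ℕ → ℝ} {n : ℕ → ℕ} {a : ℝ} (hS : ScaleCoef b n a) (t : ℕ → ℤ) (K : ℝ) (ht : ∀ k, |(t k : ℝ)| ≤ K * n k)
    (g : ℕ → ℤ × ℤ → ℝ) (hodd : ∀ k v, g k (2 * t k - v.1, v.2) = - g k v) (hg : Sat b n a fun k => gd (g k))
    (hf : Tame n fun k => gd fun v => if t k < v.1 then g k v else 0) :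
    TS b n a fun k => gd fun v => if t k < v.1 then g k v else 0 := by
  refine ⟨hf, fun R hR => ?_⟩
  have hn : Tendsto n atTop atTop := hS.2.1
  obtain ⟨H, hH⟩ : ∃ H : ℕ → ℕ, H = fun k => max ((R k).o.1 - t k).natAbs ((R k).o.1 + (R k).p - 1 - t k).natAbs := ⟨_, rfl⟩
  obtain ⟨S, hSdef⟩ : ∃ S : ℕ → Rc, S = fun k => if n k = 0 then R k else ⟨(t k - H k, (R k).o.2), 2 * H k + 1, (R k).q⟩ :=
    ⟨_, rfl⟩
  have hS0 : ∀ k, n k = 0 → S k = R k := fun k hk => by rw [hSdef]; simp [hk]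
  have hS1 : ∀ k, n k ≠ 0 → S k = ⟨(t k - H k, (R k).o.2), 2 * H k + 1, (R k).q⟩ := fun k hk => by rw [hSdef]; simp [hk]
  have hH1 : ∀ k, (R k).o.1 - t k ≤ H k ∧ t k - (R k).o.1 ≤ H k ∧ (R k).o.1 + (R k).p - 1 - t k ≤ H k := by
    intro k
    rw [hH]
    simp only
    omega
  have hH2 : ∀ k, (H k : ℤ) ≤ |(R k).o.1| + |t k| + (R k).p + 1 := by
    intro k
    rw [hH]
    simp only
    have := abs_nonneg (R k).o.1
    have := abs_nonneg (t k)
    have := le_abs_self (R k).o.1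
    have := neg_abs_le (R k).o.1
    have := le_abs_self (t k)
    have := neg_abs_le (t k)
    omega
  have hsub : ∀ k, (R k).set ⊆ (S k).set := by
    intro k
    by_cases hk : n k = 0
    · rw [hS0 k hk]
    · rw [hS1 k hk]
      intro v hv
      rw [sat_mem_set] at hv ⊢
      have := hH1 k
      simp only
      push_cast
      omega
  have hSadm : Adm n S := by
    obtain ⟨K₀, hK₀⟩ := hR
    refine ⟨4 * (|K₀| + |K| + 1), fun k => ?_⟩
    obtain ⟨a1, a2, a3, a4⟩ := hK₀ k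
    have hn0 : (0:ℝ) ≤ n k := Nat.cast_nonneg _
    have hKK : K₀ * n k ≤ |K₀| * n k := mul_le_mul_of_nonneg_right (le_abs_self _) hn0
    have hKK' : K * n k ≤ |K| * n k := mul_le_mul_of_nonneg_right (le_abs_self _) hn0
    have h0 : 0 ≤ |K₀| * n k := by positivity
    have h0' : 0 ≤ |K| * n k := by positivity
    have e : 4 * (|K₀| + |K| + 1) * n k = 4 * (|K₀| * n k) + 4 * (|K| * n k) + 4 * n k := by ring
    rw [e]
    by_cases hk : n k = 0
    · rw [hS0 k hk]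
      exact ⟨by linarith, by linarith, by linarith, by linarith⟩
    · rw [hS1 k hk]
      have hn1 : (1:ℝ) ≤ n k := by exact_mod_cast Nat.one_le_iff_ne_zero.2 hk
      have hHr : (H k : ℝ) ≤ |((R k).o.1 : ℝ)| + |(t k : ℝ)| + (R k).p + 1 := by exact_mod_cast hH2 k
      have htk := ht k
      have hH0 : (0:ℝ) ≤ H k := Nat.cast_nonneg _
      simp only
      push_cast
      refine ⟨?_, by linarith, by linarith, by linarith⟩
      have := abs_sub (t k : ℝ) (H k)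
      rw [abs_of_nonneg hH0] at this
      linarith
  have hne : ∀ᶠ k in atTop, n k ≠ 0 := (hn.eventually_gt_atTop 0).mono fun k hk => by omega
  have hcore := sat_fold_core hS g (fun k v => if t k < v.1 then g k v else 0) hg hf S hSadm
    (hne.mono fun k hk => by
      refine fr_fold_axis (S k) (b k) (sat_b_pos hS k) (t k) ?_ (g k) (hodd k)
      rw [hS1 k hk]
      simp only
      push_cast
      ring)
    (hne.mono fun k hk => by
      have hd := dir_fold (reflX (2 * t k)) (latIso_reflX _) (fun v => by simp [reflX]) (S k) (fun v hv => by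
          rw [hS1 k hk, sat_mem_set] at hv ⊢
          simp only [reflX, Equiv.coe_fn_mk] at hv ⊢
          push_cast at hv ⊢
          omega) {v | t k < v.1}
        (fun v hv => by
          change t k < v.1 at hv
          change ¬ (t k < 2 * t k - v.1)
          omega)
        (fun v => by
          obtain ⟨v1, v2⟩ := v
          change t k < v1 ∨ t k < 2 * t k - v1 ∨ ((2 * t k - v1, v2) : ℤ × ℤ) = (v1, v2)
          rw [Prod.mk.injEq]
          omega)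
        (fun x y hxy hx => by
          have := abs_le.1 (sat_adj_le hxy).1
          change t k < x.1 at hx
          change ¬ (t k < 2 * t k - y.1)
          omega) (g k) (fun v => hodd k v)
      rw [hd]
      congr 2
      funext v
      by_cases hv : t k < v.1
      · rw [if_pos hv, if_pos (show v ∈ {v : ℤ × ℤ | t k < v.1} from hv)]
      · rw [if_neg hv, if_neg (show v ∉ {v : ℤ × ℤ | t k < v.1} from hv)])
  exact satOn_restrict hS hf hSadm hsub hcore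

/-- L-FR-T12.  **S5 for a site diagonal `x - y = t k`.**  `S k` = the square `[c, c + P) × [c - t, c - t + P)`, `c = min o₁ (o₂ + t)`, `c + P = max (o₁ + p) (o₂ + q + t)`. -/
theorem sat_fold_diag {b : ℕ → ℝ} {n : ℕ → ℕ} {a : ℝ} (hS : ScaleCoef b n a) (t : ℕ → ℤ) (K : ℝ) (ht : ∀ k, |(t k : ℝ)| ≤ K * n k)
    (g : ℕ → ℤ × ℤ → ℝ) (hodd : ∀ k v, g k (v.2 + t k, v.1 - t k) = - g k v) (hg : Sat b n a fun k => gd (g k))
    (hf : Tame n fun k => gd fun v => if t k < v.1 - v.2 then g k v else 0) :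
    TS b n a fun k => gd fun v => if t k < v.1 - v.2 then g k v else 0 := by
  refine ⟨hf, fun R hR => ?_⟩
  obtain ⟨c, hc⟩ : ∃ c : ℕ → ℤ, c = fun k => min (R k).o.1 ((R k).o.2 + t k) := ⟨_, rfl⟩
  obtain ⟨P, hP⟩ : ∃ P : ℕ → ℕ, P = fun k => (max ((R k).o.1 + (R k).p) ((R k).o.2 + (R k).q + t k) - c k).toNat := ⟨_, rfl⟩
  obtain ⟨S, hSdef⟩ : ∃ S : ℕ → Rc, S = fun k => ⟨(c k, c k - t k), P k, P k⟩ := ⟨_, rfl⟩
  have hS1 : ∀ k, S k = ⟨(c k, c k - t k), P k, P k⟩ := fun k => by rw [hSdef]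
  have hc1 : ∀ k, c k ≤ (R k).o.1 ∧ c k ≤ (R k).o.2 + t k ∧ (c k = (R k).o.1 ∨ c k = (R k).o.2 + t k) := by
    intro k
    rw [hc]
    simp only
    omega
  have hP1 : ∀ k, (R k).o.1 + (R k).p ≤ c k + P k ∧ (R k).o.2 + (R k).q + t k ≤ c k + P k ∧
      (c k + P k = (R k).o.1 + (R k).p ∨ c k + P k = (R k).o.2 + (R k).q + t k) := by
    intro k
    have := hc1 k
    rw [hP]
    simp only
    omega
  have hsub : ∀ k, (R k).set ⊆ (S k).set := by
    intro k v hv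
    rw [hS1 k]
    rw [sat_mem_set] at hv ⊢
    have := hc1 k
    have := hP1 k
    simp only
    omega
  have hSadm : Adm n S := by
    obtain ⟨K₀, hK₀⟩ := hR
    refine ⟨6 * (|K₀| + |K|), fun k => ?_⟩
    obtain ⟨a1, a2, a3, a4⟩ := hK₀ k
    have hn0 : (0:ℝ) ≤ n k := Nat.cast_nonneg _
    have hKK : K₀ * n k ≤ |K₀| * n k := mul_le_mul_of_nonneg_right (le_abs_self _) hn0
    have hKK' : K * n k ≤ |K| * n k := mul_le_mul_of_nonneg_right (le_abs_self _) hn0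
    have h0 : 0 ≤ |K₀| * n k := by positivity
    have h0' : 0 ≤ |K| * n k := by positivity
    have e : 6 * (|K₀| + |K|) * n k = 6 * (|K₀| * n k) + 6 * (|K| * n k) := by ring
    rw [e, hS1 k]
    have htk := abs_le.1 (ht k)
    have a1' := abs_le.1 a1
    have a2' := abs_le.1 a2
    have hp0 : (0:ℝ) ≤ (R k).p := Nat.cast_nonneg _
    have hq0 : (0:ℝ) ≤ (R k).q := Nat.cast_nonneg _
    obtain ⟨c1, c2, c3⟩ := hc1 k
    obtain ⟨p1, p2, p3⟩ := hP1 k
    have C1 : (c k : ℝ) ≤ (R k).o.1 := by exact_mod_cast c1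
    have C3 : (c k : ℝ) = (R k).o.1 ∨ (c k : ℝ) = (R k).o.2 + t k := by
      rcases c3 with h | h
      · left; exact_mod_cast h
      · right; exact_mod_cast h
    have P3 : (c k : ℝ) + P k = (R k).o.1 + (R k).p ∨ (c k : ℝ) + P k = (R k).o.2 + (R k).q + t k := by
      rcases p3 with h | h
      · left; exact_mod_cast h
      · right; exact_mod_cast h
    have hclow : -(|K₀| * n k) - |K| * n k ≤ (c k : ℝ) := by
      rcases C3 with h | h <;> rw [h] <;> linarith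
    have hPup : (P k : ℝ) ≤ 3 * (|K₀| * n k) + 2 * (|K| * n k) := by
      rcases P3 with h | h <;> linarith
    simp only
    push_cast
    refine ⟨abs_le.2 ⟨by linarith, by linarith⟩, abs_le.2 ⟨by linarith, by linarith⟩, by linarith, by linarith⟩
  have hcore := sat_fold_core hS g (fun k v => if t k < v.1 - v.2 then g k v else 0) hg hf S hSadm
    (Eventually.of_forall fun k => by
      refine fr_fold_diag (S k) (b k) (sat_b_pos hS k) ?_ (t k) ?_ (g k) (hodd k)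
      · rw [hS1 k]
      · rw [hS1 k]
        simp only
        ring)
    (Eventually.of_forall fun k => by
      have hd := dir_fold (reflD (t k)) (latIso_reflD _) (fun v => by simp [reflD]) (S k) (fun v hv => by
          rw [hS1 k, sat_mem_set] at hv ⊢
          simp only [reflD, Equiv.coe_fn_mk] at hv ⊢
          omega) {v | t k < v.1 - v.2}
        (fun v hv => by
          change t k < v.1 - v.2 at hv
          change ¬ (t k < (v.2 + t k) - (v.1 - t k))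
          omega)
        (fun v => by
          obtain ⟨v1, v2⟩ := v
          change t k < v1 - v2 ∨ t k < (v2 + t k) - (v1 - t k) ∨ ((v2 + t k, v1 - t k) : ℤ × ℤ) = (v1, v2)
          rw [Prod.mk.injEq]
          omega)
        (fun x y hxy hx => by
          have h1 := abs_le.1 (sat_adj_le hxy).1
          have h2 := abs_le.1 (sat_adj_le hxy).2
          have h3 : |x.1 - y.1| + |x.2 - y.2| = 1 := hxy
          change t k < x.1 - x.2 at hx
          change ¬ (t k < (y.2 + t k) - (y.1 - t k))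
          rcases abs_cases (x.1 - y.1) with ⟨e1, _⟩ | ⟨e1, _⟩ <;> rcases abs_cases (x.2 - y.2) with ⟨e2, _⟩ | ⟨e2, _⟩ <;>
            rw [e1, e2] at h3 <;> omega) (g k) (fun v => hodd k v)
      rw [hd]
      congr 2
      funext v
      by_cases hv : t k < v.1 - v.2
      · rw [if_pos hv, if_pos (show v ∈ {v : ℤ × ℤ | t k < v.1 - v.2} from hv)]
      · rw [if_neg hv, if_neg (show v ∉ {v : ℤ × ℤ | t k < v.1 - v.2} from hv)])
  exact satOn_restrict hS hf hSadm hsub hcore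

/-- exchange of the coordinates, on bonds -/
def satSw : Bond ≃ Bond where
  toFun e := ((e.1.2, e.1.1), !e.2)
  invFun e := ((e.1.2, e.1.1), !e.2)
  left_inv e := by simp
  right_inv e := by simp

/-- the transposed rectangle -/
def satTr (R : Rc) : Rc := ⟨(R.o.2, R.o.1), R.q, R.p⟩

theorem sat_sw_fst (e : Bond) : (satSw e).1 = (e.1.2, e.1.1) := rfl

theorem sat_sw_dir (e : Bond) : (satSw e).2 = !e.2 := rfl

theorem sat_sw_snd (e : Bond) : (satSw e).snd = (e.snd.2, e.snd.1) := by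
  obtain ⟨⟨x, y⟩, d⟩ := e
  cases d <;> simp [satSw, Bond.snd]

theorem sat_mem_tr {R : Rc} {v : ℤ × ℤ} : (v.2, v.1) ∈ (satTr R).set ↔ v ∈ R.set := by
  rw [sat_mem_set, sat_mem_set]
  simp only [satTr]
  tauto

theorem sat_sw_mem_bd {R : Rc} {e : Bond} : e ∈ R.bd ↔ satSw e ∈ (satTr R).bd := by
  rw [mem_bd, mem_bd, sat_sw_fst, sat_sw_snd, sat_mem_tr, sat_mem_tr]

theorem sat_gd_sw (g : ℤ × ℤ → ℝ) (e : Bond) : gd (fun v => g (v.2, v.1)) e = gd g (satSw e) := by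
  unfold gd
  rw [sat_sw_fst, sat_sw_snd]

theorem sat_cidx_sw (o : ℤ × ℤ) (m : ℕ) (v : ℤ × ℤ) :
    cidx (o.2, o.1) m (v.2, v.1) = ((cidx o m v).2, (cidx o m v).1) := rfl

theorem sat_tr_win (K : ℝ) (n : ℕ) : satTr (win K n) = win K n := rfl

/-- L-FR-T13.  Transposition: `fr_sym_var` with `reflD 0`; `Adm`, `Tame` are invariant under the exchange of the coordinates. -/
theorem ts_swap {b : ℕ → ℝ} {n : ℕ → ℕ} {a : ℝ} {g : ℕ → ℤ × ℤ → ℝ} (h : TS b n a fun k => gd (g k)) :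
    TS b n a fun k => gd fun v => g k (v.2, v.1) := by
  obtain ⟨h1, h2⟩ := h
  refine ⟨fun K => ?_, fun R hR => ?_⟩
  · obtain ⟨⟨M, hM⟩, hT⟩ := h1 K
    refine ⟨⟨M, fun k e he => ?_⟩, fun ε hε => ?_⟩
    · beta_reduce
      rw [sat_gd_sw]
      refine hM k _ ?_
      have := sat_sw_mem_bd.1 he
      rwa [sat_tr_win] at this
    · obtain ⟨δ, hδ, hk⟩ := hT ε hε
      refine ⟨δ, hδ, hk.mono fun k hk m o hm hmn => ?_⟩
      obtain ⟨c, hc⟩ := hk m (o.2, o.1) hm hmn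
      refine ⟨fun i d => c (i.2, i.1) (!d), le_trans (le_of_eq ?_) hc⟩
      refine Finset.sum_equiv satSw (fun e => ?_) (fun e _ => ?_)
      · rw [Finset.mem_filter, Finset.mem_filter, sat_sw_fst, sat_sw_snd, sat_cidx_sw, sat_cidx_sw,
          sat_sw_mem_bd (R := win K (n k)), sat_tr_win]
        constructor
        · rintro ⟨a1, a2⟩
          exact ⟨a1, by rw [a2]⟩
        · rintro ⟨a1, a2⟩
          exact ⟨a1, Prod.ext (congrArg Prod.snd a2) (congrArg Prod.fst a2)⟩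
      · beta_reduce
        rw [sat_gd_sw, sat_sw_fst, sat_sw_dir, sat_cidx_sw]
  · have hRT : Adm n fun k => satTr (R k) := by
      obtain ⟨K₀, hK₀⟩ := hR
      exact ⟨K₀, fun k => ⟨(hK₀ k).2.1, (hK₀ k).1, (hK₀ k).2.2.2, (hK₀ k).2.2.1⟩⟩
    have h3 := h2 _ hRT
    unfold SatOn at h3 ⊢
    refine h3.congr fun k => ?_
    have e1 : (R k).var (b k) (gd fun v => g k (v.2, v.1)) = (satTr (R k)).var (b k) (gd (g k)) := by
      have := fr_sym_var (reflD 0) (latIso_reflD 0) (satTr (R k)) (R k) (fun v => by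
        have e : (reflD 0).symm v = (v.2, v.1) := by simp [reflD]
        rw [e, sat_mem_tr]) (b k) (g k)
      rw [← this]
      congr 2
      funext v
      have e : (reflD 0).symm v = (v.2, v.1) := by simp [reflD]
      rw [e]
    have e2 : (R k).cost (gd fun v => g k (v.2, v.1)) = (satTr (R k)).cost (gd (g k)) := by
      unfold Rc.cost
      exact Finset.sum_equiv satSw (fun e => sat_sw_mem_bd) (fun e _ => by rw [sat_gd_sw])
    rw [e1, e2]

/-! ## 5. The generators -/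

/-- the hinge `(x - τ)₊` -/
def hV (τ : ℤ) (v : ℤ × ℤ) : ℝ := max (((v.1 - τ : ℤ) : ℝ)) 0

/-- the hinge `(y - τ)₊` -/
def hH (τ : ℤ) (v : ℤ × ℤ) : ℝ := max (((v.2 - τ : ℤ) : ℝ)) 0

/-- the diagonal fold of a hinge: `((x - τ)₊ - (y + t - τ)₊) 1_{x - y > t}` -/
def fD (t τ : ℤ) (v : ℤ × ℤ) : ℝ := if t < v.1 - v.2 then hV τ v - hH (τ - t) v else 0

theorem sat_gd_affine (p₁ p₂ c N : ℝ) (e : Bond) :
    gd (fun v => (p₁ * v.1 + p₂ * v.2 + c) / N) e = (if e.2 then p₁ else p₂) / N := by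
  obtain ⟨⟨x, y⟩, d⟩ := e
  cases d
  · simp only [gd, Bond.snd, Bool.false_eq_true, if_false]
    push_cast
    ring
  · simp only [gd, Bond.snd, if_true]
    push_cast
    ring

/-- L-FR-T14.  **A.**  Tame: `tame_of_lines` with `J = 0`.  Saturation: `S k` = the square with corner `(R k).o` and side `m k = max p q + n k` (`n ≤ m ≤ (K+1) n`): `fr_affine_sq`, `fr_affine_cost`:
`V - a C = |p|² (m/n)² (a_m - a) + a |p|² m/n² → 0`; then `satOn_restrict`. -/
theorem ts_affine {b : ℕ → ℝ} {n : ℕ → ℕ} {a : ℝ} (hS : ScaleCoef b n a) (p₁ p₂ c : ℕ → ℝ) (M : ℝ) (h₁ : ∀ k, |p₁ k| ≤ M) (h₂ : ∀ k, |p₂ k| ≤ M) :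
    TS b n a fun k => gd fun v => (p₁ k * v.1 + p₂ k * v.2 + c k) / n k := by
  have hn : Tendsto n atTop atTop := hS.2.1
  have hM0 : 0 ≤ M := (abs_nonneg _).trans (h₁ 0)
  have htame : Tame n fun k => gd fun v => (p₁ k * v.1 + p₂ k * v.2 + c k) / n k := by
    refine tame_of_lines hn _ M (fun k e => ?_) 0 (fun _ j => j.elim0) (fun _ j => j.elim0) (fun k e u _ _ => ?_)
    · rw [sat_gd_affine, abs_div, Nat.abs_cast]
      refine div_le_div_of_nonneg_right ?_ (Nat.cast_nonneg _)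
      split_ifs
      · exact h₁ k
      · exact h₂ k
    · rw [sat_gd_affine, sat_gd_affine]
  refine ⟨htame, fun R hR => ?_⟩
  obtain ⟨K₀, hK₀⟩ := hR
  obtain ⟨m, hm⟩ : ∃ m : ℕ → ℕ, m = fun k => max (R k).p (R k).q + n k := ⟨_, rfl⟩
  have hm1 : ∀ k, (R k).p ≤ m k ∧ (R k).q ≤ m k ∧ n k ≤ m k := by
    intro k
    rw [hm]
    simp only
    omega
  have hm2 : ∀ k, (m k : ℝ) ≤ (|K₀| + 1) * n k := by
    intro k
    obtain ⟨-, -, a3, a4⟩ := hK₀ k
    have hn0 : (0:ℝ) ≤ n k := Nat.cast_nonneg _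
    have hKK : K₀ * n k ≤ |K₀| * n k := mul_le_mul_of_nonneg_right (le_abs_self _) hn0
    rw [hm]
    push_cast
    have : max ((R k).p : ℝ) (R k).q ≤ |K₀| * n k := max_le (by linarith) (by linarith)
    linarith
  have hsub : ∀ k, (R k).set ⊆ (Rc.mk (R k).o (m k) (m k)).set := by
    intro k v hv
    rw [sat_mem_set] at hv ⊢
    have := hm1 k
    simp only
    omega
  have hSadm : Adm n fun k => Rc.mk (R k).o (m k) (m k) := by
    refine ⟨|K₀| + 1, fun k => ?_⟩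
    obtain ⟨a1, a2, -, -⟩ := hK₀ k
    have hn0 : (0:ℝ) ≤ n k := Nat.cast_nonneg _
    have hKK : K₀ * n k ≤ |K₀| * n k := mul_le_mul_of_nonneg_right (le_abs_self _) hn0
    have e : (|K₀| + 1) * n k = |K₀| * n k + n k := by ring
    refine ⟨by rw [e]; linarith, by rw [e]; linarith, hm2 k, hm2 k⟩
  refine satOn_restrict hS htame hSadm hsub ?_
  have hac : Tendsto (fun k => aCoef (b k) (m k)) atTop (𝓝 a) :=
    hS.2.2 m 1 (|K₀| + 1) one_pos (Eventually.of_forall fun k => ⟨by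
      rw [one_mul]
      exact_mod_cast (hm1 k).2.2, hm2 k⟩)
  have hnR : Tendsto (fun k => (n k : ℝ)) atTop atTop := tendsto_natCast_atTop_atTop.comp hn
  unfold SatOn
  have e : (fun k => (Rc.mk (R k).o (m k) (m k)).var (b k) (gd fun v => (p₁ k * v.1 + p₂ k * v.2 + c k) / n k)
        - a * (Rc.mk (R k).o (m k) (m k)).cost (gd fun v => (p₁ k * v.1 + p₂ k * v.2 + c k) / n k))
      = fun k => ((p₁ k ^ 2 + p₂ k ^ 2) * ((m k : ℝ) / n k) ^ 2) * (aCoef (b k) (m k) - a)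
        + (a * (p₁ k ^ 2 + p₂ k ^ 2) * ((m k : ℝ) / n k)) * ((n k : ℝ))⁻¹ := by
    funext k
    have e1 : (fun v : ℤ × ℤ => (p₁ k * v.1 + p₂ k * v.2 + c k) / n k)
        = fun v : ℤ × ℤ => (p₁ k / n k) * v.1 + (p₂ k / n k) * v.2 + c k / n k := by
      funext v
      ring
    have e2 := fr_affine_cost (R k).o (m k) (p₁ k / n k) (p₂ k / n k) (c k / n k)
    unfold Rc.dir at e2
    rw [e1, fr_affine_sq _ _ _ (sat_b_pos hS k), e2]
    simp only [div_eq_mul_inv]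
    ring
  rw [e]
  have hmn : ∀ k, |(m k : ℝ) / n k| ≤ |K₀| + 1 := by
    intro k
    rw [abs_of_nonneg (by positivity)]
    by_cases hk : (n k : ℝ) = 0
    · rw [hk, div_zero]
      positivity
    · have : (0:ℝ) < n k := lt_of_le_of_ne (Nat.cast_nonneg _) (Ne.symm hk)
      rw [div_le_iff₀ this]
      exact hm2 k
  have hP : ∀ k, |p₁ k ^ 2 + p₂ k ^ 2| ≤ 2 * M ^ 2 := by
    intro k
    rw [abs_of_nonneg (by positivity)]
    have q1 : p₁ k ^ 2 ≤ M ^ 2 := by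
      rw [← sq_abs]
      exact pow_le_pow_left₀ (abs_nonneg _) (h₁ k) 2
    have q2 : p₂ k ^ 2 ≤ M ^ 2 := by
      rw [← sq_abs]
      exact pow_le_pow_left₀ (abs_nonneg _) (h₂ k) 2
    linarith
  have t1 : Tendsto (fun k => ((p₁ k ^ 2 + p₂ k ^ 2) * ((m k : ℝ) / n k) ^ 2) * (aCoef (b k) (m k) - a)) atTop (𝓝 0) := by
    refine bdd_le_mul_tendsto_zero' (2 * M ^ 2 * (|K₀| + 1) ^ 2) (Eventually.of_forall fun k => ?_) ?_
    · rw [abs_mul, abs_pow]
      exact mul_le_mul (hP k) (pow_le_pow_left₀ (abs_nonneg _) (hmn k) 2) (by positivity) (by positivity)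
    · have := hac.sub_const a
      rwa [sub_self] at this
  have t2 : Tendsto (fun k => (a * (p₁ k ^ 2 + p₂ k ^ 2) * ((m k : ℝ) / n k)) * ((n k : ℝ))⁻¹) atTop (𝓝 0) := by
    refine bdd_le_mul_tendsto_zero' (|a| * (2 * M ^ 2) * (|K₀| + 1)) (Eventually.of_forall fun k => ?_)
      (tendsto_inv_atTop_zero.comp hnR)
    rw [abs_mul, abs_mul]
    exact mul_le_mul (mul_le_mul_of_nonneg_left (hP k) (abs_nonneg _)) (hmn k) (abs_nonneg _) (by positivity)
  have := t1.add t2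
  rwa [add_zero] at this

/-- integer version of the diagonal fold -/
def satFz (t τ x y : ℤ) : ℤ := if t < x - y then max (x - τ) 0 - max (y - (τ - t)) 0 else 0

theorem sat_hV_cast (τ : ℤ) (v : ℤ × ℤ) : hV τ v = ((max (v.1 - τ) 0 : ℤ) : ℝ) := by
  unfold hV
  push_cast
  rfl

theorem sat_fD_cast (t τ : ℤ) (v : ℤ × ℤ) : fD t τ v = ((satFz t τ v.1 v.2 : ℤ) : ℝ) := by
  unfold fD satFz hV hH
  split_ifs
  · push_cast
    rfl
  · simp

/-- the flow of an integer valued function divided by `N` -/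
theorem sat_gd_int (F : ℤ → ℤ → ℤ) (N : ℝ) (e : Bond) :
    gd (fun v => ((F v.1 v.2 : ℤ) : ℝ) / N) e = ((F e.snd.1 e.snd.2 - F e.1.1 e.1.2 : ℤ) : ℝ) / N := by
  unfold gd
  push_cast
  ring

/-- criterion for integer valued functions -/
theorem sat_tame_int {n : ℕ → ℕ} (hn : Tendsto n atTop atTop) (F : ℕ → ℤ → ℤ → ℤ) (J : ℕ)
    (ln : ℕ → Fin J → (ℤ × ℤ) × ℤ) (hdir : ∀ k j, (ln k j).1 = (1, 0) ∨ (ln k j).1 = (0, 1) ∨ (ln k j).1 = (1, -1))
    (hb1 : ∀ k x y, |F k (x + 1) y - F k x y| ≤ 1) (hb2 : ∀ k x y, |F k x (y + 1) - F k x y| ≤ 1)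
    (h11 : ∀ k x y, (∀ j, ¬ OnLine (ln k j) (x, y) ∧ ¬ OnLine (ln k j) (x + 1, y) ∧ ¬ OnLine (ln k j) (x + 2, y)) →
      F k (x + 2) y - F k (x + 1) y = F k (x + 1) y - F k x y)
    (h22 : ∀ k x y, (∀ j, ¬ OnLine (ln k j) (x, y) ∧ ¬ OnLine (ln k j) (x, y + 1) ∧ ¬ OnLine (ln k j) (x, y + 2)) →
      F k x (y + 2) - F k x (y + 1) = F k x (y + 1) - F k x y)
    (h12 : ∀ k x y, (∀ j, ¬ OnLine (ln k j) (x, y) ∧ ¬ OnLine (ln k j) (x + 1, y) ∧ ¬ OnLine (ln k j) (x, y + 1)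
        ∧ ¬ OnLine (ln k j) (x + 1, y + 1)) →
      F k (x + 1) (y + 1) - F k x (y + 1) = F k (x + 1) y - F k x y) :
    Tame n fun k => gd fun v => ((F k v.1 v.2 : ℤ) : ℝ) / n k := by
  refine tame_of_lines hn _ 1 (fun k e => ?_) J ln hdir (fun k e u hu hoff => ?_)
  · rw [sat_gd_int, abs_div, Nat.abs_cast]
    refine div_le_div_of_nonneg_right ?_ (Nat.cast_nonneg _)
    obtain ⟨⟨x, y⟩, d⟩ := e
    cases d
    · simp only [Bond.snd, Bool.false_eq_true, if_false]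
      exact_mod_cast hb2 k x y
    · simp only [Bond.snd, if_true]
      exact_mod_cast hb1 k x y
  · rw [sat_gd_int, sat_gd_int]
    congr 2
    obtain ⟨⟨x, y⟩, d⟩ := e
    rcases hu with rfl | rfl
    · cases d
      · simp only [Bond.snd, Bool.false_eq_true, if_false, Prod.mk_add_mk, add_zero] at hoff ⊢
        have := h12 k x y fun j => ⟨(hoff j).1, (hoff j).2.2.1, (hoff j).2.1, (hoff j).2.2.2⟩
        linarith
      · simp only [Bond.snd, if_true, Prod.mk_add_mk, add_zero] at hoff ⊢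
        have e2 : x + 1 + 1 = x + 2 := by ring
        rw [e2] at hoff ⊢
        exact h11 k x y fun j => ⟨(hoff j).1, (hoff j).2.1, (hoff j).2.2.2⟩
    · cases d
      · simp only [Bond.snd, Bool.false_eq_true, if_false, Prod.mk_add_mk, add_zero] at hoff ⊢
        have e2 : y + 1 + 1 = y + 2 := by ring
        rw [e2] at hoff ⊢
        exact h22 k x y fun j => ⟨(hoff j).1, (hoff j).2.1, (hoff j).2.2.2⟩
      · simp only [Bond.snd, if_true, Prod.mk_add_mk, add_zero] at hoff ⊢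
        exact h12 k x y fun j => ⟨(hoff j).1, (hoff j).2.1, (hoff j).2.2.1, (hoff j).2.2.2⟩

/-- L-FR-T15.  **H.**  Seed `(x - τ)/n` (`ts_affine`), odd about `x = τ`; its fold is `hV τ / n`; tame by `tame_of_lines` (`J = 1`, the line `x = τ`); `sat_fold_axis`. -/
theorem ts_hV {b : ℕ → ℝ} {n : ℕ → ℕ} {a : ℝ} (hS : ScaleCoef b n a) (τ : ℕ → ℤ) (K : ℝ) (hτ : ∀ k, |(τ k : ℝ)| ≤ K * n k) :
    TS b n a fun k => gd fun v => hV (τ k) v / n k := by
  have hn : Tendsto n atTop atTop := hS.2.1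
  have e : (fun k => gd fun v : ℤ × ℤ => if τ k < v.1 then ((1:ℝ) * v.1 + 0 * v.2 + (-(τ k : ℝ))) / n k else 0)
      = fun k => gd fun v => hV (τ k) v / n k := by
    funext k
    congr 1
    funext v
    rw [sat_hV_cast]
    split_ifs with h
    · rw [max_eq_left (by omega)]
      push_cast
      ring
    · rw [max_eq_right (by omega)]
      simp
  have htame : Tame n fun k => gd fun v => hV (τ k) v / n k := by
    have := sat_tame_int hn (fun k x _ => max (x - τ k) 0) 1 (fun k _ => ((1, 0), τ k)) (fun _ _ => Or.inl rfl)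
      (fun k x y => by rw [abs_le]; constructor <;> omega) (fun k x y => by simp)
      (fun k x y h => by
        have := h 0
        simp only [OnLine] at this
        omega)
      (fun k x y _ => by simp)
      (fun k x y _ => by simp)
    have e2 : (fun k => gd fun v : ℤ × ℤ => (((fun k x (_ : ℤ) => max (x - τ k) 0) k v.1 v.2 : ℤ) : ℝ) / n k)
        = fun k => gd fun v => hV (τ k) v / n k := by
      funext k
      congr 1
      funext v
      rw [sat_hV_cast]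
    rwa [e2] at this
  rw [← e] at htame ⊢
  refine sat_fold_axis hS τ K hτ (fun k v => ((1:ℝ) * v.1 + 0 * v.2 + (-(τ k : ℝ))) / n k) (fun k v => ?_)
    (ts_affine hS (fun _ => 1) (fun _ => 0) (fun k => -(τ k : ℝ)) 1 (fun _ => by simp) (fun _ => by simp)).2 htame
  simp only
  push_cast
  ring

/-- `ts_hV`, `ts_swap`.   L-FR-T15. -/
theorem ts_hH {b : ℕ → ℝ} {n : ℕ → ℕ} {a : ℝ} (hS : ScaleCoef b n a) (τ : ℕ → ℤ) (K : ℝ) (hτ : ∀ k, |(τ k : ℝ)| ≤ K * n k) :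
    TS b n a fun k => gd fun v => hH (τ k) v / n k :=
  ts_swap (g := fun k v => hV (τ k) v / n k) (ts_hV hS τ K hτ)

/-- L-FR-T16.  **D.**  Seed `(hV τ - hH (τ - t))/n` (`ts_hV`, `ts_hH`, `ts_add`, `ts_smul`), odd about `x - y = t`; its fold is `fD t τ / n`; tame by `tame_of_lines` with the three lines `x - y = t`, `x = τ`, `y = τ - t`
(on a plaquette or a triple of collinear points without a vertex on these lines `fD` is one affine function); `sat_fold_diag`. -/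
theorem ts_fD {b : ℕ → ℝ} {n : ℕ → ℕ} {a : ℝ} (hS : ScaleCoef b n a) (t τ : ℕ → ℤ) (K : ℝ) (ht : ∀ k, |(t k : ℝ)| ≤ K * n k)
    (hτ : ∀ k, |(τ k : ℝ)| ≤ K * n k) : TS b n a fun k => gd fun v => fD (t k) (τ k) v / n k := by
  have hn : Tendsto n atTop atTop := hS.2.1
  have e : (fun k => gd fun v : ℤ × ℤ => if t k < v.1 - v.2 then hV (τ k) v / n k + (-1) * (hH (τ k - t k) v / n k) else 0)
      = fun k => gd fun v => fD (t k) (τ k) v / n k := by
    funext k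
    congr 1
    funext v
    unfold fD
    split_ifs with h
    · ring
    · simp
  have htame : Tame n fun k => gd fun v => fD (t k) (τ k) v / n k := by
    have := sat_tame_int hn (fun k x y => satFz (t k) (τ k) x y) 3
      (fun k => ![((1, -1), t k), ((1, 0), τ k), ((0, 1), τ k - t k)])
      (fun k j => by fin_cases j <;> simp)
      (fun k x y => by unfold satFz; rw [abs_le]; constructor <;> omega)
      (fun k x y => by unfold satFz; rw [abs_le]; constructor <;> omega)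
      (fun k x y h => by
        have h0 := h 0
        have h1 := h 1
        have h2 := h 2
        simp only [OnLine, Matrix.cons_val_zero, Matrix.cons_val_one, Matrix.cons_val] at h0 h1 h2
        unfold satFz
        omega)
      (fun k x y h => by
        have h0 := h 0
        have h1 := h 1
        have h2 := h 2
        simp only [OnLine, Matrix.cons_val_zero, Matrix.cons_val_one, Matrix.cons_val] at h0 h1 h2
        unfold satFz
        omega)
      (fun k x y h => by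
        have h0 := h 0
        have h1 := h 1
        have h2 := h 2
        simp only [OnLine, Matrix.cons_val_zero, Matrix.cons_val_one, Matrix.cons_val] at h0 h1 h2
        unfold satFz
        omega)
    have e2 : (fun k => gd fun v : ℤ × ℤ => (((fun k x y => satFz (t k) (τ k) x y) k v.1 v.2 : ℤ) : ℝ) / n k)
        = fun k => gd fun v => fD (t k) (τ k) v / n k := by
      funext k
      congr 1
      funext v
      rw [sat_fD_cast]
    rwa [e2] at this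
  have hseed : TS b n a fun k => gd fun v => hV (τ k) v / n k + (-1) * (hH (τ k - t k) v / n k) := by
    have h1 := ts_hV hS τ K hτ
    have h2 := ts_hH hS (fun k => τ k - t k) (2 * K) (fun k => by
      push_cast
      have := abs_sub (τ k : ℝ) (t k)
      have := ht k
      have := hτ k
      linarith)
    have h3 := ts_add hS h1 (ts_smul h2 (fun _ => -1) 1 (fun _ => by simp))
    have e3 : (fun k e => gd (fun v => hV (τ k) v / n k) e + (-1) * gd (fun v => hH (τ k - t k) v / n k) e)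
        = fun k => gd fun v => hV (τ k) v / n k + (-1) * (hH (τ k - t k) v / n k) := by
      funext k e
      unfold gd
      ring
    rwa [e3] at h3
  rw [← e] at htame ⊢
  refine sat_fold_diag hS t K ht (fun k v => hV (τ k) v / n k + (-1) * (hH (τ k - t k) v / n k)) (fun k v => ?_)
    hseed.2 htame
  simp only [hV, hH]
  have e1 : v.2 + t k - τ k = v.2 - (τ k - t k) := by ring
  have e2 : v.1 - t k - (τ k - t k) = v.1 - τ k := by ring
  rw [e1, e2]
  ring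

end

end Claimed.Agent.R285.Free
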